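import Crest.Agent.R007.Asm2

/-! # Row 7: assembly. -/

set_option autoImplicit false

noncomputable section
namespace Crest.Agent.R007

open PowerSeries
open Crest.NumberTheoryR.HeckeTwoAdic

variable {N : ℕ} {T D : ℕ → (i : ℕ) → (MF N i →ₗ[ℂ] MF N i)} {Tn Sd : (k : ℕ) → ℕ → stage N T D k}

set_option maxHeartbeats 3000000 in
theorem asm_main (hN : Odd N) (H : HeckeFacts N T D Tn Sd) :
    LimGood (fun k => stage N T D k) (restrictStageInt N T D) := by
  have hN0 : N ≠ 0 := by rintro rfl; exact absurd hN (by decide)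
  have : NeZero (3 * N ^ 2) := ⟨by positivity⟩
  have hco : Nat.Coprime 8 N := by
    have : Nat.Coprime 2 N := (Nat.coprime_two_left).mpr hN
    exact Nat.Coprime.pow_left 3 this
  obtain ⟨l₀, h8', h1⟩ := Nat.chineseRemainder hco 5 1
  have h8 : l₀ % 8 = 5 := h8'
  have hl₀ : l₀.Coprime (2 * N) := by
    refine Nat.Coprime.mul_right ?_ ?_
    · exact (Nat.coprime_two_right).mpr (Nat.odd_iff.mpr (by omega))
    · have := h1.gcd_eq
      unfold Nat.Coprime
      rw [this, Nat.gcd_one_left]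
  obtain ⟨E, _, G, _, φ, W, _, _, ι, _, ev, hG, hinj, hk⟩ :=
    geo_main (3 * N ^ 2) (Odd.mul (by decide) hN.pow) (dvd_mul_right _ _)
  let J : Type := {d : Fin (4 * N) // (d : ℕ).Coprime (2 * N)}
  let toJ : ∀ d : ℕ, d.Coprime (2 * N) → J := fun d hd =>
    ⟨⟨d % (4 * N), Nat.mod_lt _ (by positivity)⟩, asm_cop_mod hd⟩
  refine limGood_of (fun k => stage N T D k) (restrictStageInt N T D) H.comm asm_surj
    (stage_fg2 hN H) (fun a k => parI N T D a k) ?_ (fun k x => asm_inf k x) ?_
    (fun k => Sd k l₀ - 1) ?_ (w_nil hN H h8 h1) hG (ι := ι × J)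
    (fun a i k => (ev i.1).comp (asmG hN H h8 h1 a.2 k i.2.2)) ?_ ?_ ?_ H.nontriv
  · intro a k x hx i hi
    exact hx (Fin.castSucc i) hi
  · intro a k m x hm hx
    exact asm_tf a k m x hm hx
  · intro k
    rw [map_sub, map_one, asm_Sd_res H k l₀ hl₀]
  · intro a i k l l' h
    change ev i.1 _ = ev i.1 _
    congr 1
    apply Subtype.ext
    change PowerSeries.expand _ _ _ = PowerSeries.expand _ _ _
    congr 1
    ext n
    simp only [Gser, coeff_mk]
    split_ifs with hn
    · rw [h, map_mul, asm_Sd_res H k _ i.2.2, H.Tn_res k n hn]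
    · rfl
  · intro a k l hl
    have h0 : ∀ d : ℕ, d.Coprime (2 * N) → Gser Tn Sd l.1 d = 0 := by
      intro d hd
      have h2 := hinj (asmG hN H h8 h1 a.2 k (toJ d hd).2 l) (fun i => hl (i, toJ d hd))
      have h3 : PowerSeries.expand (3 * N ^ 2) (NeZero.ne _) (Gser Tn Sd l.1 (d % (4 * N))) = 0 :=
        congrArg Subtype.val h2
      rw [asm_Gser_congr hN H h8 h1 l hd] at h3
      ext n
      have h4 := congrArg (coeff (n * (3 * N ^ 2))) h3
      rw [mul_comm n, PowerSeries.coeff_expand_mul] at h4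
      simpa using h4
    apply Subtype.ext
    ext t
    change l.1 t = 0
    refine AddSubgroup.closure_induction (p := fun t _ => l.1 t = 0) ?_ (map_zero _) ?_ ?_
      (H.span k t)
    · rintro _ ⟨d, n, hd, hn, rfl⟩
      have h4 := congrArg (coeff n) (h0 d hd)
      simp only [Gser, coeff_mk, if_pos hn, map_zero] at h4
      exact (algebraMap (ZMod 2) FF).injective (by rw [h4, map_zero])
    · intro x y _ _ hx hy
      rw [map_add, hx, hy, add_zero]
    · intro x _ hx
      rw [map_neg, hx, neg_zero]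
  · intro a k t
    obtain ⟨S, hS⟩ := asm_closure (H.comm k) (parI N T D a k) (Sd k l₀ - 1) (G := G) hG.two
      (fun i : ι × J => (ev i.1).comp (asmG hN H h8 h1 a.2 k i.2.2))
    refine (hS t).mp ?_
    obtain ⟨t, ht⟩ := t
    have key : stage N T D k ≤ S.map (stage N T D k).subtype := by
      conv_lhs => rw [stage]
      rw [Subring.closure_le]
      rintro b ⟨p, hp, hpN, hb⟩
      have hpc : p.Coprime (2 * N) := (Nat.Prime.coprime_iff_not_dvd hp).mpr hpN
      rcases hb with rfl | rfl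
      · refine ⟨Tn k p, (hS _).mpr fun i => ?_, H.Tn_prime k p hp hpN⟩
        have hp2 : p ≠ 2 := by rintro rfl; exact hpN (dvd_mul_right _ _)
        obtain ⟨l₁, l₂, hl⟩ := hk p hp hp2 i.1
        have hpd : (p * (i.2.1 : ℕ)).Coprime (2 * N) := Nat.Coprime.mul_left hpc i.2.2
        refine ⟨l₁.map (fun q => (q.1, (q.2, i.2))) ++ l₂.map (fun q => (q.1, (q.2, toJ _ hpd))),
          fun l l' h => ?_⟩
        rw [List.map_append, List.sum_append, List.map_map, List.map_map]
        refine hl (Gser Tn Sd l.1 i.2.1) (Gser Tn Sd l.1 (p * i.2.1))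
          (asmG hN H h8 h1 a.2 k i.2.2 l) (asmG hN H h8 h1 a.2 k (toJ _ hpd).2 l)
          (asmG hN H h8 h1 a.2 k i.2.2 l') rfl ?_ ?_
        · change PowerSeries.expand _ _ (Gser Tn Sd l.1 ((p * i.2.1) % (4 * N))) = _
          rw [asm_Gser_congr hN H h8 h1 l hpd]
        · change PowerSeries.expand _ _ (Gser Tn Sd l'.1 i.2.1) = _
          rw [asm_Gser_T H l.1 l'.1 i.2.2 hp hpN h]
      · refine ⟨Sd k p, (hS _).mpr fun i => ?_, H.Sd_eq k p hpc⟩
        have hpd : (p * (i.2.1 : ℕ)).Coprime (2 * N) := Nat.Coprime.mul_left hpc i.2.2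
        refine ⟨[(1, (i.1, toJ _ hpd))], fun l l' h => ?_⟩
        simp only [List.map_cons, List.map_nil, List.sum_cons, List.sum_nil, add_zero, one_smul]
        change ev i.1 _ = ev i.1 _
        congr 1
        apply Subtype.ext
        change PowerSeries.expand _ _ (Gser Tn Sd l'.1 i.2.1) =
          PowerSeries.expand _ _ (Gser Tn Sd l.1 ((p * i.2.1) % (4 * N)))
        rw [asm_Gser_congr hN H h8 h1 l hpd, asm_Gser_S H l.1 l'.1 i.2.2 hpc h]
    obtain ⟨s, hs, hst⟩ := key ht
    have : s = ⟨t, ht⟩ := Subtype.ext hst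
    rw [← this]
    exact hs

end Crest.Agent.R007
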