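import Crest.Agent.R007.CA

/-! Row 7, block C: duality. -/

set_option autoImplicit false
set_option linter.unusedSectionVars false

namespace Crest.Agent.R007

/-- the data of `dim_le_two` -/
structure BD (B K : Type) [CommRing B] [AddCommGroup K] [Module B K] {G : Type} [Group G]
    (Γ : ℕ → Subgroup G) (W ι : Type) [AddCommGroup W] [DistribMulAction G W] where
  /-- the expansions -/
  ev : ι → K →+ W
  dualα : ∀ I : Ideal B, I.FG → ∀ b : B, (∀ x : K, (∀ i ∈ I, i • x = 0) → b • x = 0) → b ∈ I
  dualβ : ∀ (Y : Submodule B K) (x : K), (∀ b : B, (∀ y ∈ Y, b • y = 0) → b • x = 0) → x ∈ Y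
  inj : ∀ x, (∀ i, ev i x = 0) → x = 0
  hecke : ∀ (b : B) (i : ι) (S : Finset K), ∃ l : List (G × ι), ∀ x ∈ S,
    ev i (b • x) = (l.map fun p => p.1 • ev p.2 x).sum
  two : ∀ w : W, w + w = 0
  smooth : ∀ w : W, ∃ e, ∀ γ ∈ Γ e, γ • w = w
  anti : Antitone Γ
  normal : ∀ e, (Γ e).Normal
  fin : ∀ e, (Γ e).FiniteIndex

namespace BD

variable {B K : Type} [CommRing B] [AddCommGroup K] [Module B K] {G W ι : Type} [Group G]
  {Γ : ℕ → Subgroup G} [AddCommGroup W] [DistribMulAction G W] [TopologicalSpace W]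
  [DiscreteTopology W] [IsTopologicalAddGroup W] [Finite ι] (D : BD B K Γ W ι)

/-- the span of the translates of the `ev j` -/
def H0 : AddSubgroup (K → W) :=
  AddSubgroup.closure {h | ∃ (γ : G) (j : ι), h = fun l => γ • D.ev j l}

/-- its pointwise closure -/
def Hc : AddSubgroup (K → W) := D.H0.topologicalClosure

/-- closed properties of the elements of `Hc` -/
theorem ind {S : AddSubgroup (K → W)} (hS : IsClosed (S : Set (K → W)))
    (h : ∀ (γ : G) (j : ι), (fun l => γ • D.ev j l) ∈ S) : D.Hc ≤ S :=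
  AddSubgroup.topologicalClosure_minimal _ ((AddSubgroup.closure_le _).2 <| by
    rintro _ ⟨γ, j, rfl⟩
    exact h γ j) hS

theorem gen_mem (γ : G) (j : ι) : (fun l => γ • D.ev j l) ∈ D.Hc :=
  AddSubgroup.le_topologicalClosure _ (AddSubgroup.subset_closure ⟨γ, j, rfl⟩)

theorem map_add {h : K → W} (hh : h ∈ D.Hc) (l l' : K) : h (l + l') = h l + h l' := by
  refine D.ind (S := (Pi.evalAddMonoidHom (fun _ : K => W) (l + l')).eqLocus
    (Pi.evalAddMonoidHom (fun _ : K => W) l + Pi.evalAddMonoidHom (fun _ : K => W) l'))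
    (isClosed_eq (continuous_apply (l + l')) ((continuous_apply l).add (continuous_apply l')))
    (fun γ j => ?_) hh
  change γ • D.ev j (l + l') = γ • D.ev j l + γ • D.ev j l'
  rw [_root_.map_add, smul_add]

theorem map_zero {h : K → W} (hh : h ∈ D.Hc) : h 0 = 0 := by
  simpa using D.map_add hh 0 0

theorem smul_mem (γ : G) {h : K → W} (hh : h ∈ D.Hc) : (fun l => γ • h l) ∈ D.Hc := by
  refine D.ind (S := D.Hc.comap (DistribSMul.toAddMonoidHom (K → W) γ))
    (D.H0.isClosed_topologicalClosure.preimage (continuous_pi fun l =>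
      (continuous_of_discreteTopology (f := fun w : W => γ • w)).comp (continuous_apply l)))
    (fun γ' j => ?_) hh
  change (fun l => γ • γ' • D.ev j l) ∈ D.Hc
  simp only [smul_smul]
  exact D.gen_mem _ j

/-- `ind`; `fun l => γ • ev j (b • l)` agrees on every finite set with an element of `H0`
(`hecke`), so it lies in the closure -/
theorem act_mem (b : B) {h : K → W} (hh : h ∈ D.Hc) : (fun l => h (b • l)) ∈ D.Hc := by
  let φ : (K → W) →+ (K → W) := ⟨⟨fun h l => h (b • l), rfl⟩, fun _ _ => rfl⟩
  have hφ : Continuous φ := continuous_pi fun l => continuous_apply (b • l)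
  refine D.ind (S := D.Hc.comap φ) (D.H0.isClosed_topologicalClosure.preimage hφ)
    (fun γ j => ?_) hh
  change (fun l => γ • D.ev j (b • l)) ∈ closure (D.H0 : Set (K → W))
  refine mem_closure_iff_nhds.2 fun t ht => ?_
  rw [nhds_pi, Filter.mem_pi] at ht
  obtain ⟨I, hI, t', ht', hsub⟩ := ht
  obtain ⟨L, hL⟩ := D.hecke b j hI.toFinset
  refine ⟨(L.map fun p => fun x => (γ * p.1) • D.ev p.2 x).sum, hsub fun x hx => ?_,
    list_sum_mem fun g hg => ?_⟩
  · have := mem_of_mem_nhds (ht' x)
    rw [hL x (hI.mem_toFinset.2 hx), List.smul_sum, List.map_map] at this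
    rw [Pi.list_sum_apply, List.map_map]
    simpa only [Function.comp_def, mul_smul] using this
  · obtain ⟨p, -, rfl⟩ := List.mem_map.1 hg
    exact AddSubgroup.subset_closure ⟨_, _, rfl⟩

/-- the orbits `{γ • ev j l}` are finite (`smooth`, `fin`) and `W` is killed by `2` -/
theorem finite_span (l : K) :
    (AddSubgroup.closure {w | ∃ (γ : G) (j : ι), w = γ • D.ev j l} : Set W).Finite := by
  have h1 : ∀ w : W, (MulAction.orbit G w).Finite := fun w => by
    obtain ⟨e, he⟩ := D.smooth w
    have := D.fin e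
    have : (MulAction.stabilizer G w).FiniteIndex := Subgroup.finiteIndex_of_le (H := Γ e) he
    exact Finite.of_equiv _ (MulAction.orbitEquivQuotientStabilizer G w).symm
  have h2 : Finite {w | ∃ (γ : G) (j : ι), w = γ • D.ev j l} :=
    (Set.finite_iUnion fun j => h1 (D.ev j l)).subset <| by
      rintro _ ⟨γ, j, rfl⟩
      exact Set.mem_iUnion.2 ⟨j, γ, rfl⟩
  exact AddCommGroup.finite_of_fg_isAddTorsion
    (AddSubgroup.closure {w | ∃ (γ : G) (j : ι), w = γ • D.ev j l}) fun w =>
      isOfFinAddOrder_iff_nsmul_eq_zero.2 ⟨2, two_pos, Subtype.ext (by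
        rw [two_nsmul]; exact D.two w)⟩

/-- `Hc` lies in the product of the finite sets of `finite_span`; Tychonoff -/
theorem isCompact : IsCompact (D.Hc : Set (K → W)) :=
  (isCompact_univ_pi fun l => (D.finite_span l).isCompact).of_isClosed_subset
    D.H0.isClosed_topologicalClosure (D.ind (S := AddSubgroup.pi Set.univ fun l =>
      AddSubgroup.closure {w | ∃ (γ : G) (j : ι), w = γ • D.ev j l})
      (isClosed_set_pi fun _ _ => isClosed_discrete _)
      fun γ j _ _ => AddSubgroup.subset_closure ⟨γ, j, rfl⟩)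

include D in
/-- `x ↦ (ev j x)_j` is injective and maps `B l` into a finite set (`hecke`, `finite_span`) -/
theorem finite_orbit (l : K) : (Set.range fun b : B => b • l).Finite := by
  refine Set.Finite.of_injOn (f := fun x j => D.ev j x) ?_ (fun x _ y _ h => ?_)
    (Set.Finite.pi' fun _ : ι => D.finite_span l)
  · rintro _ ⟨b, rfl⟩ j
    obtain ⟨L, hL⟩ := D.hecke b j {l}
    change D.ev j (b • l) ∈ _
    rw [hL l (Finset.mem_singleton_self l)]
    refine list_sum_mem fun g hg => ?_
    obtain ⟨p, -, rfl⟩ := List.mem_map.1 hg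
    exact AddSubgroup.subset_closure ⟨_, _, rfl⟩
  · exact sub_eq_zero.1 (D.inj _ fun j => by rw [map_sub, sub_eq_zero]; exact congrFun h j)

/-- the module -/
def H : Type := D.Hc

instance : AddCommGroup D.H := inferInstanceAs (AddCommGroup D.Hc)
instance : TopologicalSpace D.H := inferInstanceAs (TopologicalSpace D.Hc)
instance : IsTopologicalAddGroup D.H := inferInstanceAs (IsTopologicalAddGroup D.Hc)
instance : T2Space D.H := inferInstanceAs (T2Space D.Hc)
instance : CompactSpace D.H := isCompact_iff_compactSpace.1 D.isCompact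

/-- the underlying function -/
def val (h : D.H) : K → W := Subtype.val h

variable {D} in
theorem ext' {h h' : D.H} (e : ∀ l, D.val h l = D.val h' l) : h = h' := Subtype.ext (funext e)

theorem val_mem (h : D.H) : D.val h ∈ D.Hc := Subtype.prop h

@[simp] theorem val_add (h h' : D.H) (l : K) : D.val (h + h') l = D.val h l + D.val h' l := rfl
@[simp] theorem val_sub (h h' : D.H) (l : K) : D.val (h - h') l = D.val h l - D.val h' l := rfl
@[simp] theorem val_zero (l : K) : D.val 0 l = 0 := rfl

theorem continuous_val : Continuous D.val := continuous_subtype_val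

theorem isInducing_val : Topology.IsInducing D.val := Topology.IsInducing.subtypeVal

instance : SMul B D.H := ⟨fun b h => ⟨fun l => D.val h (b • l), D.act_mem b (D.val_mem h)⟩⟩

@[simp] theorem val_smul (b : B) (h : D.H) (l : K) : D.val (b • h) l = D.val h (b • l) := rfl

instance : Module B D.H where
  one_smul h := ext' fun l => congrArg (D.val h) (one_smul B l)
  mul_smul b b' h := ext' fun l => congrArg (D.val h) (by rw [mul_comm, mul_smul])
  smul_zero _ := ext' fun _ => rfl
  smul_add _ _ _ := ext' fun _ => rfl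
  add_smul b b' h := ext' fun l => by
    rw [val_add, val_smul, val_smul, val_smul, ← D.map_add (D.val_mem h), add_smul]
  zero_smul h := ext' fun l => by
    rw [val_smul, val_zero, zero_smul, D.map_zero (D.val_mem h)]

instance : ContinuousConstSMul B D.H :=
  ⟨fun b => D.isInducing_val.continuous_iff.2
    (continuous_pi fun l => (continuous_apply (b • l)).comp D.continuous_val)⟩

/-- the action of `G` -/
def ρ : G →* Module.End B D.H where
  toFun γ :=
    { toFun := fun h => ⟨fun l => γ • D.val h l, D.smul_mem γ (D.val_mem h)⟩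
      map_add' := fun _ _ => ext' fun _ => smul_add _ _ _
      map_smul' := fun _ _ => ext' fun _ => rfl }
  map_one' := LinearMap.ext fun _ => ext' fun _ => one_smul _ _
  map_mul' _ _ := LinearMap.ext fun _ => ext' fun _ => mul_smul _ _ _

@[simp] theorem val_ρ (γ : G) (h : D.H) (l : K) : D.val (D.ρ γ h) l = γ • D.val h l := rfl

/-- the elements vanishing on `K[I]` -/
def Nf (I : Ideal B) : Submodule B D.H where
  carrier := {h | ∀ l : K, (∀ a ∈ I, a • l = 0) → D.val h l = 0}
  zero_mem' _ _ := rfl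
  add_mem' h h' l hl := by rw [val_add, h l hl, h' l hl, add_zero]
  smul_mem' b _ h l hl := h _ fun a ha => by rw [smul_comm, hl a ha, smul_zero]

/-- the elements vanishing on `B S` -/
def Uf (S : Finset K) : Submodule B D.H where
  carrier := {h | ∀ l ∈ S, ∀ b : B, D.val h (b • l) = 0}
  zero_mem' _ _ _ := rfl
  add_mem' h h' l hl b := by rw [val_add, h l hl, h' l hl, add_zero]
  smul_mem' b _ h l hl b' := by rw [val_smul, ← mul_smul, h l hl]

theorem h5_smooth (x : K) : ∃ e, ∀ h ∈ D.Hc, ∀ γ ∈ Γ e, γ • h x = h x := by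
  choose e he using fun j => D.smooth (D.ev j x)
  obtain ⟨E, hE⟩ := (Set.finite_range e).bddAbove
  let S : AddSubgroup (K → W) :=
    { carrier := {h | ∀ γ ∈ Γ E, γ • h x = h x}
      zero_mem' := fun γ _ => smul_zero γ
      add_mem' := fun {a b} ha hb γ hγ => by
        rw [Pi.add_apply, smul_add, ha γ hγ, hb γ hγ]
      neg_mem' := fun {a} ha γ hγ => by rw [Pi.neg_apply, smul_neg, ha γ hγ] }
  have hS : IsClosed (S : Set (K → W)) :=
    IsClosed.preimage (f := fun h : K → W => h x) (continuous_apply x)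
      (isClosed_discrete {w : W | ∀ γ ∈ Γ E, γ • w = w})
  refine ⟨E, fun h hh => D.ind hS (fun γ' j γ hγ => ?_) hh⟩
  have h1 : γ'⁻¹ * γ * γ'⁻¹⁻¹ ∈ Γ (e j) :=
    D.anti (hE ⟨j, rfl⟩) ((D.normal E).conj_mem γ hγ γ'⁻¹)
  have h2 := he j _ h1
  rw [inv_inv, mul_smul, mul_smul, inv_smul_eq_iff] at h2
  exact h2

/-- the element `ev j` of `H` -/
def h5_ev (j : ι) : D.H := ⟨fun l => (1 : G) • D.ev j l, D.gen_mem 1 j⟩

theorem h5_val_ev (j : ι) (l : K) : D.val (D.h5_ev j) l = D.ev j l := one_smul G _

/-- the largest submodule on which `y` vanishes -/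
def h5_Z (y : D.H) : Submodule B K where
  carrier := {l | ∀ b : B, D.val y (b • l) = 0}
  zero_mem' b := by rw [smul_zero, D.map_zero (D.val_mem y)]
  add_mem' {l l'} h h' b := by rw [smul_add, D.map_add (D.val_mem y), h b, h' b, add_zero]
  smul_mem' c l h b := by rw [← mul_smul, h]

/-- `finite_orbit`; `smooth` by normality and `ind`; `gen` with `S = range ev` -/
theorem gm : GM D.ρ Γ D.Uf := by
  classical
  have hc : ∀ l, Continuous fun h : D.H => D.val h l :=
    fun l => (continuous_apply l).comp D.continuous_val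
  refine ⟨fun y => ext' fun l => D.two _, fun γ => ?_, fun S => ?_, ⟨∅⟩, fun S S' => ?_,
    fun y hy => ext' fun l => ?_, fun S γ y hy l hl b => ?_, fun S => ?_, ?_⟩
  · exact D.isInducing_val.continuous_iff.2 (continuous_pi fun l =>
      (continuous_of_discreteTopology (f := fun w : W => γ • w)).comp (hc l))
  · have : (D.Uf S : Set D.H) = ⋂ l ∈ S, ⋂ x ∈ Set.range fun b : B => b • l,
        (fun h : D.H => D.val h x) ⁻¹' {0} := by
      ext h
      simp only [Set.mem_iInter, Set.mem_preimage, Set.mem_singleton_iff, Set.forall_mem_range]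
      rfl
    rw [this]
    exact isOpen_biInter_finset fun l _ => (D.finite_orbit l).isOpen_biInter fun x _ =>
      (isOpen_discrete _).preimage (hc x)
  · exact ⟨S ∪ S', fun h hh l hl => hh l (Finset.mem_union_left _ hl),
      fun h hh l hl => hh l (Finset.mem_union_right _ hl)⟩
  · simpa using hy {l} l (Finset.mem_singleton_self l) 1
  · rw [val_ρ, hy l hl b, smul_zero]
  · choose e he using D.h5_smooth
    have hfin : (⋃ l ∈ (S : Set K), Set.range fun b : B => b • l).Finite :=
      S.finite_toSet.biUnion fun l _ => D.finite_orbit l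
    obtain ⟨E, hE⟩ := (hfin.image e).bddAbove
    refine ⟨E, fun γ hγ y l hl b => ?_⟩
    have h1 : e (b • l) ≤ E := hE ⟨_, Set.mem_biUnion (Finset.mem_coe.2 hl) ⟨b, rfl⟩, rfl⟩
    rw [val_sub, val_ρ, he _ _ (D.val_mem y) γ (D.anti h1 hγ), sub_self]
  · refine ⟨Set.range D.h5_ev, Set.finite_range _, D.isInducing_val.dense_iff.2 fun y => ?_⟩
    refine closure_mono ?_ (D.val_mem y)
    let f : D.H →+ (K → W) := D.Hc.subtype
    have : D.H0 ≤ (AddSubgroup.closure
        {y | ∃ γ, ∃ s ∈ Set.range D.h5_ev, y = D.ρ γ s}).map f := by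
      refine (AddSubgroup.closure_le _).2 ?_
      rintro _ ⟨γ, j, rfl⟩
      refine ⟨D.ρ γ (D.h5_ev j), AddSubgroup.subset_closure ⟨γ, _, ⟨j, rfl⟩, rfl⟩, ?_⟩
      funext l
      exact congrArg (fun w => γ • w) (D.h5_val_ev j l)
    exact this

/-- `ann`: apply to `ev j`, `inj`, `dualα`.  `inj`: `dualβ` for `Y = x K[P]`.  `inf`: `dualβ` for
`Y = ⋃ m, K[I m]` -/
theorem nd : ND D.ρ D.Nf := by
  have hc : ∀ l, Continuous fun h : D.H => D.val h l :=
    fun l => (continuous_apply l).comp D.continuous_val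
  refine ⟨fun I => ?_, fun I γ y hy l hl => ?_, fun I J hIJ y hy l hl => ?_,
    fun I b hb y l hl => ?_, fun I hI b hb => ?_, fun P hP x hx y hy l hl => ?_,
    fun I P _ hI hP y hy l hl => ?_⟩
  · have : (D.Nf I : Set D.H) = ⋂ l ∈ {l : K | ∀ a ∈ I, a • l = 0},
        (fun h : D.H => D.val h l) ⁻¹' {0} := by
      ext h
      simp only [Set.mem_iInter, Set.mem_preimage, Set.mem_singleton_iff]
      rfl
    rw [this]
    exact isClosed_biInter fun l _ => (isClosed_discrete _).preimage (hc l)
  · rw [val_ρ, hy l hl, smul_zero]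
  · exact hy l fun a ha => hl a (hIJ ha)
  · rw [val_smul, hl b hb, D.map_zero (D.val_mem y)]
  · refine D.dualα I hI b fun l hl => D.inj _ fun j => ?_
    rw [← D.h5_val_ev, ← val_smul]
    exact hb _ l hl
  · have : l ∈ D.h5_Z y := D.dualβ _ l fun b hb => hl b (hx b (D.dualα P hP _ fun l' hl' => by
      rw [mul_smul]
      refine hb _ fun c => ?_
      rw [smul_comm, ← val_smul]
      exact hy _ fun a ha => by rw [smul_comm, hl' a ha, smul_zero]))
    simpa using this 1
  · have : l ∈ D.h5_Z y := D.dualβ _ l fun b hb => hl b (hP b fun m =>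
      D.dualα _ (hI m) _ fun l' hl' => hb _ fun c =>
        hy m _ fun a ha => by rw [smul_comm, hl' a ha, smul_zero])
    simpa using this 1

end BD

end Crest.Agent.R007
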