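import Crest.Agent.R007.CDefs

/-! Row 7, block C: congruence subgroups of the quaternion order. -/

set_option autoImplicit false

namespace Crest.Agent.R007

variable {O G : Type} [Ring O] [Group G] (φ : G →* Oˣ)

/-- `u' = u ^ (2 ^ t - 1)`-like, or `Int.isCoprime_iff_gcd_eq_one` / `IsCoprime.pow_right` -/
theorem exists_odd_inv {u : ℤ} (hu : Odd u) (t : ℕ) :
    ∃ u' m : ℤ, Odd u' ∧ u * u' = 1 + 2 ^ t * m := by
  obtain ⟨a, b, h⟩ := (Int.isCoprime_two_right.2 hu).pow_right (n := t + 1)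
  refine ⟨a, -(2 * b), ?_, by rw [← h]; ring⟩
  have h1 : Odd (a * u) := ⟨-(b * 2 ^ t), by rw [← h]; ring⟩
  exact (Int.odd_mul.1 h1).1


theorem h52_form (u : ℤ) (t : ℕ) (x : O) :
    (u : O) + 2 ^ t * x = u • (1 : O) + (2 ^ t : ℤ) • x := by
  simp

/-- multiply by an inverse of `v` modulo `2 ^ t` -/
theorem cg_of_mul {t : ℕ} {g : G} {u v : ℤ} {z : O} (hu : Odd u) (hv : Odd v)
    (h : (v : O) * (φ g : O) = u + 2 ^ t * z) : Cg φ t g := by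
  obtain ⟨v', m, hv', e⟩ := exists_odd_inv hv t
  refine ⟨v' * u, v' • z - m • (φ g : O), hv'.mul hu, ?_⟩
  rw [h52_form] at h ⊢
  rw [← zsmul_eq_mul] at h
  have h1 : (φ g : O) = v' • v • (φ g : O) - (2 ^ t * m : ℤ) • (φ g : O) := by
    rw [smul_smul, mul_comm v', e]
    module
  rw [h] at h1
  conv_lhs => rw [h1]
  module


theorem Cg.mul {φ : G →* Oˣ} {t : ℕ} {g h : G} (hg : Cg φ t g) (hh : Cg φ t h) :
    Cg φ t (g * h) := by
  obtain ⟨u, x, hu, e⟩ := hg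
  obtain ⟨v, y, hv, e'⟩ := hh
  refine ⟨u * v, u • y + v • x + (2 ^ t : ℤ) • (x * y), hu.mul hv, ?_⟩
  rw [map_mul, Units.val_mul, e, e', h52_form, h52_form, h52_form]
  simp only [mul_add, add_mul, smul_mul_assoc, mul_smul_comm, one_mul, mul_one]
  module


/-- `u * φ g⁻¹ = 1 - 2 ^ t * (φ g⁻¹ * x)`, `cg_of_mul` -/
theorem Cg.inv {φ : G →* Oˣ} {t : ℕ} {g : G} (hg : Cg φ t g) : Cg φ t g⁻¹ := by
  obtain ⟨u, x, hu, e⟩ := hg
  refine cg_of_mul φ (u := 1) (z := -((φ g⁻¹ : O) * x)) odd_one hu ?_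
  have h1 : (φ g⁻¹ : O) * φ g = 1 := by rw [← Units.val_mul, ← map_mul]; simp
  rw [e, h52_form] at h1
  rw [h52_form, ← zsmul_eq_mul, one_smul, ← h1]
  simp only [mul_add, mul_smul_comm, mul_one]
  module


/-- the congruence subgroup (modulo scalars) -/
def cgS (t : ℕ) : Subgroup G where
  carrier := {g | Cg φ t g}
  one_mem' := ⟨1, 0, odd_one, by simp⟩
  mul_mem' := Cg.mul
  inv_mem' := Cg.inv

theorem mem_cgS {t : ℕ} {g : G} : g ∈ cgS φ t ↔ Cg φ t g := Iff.rfl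

theorem cgS_normal (t : ℕ) : (cgS φ t).Normal := by
  refine ⟨fun g ⟨u, x, hu, e⟩ h => ⟨u, (φ h : O) * x * (φ h⁻¹ : O), hu, ?_⟩⟩
  have h1 : (φ h : O) * φ h⁻¹ = 1 := by rw [← Units.val_mul, ← map_mul]; simp
  rw [map_mul, map_mul, Units.val_mul, Units.val_mul, e, h52_form, h52_form]
  simp only [mul_add, add_mul, smul_mul_assoc, mul_smul_comm, mul_one, h1]


theorem cgS_anti : Antitone (cgS φ) := by
  refine antitone_nat_of_succ_le fun t g ⟨u, x, hu, e⟩ => ⟨u, 2 * x, hu, ?_⟩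
  rw [e, pow_succ, mul_assoc]


/-- `(u + 2 ^ (t+1) x) ^ 2 = u ^ 2 + 2 ^ (t+2) (u x + 2 ^ t x ^ 2)` -/
theorem cgS_sq (t : ℕ) {g : G} (hg : g ∈ cgS φ (t + 1)) : g ^ 2 ∈ cgS φ (t + 2) := by
  obtain ⟨u, x, hu, e⟩ := hg
  refine ⟨u * u, u • x + (2 ^ t : ℤ) • (x * x), hu.mul hu, ?_⟩
  rw [sq, map_mul, Units.val_mul, e, h52_form, h52_form]
  simp only [mul_add, add_mul, smul_mul_assoc, mul_smul_comm, one_mul, mul_one]
  module


/-- `φ ⁅g, h⁆ = 1 + 2 ^ (t + t') (x x' - x' x) φ (g⁻¹ h⁻¹)` -/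
theorem cgS_comm (t t' : ℕ) : ⁅cgS φ t, cgS φ t'⁆ ≤ cgS φ (t + t') := by
  refine Subgroup.commutator_le.2 fun g ⟨u, x, _, e⟩ h ⟨v, y, _, e'⟩ =>
    ⟨1, (x * y - y * x) * (φ (g⁻¹ * h⁻¹) : O), odd_one, ?_⟩
  have h1 : (φ h : O) * φ g * φ (g⁻¹ * h⁻¹) = 1 := by
    rw [← Units.val_mul, ← Units.val_mul, ← map_mul, ← map_mul]
    simp
  have h2 : (φ (g * h * g⁻¹ * h⁻¹) : O) = φ g * φ h * φ (g⁻¹ * h⁻¹) := by
    rw [← Units.val_mul, ← Units.val_mul, ← map_mul, ← map_mul]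
    simp only [mul_assoc]
  rw [commutatorElement_def, h2, h52_form, one_smul, ← h1, e, e', h52_form, h52_form]
  simp only [mul_add, add_mul, sub_mul, smul_mul_assoc, mul_smul_comm, one_mul, mul_one]
  module


theorem h97_fin (q : QO O) (t : ℕ) :
    ∃ S : Set O, S.Finite ∧ ∀ x : O, ∃ s ∈ S, ∃ y, x = s + 2 ^ t * y := by
  have h1 : ∃ S : Set O, S.Finite ∧ ∀ x : O, ∃ s ∈ S, ∃ y, x = s + 2 * y := by
    refine ⟨(fun p : ℤ × ℤ × ℤ × ℤ => (p.1 : O) + p.2.1 * q.ω + p.2.2.1 * q.π + p.2.2.2 * (q.ω * q.π)) ''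
      (Set.Ico 0 2 ×ˢ Set.Ico 0 2 ×ˢ Set.Ico 0 2 ×ˢ Set.Ico 0 2),
      ((Set.finite_Ico _ _).prod ((Set.finite_Ico _ _).prod ((Set.finite_Ico _ _).prod
        (Set.finite_Ico _ _)))).image _, fun x => ?_⟩
    obtain ⟨a, b, c, d, y, rfl⟩ := q.span x
    have h : ∀ a : ℤ, a % 2 ∈ Set.Ico (0 : ℤ) 2 := fun a => ⟨by omega, by omega⟩
    have e : ∀ a : ℤ, (a : O) = ((a % 2 : ℤ) : O) + 2 * ((a / 2 : ℤ) : O) := fun a => by
      conv_lhs => rw [← Int.emod_add_mul_ediv a 2]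
      rw [Int.cast_add, Int.cast_mul, Int.cast_two]
    refine ⟨_, ⟨(a % 2, b % 2, c % 2, d % 2), ⟨h a, h b, h c, h d⟩, rfl⟩,
      (a / 2 : ℤ) + (b / 2 : ℤ) * q.ω + (c / 2 : ℤ) * q.π + (d / 2 : ℤ) * (q.ω * q.π) + y, ?_⟩
    conv_lhs => rw [e a, e b, e c, e d]
    simp only [mul_add, add_mul, mul_assoc]
    abel
  obtain ⟨S₁, hS₁, h1⟩ := h1
  induction t with
  | zero => exact ⟨{0}, Set.finite_singleton _, fun x => ⟨0, rfl, x, by simp⟩⟩
  | succ t ih =>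
    obtain ⟨S, hS, h⟩ := ih
    refine ⟨Set.image2 (fun s s' => s + 2 ^ t * s') S S₁, hS.image2 _ hS₁, fun x => ?_⟩
    obtain ⟨s, hs, y, rfl⟩ := h x
    obtain ⟨s', hs', y', rfl⟩ := h1 y
    exact ⟨_, ⟨s, hs, s', hs', rfl⟩, y', by rw [mul_add, pow_succ, mul_assoc, add_assoc]⟩

/-- `O / 2 ^ t O` is finite (finitely generated by `QO.span` and induction, and torsion); the
fibres of `g ↦ φ g mod 2 ^ t` lie in cosets -/
theorem cgS_fin (q : QO O) (t : ℕ) : (cgS φ t).FiniteIndex := by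
  obtain ⟨S, hS, h⟩ := h97_fin q t
  choose c hc y hy using h
  have := hS.to_subtype
  have : Finite (G ⧸ cgS φ t) := by
    refine Finite.of_injective (fun x : G ⧸ cgS φ t => (⟨c (φ x.out), hc _⟩ : S)) fun a b e => ?_
    have e' : c (φ a.out) = c (φ b.out) := congrArg Subtype.val e
    rw [← QuotientGroup.out_eq' a, ← QuotientGroup.out_eq' b, QuotientGroup.eq]
    refine ⟨1, (φ a.out)⁻¹ * (y (φ b.out) - y (φ a.out)), odd_one, ?_⟩
    have h2 : (φ b.out : O) = φ a.out + 2 ^ t * (y (φ b.out) - y (φ a.out)) := by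
      have h3 := hy (φ a.out)
      have h4 := hy (φ b.out)
      rw [← e'] at h4
      rw [← sub_eq_iff_eq_add] at h3 h4
      rw [mul_sub, add_sub_left_comm, h3, ← h4, add_sub_cancel]
    have h5 : Commute ((2 : O) ^ t) ((φ a.out)⁻¹ : Oˣ) := (Commute.ofNat_left 2 _).pow_left t
    rw [map_mul, map_inv, Units.val_mul, ← mul_assoc, h5.eq, mul_assoc, Int.cast_one,
      ← (φ a.out).inv_mul, ← mul_add, ← h2]
  exact Subgroup.finiteIndex_of_finite_quotient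

/-- `h` has leading term `x` at level `t + 2` -/
def Ld (t : ℕ) (h : G) (x : O) : Prop :=
  ∃ (u : ℤ) (y : O), Odd u ∧ (φ h : O) = u + 2 ^ (t + 2) * (x + 2 * y)

theorem h69_tp (k : ℕ) (x : O) : 2 ^ k * x = ((2 : ℤ) ^ k) • x := by
  simp [zsmul_eq_mul]

theorem h69_two (x : O) : 2 * x = (2 : ℤ) • x := by
  simp [zsmul_eq_mul]

theorem h69_int (u : ℤ) : (u : O) = u • (1 : O) := by
  simp

theorem Ld.mul {φ : G →* Oˣ} {t : ℕ} {h h' : G} {x x' : O} (H : Ld φ t h x) (H' : Ld φ t h' x') :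
    Ld φ t (h * h') (x + x') := by
  obtain ⟨u, y, ⟨a, ha⟩, e⟩ := H
  obtain ⟨u', y', ⟨b, hb⟩, e'⟩ := H'
  refine ⟨u * u', a • x' + u • y' + b • x + u' • y + 2 ^ (t + 1) * ((x + 2 * y) * (x' + 2 * y')),
    Odd.mul ⟨a, ha⟩ ⟨b, hb⟩, ?_⟩
  rw [map_mul, Units.val_mul, e, e', h69_int u, h69_int u', h69_int (u * u')]
  simp only [h69_tp, h69_two, mul_add, add_mul, smul_mul_assoc, mul_smul_comm, one_mul, mul_one]
  subst ha hb
  module

theorem Ld.sq {φ : G →* Oˣ} {t : ℕ} {h : G} {x : O} (H : Ld φ t h x) :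
    Ld φ (t + 1) (h ^ 2) x := by
  obtain ⟨u, y, ⟨a, ha⟩, e⟩ := H
  refine ⟨u * u, a • x + u • y + 2 ^ t * ((x + 2 * y) * (x + 2 * y)),
    Odd.mul ⟨a, ha⟩ ⟨a, ha⟩, ?_⟩
  rw [pow_two, map_mul, Units.val_mul, e, h69_int u, h69_int (u * u)]
  simp only [h69_tp, h69_two, mul_add, add_mul, smul_mul_assoc, mul_smul_comm, one_mul, mul_one]
  subst ha
  module

theorem Ld.pow {φ : G →* Oˣ} {t : ℕ} {h : G} {x : O} (H : Ld φ t h x) (e : ℕ) :
    Ld φ (t + e) (h ^ 2 ^ e) x := by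
  induction e with
  | zero => simpa using H
  | succ e ih =>
    rw [pow_succ, pow_mul, ← add_assoc]
    exact ih.sq

theorem Ld.add {φ : G →* Oˣ} {t : ℕ} {h : G} {x : O} (H : Ld φ t h x) (m : ℤ) (y : O) :
    Ld φ t h (x + m + 2 * y) := by
  obtain ⟨u, y₀, ⟨a, ha⟩, e⟩ := H
  refine ⟨u - 2 ^ (t + 2) * m, y₀ - y, ⟨a - 2 ^ (t + 1) * m, by rw [ha]; ring⟩, ?_⟩
  rw [e, h69_int u, h69_int m, h69_int (u - 2 ^ (t + 2) * m)]
  simp only [h69_tp, h69_two]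
  module

theorem Ld.cg {φ : G →* Oˣ} {t : ℕ} {h : G} {x : O} (H : Ld φ t h x) : h ∈ cgS φ (t + 2) :=
  let ⟨u, _, hu, e⟩ := H
  ⟨u, _, hu, e⟩

/-- `u φ h - u' φ g ∈ 2 ^ (t + 3) O`, multiply by `φ h⁻¹`, `cg_of_mul` -/
theorem Ld.div {φ : G →* Oˣ} {t : ℕ} {g h : G} {x : O} (Hg : Ld φ t g x) (Hh : Ld φ t h x) :
    h⁻¹ * g ∈ cgS φ (t + 3) := by
  obtain ⟨u, y, ⟨a, ha⟩, e⟩ := Hg
  obtain ⟨u', y', ⟨b, hb⟩, e'⟩ := Hh
  have key : u' • (φ g : O) = u • (φ h : O) +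
      ((2 : ℤ) ^ (t + 3)) • ((b - a) • x + u' • y - u • y') := by
    rw [e, e', h69_int u, h69_int u']
    simp only [h69_tp, h69_two]
    subst ha hb
    module
  refine cg_of_mul φ (u := u) (v := u') (z := ((φ h)⁻¹ : Oˣ) * ((b - a) • x + u' • y - u • y'))
    ⟨a, ha⟩ ⟨b, hb⟩ ?_
  rw [map_mul, map_inv, Units.val_mul, ← zsmul_eq_mul, ← mul_smul_comm, key, mul_add,
    mul_smul_comm, mul_smul_comm, Units.inv_mul, h69_tp, h69_int u]

/-- the leading terms of the elements of `C` -/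
def lv (C : Subgroup G) (t : ℕ) : AddSubgroup O where
  carrier := {x | ∃ h ∈ C, Ld φ t h x}
  zero_mem' := ⟨1, C.one_mem, 1, 0, odd_one, by simp⟩
  add_mem' := fun ⟨_, a, b⟩ ⟨_, c, d⟩ => ⟨_, C.mul_mem a c, b.mul d⟩
  neg_mem' := fun {x} ⟨h, a, b⟩ => ⟨h, a, by
    have := b.add 0 (-x)
    rwa [show x + ((0 : ℤ) : O) + 2 * -x = -x by simp [two_mul]] at this⟩

theorem lv_mono (C : Subgroup G) : Monotone (lv φ C) := by
  refine monotone_nat_of_le_succ fun t => ?_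
  rintro x ⟨h, hC, H⟩
  exact ⟨h ^ 2, C.pow_mem hC 2, H.sq⟩

theorem lv_le {C : Subgroup G} {t : ℕ} (h : lv φ ⊤ t ≤ lv φ C t) :
    cgS φ (t + 2) ≤ C ⊔ cgS φ (t + 3) := by
  rintro g ⟨u, x, hu, e⟩
  have Hg : Ld φ t g x := ⟨u, 0, hu, by rw [mul_zero, add_zero]; exact e⟩
  obtain ⟨k, hk, Hk⟩ := h (show x ∈ lv φ ⊤ t from ⟨g, trivial, Hg⟩)
  rw [← mul_inv_cancel_left k g]
  exact Subgroup.mul_mem_sup hk (Hg.div Hk)

/-- the subgroup `ℤ + 2 O` -/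
def zTwo (O : Type) [Ring O] : AddSubgroup O where
  carrier := {x | ∃ (m : ℤ) (y : O), x = m + 2 * y}
  zero_mem' := ⟨0, 0, by simp⟩
  add_mem' := by
    rintro _ _ ⟨m, y, rfl⟩ ⟨m', y', rfl⟩
    exact ⟨m + m', y + y', by push_cast; noncomm_ring⟩
  neg_mem' := by
    rintro _ ⟨m, y, rfl⟩
    exact ⟨-m, -y, by push_cast; noncomm_ring⟩

theorem zTwo_le_lv (C : Subgroup G) (t : ℕ) : zTwo O ≤ lv φ C t := by
  rintro _ ⟨m, y, rfl⟩
  have H : Ld φ t 1 0 := ⟨1, 0, odd_one, by simp⟩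
  have := H.add m y
  rw [zero_add] at this
  exact ⟨1, C.one_mem, this⟩

theorem h95_two {K V : Type} [Field K] [AddCommGroup V] [Module K V] {e : Fin 3 → V}
    (he : Submodule.span K (Set.range e) = ⊤) {S : Submodule K V} (hS : S ≠ ⊤) :
    ∃ y : Fin 2 → V, (∀ i, y i ∈ S) ∧ S ≤ Submodule.span K (Set.range y) := by
  have : Module.Finite K V := ⟨he ▸ Submodule.fg_span (Set.finite_range e)⟩
  have h1 : Module.finrank K V ≤ 3 := by
    have := finrank_range_le_card (R := K) e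
    rwa [Set.finrank, he, finrank_top, Fintype.card_fin] at this
  have h2 := Submodule.finrank_lt hS
  obtain ⟨f, hf, hsp, -⟩ := Submodule.exists_fun_fin_finrank_span_eq K (S : Set V)
  have h3 : Module.finrank K (Submodule.span K (S : Set V)) ≤ 2 := by
    rw [Submodule.span_eq]; omega
  refine ⟨fun i => if h : (i : ℕ) < _ then f ⟨i, h⟩ else 0, fun i => ?_, ?_⟩
  · by_cases h : (i : ℕ) < Module.finrank K (Submodule.span K (S : Set V))
    · simp only [dif_pos h]; exact hf _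
    · simp only [dif_neg h]; exact S.zero_mem
  · refine (Submodule.span_eq S).ge.trans (hsp.ge.trans (Submodule.span_mono ?_))
    rintro _ ⟨j, rfl⟩
    exact ⟨⟨j, j.2.trans_le h3⟩, dif_pos j.2⟩

/-- `O / (ℤ + 2 O)` has at most `8` elements, so a proper subgroup has at most `4` -/
theorem exists_two (q : QO O) {L : AddSubgroup O} (hL : zTwo O ≤ L) (h : L ≠ ⊤) :
    ∃ x : Fin 2 → O, (∀ i, x i ∈ L) ∧ L ≤ AddSubgroup.closure (Set.range x) ⊔ zTwo O := by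
  have h2 : ∀ y : O, 2 • y ∈ zTwo O := fun y => ⟨0, y, by simp [two_mul, two_nsmul]⟩
  let : Module (ZMod 2) (O ⧸ zTwo O) := QuotientAddGroup.zmodModule h2
  have : Fact (Nat.Prime 2) := ⟨Nat.prime_two⟩
  let p := QuotientAddGroup.mk' (zTwo O)
  have key : ∀ (M : AddSubgroup O) (z : O), p z ∈ M.map p → z ∈ M ⊔ zTwo O := by
    intro M z hz
    have := AddSubgroup.comap_map_eq p M
    rw [QuotientAddGroup.ker_mk'] at this
    rw [← this]
    exact hz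
  have hsp : Submodule.span (ZMod 2) (Set.range fun i => p (![q.ω, q.π, q.ω * q.π] i)) = ⊤ := by
    refine eq_top_iff.2 fun y _ => ?_
    obtain ⟨z, rfl⟩ := QuotientAddGroup.mk'_surjective (zTwo O) y
    obtain ⟨a, b, c, d, w, rfl⟩ := q.span z
    have e : (a : O) + b * q.ω + c * q.π + d * (q.ω * q.π) + 2 * w =
        (a + 2 * w) + (b • q.ω + c • q.π + d • (q.ω * q.π)) := by
      simp only [zsmul_eq_mul]; abel
    have e0 : p (a + 2 * w) = 0 := (QuotientAddGroup.eq_zero_iff _).2 ⟨a, w, rfl⟩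
    change p _ ∈ _
    rw [e, map_add, e0, zero_add, map_add, map_add, map_zsmul, map_zsmul, map_zsmul]
    refine add_mem (add_mem (zsmul_mem (Submodule.subset_span ?_) _)
      (zsmul_mem (Submodule.subset_span ?_) _)) (zsmul_mem (Submodule.subset_span ?_) _)
    exacts [⟨0, rfl⟩, ⟨1, rfl⟩, ⟨2, rfl⟩]
  have hS : AddSubgroup.toZModSubmodule 2 (L.map p) ≠ ⊤ := by
    intro hS
    refine h (eq_top_iff.2 fun z _ => ?_)
    have hz : p z ∈ AddSubgroup.toZModSubmodule 2 (L.map p) := hS ▸ Submodule.mem_top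
    exact sup_le le_rfl hL (key L z hz)
  obtain ⟨y, hy, hle⟩ := h95_two hsp hS
  choose x hx hxy using hy
  refine ⟨x, hx, fun z hz => key _ z ?_⟩
  have h3 : Submodule.span (ZMod 2) (Set.range y) ≤
      AddSubgroup.toZModSubmodule 2 ((AddSubgroup.closure (Set.range x)).map p) := by
    refine Submodule.span_le.2 ?_
    rintro _ ⟨i, rfl⟩
    exact ⟨x i, AddSubgroup.subset_closure ⟨i, rfl⟩, hxy i⟩
  exact h3 (hle ⟨z, hz, rfl⟩)

theorem top_le_three (q : QO O) :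
    ⊤ ≤ AddSubgroup.closure (Set.range ![q.ω, q.π, q.ω * q.π]) ⊔ zTwo O := by
  intro x _
  obtain ⟨a, b, c, d, y, rfl⟩ := q.span x
  have h : ∀ i, ![q.ω, q.π, q.ω * q.π] i ∈
      AddSubgroup.closure (Set.range ![q.ω, q.π, q.ω * q.π]) := fun i =>
    AddSubgroup.subset_closure ⟨i, rfl⟩
  refine AddSubgroup.mem_sup.2 ⟨b • q.ω + c • q.π + d • (q.ω * q.π), add_mem (add_mem
    (zsmul_mem (h 0) b) (zsmul_mem (h 1) c)) (zsmul_mem (h 2) d), a + 2 * y, ⟨a, y, rfl⟩, ?_⟩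
  simp only [zsmul_eq_mul]
  abel

/-- a monotone sequence of subgroups containing the subgroup of finite index `zTwo O` -/
theorem lv_stab (q : QO O) : ∃ s, ∀ t ≥ s, lv φ ⊤ t = lv φ ⊤ s := by
  obtain ⟨S, hS, h⟩ := h97_fin q 1
  have := hS.to_subtype
  obtain ⟨s, hs⟩ := WellFoundedGT.monotone_chain_condition
    (⟨fun t => {x : S | x.1 ∈ lv φ ⊤ t}, fun _ _ h _ hx => lv_mono φ ⊤ h hx⟩ : ℕ →o Set S)
  refine ⟨s, fun t ht => le_antisymm (fun x hx => ?_) (lv_mono φ ⊤ ht)⟩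
  obtain ⟨z, hz, y, rfl⟩ := h x
  have h2 : ∀ t, 2 ^ 1 * y ∈ lv φ ⊤ t := fun t => zTwo_le_lv φ ⊤ t ⟨0, y, by simp⟩
  exact add_mem ((Set.ext_iff.1 (hs t ht) ⟨z, hz⟩).2 ((add_mem_cancel_right (h2 t)).1 hx)) (h2 s)

theorem h18_c (c : ℤ) : (c : O) = c • (1 : O) := (zsmul_one c).symm

theorem h18_2 : (2 : O) = (2 : ℤ) • (1 : O) := by simp

theorem h18_8 : (8 : O) = (8 : ℤ) • (1 : O) := by simp

set_option linter.unusedSimpArgs false in
/-- successive approximation -/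
theorem ld_refine {s : ℕ} (h : ∀ t ≥ s, lv φ ⊤ t = ⊤) {t : ℕ} (ht : s ≤ t) (x : O) (r : ℕ) :
    ∃ (g : G) (u v : ℤ) (y : O), Odd u ∧ Odd v ∧
      (φ g : O) = u + 2 ^ (t + 2) * (v * x + 2 ^ (r + 1) * y) := by
  induction r with
  | zero =>
    obtain ⟨g, -, u, y, hu, e⟩ : x ∈ lv φ ⊤ t := by rw [h t ht]; trivial
    exact ⟨g, u, 1, y, hu, odd_one, by simpa using e⟩
  | succ r ih =>
    obtain ⟨g, u, v, y, hu, hv, e⟩ := ih
    obtain ⟨g', -, u', y', hu', e'⟩ : y ∈ lv φ ⊤ (t + r + 1) := by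
      rw [h _ (by omega)]; trivial
    obtain ⟨k, hk⟩ := hu.add_odd hu'
    obtain rfl : u' = k + k - u := by omega
    refine ⟨g * g', u * (k + k - u), (k + k - u) * v,
      k * y + u * y' + 2 ^ (t + 1) * ((v * x + 2 ^ (r + 1) * y) * (y + 2 * y')), hu.mul hu',
      hu'.mul hv, ?_⟩
    rw [map_mul, Units.val_mul, e, e']
    simp only [h18_c (O := O), h18_2 (O := O), h18_8 (O := O), smul_pow, one_pow,
      smul_mul_assoc, mul_smul_comm, one_mul, mul_one,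
      mul_add, add_mul, mul_sub, sub_mul, mul_neg, neg_mul, mul_assoc]
    module

set_option linter.unusedSimpArgs false in
open scoped commutatorElement in
theorem h18_comm {a : ℕ} {g h : G} {u u' : ℤ} {X X' : O} (hu : Odd u) (hu' : Odd u')
    (hg : (φ g : O) = u + 2 ^ a * X) (hh : (φ h : O) = u' + 2 ^ a * X') :
    ∃ (w : ℤ) (z : O), Odd w ∧
      (φ ⁅g, h⁆ : O) = 1 + 2 ^ (2 * a) * (w * (X * X' - X' * X) + 2 ^ a * z) := by
  obtain ⟨w, z, hw, e⟩ := (Cg.inv (φ := φ) ⟨u, X, hu, hg⟩).mul (Cg.inv (φ := φ) ⟨u', X', hu', hh⟩)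
  have e1 : (φ ⁅g, h⁆ : O) = φ g * φ h * φ (g⁻¹ * h⁻¹) := by
    rw [← Units.val_mul, ← Units.val_mul, ← map_mul, ← map_mul, commutatorElement_def,
      mul_assoc (g * h)]
  have e2 : (φ h : O) * φ g * φ (g⁻¹ * h⁻¹) = 1 := by
    rw [← Units.val_mul, ← Units.val_mul, ← map_mul, ← map_mul,
      show h * g * (g⁻¹ * h⁻¹) = 1 by group, map_one, Units.val_one]
  have e3 : (φ g : O) * φ h = φ h * φ g + 2 ^ (2 * a) * (X * X' - X' * X) := by
    rw [hg, hh]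
    simp only [h18_c (O := O), h18_2 (O := O), h18_8 (O := O), smul_pow, one_pow,
      smul_mul_assoc, mul_smul_comm, one_mul, mul_one,
      mul_add, add_mul, mul_sub, sub_mul, mul_neg, neg_mul, mul_assoc]
    module
  refine ⟨w, (X * X' - X' * X) * z, hw, ?_⟩
  rw [e1, e3, add_mul, e2, e]
  simp only [h18_c (O := O), h18_2 (O := O), h18_8 (O := O), smul_pow, one_pow,
    smul_mul_assoc, mul_smul_comm, one_mul, mul_one,
    mul_add, add_mul, mul_sub, sub_mul, mul_neg, neg_mul, mul_assoc]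
  module

set_option linter.unusedSimpArgs false in
open scoped commutatorElement in
theorem h18_key {s : ℕ} (h : ∀ t ≥ s, lv φ ⊤ t = ⊤) {τ : ℕ} (hτ : s ≤ τ) (A B : O) :
    ∃ c ∈ ⁅cgS φ (τ + 2), cgS φ (τ + 2)⁆, ∃ (k : ℤ) (z : O),
      (φ c : O) = 1 + 2 ^ (2 * τ + 6) * ((2 * k + 1 : ℤ) * (A * B - B * A) + 8 * z) := by
  obtain ⟨g, u, v, y, hu, hv, e⟩ := ld_refine φ h (t := τ + 1) (by omega) A 2
  obtain ⟨g', u', v', y', hu', hv', e'⟩ := ld_refine φ h (t := τ + 1) (by omega) B 2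
  obtain ⟨w, z, hw, e1⟩ := h18_comm φ hu hu' e e'
  obtain ⟨k, hk⟩ := (hw.mul hv).mul hv'
  refine ⟨⁅g, g'⁆, Subgroup.commutator_mem_commutator
    (cgS_anti φ (Nat.le_succ _) ⟨u, _, hu, e⟩) (cgS_anti φ (Nat.le_succ _) ⟨u', _, hu', e'⟩), k,
    w * (v * (A * y' - y' * A) + v' * (y * B - B * y) + 8 * (y * y' - y' * y)) + 2 ^ τ * z, ?_⟩
  rw [e1, ← hk]
  simp only [h18_c (O := O), h18_2 (O := O), h18_8 (O := O), smul_pow, one_pow,
    smul_mul_assoc, mul_smul_comm, one_mul, mul_one,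
    mul_add, add_mul, mul_sub, sub_mul, mul_neg, neg_mul, mul_assoc]
  module

set_option linter.unusedSimpArgs false in
/-- With `τ = s + J + 3`, `C = ⁅cgS τ', cgS τ'⁆`: commutators of elements with leading terms
`ω, π` and `ω, ω π` have leading terms `π`, `ω π` at level `2 τ` (`ω π - π ω = (2 ω + 1) π`); for
`π, ω π` (known modulo `8`, `ld_refine`) the bracket is
`-(2 ω + 1) π ^ 2 ≡ -2 m - 4 m ω` modulo `8` (`m` odd), which gives the leading term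
`ω` at level `2 τ + 2`.  `lv_mono`, `top_le_three`, `zTwo_le_lv`, `lv_le`. -/
theorem perf (q : QO O) {s : ℕ} (h : ∀ t ≥ s, lv φ ⊤ t = ⊤) :
    Perf fun e => cgS φ (s + e + 2) := by
  intro J
  obtain ⟨m, y₀, ⟨l, rfl⟩, hπ⟩ := q.hπ
  have hω : q.ω * q.ω = -q.ω - 1 := by
    rw [← pow_two, ← sub_eq_zero, ← q.hω]; abel
  have hc : q.π * q.ω = -(q.ω * q.π) - q.π := by
    rw [q.hc, pow_two, hω]; noncomm_ring
  have c1 : q.ω * q.π - q.π * q.ω = q.π + 2 * (q.ω * q.π) := by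
    rw [hc]; noncomm_ring
  have c2 : q.ω * (q.ω * q.π) - q.ω * q.π * q.ω = q.ω * q.π - 2 * (q.ω * q.π) - 2 * q.π := by
    rw [mul_assoc, ← mul_sub, c1, mul_add, ← mul_assoc q.ω 2, ← (Commute.ofNat_left 2 q.ω).eq,
      mul_assoc 2, ← mul_assoc q.ω q.ω, hω]
    noncomm_ring
  have c3 : q.π * (q.ω * q.π) - q.ω * q.π * q.π = -(q.π ^ 2 + 2 * (q.ω * q.π ^ 2)) := by
    rw [← mul_assoc, ← sub_mul, ← neg_sub, c1]; noncomm_ring
  have h4 : (4 : O) = (4 : ℤ) • (1 : O) := by simp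
  have m1 : q.π ∈ lv φ ⁅cgS φ (s + J + 2), cgS φ (s + J + 2)⁆ (2 * (s + J) + 4) := by
    obtain ⟨c, hc, k, z, e⟩ := h18_key φ h (Nat.le_add_right s J) q.ω q.π
    refine ⟨c, hc, 1, k * q.π + (2 * k + 1 : ℤ) * (q.ω * q.π) + 2 * (2 * z), odd_one, ?_⟩
    rw [e, c1]
    simp only [h18_c (O := O), h18_2 (O := O), h18_8 (O := O), smul_pow, one_pow,
      smul_mul_assoc, mul_smul_comm, one_mul, mul_one,
      mul_add, add_mul, mul_sub, sub_mul, mul_neg, neg_mul, mul_assoc]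
    module
  have m2 : q.ω * q.π ∈ lv φ ⁅cgS φ (s + J + 2), cgS φ (s + J + 2)⁆ (2 * (s + J) + 4) := by
    obtain ⟨c, hc, k, z, e⟩ := h18_key φ h (Nat.le_add_right s J) q.ω (q.ω * q.π)
    refine ⟨c, hc, 1, k * (q.ω * q.π) - (2 * k + 1 : ℤ) * (q.ω * q.π + q.π) + 2 * (2 * z),
      odd_one, ?_⟩
    rw [e, c2]
    simp only [h18_c (O := O), h18_2 (O := O), h18_8 (O := O), smul_pow, one_pow,
      smul_mul_assoc, mul_smul_comm, one_mul, mul_one,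
      mul_add, add_mul, mul_sub, sub_mul, mul_neg, neg_mul, mul_assoc]
    module
  have m3 : q.ω ∈ lv φ ⁅cgS φ (s + J + 2), cgS φ (s + J + 2)⁆ (2 * (s + J) + 6) := by
    obtain ⟨c, hc, k, z, e⟩ := h18_key φ h (Nat.le_add_right s J) q.π (q.ω * q.π)
    refine ⟨c, hc, 2 * -(2 ^ (2 * (s + J) + 6) * (2 * k + 1) * (2 * l + 1)) + 1,
      z - (2 * k * l + k + l + 1 : ℤ) * q.ω - (2 * k + 1 : ℤ) * (y₀ + 2 * (q.ω * y₀)),
      odd_two_mul_add_one _, ?_⟩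
    rw [e, c3, hπ, h4]
    simp only [h18_c (O := O), h18_2 (O := O), h18_8 (O := O), smul_pow, one_pow,
      smul_mul_assoc, mul_smul_comm, one_mul, mul_one,
      mul_add, add_mul, mul_sub, sub_mul, mul_neg, neg_mul, mul_assoc]
    module
  refine ⟨s + 2 * J + 6, ?_⟩
  have := lv_le φ (C := ⁅cgS φ (s + J + 2), cgS φ (s + J + 2)⁆) (t := 2 * (s + J) + 6)
    (le_top.trans ((top_le_three q).trans (sup_le ((AddSubgroup.closure_le _).2 ?_)
      (zTwo_le_lv φ _ _))))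
  · rwa [show 2 * (s + J) + 6 + 2 = s + (s + 2 * J + 6) + 2 by omega,
      show 2 * (s + J) + 6 + 3 = s + (s + 2 * J + 6 + 1) + 2 by omega] at this
  · rintro _ ⟨i, rfl⟩
    fin_cases i
    · exact m3
    · exact lv_mono φ _ (by omega) m1
    · exact lv_mono φ _ (by omega) m2

/-- `g i` with leading term `x i` at level `s`; `Ld.pow`, `lv_le` -/
theorem gd_of (q : QO O) {s : ℕ} (h : ∀ t ≥ s, lv φ ⊤ t = lv φ ⊤ s) {d : ℕ} {x : Fin d → O}
    (hx : ∀ i, x i ∈ lv φ ⊤ s)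
    (hL : lv φ ⊤ s ≤ AddSubgroup.closure (Set.range x) ⊔ zTwo O) :
    ∃ g : Fin d → G, GD (fun e => cgS φ (s + e + 2)) g := by
  choose g _ hg using hx
  refine ⟨g, fun e f hef => cgS_anti φ (by omega), fun e => cgS_normal φ _,
    fun e => cgS_fin φ q _, fun i => (hg i).cg, fun e γ hγ => cgS_sq φ (s + e + 1) hγ,
    fun e f => (cgS_comm φ _ _).trans (cgS_anti φ (by omega)), fun e => ?_⟩
  refine lv_le φ (t := s + e) ?_
  rw [h (s + e) (by omega)]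
  refine hL.trans (sup_le ((AddSubgroup.closure_le _).2 ?_) (zTwo_le_lv φ _ _))
  rintro _ ⟨i, rfl⟩
  exact ⟨_, Subgroup.subset_closure ⟨i, rfl⟩, (hg i).pow e⟩

theorem exists_gd (q : QO O) : ∃ (Γ : ℕ → Subgroup G) (d : ℕ) (g : Fin d → G), GD Γ g ∧
    (d ≤ 2 ∨ d ≤ 3 ∧ Perf Γ) ∧ ∀ t, ∀ γ ∈ Γ t, Cg φ t γ := by
  obtain ⟨s, hs⟩ := lv_stab φ q
  have h3 : ∀ t, ∀ γ ∈ cgS φ (s + t + 2), Cg φ t γ := fun t γ h =>
    cgS_anti φ (show t ≤ s + t + 2 by omega) h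
  by_cases h : lv φ ⊤ s = ⊤
  · obtain ⟨g, hg⟩ := gd_of φ q hs (x := ![q.ω, q.π, q.ω * q.π]) (fun _ => h ▸ trivial)
      (h ▸ top_le_three q)
    exact ⟨_, _, g, hg, Or.inr ⟨le_rfl, perf φ q fun t ht => (hs t ht).trans h⟩, h3⟩
  · obtain ⟨x, h1, h2⟩ := exists_two q (zTwo_le_lv φ ⊤ s) h
    obtain ⟨g, hg⟩ := gd_of φ q hs h1 h2
    exact ⟨_, _, g, hg, Or.inl le_rfl, h3⟩

end Crest.Agent.R007
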