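import Crest.Agent.R007.CA

/-! Row 7, block C: a quotient of growth one is finite when the Lie algebra is perfect. -/

set_option autoImplicit false
set_option linter.unusedSectionVars false

namespace Crest.Agent.R007

variable {B H : Type} [CommRing B] [AddCommGroup H] [Module B H] [TopologicalSpace H]
  [IsTopologicalAddGroup H] [CompactSpace H] [T2Space H]
  [ContinuousConstSMul B H] {G : Type} [Group G] {ρ : G →* Module.End B H} {Γ : ℕ → Subgroup G}
  {d : ℕ} {g : Fin d → G} {F : ℕ → Submodule B H}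

theorem h78_mem_sup {N : Submodule B H} {b : B} {y : H} :
    y ∈ N ⊔ mulTop H b ↔ ∃ a, y - b • a ∈ N := by
  rw [Submodule.mem_sup]
  constructor
  · rintro ⟨z, hz, _, ⟨a, rfl⟩, rfl⟩
    exact ⟨a, by simpa using hz⟩
  · rintro ⟨a, ha⟩
    exact ⟨_, ha, b • a, ⟨a, rfl⟩, sub_add_cancel _ _⟩

theorem h78_anti (x : B) : Antitone fun n : ℕ => mulTop H (x ^ n) := by
  refine antitone_nat_of_succ_le fun n => ?_
  rintro _ ⟨a, rfl⟩
  exact ⟨x • a, by simp only [LinearMap.lsmul_apply, pow_succ, mul_smul]⟩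

theorem h78_sat {N : Submodule B H} {x : B} (h : InjMod N x) (n : ℕ) : InjMod N (x ^ n) := by
  induction n with
  | zero => intro y hy; simpa using hy
  | succ n ih => intro y hy; rw [pow_succ, mul_smul] at hy; exact h y (ih _ hy)

/-- The valuation argument.  `Z σ = ker (D ^ σ)` is closed and `x`-saturated.  The images of the
`Z σ` in the finite group `H ⧸ x H` stabilise at `σ`; then `Z σ' ≤ Z σ ⊔ x ^ n H` for all `n`, so
`Z σ' = Z σ =: Z` (`mem_of_closed'`).  `exists_le_of_open` for `(Z ⊔ x ^ n H).comap D` and the open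
`Z ⊔ x H` gives `e`; by induction `D ψ ∈ Z ⊔ x ^ (e + n) H → ψ ∈ Z ⊔ x ^ n H`, then
`D ^ n ψ ∈ Z ⊔ x ^ (e n + n₀) H → ψ ∈ Z ⊔ x ^ n₀ H`. -/
theorem abs_val {x : B} (hx : ∀ ψ : H, x • ψ = 0 → ψ = 0)
    (hfin : (mulTop H x).toAddSubgroup.FiniteIndex)
    (hsep : ∀ ψ : H, (∀ n, ψ ∈ mulTop H (x ^ n)) → ψ = 0) {D : Module.End B H}
    (hD : Continuous D) : ∃ σ e : ℕ, ∀ ψ : H,
      (∀ n₀, ∃ n, (D ^ n) ψ ∈ mulTop H (x ^ (e * n + n₀))) → (D ^ σ) ψ = 0 := by
  have hDc : ∀ n : ℕ, Continuous (D ^ n) := fun n => by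
    induction n with
    | zero => exact continuous_id
    | succ n ih => rw [pow_succ]; exact ih.comp hD
  have hZc : ∀ n : ℕ, IsClosed (LinearMap.ker (D ^ n) : Set H) := fun n =>
    isClosed_eq (hDc n) continuous_const
  have hZm : Monotone fun n : ℕ => LinearMap.ker (D ^ n) := by
    refine monotone_nat_of_le_succ fun n y hy => ?_
    rw [LinearMap.mem_ker] at hy ⊢
    rw [pow_succ', Module.End.mul_apply, hy, map_zero]
  have hZs : ∀ n : ℕ, InjMod (LinearMap.ker (D ^ n)) x := fun n y hy => by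
    rw [LinearMap.mem_ker, map_smul] at hy
    exact hx _ hy
  have hcl : ∀ {N : Submodule B H}, IsClosed (N : Set H) → ∀ y,
      (∀ n, y ∈ N ⊔ mulTop H (x ^ n)) → y ∈ N := fun hN y hy =>
    mem_of_closed' (F := fun n : ℕ => mulTop H (x ^ n))
      (fun n n' => ⟨max n n', h78_anti x (le_max_left _ _), h78_anti x (le_max_right _ _)⟩)
      (fun n => isClosed_mulTop _) hsep hN hy
  have : Finite (H ⧸ mulTop H x) :=
    AddSubgroup.finite_quotient_of_finiteIndex (H := (mulTop H x).toAddSubgroup)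
  obtain ⟨σ, hσ⟩ := monotone_stabilizes_iff_noetherian.2
    (inferInstance : IsNoetherian B (H ⧸ mulTop H x))
    ⟨fun n => (LinearMap.ker (D ^ n)).map (mulTop H x).mkQ,
      fun n m h => Submodule.map_mono (hZm h)⟩
  set Z := LinearMap.ker (D ^ σ) with hZ
  have h1 : ∀ y ∈ LinearMap.ker (D ^ (σ + 1)), ∃ a, y - x • a ∈ Z := by
    intro y hy
    have h2 : (mulTop H x).mkQ y ∈ Z.map (mulTop H x).mkQ := by
      have := hσ (σ + 1) (Nat.le_succ σ)
      simp only [OrderHom.coe_mk] at this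
      rw [this]
      exact Submodule.mem_map_of_mem hy
    obtain ⟨z, hz, e⟩ := h2
    obtain ⟨a, ha⟩ := (Submodule.Quotient.eq _).1 e.symm
    refine ⟨a, ?_⟩
    have ha' : x • a = y - z := ha
    rw [ha', sub_sub_cancel]
    exact hz
  have h2 : ∀ y, D y ∈ Z → y ∈ Z := by
    intro y hy
    have hy' : y ∈ LinearMap.ker (D ^ (σ + 1)) := by
      rw [LinearMap.mem_ker, pow_succ, Module.End.mul_apply]; exact hy
    refine hcl (hZc σ) y fun n => h78_mem_sup.2 ?_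
    induction n with
    | zero => exact ⟨y, by simp⟩
    | succ n ih =>
      obtain ⟨a, ha⟩ := ih
      have h3 : a ∈ LinearMap.ker (D ^ (σ + 1)) := h78_sat (hZs _) n a (by
        have := sub_mem hy' (hZm (Nat.le_succ σ) ha)
        rwa [sub_sub_cancel] at this)
      obtain ⟨b, hb⟩ := h1 a h3
      refine ⟨b, ?_⟩
      have := add_mem ha (Z.smul_mem (x ^ n) hb)
      rwa [smul_sub, ← mul_smul, ← pow_succ, sub_add_sub_cancel] at this
  have h3 : ∀ y ∈ Z, D y ∈ Z := fun y hy => by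
    rw [hZ, LinearMap.mem_ker] at hy ⊢
    rw [← Module.End.mul_apply, ← pow_succ, pow_succ', Module.End.mul_apply, hy, map_zero]
  have hop : IsOpen ((Z ⊔ mulTop H x : Submodule B H) : Set H) :=
    AddSubgroup.isOpen_mono (H₁ := (mulTop H x).toAddSubgroup)
      (H₂ := (Z ⊔ mulTop H x).toAddSubgroup) (fun y hy => Submodule.mem_sup_right hy)
      (AddSubgroup.isOpen_of_isClosed_of_finiteIndex _ (isClosed_mulTop x))
  obtain ⟨e, he⟩ := exists_le_of_open (C := fun n => (Z ⊔ mulTop H (x ^ n)).comap D)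
    (fun n m h => Submodule.comap_mono (sup_le_sup_left (h78_anti x h) _))
    (fun n => (isClosed_sup (hZc σ) (isClosed_mulTop _)).preimage hD) hop
    fun y hy => Submodule.mem_sup_left (h2 y (hcl (hZc σ) _ hy))
  have h4 : ∀ n ψ, D ψ ∈ Z ⊔ mulTop H (x ^ (e + n)) → ψ ∈ Z ⊔ mulTop H (x ^ n) := by
    intro n
    induction n with
    | zero => exact fun ψ _ => h78_mem_sup.2 ⟨ψ, by simp⟩
    | succ n ih =>
      intro ψ hψ
      have hψ' := sup_le_sup_left (h78_anti x (show e + n ≤ e + (n + 1) by omega)) Z hψ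
      obtain ⟨a, ha⟩ := h78_mem_sup.1 (ih ψ hψ')
      obtain ⟨b, hb⟩ := h78_mem_sup.1 hψ'
      have h5 : D a - x ^ e • b ∈ Z := h78_sat (hZs σ) n _ (by
        have := sub_mem hb (h3 _ ha)
        rwa [map_sub, map_smul, sub_sub_sub_cancel_left, add_comm, pow_add, mul_smul,
          ← smul_sub] at this)
      obtain ⟨c, hc⟩ := h78_mem_sup.1 (he (show a ∈ (Z ⊔ mulTop H (x ^ e)).comap D from
        h78_mem_sup.2 ⟨b, h5⟩))
      refine h78_mem_sup.2 ⟨c, ?_⟩
      have := add_mem ha (Z.smul_mem (x ^ n) hc)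
      rwa [smul_sub, ← mul_smul, ← pow_succ, sub_add_sub_cancel] at this
  have h5 : ∀ n₀ n ψ, (D ^ n) ψ ∈ Z ⊔ mulTop H (x ^ (e * n + n₀)) →
      ψ ∈ Z ⊔ mulTop H (x ^ n₀) := by
    intro n₀ n
    induction n with
    | zero => intro ψ hψ; simpa using hψ
    | succ n ih =>
      intro ψ hψ
      refine ih ψ (h4 _ _ ?_)
      rwa [pow_succ', Module.End.mul_apply,
        show e * (n + 1) + n₀ = e + (e * n + n₀) by ring] at hψ
  refine ⟨σ, e, fun ψ hψ => hcl (hZc σ) ψ fun n₀ => ?_⟩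
  obtain ⟨n, hn⟩ := hψ n₀
  exact h5 n₀ n ψ (Submodule.mem_sup_right hn)

/-- `D = L_A - R_A` on an algebra of characteristic `2` -/
theorem ad_pow_two {E : Type} [Ring E] [Algebra B E] (two : ∀ φ : E, φ + φ = 0) (A φ : E) (k : ℕ) :
    ((LinearMap.mulLeft B A - LinearMap.mulRight B A) ^ 2 ^ k) φ = A ^ 2 ^ k * φ - φ * A ^ 2 ^ k := by
  induction k generalizing φ with
  | zero => simp
  | succ k ih =>
    rw [pow_succ 2 k, mul_two, pow_add, pow_add, Module.End.mul_apply, ih, ih]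
    have h1 := two (A ^ 2 ^ k * φ * A ^ 2 ^ k)
    have h2 := two (φ * (A ^ 2 ^ k * A ^ 2 ^ k))
    rw [← sub_eq_zero, ← sub_eq_zero.2 (h2.trans h1.symm)]
    noncomm_ring

theorem h90_mem_mulTop {M : Type} [AddCommGroup M] [Module B M] {b : B} {m : M} :
    m ∈ mulTop M b ↔ ∃ y, b • y = m := Iff.rfl

theorem h90_end_mulTop {M : Type} [AddCommGroup M] [Module B M] {b : B}
    (hb : ∀ m : M, b • m = 0 → m = 0) {ψ : Module.End B M} :
    ψ ∈ mulTop (Module.End B M) b ↔ ∀ m, ψ m ∈ mulTop M b := by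
  refine ⟨fun ⟨χ, h⟩ m => ⟨χ m, by rw [← h]; rfl⟩, fun h => ?_⟩
  choose χ hχ using fun m => h90_mem_mulTop.1 (h m)
  have inj : ∀ m m' : M, b • m = b • m' → m = m' := fun m m' e =>
    sub_eq_zero.1 (hb _ (by rw [smul_sub, e, sub_self]))
  refine ⟨⟨⟨χ, fun m m' => inj _ _ ?_⟩, fun c m => inj _ _ ?_⟩, LinearMap.ext hχ⟩
  · rw [smul_add, hχ, hχ, hχ, map_add]
  · simp only [RingHom.id_apply]
    rw [smul_comm, hχ, hχ, map_smul]

theorem h90_pow_inj {M : Type} [AddCommGroup M] [Module B M] {x : B}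
    (hx : ∀ m : M, x • m = 0 → m = 0) (n : ℕ) : ∀ m : M, x ^ n • m = 0 → m = 0 := by
  induction n with
  | zero => simp
  | succ n ih => exact fun m h => hx m (ih _ (by rwa [pow_succ, mul_smul] at h))

theorem h90_end_fin {M : Type} [AddCommGroup M] [Module B M] {x : B}
    (hx : ∀ m : M, x • m = 0 → m = 0) (hfin : (mulTop M x).toAddSubgroup.FiniteIndex) :
    (mulTop (Module.End B M) x).toAddSubgroup.FiniteIndex := by
  let Θ : Module.End B M →+ (M ⧸ (mulTop M x).toAddSubgroup → M ⧸ (mulTop M x).toAddSubgroup) :=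
    { toFun := fun ψ q => QuotientAddGroup.mk (ψ q.out)
      map_zero' := rfl
      map_add' := fun _ _ => rfl }
  have : Θ.ker.FiniteIndex := AddSubgroup.finiteIndex_ker Θ
  refine AddSubgroup.finiteIndex_of_le (H := Θ.ker) fun ψ hψ => (h90_end_mulTop hx).2 fun m => ?_
  have h1 : ψ (QuotientAddGroup.mk (s := (mulTop M x).toAddSubgroup) m).out ∈ mulTop M x :=
    (QuotientAddGroup.eq_zero_iff _).1 (congrFun hψ (QuotientAddGroup.mk m))
  obtain ⟨⟨z, y, hy⟩, hz⟩ := QuotientAddGroup.mk_out_eq_add (mulTop M x).toAddSubgroup m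
  rw [hz, map_add] at h1
  have h2 : ψ z ∈ mulTop M x := ⟨ψ y, by rw [← hy]; simp⟩
  simpa using sub_mem h1 h2

/-- `abs_val` for `E = Module.End B H` with the topology induced from `H → H` (a closed embedding,
so `E` is compact), `D = L_A - R_A`; `x ^ n E = {ψ | ∀ m, ψ m ∈ x ^ n H}` as `x` is injective;
`E ⧸ x E` injects into the maps `H ⧸ x H → H ⧸ x H`; `ad_pow_two` -/
theorem comm_abs (two : ∀ m : H, m + m = 0) {x : B} (hx : ∀ m : H, x • m = 0 → m = 0)
    (hfin : (mulTop H x).toAddSubgroup.FiniteIndex)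
    (hsep : ∀ m : H, (∀ n, m ∈ mulTop H (x ^ n)) → m = 0) {A : Module.End B H}
    (hA : Continuous A) : ∃ σ e : ℕ, ∀ φ : Module.End B H,
      (∀ n₀, ∃ k, ∀ m, (A ^ 2 ^ k * φ - φ * A ^ 2 ^ k) m ∈ mulTop H (x ^ (e * 2 ^ k + n₀))) →
      ∀ k, σ ≤ 2 ^ k → A ^ 2 ^ k * φ = φ * A ^ 2 ^ k := by
  let _ : TopologicalSpace (Module.End B H) :=
    TopologicalSpace.induced (fun ψ => (ψ : H → H)) inferInstance
  have hemb : Topology.IsEmbedding fun ψ : Module.End B H => (ψ : H → H) :=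
    ⟨⟨rfl⟩, DFunLike.coe_injective⟩
  have hev : ∀ m : H, Continuous fun ψ : Module.End B H => ψ m := fun m =>
    (continuous_apply m).comp hemb.continuous
  have hcont : ∀ {X : Type} [TopologicalSpace X] {f : X → Module.End B H},
      (∀ m, Continuous fun a => f a m) → Continuous f := fun h =>
    hemb.continuous_iff.2 (continuous_pi h)
  have hcl : IsClosed (Set.range fun ψ : Module.End B H => (ψ : H → H)) := by
    have : (Set.range fun ψ : Module.End B H => (ψ : H → H)) =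
        (⋂ a, ⋂ b, {f : H → H | f (a + b) = f a + f b}) ∩
          ⋂ (c : B), ⋂ a, {f : H → H | f (c • a) = c • f a} := by
      ext f
      simp only [Set.mem_range, Set.mem_inter_iff, Set.mem_iInter, Set.mem_setOf_eq]
      exact ⟨by rintro ⟨ψ, rfl⟩; exact ⟨map_add ψ, map_smul ψ⟩,
        fun h => ⟨⟨⟨f, h.1⟩, h.2⟩, rfl⟩⟩
    rw [this]
    exact (isClosed_iInter fun a => isClosed_iInter fun b =>
      isClosed_eq (by fun_prop) (by fun_prop)).inter
      (isClosed_iInter fun c => isClosed_iInter fun a => isClosed_eq (by fun_prop) (by fun_prop))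
  have : CompactSpace (Module.End B H) := (Topology.IsClosedEmbedding.mk hemb hcl).compactSpace
  have : T2Space (Module.End B H) := hemb.t2Space
  have : IsTopologicalAddGroup (Module.End B H) :=
    { continuous_add := hcont fun m =>
        ((hev m).comp continuous_fst).add ((hev m).comp continuous_snd)
      continuous_neg := hcont fun m => (hev m).neg }
  have : ContinuousConstSMul B (Module.End B H) := ⟨fun c => hcont fun m => (hev m).const_smul c⟩
  have two' : ∀ φ : Module.End B H, φ + φ = 0 := fun φ => LinearMap.ext fun m => two _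
  obtain ⟨σ, e, h⟩ := abs_val (H := Module.End B H) (x := x)
    (fun ψ h => LinearMap.ext fun m => hx _ (LinearMap.congr_fun h m)) (h90_end_fin hx hfin)
    (fun ψ h => LinearMap.ext fun m => hsep _ fun n => (h90_end_mulTop (h90_pow_inj hx n)).1 (h n) m)
    (D := LinearMap.mulLeft B A - LinearMap.mulRight B A)
    (hcont fun m => (hA.comp (hev m)).sub (hev (A m)))
  refine ⟨σ, e, fun φ hφ k hk => ?_⟩
  have h0 := h φ fun n₀ => by
    obtain ⟨k, hk⟩ := hφ n₀
    exact ⟨2 ^ k, by rw [ad_pow_two two']; exact (h90_end_mulTop (h90_pow_inj hx _)).2 hk⟩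
  rw [← sub_eq_zero, ← ad_pow_two (B := B) two', ← Nat.sub_add_cancel hk, pow_add,
    Module.End.mul_apply, h0, map_zero]

/-- by induction on `l` (`FX.gen`): `F (k₀ + l) ≤ N ⊔ x F l ⊔ F (k₀ + l + 1)`; iterate and use
`mem_of_closed` (`N ⊔ x F l` is closed): `F (k₀ + l) ≤ N ⊔ x F l`; induction on `t` -/
theorem FM.cmp (h : FM ρ Γ g F) {N : Submodule B H} (hN : IsClosed (N : Set H))
    (hρ : ∀ γ, ∀ y ∈ N, ρ γ y ∈ N) {x : B} {k₀ : ℕ} (hx : F k₀ ≤ N ⊔ mulTop H x) (t : ℕ) :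
    F (k₀ * t) ≤ N ⊔ mulTop H (x ^ t) := by
  have hF := h.fx.anti
  have hW : ∀ l, F (k₀ + l) ≤ N ⊔ (F l).map (LinearMap.lsmul B H x) ⊔ F (k₀ + l + 1) := by
    intro l
    induction l with
    | zero =>
      rw [h.fx.zero, Submodule.map_top]
      exact hx.trans le_sup_left
    | succ l ih =>
      refine (h.fx.gen (k₀ + l)).trans (sup_le (iSup_le fun i => ?_) le_sup_right)
      refine (Submodule.map_mono ih).trans ?_
      rw [Submodule.map_sup, Submodule.map_sup]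
      refine sup_le_sup (sup_le_sup ?_ ?_) ?_
      · rintro _ ⟨y, hy, rfl⟩
        exact N.sub_mem (hρ _ y hy) hy
      · rintro _ ⟨_, ⟨y, hy, rfl⟩, rfl⟩
        exact ⟨_, h.fx.raise i l y hy, (map_smul _ x y).symm⟩
      · rintro _ ⟨y, hy, rfl⟩
        exact h.fx.raise i _ y hy
  have hW' : ∀ l j, F (k₀ + l) ≤ N ⊔ (F l).map (LinearMap.lsmul B H x) ⊔ F (k₀ + l + j) := by
    intro l j
    induction j with
    | zero => exact le_sup_right
    | succ j ih =>
      refine ih.trans (sup_le le_sup_left ?_)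
      rw [add_assoc, ← add_assoc (k₀ + l), add_assoc k₀ l]
      exact (hW (l + j)).trans (sup_le_sup_right (sup_le_sup_left
        (Submodule.map_mono (hF (Nat.le_add_right _ _))) _) _)
  have hS : ∀ l, F (k₀ + l) ≤ N ⊔ (F l).map (LinearMap.lsmul B H x) := by
    intro l y hy
    refine mem_of_closed hF h.op h.sep (isClosed_sup hN ?_) fun k =>
      sup_le_sup_left (hF (Nat.le_add_left _ _)) _ (hW' l k hy)
    exact ((isClosed_of_open (h.op l)).isCompact.image (continuous_const_smul x)).isClosed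
  induction t with
  | zero =>
    intro y _
    exact Submodule.mem_sup_right ⟨y, by simp⟩
  | succ t ih =>
    rw [Nat.mul_succ, add_comm]
    refine (hS _).trans (sup_le le_sup_left ((Submodule.map_mono ih).trans ?_))
    rw [Submodule.map_sup]
    refine sup_le_sup ?_ ?_
    · rintro _ ⟨y, hy, rfl⟩
      exact N.smul_mem x hy
    · rintro _ ⟨_, ⟨y, rfl⟩, rfl⟩
      exact ⟨y, by simp only [LinearMap.lsmul_apply]; rw [pow_succ', mul_smul]⟩

theorem h67_mem_mulTop (N : Submodule B H) (b : B) (y : H) :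
    N.mkQ y ∈ mulTop (H ⧸ N) b ↔ y ∈ N ⊔ mulTop H b := by
  constructor
  · rintro ⟨z, hz⟩
    obtain ⟨z, rfl⟩ := N.mkQ_surjective z
    rw [LinearMap.lsmul_apply, ← map_smul, N.mkQ_apply, N.mkQ_apply, Submodule.Quotient.eq] at hz
    have : y = -(b • z - y) + b • z := by abel
    rw [this]
    exact Submodule.add_mem_sup (N.neg_mem hz) ⟨z, rfl⟩
  · intro hy
    obtain ⟨n, hn, _, ⟨z, rfl⟩, rfl⟩ := Submodule.mem_sup.1 hy
    refine ⟨N.mkQ z, ?_⟩
    rw [map_add, N.mkQ_apply n, (Submodule.Quotient.mk_eq_zero N).2 hn, zero_add,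
      LinearMap.lsmul_apply, LinearMap.lsmul_apply, map_smul]

/-- `comm_abs` for `H ⧸ N` (quotient topology), `A`, `φ` induced by `ρ γ`, `ρ δ`
(`Submodule.mapQ`); `J` with `σ ≤ 2 ^ J`, `k₀ (e + 1) ≤ 2 ^ (J + 2)`; for `n₀` take `k = n₀`;
`ρ a ρ δ - ρ δ ρ a = (ρ ⁅a, δ⁆ - 1) ρ δ ρ a` with `a = γ ^ 2 ^ k ∈ Γ k` (`GD.pow_mem`),
`⁅a, δ⁆ ∈ Γ (k + J + 2)`; `FM.raise`, `FM.cmp` -/
theorem FM.comm_pow (h : FM ρ Γ g F) (hΓ : GD Γ g) {N : Submodule B H}
    (hN : IsClosed (N : Set H)) (hρ : ∀ γ, ∀ y ∈ N, ρ γ y ∈ N) {x : B} (hinj : InjMod N x)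
    {k₀ : ℕ} (hx : F k₀ ≤ N ⊔ mulTop H x)
    (hnil : ∀ y, (∀ m, y ∈ N ⊔ mulTop H (x ^ m)) → y ∈ N)
    {γ : G} (hγ : γ ∈ Γ 0) : ∃ J, ∀ δ ∈ Γ J, ∀ y,
      ρ (γ ^ 2 ^ J) (ρ δ y) - ρ δ (ρ (γ ^ 2 ^ J) y) ∈ N := by
  haveI := hN
  haveI : CompactSpace (H ⧸ N) := Quotient.compactSpace
  haveI : ContinuousConstSMul B (H ⧸ N) := ⟨fun b => by
    rw [N.isQuotientMap_mkQ.continuous_iff]
    have : (fun z : H ⧸ N => b • z) ∘ N.mkQ = N.mkQ ∘ fun y => b • y :=
      funext fun y => (map_smul N.mkQ b y).symm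
    rw [this]
    exact N.isQuotientMap_mkQ.continuous.comp (continuous_const_smul b)⟩
  let R : G → Module.End B (H ⧸ N) := fun a => N.mapQ N (ρ a) (hρ a)
  have hR : ∀ a y, R a (N.mkQ y) = N.mkQ (ρ a y) := fun a y => rfl
  have hRp : ∀ (n : ℕ) y, (R γ ^ n) (N.mkQ y) = N.mkQ (ρ (γ ^ n) y) := by
    intro n
    induction n with
    | zero => intro y; simp
    | succ n ih =>
      intro y
      rw [pow_succ, Module.End.mul_apply, hR, ih, pow_succ, map_mul, Module.End.mul_apply]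
  have hcomm : ∀ (n : ℕ) δ y, (R γ ^ n * R δ - R δ * R γ ^ n) (N.mkQ y) =
      N.mkQ (ρ (γ ^ n) (ρ δ y) - ρ δ (ρ (γ ^ n) y)) := by
    intro n δ y
    rw [LinearMap.sub_apply, Module.End.mul_apply, Module.End.mul_apply, hR, hRp, hRp, hR, map_sub]
  obtain ⟨σ, e, hσ⟩ := comm_abs (H := H ⧸ N) (x := x) (A := R γ)
    (fun m => by
      obtain ⟨y, rfl⟩ := N.mkQ_surjective m
      rw [← map_add, h.two, map_zero])
    (fun m hm => by
      obtain ⟨y, rfl⟩ := N.mkQ_surjective m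
      rw [← map_smul, N.mkQ_apply, Submodule.Quotient.mk_eq_zero] at hm
      exact (Submodule.Quotient.mk_eq_zero N).2 (hinj y hm))
    (by
      haveI := h.fx.finiteIndex k₀
      have h1 : ((mulTop (H ⧸ N) x).toAddSubgroup.comap N.mkQ.toAddMonoidHom).FiniteIndex :=
        AddSubgroup.finiteIndex_of_le (H := (F k₀).toAddSubgroup) fun y hy =>
          (h67_mem_mulTop N x y).2 (hx hy)
      refine ⟨?_⟩
      rw [← AddSubgroup.index_comap_of_surjective _ (f := N.mkQ.toAddMonoidHom) N.mkQ_surjective]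
      exact h1.index_ne_zero)
    (fun m hm => by
      obtain ⟨y, rfl⟩ := N.mkQ_surjective m
      exact (Submodule.Quotient.mk_eq_zero N).2 (hnil y fun n => (h67_mem_mulTop N _ y).1 (hm n)))
    (by
      rw [N.isQuotientMap_mkQ.continuous_iff]
      exact N.isQuotientMap_mkQ.continuous.comp (h.cont γ))
  refine ⟨σ + k₀ * (e + 1), fun δ hδ y => ?_⟩
  have hJ : σ + k₀ * (e + 1) < 2 ^ (σ + k₀ * (e + 1)) := Nat.lt_two_pow_self
  have key := hσ (R δ) (fun k => ⟨k, fun m => ?_⟩) (σ + k₀ * (e + 1)) (by omega)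
  · rw [← Submodule.Quotient.mk_eq_zero, ← N.mkQ_apply, ← hcomm, key, sub_self,
      LinearMap.zero_apply]
  · obtain ⟨y, rfl⟩ := N.mkQ_surjective m
    rw [hcomm, h67_mem_mulTop]
    refine h.cmp hN hρ hx _ ?_
    have h1 := hΓ.comm _ _ (Subgroup.commutator_mem_commutator (hΓ.pow_mem hγ k) hδ)
    have h2 := h.raise _ _ h1 0 (ρ δ (ρ (γ ^ 2 ^ k) y)) (by rw [h.fx.zero]; trivial)
    rw [commutatorElement_def] at h2
    have h3 : ρ (γ ^ 2 ^ k * δ * (γ ^ 2 ^ k)⁻¹ * δ⁻¹) (ρ δ (ρ (γ ^ 2 ^ k) y)) =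
        ρ (γ ^ 2 ^ k) (ρ δ y) := by
      rw [← Module.End.mul_apply, ← Module.End.mul_apply, ← map_mul, ← map_mul,
        ← Module.End.mul_apply, ← map_mul]
      congr 2
      group
    rw [h3] at h2
    refine h.fx.anti ?_ h2
    have h4 : k < 2 ^ k := Nat.lt_two_pow_self
    rw [zero_add, zero_add, pow_add, pow_add]
    calc k₀ * (e * 2 ^ k + k) ≤ k₀ * (e * 2 ^ k + 2 ^ k) := by gcongr
      _ = 2 ^ k * (k₀ * (e + 1)) * 1 := by ring
      _ ≤ 2 ^ k * 2 ^ (σ + k₀ * (e + 1)) * 2 ^ 2 := by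
        gcongr
        · omega
        · norm_num

theorem h99_comm_eq (a δ : G) (y : H) :
    ρ (a * δ * a⁻¹ * δ⁻¹) (ρ δ (ρ a y)) = ρ a (ρ δ y) := by
  rw [← Module.End.mul_apply, ← map_mul, ← Module.End.mul_apply, ← map_mul,
    ← Module.End.mul_apply, ← map_mul]
  congr 2
  group

theorem h99_inv_apply (a : G) (y : H) : ρ a (ρ a⁻¹ y) = y := by
  rw [← Module.End.mul_apply, ← map_mul, mul_inv_cancel, map_one, Module.End.one_apply]

theorem h99_inv_apply' (a : G) (y : H) : ρ a⁻¹ (ρ a y) = y := by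
  rw [← Module.End.mul_apply, ← map_mul, inv_mul_cancel, map_one, Module.End.one_apply]

theorem FM.abel (h : FM ρ Γ g F) (hΓ : GD Γ g) {N : Submodule B H}
    (hN : IsClosed (N : Set H)) (hρ : ∀ γ, ∀ y ∈ N, ρ γ y ∈ N)
    (hc : ∀ i, ∃ J, ∀ δ ∈ Γ J, ∀ y, ρ (g i ^ 2 ^ J) (ρ δ y) - ρ δ (ρ (g i ^ 2 ^ J) y) ∈ N) :
    ∃ J, ∀ γ ∈ ⁅Γ J, Γ J⁆, ∀ y, ρ γ y - y ∈ N := by
  choose Ji hJi using hc
  set J := Finset.univ.sup Ji with hJ
  have hle : ∀ i, Ji i ≤ J := fun i => Finset.le_sup (f := Ji) (Finset.mem_univ i)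
  let Z : Subgroup G :=
    { carrier := {γ | ∀ δ ∈ Γ J, ∀ y, ρ γ (ρ δ y) - ρ δ (ρ γ y) ∈ N}
      one_mem' := fun δ _ y => by simp
      mul_mem' := fun {a b} ha hb δ hδ y => by
        have e : ρ (a * b) (ρ δ y) - ρ δ (ρ (a * b) y) =
            ρ a (ρ b (ρ δ y) - ρ δ (ρ b y)) + (ρ a (ρ δ (ρ b y)) - ρ δ (ρ a (ρ b y))) := by
          simp only [map_mul, Module.End.mul_apply, map_sub]
          abel
        rw [e]
        exact N.add_mem (hρ _ _ (hb δ hδ y)) (ha δ hδ _)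
      inv_mem' := fun {a} ha δ hδ y => by
        have e : ρ a⁻¹ (ρ δ y) - ρ δ (ρ a⁻¹ y) =
            -ρ a⁻¹ (ρ a (ρ δ (ρ a⁻¹ y)) - ρ δ (ρ a (ρ a⁻¹ y))) := by
          rw [map_sub, h99_inv_apply, h99_inv_apply', neg_sub]
        rw [e]
        exact N.neg_mem (hρ _ _ (ha δ hδ _)) }
  have hZ : ∀ i, ∀ f ≥ J, g i ^ 2 ^ f ∈ Z := by
    intro i f hf
    have h1 : g i ^ 2 ^ Ji i ∈ Z := fun δ hδ y => hJi i δ (hΓ.anti (hle i) hδ) y
    obtain ⟨c, rfl⟩ := Nat.exists_eq_add_of_le ((hle i).trans hf)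
    rw [pow_add, pow_mul]
    exact Z.pow_mem h1 _
  have hΓZ : ∀ γ ∈ Γ J, ∀ δ ∈ Γ J, ∀ y, ρ γ (ρ δ y) - ρ δ (ρ γ y) ∈ N := by
    intro γ hγ δ hδ y
    refine mem_of_closed h.fx.anti h.op h.sep hN fun k => ?_
    have h1 := hΓ.le_sup hZ (le_max_left J k) hγ
    have := hΓ.normal (max J k)
    rw [sup_comm, Subgroup.mem_sup_of_normal_left] at h1
    obtain ⟨a, ha, z, hz, rfl⟩ := h1
    have e : ρ (a * z) (ρ δ y) - ρ δ (ρ (a * z) y) =
        ρ a (ρ z (ρ δ y) - ρ δ (ρ z y)) +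
          (ρ (a * δ * a⁻¹ * δ⁻¹) (ρ δ (ρ a (ρ z y))) - ρ δ (ρ a (ρ z y))) := by
      rw [h99_comm_eq]
      simp only [map_mul, Module.End.mul_apply, map_sub]
      abel
    rw [e]
    refine Submodule.add_mem_sup (hρ _ _ (hz δ hδ y)) ?_
    have hcm : a * δ * a⁻¹ * δ⁻¹ ∈ Γ (max J k) := by
      rw [mul_assoc, mul_assoc, ← mul_assoc δ]
      exact (Γ _).mul_mem ha (this.conj_mem _ ((Γ _).inv_mem ha) δ)
    have h2 := h.raise _ _ hcm 0 (ρ δ (ρ a (ρ z y))) (by rw [h.fx.zero]; trivial)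
    refine h.fx.anti ?_ h2
    have := Nat.lt_two_pow_self (n := max J k)
    have := le_max_right J k
    omega
  let K : Subgroup G :=
    { carrier := {γ | ∀ y, ρ γ y - y ∈ N}
      one_mem' := fun y => by simp
      mul_mem' := fun {a b} ha hb y => by
        have e : ρ (a * b) y - y = (ρ a (ρ b y) - ρ b y) + (ρ b y - y) := by
          simp only [map_mul, Module.End.mul_apply]
          abel
        rw [e]
        exact N.add_mem (ha _) (hb _)
      inv_mem' := fun {a} ha y => by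
        have e : ρ a⁻¹ y - y = -(ρ a (ρ a⁻¹ y) - ρ a⁻¹ y) := by
          rw [h99_inv_apply, neg_sub]
        rw [e]
        exact N.neg_mem (ha _) }
  have hK : ⁅Γ J, Γ J⁆ ≤ K := by
    rw [Subgroup.commutator_le]
    intro γ hγ δ hδ y
    have h1 := hΓZ γ hγ δ hδ (ρ γ⁻¹ (ρ δ⁻¹ y))
    rw [← h99_comm_eq γ δ, h99_inv_apply, h99_inv_apply] at h1
    rw [commutatorElement_def]
    exact h1
  exact ⟨J, fun γ hγ y => hK hγ y⟩

theorem FM.last (h : FM ρ Γ g F) (hΓ : GD Γ g) (hp : Perf Γ) {N : Submodule B H}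
    (hN : IsClosed (N : Set H)) {J : ℕ} (hJ : ∀ γ ∈ ⁅Γ J, Γ J⁆, ∀ y, ρ γ y - y ∈ N) :
    ∃ k, F k ≤ N := by
  obtain ⟨t, ht⟩ := hp J
  have hn : ∀ i k, ∀ y ∈ F k, ((ρ (g i) - 1) ^ 2 ^ t : Module.End B H) y ∈ N ⊔ F (k + 2 ^ t + 1) := by
    intro i k y hy
    have h0 := hΓ.pow_mem (hΓ.mem i) t
    rw [zero_add] at h0
    have h1 := ht h0
    have := hΓ.normal (t + 1)
    rw [Subgroup.mem_sup_of_normal_right] at h1
    obtain ⟨κ, hκ, a, ha, e⟩ := h1
    rw [sub_one_pow_two h.two, ← map_pow, ← e]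
    have e' : (ρ (κ * a) - 1) y = (ρ κ (ρ a y) - ρ a y) + (ρ a y - y) := by
      simp only [map_mul, Module.End.mul_apply, LinearMap.sub_apply, Module.End.one_apply]
      abel
    rw [e']
    refine Submodule.add_mem_sup (hJ κ hκ _) (h.fx.anti ?_ (h.raise _ a ha k y hy))
    have := Nat.one_le_two_pow (n := t)
    rw [pow_succ]
    omega
  have hl : ∀ j, F (d * 2 ^ t + 1) ≤ N ⊔ F (d * 2 ^ t + 1 + j) := by
    intro j
    induction j with
    | zero => exact le_sup_right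
    | succ j ih =>
      refine ih.trans (sup_le le_sup_left ?_)
      exact h.fx.kill hn (by omega)
  refine ⟨d * 2 ^ t + 1, fun y hy => mem_of_closed h.fx.anti h.op h.sep hN fun k => ?_⟩
  exact sup_le_sup_left (h.fx.anti (Nat.le_add_left k _)) N (hl k hy)

end Crest.Agent.R007
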