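import Crest.Agent.R007.Defs
import Crest.Agent.R007.CG
import Crest.Agent.R007.CL
import Crest.Agent.R007.CD

/-! Row 7, block C: the core theorem. -/

set_option autoImplicit false
set_option linter.unusedSectionVars false

namespace Crest.Agent.R007

section

variable {B H : Type} [CommRing B] [AddCommGroup H] [Module B H] [TopologicalSpace H]
  [IsTopologicalAddGroup H] [CompactSpace H] [T2Space H] [ContinuousConstSMul B H] {G : Type}
  [Group G] {ρ : G →* Module.End B H} {Γ : ℕ → Subgroup G} {d : ℕ} {g : Fin d → G}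
  {F : ℕ → Submodule B H} {Nf : Ideal B → Submodule B H}

theorem ND.stb (hN : ND ρ Nf) (g : Fin d → G) (I : Ideal B) :
    Stb (fun i => ρ (g i) - 1) (Nf I) :=
  fun i y hy => (Nf I).sub_mem (hN.stab I (g i) y hy) hy

/-- `isNoetherian_iff_fg_wellFounded`, `FX.acc`, `mem_of_closed`, `ND.ann` -/
theorem FM.noeth (h : FM ρ Γ g F) (hN : ND ρ Nf) : IsNoetherianRing B := by
  rw [isNoetherianRing_iff, isNoetherian_iff_fg_wellFounded,
    wellFoundedGT_iff_monotone_chain_condition]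
  intro a
  obtain ⟨c₀, hc⟩ := h.fx.acc (fun c => Nf (a c).1) (fun c => hN.stb g _)
    (fun x y hxy => hN.mono (a.mono hxy))
  exact ⟨c₀, fun m hm => Subtype.ext (le_antisymm (a.mono hm) fun b hb =>
    hN.ann _ (a c₀).2 b fun y => mem_of_closed h.fx.anti h.op h.sep (hN.closed _) fun k =>
      hc m hm k (hN.smul _ b hb y))⟩

/-- Krull's intersection theorem in `B ⧸ P` (`Ideal.iInf_pow_eq_bot_of_isDomain`) and `ND.inf` for
the ideals `P ⊔ span {x ^ m}` -/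
theorem ND.nil [IsNoetherianRing B] (hN : ND ρ Nf) {P Q : Ideal B} [P.IsPrime] (hQ : Q ≠ ⊤)
    (hPQ : P ≤ Q) {x : B} (hx : x ∈ Q) (y : H) (hy : ∀ m, y ∈ Nf P ⊔ mulTop H (x ^ m)) :
    y ∈ Nf P := by
  refine hN.inf (fun m => P ⊔ Ideal.span {x ^ m}) P (fun m n hmn => sup_le_sup_left
    (Ideal.span_singleton_le_span_singleton.2 (pow_dvd_pow x hmn)) P)
    (fun m => IsNoetherian.noetherian _) (fun b hb => ?_) y (fun m => ?_)
  · have hI : Q.map (Ideal.Quotient.mk P) ≠ ⊤ := by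
      intro e
      apply hQ
      rw [Ideal.eq_top_iff_one] at e ⊢
      exact (Ideal.mem_quotient_iff_mem hPQ).1 e
    have key := Ideal.iInf_pow_eq_bot_of_isDomain _ hI
    rw [← Ideal.Quotient.eq_zero_iff_mem, ← Ideal.mem_bot, ← key, Ideal.mem_iInf]
    intro m
    obtain ⟨p, hp, s, hs, rfl⟩ := Submodule.mem_sup.1 (hb m)
    obtain ⟨c, rfl⟩ := Ideal.mem_span_singleton'.1 hs
    rw [map_add, Ideal.Quotient.eq_zero_iff_mem.2 hp, zero_add, map_mul, map_pow]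
    exact Ideal.mul_mem_left _ _ (Ideal.pow_mem_pow (Ideal.mem_map_of_mem _ hx) m)
  · obtain ⟨p, hp, s, ⟨z, rfl⟩, rfl⟩ := Submodule.mem_sup.1 (hy m)
    exact Submodule.add_mem _ (hN.mono le_sup_left hp)
      (hN.smul _ _ (Ideal.mem_sup_right (Ideal.mem_span_singleton_self _)) z)

theorem h74_inj [IsNoetherianRing B] (hN : ND ρ Nf) {P : Ideal B} [hP : P.IsPrime] {x : B}
    (hx : x ∉ P) : InjMod (Nf P) x :=
  hN.inj P (IsNoetherian.noetherian P) x fun _ ha => (hP.mem_or_mem ha).resolve_right hx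

theorem h74_le (hN : ND ρ Nf) {P Q : Ideal B} (hPQ : P ≤ Q) {x : B} (hx : x ∈ Q) :
    Nf P ⊔ mulTop H x ≤ Nf Q :=
  sup_le (hN.mono hPQ) (by rintro _ ⟨y, rfl⟩; exact hN.smul Q x hx y)

theorem h74_stab (h : FM ρ Γ g F) {N : Submodule B H} (hc : IsClosed (N : Set H))
    (hr : Gr F N 0) : ∃ k, F k ≤ N := by
  obtain ⟨k, hk⟩ := hr.stab h.fx
  exact ⟨k, fun y hy => mem_of_closed h.fx.anti h.op h.sep hc fun l => hk l hy⟩

/-- one step down the chain: `FX.ar`, `Gr.drop` (and `Gr.mono` for the second part) -/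
theorem FM.drop [IsNoetherianRing B] (h : FM ρ Γ g F) (hN : ND ρ Nf) {P : Ideal B} [P.IsPrime]
    {x : B} (hx : x ∉ P) {r : ℕ} (hr : Gr F (Nf P) (r + 1)) :
    Gr F (Nf P ⊔ mulTop H x) r ∧ ∀ Q, P ≤ Q → x ∈ Q → Gr F (Nf Q) r := by
  obtain ⟨c, hc⟩ := h.fx.ar h.op h.sep (hN.stb g P) (hN.closed P) (h74_inj hN hx)
  have h1 := Gr.drop h.fx hc hr
  exact ⟨h1, fun Q hPQ hxQ => Gr.mono h.fx (h74_le hN hPQ hxQ) h1⟩

/-- if `H ⧸ Nf P` is finite then `x ∉ P` is injective, hence surjective on it, so `Nf Q = ⊤` and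
`1 ∈ Q` by `ND.ann` -/
theorem FM.not_fin [IsNoetherianRing B] (h : FM ρ Γ g F) (hN : ND ρ Nf) {P Q : Ideal B}
    [P.IsPrime] (hQ : Q ≠ ⊤) (hPQ : P < Q) {k : ℕ} (hk : F k ≤ Nf P) : False := by
  obtain ⟨x, hxQ, hxP⟩ := SetLike.exists_of_lt hPQ
  have h1 := h.fx.finiteIndex k
  have h2 : (Nf P).toAddSubgroup.FiniteIndex :=
    AddSubgroup.finiteIndex_of_le (H := (F k).toAddSubgroup) hk
  have h3 : Finite (H ⧸ Nf P) := AddSubgroup.finite_quotient_of_finiteIndex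
    (H := (Nf P).toAddSubgroup)
  have hi : Function.Injective (LinearMap.lsmul B (H ⧸ Nf P) x) := by
    rw [injective_iff_map_eq_zero]
    intro z hz
    obtain ⟨y, rfl⟩ := Submodule.Quotient.mk_surjective _ z
    rw [LinearMap.lsmul_apply, ← Submodule.Quotient.mk_smul, Submodule.Quotient.mk_eq_zero] at hz
    exact (Submodule.Quotient.mk_eq_zero _).2 (h74_inj hN hxP y hz)
  refine hQ ((Ideal.eq_top_iff_one Q).2 (hN.ann Q (IsNoetherian.noetherian Q) 1 fun y => ?_))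
  obtain ⟨z, hz⟩ := Finite.surjective_of_injective hi (Submodule.Quotient.mk y)
  obtain ⟨w, rfl⟩ := Submodule.Quotient.mk_surjective _ z
  rw [LinearMap.lsmul_apply, ← Submodule.Quotient.mk_smul, Submodule.Quotient.eq] at hz
  have := (Nf Q).sub_mem (hN.smul Q x hxQ w) (hN.mono hPQ.le hz)
  simpa using this

/-- `d ≤ 2`: `Gr _ 2`, `drop` twice, `Gr.stab`, `mem_of_closed`, `not_fin` for `P₂ < P₃`.
`d ≤ 3`: `drop` three times, `Gr.stab` for `Nf P₂ ⊔ mulTop H x₃` (closed), `ND.nil`, `comm_pow`,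
`abel`, `last`, `not_fin`. -/
theorem FM.no_chain [IsNoetherianRing B] (h : FM ρ Γ g F) (hΓ : GD Γ g)
    (hd : d ≤ 2 ∨ d ≤ 3 ∧ Perf Γ) (hN : ND ρ Nf) {P₀ P₁ P₂ P₃ : Ideal B} [P₀.IsPrime]
    [P₁.IsPrime] [P₂.IsPrime] [P₃.IsPrime] (h₁ : P₀ < P₁) (h₂ : P₁ < P₂) (h₃ : P₂ < P₃) :
    False := by
  obtain ⟨x₁, a₁, b₁⟩ := SetLike.exists_of_lt h₁
  obtain ⟨x₂, a₂, b₂⟩ := SetLike.exists_of_lt h₂
  obtain ⟨x₃, a₃, b₃⟩ := SetLike.exists_of_lt h₃
  have hT : P₃ ≠ ⊤ := Ideal.IsPrime.ne_top ‹_›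
  have two : ∀ r, d ≤ r + 2 → Gr F (Nf P₂) r := fun r hr =>
    (h.drop hN b₂ ((h.drop hN b₁ (Gr.mono h.fx bot_le (h.fx.growth hr))).2 P₁ h₁.le a₁)).2
      P₂ h₂.le a₂
  rcases hd with hd | ⟨hd, hp⟩
  · obtain ⟨k, hk⟩ := h74_stab h (hN.closed P₂) (two 0 hd)
    exact h.not_fin hN hT h₃ hk
  · obtain ⟨k₀, hk₀⟩ := h74_stab h (isClosed_sup (hN.closed P₂) (isClosed_mulTop x₃))
      (h.drop hN b₃ (two 1 hd)).1
    obtain ⟨J, hJ⟩ := h.abel hΓ (hN.closed P₂) (hN.stab P₂) fun i =>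
      h.comm_pow hΓ (hN.closed P₂) (hN.stab P₂) (h74_inj hN b₃) hk₀ (hN.nil hT h₃.le a₃) (hΓ.mem i)
    obtain ⟨k, hk⟩ := h.last hΓ hp (hN.closed P₂) hJ
    exact h.not_fin hN hT h₃ hk

end

theorem dim_le_of_chain {B : Type} [CommRing B] (h : ∀ P₀ P₁ P₂ P₃ : Ideal B, P₀.IsPrime →
    P₁.IsPrime → P₂.IsPrime → P₃.IsPrime → P₀ < P₁ → P₁ < P₂ → P₂ < P₃ → False) :
    ringKrullDim B ≤ 2 := by
  refine iSup_le fun l => ?_
  have hl : l.length ≤ 2 := by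
    by_contra hl
    have h3 : 3 ≤ l.length := by omega
    exact h (l ⟨0, by omega⟩).asIdeal (l ⟨1, by omega⟩).asIdeal (l ⟨2, by omega⟩).asIdeal
      (l ⟨3, by omega⟩).asIdeal (l _).isPrime (l _).isPrime (l _).isPrime (l _).isPrime
      (l.strictMono (Fin.mk_lt_mk.2 (by norm_num))) (l.strictMono (Fin.mk_lt_mk.2 (by norm_num)))
      (l.strictMono (Fin.mk_lt_mk.2 (by norm_num)))
  exact_mod_cast hl

/-- **the core of block C**: the statement of `dim_le_two` -/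
theorem dim_le_two_core {B : Type} [CommRing B] {K : Type} [AddCommGroup K] [Module B K]
    (dualα : ∀ I : Ideal B, I.FG → ∀ b : B, (∀ x : K, (∀ i ∈ I, i • x = 0) → b • x = 0) → b ∈ I)
    (dualβ : ∀ (Y : Submodule B K) (x : K), (∀ b : B, (∀ y ∈ Y, b • y = 0) → b • x = 0) → x ∈ Y)
    {E : Type} [Ring E] {G : Type} [Group G] {φ : G →* Eˣ} {W : Type} [AddCommGroup W]
    [DistribMulAction G W] (hG : GData E G φ W) {ι : Type} [Finite ι] (ev : ι → (K →+ W))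
    (hinj : ∀ x, (∀ i, ev i x = 0) → x = 0)
    (hhecke : ∀ (b : B) (i : ι) (S : Finset K), ∃ l : List (G × ι), ∀ x ∈ S,
      ev i (b • x) = (l.map fun p => p.1 • ev p.2 x).sum) :
    IsNoetherianRing B ∧ ringKrullDim B ≤ 2 := by
  obtain ⟨ω, π, a1, a2, a3, a4⟩ := hG.gens
  obtain ⟨Γ, d, g, hΓ, hd, hc⟩ := exists_gd φ ⟨ω, π, hG.tf, a1, a3, a2, a4⟩
  let D : BD B K Γ W ι := ⟨ev, dualα, dualβ, hinj, hhecke, hG.two,
    fun w => (hG.cont w).imp fun e he γ hγ => he γ (hc e γ hγ), hΓ.anti, hΓ.normal, hΓ.fin⟩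
  let _ : TopologicalSpace W := ⊥
  have : DiscreteTopology W := ⟨rfl⟩
  have : IsTopologicalAddGroup W :=
    { continuous_add := continuous_of_discreteTopology
      continuous_neg := continuous_of_discreteTopology }
  have h1 := D.gm.fm hΓ
  have := h1.noeth D.nd
  exact ⟨this, dim_le_of_chain fun _ _ _ _ _ _ _ _ => h1.no_chain hΓ hd D.nd⟩

end Crest.Agent.R007
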