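import Crest.Agent.R007.CL2

/-! # Row 7, block C (limit part), file 3: assembly (owner helper40). -/

set_option autoImplicit false

noncomputable section
namespace Crest.Agent.R007

open scoped TensorProduct

open Crest.NumberTheoryR.HeckeTwoAdic

theorem Lt_anti (A : ℕ → Type) [∀ k, CommRing (A k)] (r : ∀ k, A (k + 1) →+* A k)
    (I : ∀ k, Ideal (A k)) (hI : ∀ k, ∀ x ∈ I (k + 1), r k x ∈ I k) (w : ∀ k, A k)
    (hw : ∀ k, r k (w (k + 1)) = w k) : Antitone (Lt A r I w hw) := fun _ _ hab =>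
  sup_le_sup_right (sup_le_sup_right (N0_anti A r I hI hab) _) _

theorem lim_one (hdim : Dim2) (A : ℕ → Type) [∀ k, CommRing (A k)] (r : ∀ k, A (k + 1) →+* A k)
    (hsurj : ∀ k, Function.Surjective (r k)) (hfg : ∀ k, FG2 (A k)) (I : ∀ k, Ideal (A k))
    (hI : ∀ k, ∀ x ∈ I (k + 1), r k x ∈ I k)
    (w : ∀ k, A k) (hw : ∀ k, r k (w (k + 1)) = w k)
    (hnil : ∀ k, ∃ (n : ℕ) (m : ℤ) (y : A k), Odd m ∧ m • w k ^ n = 2 * y)
    {E : Type} [Ring E] {G : Type} [Group G] {φ : G →* Eˣ} {W : Type} [AddCommGroup W]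
    [DistribMulAction G W] (hG : GData E G φ W) {ι : Type} [Finite ι]
    (ev : ι → ∀ k, (Kk (I k) (w k) →+ W))
    (hcompat : ∀ i k (l : Kk (I k) (w k)) (l' : Kk (I (k + 1)) (w (k + 1))),
      (∀ x, l'.1 x = l.1 (r k x)) → ev i (k + 1) l' = ev i k l)
    (hinj : ∀ k (l : Kk (I k) (w k)), (∀ i, ev i k l = 0) → l = 0)
    (hhecke : ∀ k (t : A k) (i : ι), ∃ L : List (G × ι), ∀ l l' : Kk (I k) (w k),
      (∀ x, l'.1 x = l.1 (t * x)) → ev i k l' = (L.map fun p => p.1 • ev p.2 k l).sum) :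
    ringKrullDim (LimT A r ⧸ ⨅ k, N0 A r I k) ≤ 4 := by
  have hP := proF_lim A r hfg
  have hLJ : ∀ n, Jt A r n ≤ Lt A r I w hw n := fun n =>
    le_trans (Jt_le_N0 A r I n) (le_trans le_sup_left le_sup_left)
  have hB := hP.quot (Lt A r I w hw) (Lt_anti A r I hI w hw) hLJ
  obtain ⟨σ, hσ⟩ := exists_sect A r hsurj I w hw
  have h2 : (2 : LimT A r ⧸ ⨅ k, Lt A r I w hw k) = 0 := by
    have : (2 : LimT A r) ∈ ⨅ k, Lt A r I w hw k := by
      rw [Ideal.mem_iInf]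
      intro k
      exact Ideal.mem_sup_left (Ideal.mem_sup_right (Ideal.mem_span_singleton_self _))
    have h := Ideal.Quotient.eq_zero_iff_mem.mpr this
    rwa [map_ofNat] at h
  obtain ⟨hn, hd⟩ := dim_of_sect hdim hB h2 A r I w σ hσ hG ev hcompat hinj hhecke
  have hN1 : Antitone fun n => N0 A r I n ⊔ Ideal.span {(2 : LimT A r)} := fun _ _ hab =>
    sup_le_sup_right (N0_anti A r I hI hab) _
  obtain ⟨hn1, hd1⟩ := hP.step (fun n => N0 A r I n ⊔ Ideal.span {(2 : LimT A r)}) hN1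
    (fun n => le_trans (Jt_le_N0 A r I n) le_sup_left) (tnil_w A r w hw hnil) 2 hn (by exact_mod_cast hd)
  obtain ⟨-, hd2⟩ := hP.step (N0 A r I) (N0_anti A r I hI) (Jt_le_N0 A r I) (tnil_two A r) 3 hn1 hd1
  exact_mod_cast hd2

theorem lim_dim_comm (hdim : Dim2) (A : ℕ → Type) [∀ k, CommRing (A k)]
    (r : ∀ k, A (k + 1) →+* A k) (hsurj : ∀ k, Function.Surjective (r k))
    (hfg : ∀ k, FG2 (A k)) (I : Fin 2 → ∀ k, Ideal (A k))
    (hI : ∀ a k, ∀ x ∈ I a (k + 1), r k x ∈ I a k)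
    (hI0 : ∀ k, ∀ x ∈ I 0 k, x ∈ I 1 k → x = 0)
    (w : ∀ k, A k) (hw : ∀ k, r k (w (k + 1)) = w k)
    (hnil : ∀ k, ∃ (n : ℕ) (m : ℤ) (y : A k), Odd m ∧ m • w k ^ n = 2 * y)
    {E : Type} [Ring E] {G : Type} [Group G] {φ : G →* Eˣ} {W : Type} [AddCommGroup W]
    [DistribMulAction G W] (hG : GData E G φ W) {ι : Type} [Finite ι]
    (ev : ∀ a, ι → ∀ k, (Kk (I a k) (w k) →+ W))
    (hcompat : ∀ a i k (l : Kk (I a k) (w k)) (l' : Kk (I a (k + 1)) (w (k + 1))),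
      (∀ x, l'.1 x = l.1 (r k x)) → ev a i (k + 1) l' = ev a i k l)
    (hinj : ∀ a k (l : Kk (I a k) (w k)), (∀ i, ev a i k l = 0) → l = 0)
    (hhecke : ∀ a k (t : A k) (i : ι), ∃ L : List (G × ι), ∀ l l' : Kk (I a k) (w k),
      (∀ x, l'.1 x = l.1 (t * x)) → ev a i k l' = (L.map fun p => p.1 • ev a p.2 k l).sum)
    (P : Ideal (LimT A r)) (hP : P.IsPrime) : ringKrullDim (LimT A r ⧸ P) ≤ 4 := by
  have key : ∀ a, (⨅ k, N0 A r (I a) k) ≤ P → ringKrullDim (LimT A r ⧸ P) ≤ 4 := fun a ha =>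
    le_trans (ringKrullDim_le_of_surjective (Ideal.Quotient.factor ha)
      (Ideal.Quotient.factor_surjective ha))
      (lim_one hdim A r hsurj hfg (I a) (hI a) w hw hnil hG (ev a) (hcompat a) (hinj a) (hhecke a))
  have hmul : (⨅ k, N0 A r (I 0) k) * (⨅ k, N0 A r (I 1) k) ≤ P := by
    rw [Ideal.mul_le]
    intro s hs t ht
    rw [N0_mul A r hfg (I 0) (I 1) hI0 hs ht]
    exact P.zero_mem
  rcases hP.mul_le.mp hmul with h | h
  · exact key 0 h
  · exact key 1 h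

/-- `lim_dim_le_four` from the statement of `dim_le_two` -/
theorem lim_dim_le_four_of (hdim : Dim2) (A : ℕ → Type) [∀ k, Ring (A k)]
    (r : ∀ k, A (k + 1) →+* A k)
    (hcomm : ∀ k, ∀ a b : A k, a * b = b * a) (hsurj : ∀ k, Function.Surjective (r k))
    (hfg : ∀ k, FG2 (A k)) (I : Fin 2 → ∀ k, Ideal (A k))
    (hI : ∀ a k, ∀ x ∈ I a (k + 1), r k x ∈ I a k)
    (hI0 : ∀ k, ∀ x ∈ I 0 k, x ∈ I 1 k → x = 0)
    (w : ∀ k, A k) (hw : ∀ k, r k (w (k + 1)) = w k)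
    (hnil : ∀ k, ∃ (n : ℕ) (m : ℤ) (y : A k), Odd m ∧ m • w k ^ n = 2 * y)
    {E : Type} [Ring E] {G : Type} [Group G] {φ : G →* Eˣ} {W : Type} [AddCommGroup W]
    [DistribMulAction G W] (hG : GData E G φ W) {ι : Type} [Finite ι]
    (ev : ∀ a, ι → ∀ k, (Kk (I a k) (w k) →+ W))
    (hcompat : ∀ a i k (l : Kk (I a k) (w k)) (l' : Kk (I a (k + 1)) (w (k + 1))),
      (∀ x, l'.1 x = l.1 (r k x)) → ev a i (k + 1) l' = ev a i k l)
    (hinj : ∀ a k (l : Kk (I a k) (w k)), (∀ i, ev a i k l = 0) → l = 0)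
    (hhecke : ∀ a k (t : A k) (i : ι), ∃ L : List (G × ι), ∀ l l' : Kk (I a k) (w k),
      (∀ x, l'.1 x = l.1 (t * x)) → ev a i k l' = (L.map fun p => p.1 • ev a p.2 k l).sum)
    (hc : ∀ a b : LimT A r, a * b = b * a) (P : Ideal (LimT A r))
    (hP : P ∈ @minimalPrimes (LimT A r) (commRingOfComm (LimT A r) hc).toCommSemiring) :
    @ringKrullDim (LimT A r ⧸ P)
      (@Ideal.Quotient.commRing (LimT A r) (commRingOfComm (LimT A r) hc) P).toCommSemiring ≤ 4 := by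
  letI : ∀ k, CommRing (A k) := fun k => commRingOfComm (A k) (hcomm k)
  exact lim_dim_comm hdim A r hsurj hfg I hI hI0 w hw hnil hG ev hcompat hinj hhecke P hP.1.1

theorem lim_comm_ (A : ℕ → Type) [∀ k, Ring (A k)] (r : ∀ k, A (k + 1) →+* A k)
    (hcomm : ∀ k, ∀ a b : A k, a * b = b * a) : ∀ a b : LimT A r, a * b = b * a := by
  letI : ∀ k, CommRing (A k) := fun k => commRingOfComm (A k) (hcomm k)
  intro a b
  exact mul_comm a b

theorem lim_nontrivial_ (A : ℕ → Type) [∀ k, Ring (A k)] (r : ∀ k, A (k + 1) →+* A k) (k : ℕ)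
    [Nontrivial (A k)] (htf : ∀ (m : ℤ) (x : A k), m ≠ 0 → m • x = 0 → x = 0) :
    Nontrivial (LimT A r) := by
  haveI : NoZeroSMulDivisors ℤ (A k) := ⟨fun {m x} h => by
    by_cases hm : m = 0
    · exact Or.inl hm
    · exact Or.inr (htf m x hm h)⟩
  haveI : Module.Flat ℤ (A k) := inferInstance
  have hinj : Function.Injective
      (Algebra.TensorProduct.includeRight (R := ℤ) (A := ℤ_[2]) (B := A k)) :=
    Algebra.TensorProduct.includeRight_injective (by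
      intro a b hab
      simpa using hab)
  refine ⟨⟨0, 1, fun h => ?_⟩⟩
  have h1 : (0 : ℤ_[2] ⊗[ℤ] A k) = 1 := congrArg (fun t : LimT A r => t.1 k) h
  apply zero_ne_one (α := A k)
  apply hinj
  rw [map_zero, map_one, h1]

end Crest.Agent.R007
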