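import Crest.Agent.R007.Defs
import Crest.Agent.R007.CLim
import Crest.Agent.R007.CCore

/-! # Row 7, block C: abstract commutative algebra. -/

set_option autoImplicit false

noncomputable section
namespace Crest.Agent.R007

open PowerSeries UpperHalfPlane
open scoped ModularForm MatrixGroups TensorProduct

open Crest.NumberTheoryR.HeckeTwoAdic

/-- the heart: duality, a finitely generated module over the Iwasawa algebra, dimension `≤ 2` -/
theorem dim_le_two {B : Type} [CommRing B] {K : Type} [AddCommGroup K] [Module B K]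
    (dualα : ∀ I : Ideal B, I.FG → ∀ b : B, (∀ x : K, (∀ i ∈ I, i • x = 0) → b • x = 0) → b ∈ I)
    (dualβ : ∀ (Y : Submodule B K) (x : K), (∀ b : B, (∀ y ∈ Y, b • y = 0) → b • x = 0) → x ∈ Y)
    {E : Type} [Ring E] {G : Type} [Group G] {φ : G →* Eˣ} {W : Type} [AddCommGroup W]
    [DistribMulAction G W] (hG : GData E G φ W) {ι : Type} [Finite ι] (ev : ι → (K →+ W))
    (hinj : ∀ x, (∀ i, ev i x = 0) → x = 0)
    (hhecke : ∀ (b : B) (i : ι) (S : Finset K), ∃ l : List (G × ι), ∀ x ∈ S,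
      ev i (b • x) = (l.map fun p => p.1 • ev p.2 x).sum) :
    IsNoetherianRing B ∧ ringKrullDim B ≤ 2 :=
  dim_le_two_core dualα dualβ hG ev hinj hhecke

/-- from the tower to dimension `≤ 4` -/
theorem lim_dim_le_four (A : ℕ → Type) [∀ k, Ring (A k)] (r : ∀ k, A (k + 1) →+* A k)
    (hcomm : ∀ k, ∀ a b : A k, a * b = b * a) (hsurj : ∀ k, Function.Surjective (r k))
    (hfg : ∀ k, FG2 (A k)) (I : Fin 2 → ∀ k, Ideal (A k))
    (hI : ∀ a k, ∀ x ∈ I a (k + 1), r k x ∈ I a k)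
    (hI0 : ∀ k, ∀ x ∈ I 0 k, x ∈ I 1 k → x = 0)
    (htf : ∀ a k (m : ℤ) (x : A k), m ≠ 0 → m • x ∈ I a k → x ∈ I a k)
    (w : ∀ k, A k) (hw : ∀ k, r k (w (k + 1)) = w k)
    (hnil : ∀ k, ∃ (n : ℕ) (m : ℤ) (y : A k), Odd m ∧ m • w k ^ n = 2 * y)
    {E : Type} [Ring E] {G : Type} [Group G] {φ : G →* Eˣ} {W : Type} [AddCommGroup W]
    [DistribMulAction G W] (hG : GData E G φ W) {ι : Type} [Finite ι] (ev : ∀ a, ι → ∀ k, (Kk (I a k) (w k) →+ W))
    (hcompat : ∀ a i k (l : Kk (I a k) (w k)) (l' : Kk (I a (k + 1)) (w (k + 1))),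
      (∀ x, l'.1 x = l.1 (r k x)) → ev a i (k + 1) l' = ev a i k l)
    (hinj : ∀ a k (l : Kk (I a k) (w k)), (∀ i, ev a i k l = 0) → l = 0)
    (hhecke : ∀ a k (t : A k) (i : ι), ∃ L : List (G × ι), ∀ l l' : Kk (I a k) (w k),
      (∀ x, l'.1 x = l.1 (t * x)) → ev a i k l' = (L.map fun p => p.1 • ev a p.2 k l).sum)
    (hc : ∀ a b : LimT A r, a * b = b * a) (P : Ideal (LimT A r))
    (hP : P ∈ @minimalPrimes (LimT A r) (commRingOfComm (LimT A r) hc).toCommSemiring) :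
    @ringKrullDim (LimT A r ⧸ P)
      (@Ideal.Quotient.commRing (LimT A r) (commRingOfComm (LimT A r) hc) P).toCommSemiring ≤ 4 :=
  lim_dim_le_four_of (fun _ _ _ _ _ ha hb _ _ _ _ _ _ _ _ hG _ _ ev h1 h2 =>
    dim_le_two ha hb hG ev h1 h2) A r hcomm hsurj hfg I hI hI0 w hw hnil hG ev hcompat hinj hhecke hc P hP

theorem lim_comm (A : ℕ → Type) [∀ k, Ring (A k)] (r : ∀ k, A (k + 1) →+* A k)
    (hcomm : ∀ k, ∀ a b : A k, a * b = b * a) : ∀ a b : LimT A r, a * b = b * a :=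
  lim_comm_ A r hcomm

theorem lim_nontrivial (A : ℕ → Type) [∀ k, Ring (A k)] (r : ∀ k, A (k + 1) →+* A k) (k : ℕ)
    [Nontrivial (A k)] (htf : ∀ (m : ℤ) (x : A k), m ≠ 0 → m • x = 0 → x = 0) :
    Nontrivial (LimT A r) := lim_nontrivial_ A r k htf

end Crest.Agent.R007
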