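import Crest.Agent.R007.GH

/-! Row 7, block GEO: embeddings of the function field at the supersingular point. -/

set_option autoImplicit false
set_option linter.unusedSectionVars false

noncomputable section
namespace Crest.Agent.R007

open PowerSeries

/-- `L = F(ρ, finitely many periodic points)` with `ρ` transcendental -/
structure FldData (F L : Type) [Field F] [Field L] [Algebra F L] (ρ : L) : Prop where
  tr : Transcendental F ρ
  gen : ∃ s : Set L, s.Finite ∧ (∀ z ∈ s, z = 0 ∨ Per ρ z) ∧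
    IntermediateField.adjoin F (insert ρ s) = ⊤

variable {F L : Type} [Field F] [IsAlgClosed F] [CharP F 2] [Field L] [Algebra F L] {ρ : L}

/-- the embeddings at the supersingular point -/
def Emb (F : Type) {L : Type} [Field F] [Field L] [Algebra F L] (ρ : L) : Type :=
  {η : L →ₐ[F] LaurentSeries F // η ρ = rhoE ((X : F⟦X⟧) : LaurentSeries F)}

theorem FldData.h5_ind (H : FldData F L ρ) {K : Type} [Field K] [Algebra F K] (θ : L →ₐ[F] K)
    (S : IntermediateField F K) (h1 : θ ρ ∈ S) (h2 : ∀ z, Per (θ ρ) z → z ∈ S) (x : L) :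
    θ x ∈ S := by
  obtain ⟨s, -, hs, htop⟩ := H.gen
  have : IntermediateField.adjoin F (insert ρ s) ≤ S.comap θ := by
    refine IntermediateField.adjoin_le_iff.mpr ?_
    rintro z (rfl | hz)
    · exact h1
    · rcases hs z hz with rfl | hp
      · exact zero_mem _
      · exact h2 _ (hp.map θ.toRingHom)
  exact this (htop ▸ IntermediateField.mem_top)

theorem h5_per_range {K : Type} [Field K] (f : LaurentSeries F →+* K) {b : F⟦X⟧}
    (hb : constantCoeff b = 0) (hb0 : b ≠ 0) {z : K} (h : Per (f (rhoE (b : LaurentSeries F))) z) :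
    ∃ y, f y = z := by
  rw [map_rhoE] at h
  obtain ⟨x, hx⟩ := Per.mem_ps (f.comp (algebraMap F⟦X⟧ (LaurentSeries F)))
    (f.injective.comp (IsFractionRing.injective _ _)) hb hb0 h
  refine ⟨((b : LaurentSeries F) * (x : LaurentSeries F) + 1) / (b : LaurentSeries F) ^ 3, ?_⟩
  rw [hx, map_div₀, map_add, map_mul, map_pow, map_one]
  rfl

/-- the image of a homomorphism is algebraic over any subfield containing `F` and the image of `ρ`
(`Per.map`, `Per.isIntegral`, `IntermediateField.adjoin_induction`) -/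
theorem FldData.alg (H : FldData F L ρ) {K K' : Type} [Field K] [Field K'] [Algebra F K]
    [Algebra F K'] [Algebra K K'] [IsScalarTower F K K'] (θ : L →ₐ[F] K')
    (hθ : IsAlgebraic K (θ ρ)) (x : L) : IsAlgebraic K (θ x) := by
  have h1 : θ ρ ∈ algebraicClosure K K' := mem_algebraicClosure_iff.mpr hθ
  refine mem_algebraicClosure_iff.mp
    (H.h5_ind θ ((algebraicClosure K K').restrictScalars F) h1 (fun z hz => ?_) x)
  have h2 : IsIntegral (algebraicClosure K K') z :=
    Per.isIntegral (R := algebraicClosure K K') (ρ := ⟨θ ρ, h1⟩) hz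
  exact mem_algebraicClosure_iff'.mpr (isIntegral_trans z h2)

/-- landing: `Per.map`, `Per.mem_ps` with `j = f ∘ coe`, `IntermediateField.adjoin_induction` -/
theorem FldData.land (H : FldData F L ρ) {K : Type} [Field K] [Algebra F K]
    (f : LaurentSeries F →ₐ[F] K) (θ : L →ₐ[F] K) {b : F⟦X⟧} (hb : constantCoeff b = 0)
    (hb0 : b ≠ 0) (hθ : θ ρ = f (rhoE (b : LaurentSeries F))) :
    ∃ θ' : L →ₐ[F] LaurentSeries F, f.comp θ' = θ := by
  have h : ∀ x, θ x ∈ f.range := H.h5_ind θ f.fieldRange ⟨_, hθ.symm⟩ fun z hz =>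
    h5_per_range f.toRingHom hb hb0 (hθ ▸ hz)
  refine ⟨((AlgEquiv.ofInjective f f.injective).symm : f.range →ₐ[F] _).comp
    (θ.codRestrict f.range h), AlgHom.ext fun x => ?_⟩
  exact congrArg Subtype.val
    ((AlgEquiv.ofInjective f f.injective).apply_symm_apply (θ.codRestrict f.range h x))

/-- an embedding is determined by its values on the finite set `s`; each value is `0` or a root of
a fixed monic polynomial (`Per.isIntegral` over `Polynomial F` acting through `aeval ρ`) -/
theorem FldData.finite (H : FldData F L ρ) : Finite (Emb F ρ) := by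
  classical
  obtain ⟨s, hsf, hs, htop⟩ := H.gen
  have key : ∀ z ∈ s, ∃ T : Set (LaurentSeries F), T.Finite ∧ ∀ η : Emb F ρ, η.1 z ∈ T := by
    intro z hz
    rcases hs z hz with rfl | hp
    · exact ⟨{0}, Set.finite_singleton _, fun η => map_zero _⟩
    · let _ : Algebra (Polynomial F) L := (Polynomial.aeval ρ).toRingHom.toAlgebra
      have h1 : Per (algebraMap (Polynomial F) L Polynomial.X) z := by
        have : algebraMap (Polynomial F) L Polynomial.X = ρ := Polynomial.aeval_X ρ
        rwa [this]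
      obtain ⟨p, hm, hp⟩ := h1.isIntegral
      let g : Polynomial F →+* LaurentSeries F :=
        (Polynomial.aeval (rhoE ((X : F⟦X⟧) : LaurentSeries F))).toRingHom
      refine ⟨{y | y ∈ (p.map g).roots}, (p.map g).roots.finite_toSet, fun η => ?_⟩
      have e : η.1.toRingHom.comp (algebraMap (Polynomial F) L) = g := by
        refine RingHom.ext fun q => ?_
        change η.1 (Polynomial.aeval ρ q) = Polynomial.aeval _ q
        rw [← Polynomial.aeval_algHom_apply, η.2]
      have := congrArg η.1.toRingHom hp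
      rw [Polynomial.hom_eval₂, e, map_zero] at this
      exact (Polynomial.mem_roots (hm.map g).ne_zero).mpr (by
        rw [Polynomial.IsRoot.def, Polynomial.eval_map]; exact this)
  choose T hT hmem using key
  have := hsf.to_subtype
  have := fun z : s => (hT z.1 z.2).to_subtype
  refine Finite.of_injective (fun (η : Emb F ρ) (z : s) => (⟨η.1 z, hmem z.1 z.2 η⟩ : T z.1 z.2))
    fun η η' h => Subtype.ext ?_
  have h1 : (η.1.comp (⊤ : IntermediateField F L).val) = η'.1.comp (⊤ : IntermediateField F L).val := by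
    refine IntermediateField.algHom_ext_of_eq_adjoin F htop.symm ?_
    rintro x (rfl | hx)
    · exact η.2.trans η'.2.symm
    · exact congrArg Subtype.val (congrFun h ⟨x, hx⟩)
  exact AlgHom.ext fun x => AlgHom.congr_fun h1 ⟨x, IntermediateField.mem_top⟩

/-- the norm of an integral element all of whose conjugates come from an ideal -/
theorem h85_norm {F R L K A : Type} [Field F] [CommRing R] [IsDomain R] [IsIntegrallyClosed R]
    [Field L] [Field K] [IsAlgClosed K] [CommRing A] [Algebra F R] [Algebra F L] [Algebra F K]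
    (φ : R →ₐ[F] L) (ψ : R →ₐ[F] K) (hφ : Function.Injective φ) (hψ : Function.Injective ψ)
    (halg : ∀ (Q : Type) [Field Q] [Algebra F Q] [Algebra Q L] [IsScalarTower F Q L],
      (∀ r, IsAlgebraic Q (φ r)) → ∀ x : L, IsAlgebraic Q x)
    {g : L} (hg : φ.toRingHom.IsIntegralElem g) (hg0 : g ≠ 0) (j : A →+* K) (I : Ideal A)
    (h : ∀ θ : L →ₐ[F] K, (∀ r, θ (φ r) = ψ r) → ∃ y ∈ I, θ g = j y) :
    ∃ a : R, a ≠ 0 ∧ ∃ y ∈ I, ψ a = j y := by
  let _ : Algebra R L := φ.toRingHom.toAlgebra
  let _ : Algebra R K := ψ.toRingHom.toAlgebra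
  have : IsScalarTower F R L := .of_algebraMap_eq fun c => (φ.commutes c).symm
  have : IsScalarTower F R K := .of_algebraMap_eq fun c => (ψ.commutes c).symm
  have : FaithfulSMul R L := (faithfulSMul_iff_algebraMap_injective R L).2 hφ
  have : FaithfulSMul R K := (faithfulSMul_iff_algebraMap_injective R K).2 hψ
  let _ := FractionRing.liftAlgebra R L
  let _ := FractionRing.liftAlgebra R K
  have hint : ∀ x : L, IsIntegral (FractionRing R) x := fun x =>
    (halg (FractionRing R) (fun r => by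
      have e : φ r = algebraMap (FractionRing R) L (algebraMap R _ r) :=
        IsScalarTower.algebraMap_apply R (FractionRing R) L r
      rw [e]
      exact isAlgebraic_algebraMap _) x).isIntegral
  have hg' : IsIntegral R g := hg
  have hp := minpoly.isIntegrallyClosed_eq_field_fractions' (FractionRing R) hg'
  have hr : ∀ z ∈ ((minpoly (FractionRing R) g).map (algebraMap (FractionRing R) K)).roots,
      ∃ y ∈ I, z = j y := fun z hz => by
    obtain ⟨θ, hθ⟩ := IntermediateField.exists_algHom_of_splits_of_aeval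
      (fun x => ⟨hint x, IsAlgClosed.splits _⟩) (Polynomial.mem_aroots.1 hz).2
    rw [← hθ]
    exact h (θ.restrictScalars F) fun r => (θ.restrictScalars R).commutes r
  have hm := (minpoly.monic (hint g)).map (algebraMap (FractionRing R) K)
  have h0 := (IsAlgClosed.splits _).coeff_zero_eq_prod_roots_of_monic hm
  obtain ⟨z, hz⟩ := IsAlgClosed.exists_root
    ((minpoly (FractionRing R) g).map (algebraMap (FractionRing R) K)) (by
      rw [Polynomial.degree_map]
      exact (minpoly.degree_pos (hint g)).ne')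
  obtain ⟨t, ht⟩ := Multiset.exists_cons_of_mem ((Polynomial.mem_roots hm.ne_zero).2 hz)
  rw [ht] at hr
  obtain ⟨y, hy, e1⟩ := hr z (Multiset.mem_cons_self _ _)
  obtain ⟨w, hw⟩ : t.prod ∈ j.range := Subring.multiset_prod_mem _ _ fun a ha => by
    obtain ⟨y', -, e⟩ := hr a (Multiset.mem_cons_of_mem ha)
    exact ⟨y', e.symm⟩
  rw [ht, Multiset.prod_cons, ← hw, e1, Polynomial.coeff_map] at h0
  have h1 : (minpoly (FractionRing R) g).coeff 0 = algebraMap R _ ((minpoly R g).coeff 0) := by
    rw [hp, Polynomial.coeff_map]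
  rw [h1, ← IsScalarTower.algebraMap_apply] at h0
  generalize Polynomial.natDegree (R := K) _ = n at h0
  refine ⟨(minpoly R g).coeff 0, fun h2 => minpoly.coeff_zero_ne_zero (hint g) hg0 ?_,
    _, I.mul_mem_left ((-1) ^ n) (I.mul_mem_right w hy), h0.trans ?_⟩
  · rw [h1, h2, map_zero]
  · rw [map_mul, map_mul, map_pow, map_neg, map_one]

/-- `R = F[T]` acts on `L` through `ρ` and on `K = AlgebraicClosure (LaurentSeries F)` through
`rhoE X` (both injective: `tr`, `aeval_rhoE_eq`); `L` is algebraic over `R` (`alg`); every root in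
`K` of `p = minpoly R g` is `θ g` for an `R`-embedding `θ : L → K`
(`minpoly.isIntegrallyClosed_eq_field_fractions'`, `IntermediateField.exists_algHom_of_splits`-type
lemmas over `FractionRing R`), which lands (`land`); so `p(0) = ± ∏ roots` is the image of a series
without constant term, `p(0) = 0` (`aeval_rhoE_eq`), and `p = X` by irreducibility -/
theorem FldData.inj (H : FldData F L ρ) {g : L}
    (hg : (Polynomial.aeval ρ : Polynomial F →ₐ[F] L).toRingHom.IsIntegralElem g)
    (h : ∀ η : Emb F ρ, ∃ y : F⟦X⟧, constantCoeff y = 0 ∧ η.1 g = (y : LaurentSeries F)) :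
    g = 0 := by
  by_contra hg0
  let f : LaurentSeries F →ₐ[F] AlgebraicClosure (LaurentSeries F) := IsScalarTower.toAlgHom F _ _
  obtain ⟨a, ha, y, hy, e⟩ := h85_norm (Polynomial.aeval ρ : Polynomial F →ₐ[F] L)
    (f.comp (Polynomial.aeval (rhoE ((X : F⟦X⟧) : LaurentSeries F))))
    (transcendental_iff_injective.1 H.tr)
    (f.injective.comp ((injective_iff_map_eq_zero _).2 fun p hp =>
      aeval_rhoE_eq p 0 (map_zero _) (hp.trans (map_zero _).symm)))
    (fun Q _ _ _ _ hQ x => H.alg (AlgHom.id F L) (by simpa using hQ Polynomial.X) x) hg hg0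
    (f.toRingHom.comp (HahnSeries.ofPowerSeries ℤ F)) (RingHom.ker (constantCoeff (R := F)))
    fun θ hθ => by
      obtain ⟨θ', rfl⟩ := H.land f θ (b := X) constantCoeff_X X_ne_zero
        (by simpa using hθ Polynomial.X)
      obtain ⟨y, hy, e⟩ := h ⟨θ', f.injective (by simpa using hθ Polynomial.X)⟩
      exact ⟨y, hy, congrArg f e⟩
  exact ha (aeval_rhoE_eq a y hy (f.injective e))

/-- let `Ω₀` be the algebraic closure of `ι₀ L` in `Ω` (`algebraicClosure` for the algebra
structure `ι₀`), `K = AlgebraicClosure (LaurentSeries F)` an `L`-algebra through `η`, and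
`η' : Ω₀ →ₐ[L] K` (`IsAlgClosed.lift`).  For each `j`: the values of `k` and `τ j ρ` lie in `Ω₀`
(`Kum.per`, `Per.isIntegral`, `pr_ne`), `τ j L ⊆ Ω₀` (`alg`); `Kum.descend` to `Ω₀`, `Kum.map η'`,
`Kum.descend` to `LaurentSeries F` (`Per.mem_ps`), `hecke_iso`, `land` -/
theorem FldData.hecke (H : FldData F L ρ) {Ω : Type} [Field Ω] [Algebra F Ω] {d : ℕ} {J : Type}
    [Fintype J] (ι₀ : L →ₐ[F] Ω) (τ : J → L →ₐ[F] Ω)
    (hτ : ∀ j, ∃ k : Kum (ZMod (2 * d + 1)) Ω, k.ρ = ι₀ ρ ∧
      τ j ρ * k.pr (AddMonoidHom.id _) ^ 8 = k.ρ ^ (2 * d + 1)) (η : Emb F ρ) :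
    ∃ θ : J → L →ₐ[F] LaurentSeries F,
      (∀ j, ∃ (b : F⟦X⟧) (p : Pt b), constantCoeff b = 0 ∧ IsHom (X : F⟦X⟧) p ∧
        IsUnit (coeff 1 p.t) ∧ θ j ρ = rhoE (b : LaurentSeries F)) ∧
      ∀ (h : L) (f : J → L), ι₀ h = ∑ j, τ j (f j) → η.1 h = ∑ j, θ j (f j) := by
  let K := AlgebraicClosure (LaurentSeries F)
  let f : LaurentSeries F →ₐ[F] K := IsScalarTower.toAlgHom F _ K
  have cΩ : CharP Ω 2 := charP_of_injective_algebraMap (algebraMap F Ω).injective 2
  have cK : CharP K 2 := charP_of_injective_algebraMap (algebraMap F K).injective 2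
  let _ : Algebra L Ω := ι₀.toRingHom.toAlgebra
  have : IsScalarTower F L Ω := IsScalarTower.of_algebraMap_eq fun x => (ι₀.commutes x).symm
  let _ : Algebra L K := (f.comp η.1).toRingHom.toAlgebra
  have : IsScalarTower F L K :=
    IsScalarTower.of_algebraMap_eq fun x => ((f.comp η.1).commutes x).symm
  let S := algebraicClosure L Ω
  let η' : S →ₐ[L] K := IsAlgClosed.lift
  have hn : ∀ P : ZMod (2 * d + 1), (2 * d + 1) • P = 0 := fun P => by
    rw [nsmul_eq_mul, ZMod.natCast_self, zero_mul]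
  have hk : ∀ k : Kum (ZMod (2 * d + 1)) Ω, k.ρ = ι₀ ρ → ∀ P, k.ξ P ∈ S := fun k h P => by
    by_cases hP : P = 0
    · rw [hP, k.ξ_zero]; exact zero_mem _
    · have h1 := k.per hP (odd_two_mul_add_one d) (hn P)
      rw [h] at h1
      exact mem_algebraicClosure_iff'.mpr (Per.isIntegral (R := L) (ρ := ρ) h1)
  have hρS : ι₀ ρ ∈ S := S.algebraMap_mem ρ
  have hτS : ∀ j x, τ j x ∈ S := fun j x => by
    obtain ⟨k, h1, h2⟩ := hτ j
    refine mem_algebraicClosure_iff.mpr (H.alg (τ j) (mem_algebraicClosure_iff.mp ?_) x)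
    rw [eq_div_of_mul_eq (pow_ne_zero 8 (k.pr_ne Function.injective_id)) h2, h1]
    exact div_mem (pow_mem hρS _) (pow_mem (prod_mem fun i _ => hk k h1 _) _)
  let θ₁ : J → L →ₐ[F] K := fun j => (η'.restrictScalars F).comp
    ((τ j).codRestrict (S.restrictScalars F).toSubalgebra (hτS j))
  have hθ₁ : ∀ j x, θ₁ j x = η' ⟨τ j x, hτS j x⟩ := fun _ _ => rfl
  have hη' : ∀ h : L, η' ⟨ι₀ h, S.algebraMap_mem h⟩ = f (η.1 h) := fun h => η'.commutes h
  have main : ∀ j, ∃ θ : L →ₐ[F] LaurentSeries F, f.comp θ = θ₁ j ∧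
      ∃ (b : F⟦X⟧) (p : Pt b), constantCoeff b = 0 ∧ IsHom (X : F⟦X⟧) p ∧
        IsUnit (coeff 1 p.t) ∧ θ ρ = rhoE (b : LaurentSeries F) := fun j => by
    obtain ⟨k, h1, h2⟩ := hτ j
    obtain ⟨k', a1, a2⟩ := k.descend (S.val : S →+* Ω) ⟨⟨ι₀ ρ, hρS⟩, h1.symm⟩
      fun P => ⟨⟨_, hk k h1 P⟩, rfl⟩
    have a3 : k'.ρ = ⟨ι₀ ρ, hρS⟩ := Subtype.ext (a1.trans h1)
    have a4 : (k'.map (η' : S →+* K)).ρ = f (rhoE ((X : F⟦X⟧) : LaurentSeries F)) := by
      change η' k'.ρ = _
      rw [a3, hη', η.2]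
    obtain ⟨k₀, b1, b2⟩ := (k'.map (η' : S →+* K)).descend f.toRingHom ⟨_, a4.symm⟩ fun P => by
      by_cases hP : P = 0
      · rw [hP, Kum.ξ_zero]; exact zero_mem _
      · have h3 := (k'.map (η' : S →+* K)).per hP (odd_two_mul_add_one d) (hn P)
        rw [a4] at h3
        exact h5_per_range f.toRingHom constantCoeff_X X_ne_zero h3
    obtain ⟨b, p, c1, c2, c3, c4, c5⟩ := hecke_iso k₀ (f.injective (b1.trans a4))
    have d1 : f (k₀.pr (AddMonoidHom.id _)) = η' (k'.pr (AddMonoidHom.id _)) := by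
      simp only [Kum.pr, map_prod]
      exact Finset.prod_congr rfl fun i _ => b2 _
    have d2 : (k'.pr (AddMonoidHom.id _) : Ω) = k.pr (AddMonoidHom.id _) := by
      change S.val _ = _
      simp only [Kum.pr, map_prod]
      exact Finset.prod_congr rfl fun i _ => a2 _
    have d3 : (⟨τ j ρ, hτS j ρ⟩ : S) * k'.pr (AddMonoidHom.id _) ^ 8 = k'.ρ ^ (2 * d + 1) := by
      apply Subtype.ext
      push_cast
      rw [d2, h2, ← a1]
      rfl
    have d4 : θ₁ j ρ = f (rhoE (b : LaurentSeries F)) := by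
      have e1 := congrArg η' d3
      have e2 := congrArg f c5
      have e3 : f k₀.ρ = η' k'.ρ := b1
      rw [map_mul, map_pow, map_pow] at e1 e2
      rw [d1, e3, ← e1] at e2
      have e4 : η' (k'.pr (AddMonoidHom.id _)) ≠ 0 := by
        rw [← d1]
        exact (map_ne_zero f).mpr (k₀.pr_ne Function.injective_id)
      exact (mul_right_cancel₀ (pow_ne_zero 8 e4) e2).symm
    obtain ⟨θ, hθ⟩ := H.land f (θ₁ j) c1 c2 d4
    exact ⟨θ, hθ, b, p, c1, c3, c4, f.injective ((AlgHom.congr_fun hθ ρ).trans d4)⟩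
  choose θ hθ hθ' using main
  refine ⟨θ, hθ', fun h g hg => f.injective ?_⟩
  have e : (⟨ι₀ h, S.algebraMap_mem h⟩ : S) = ∑ j, ⟨τ j (g j), hτS j _⟩ := by
    apply Subtype.ext
    rw [IntermediateField.coe_sum]
    exact hg
  change f (η.1 h) = f _
  rw [← hη', e, map_sum, map_sum]
  exact Finset.sum_congr rfl fun j _ => (AlgHom.congr_fun (hθ j) (g j)).symm

end Crest.Agent.R007
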