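import Mathlib

/-! Row 7, block GEO: rigidity of `⋆`-isomorphisms, using only the `2`-series. -/

set_option autoImplicit false

open PowerSeries

namespace Crest.Agent.R007

section Gen
variable {R : Type*} [CommRing R]

theorem rig_hs {u : R⟦X⟧} (hu : constantCoeff u = 0) : HasSubst u :=
  HasSubst.of_constantCoeff_zero' hu

theorem rig_map_subst {S : Type*} [CommRing S] (h : R →+* S) (f u : R⟦X⟧)
    (hu : constantCoeff u = 0) :
    PowerSeries.map h (f.subst u) = (PowerSeries.map h f).subst (PowerSeries.map h u) :=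
  PowerSeries.map_subst (rig_hs hu) f

theorem rig_cc_subst (f u : R⟦X⟧) (hu : constantCoeff u = 0) (hf : constantCoeff f = 0) :
    constantCoeff (f.subst u : R⟦X⟧) = 0 :=
  constantCoeff_subst_eq_zero hu f hf

theorem rig_C_dvd_iff (s : R) (f : R⟦X⟧) : C s ∣ f ↔ ∀ n, s ∣ coeff n f := by
  constructor
  · rintro ⟨g, rfl⟩ n
    simp [coeff_C_mul]
  · intro h
    choose g hg using h
    refine ⟨PowerSeries.mk g, ?_⟩
    ext n
    simp [coeff_C_mul, hg]

theorem rig_C_dvd_iff_map (s : R) (f g : R⟦X⟧) : C s ∣ f - g ↔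
    PowerSeries.map (Ideal.Quotient.mk (Ideal.span {s})) f =
      PowerSeries.map (Ideal.Quotient.mk (Ideal.span {s})) g := by
  rw [rig_C_dvd_iff, PowerSeries.ext_iff]
  refine forall_congr' fun n => ?_
  rw [coeff_map, coeff_map, Ideal.Quotient.eq, Ideal.mem_span_singleton, map_sub]

/-- Substitution respects congruences modulo a constant (both arguments). -/
theorem rig_subst_cong (s : R) {f g u v : R⟦X⟧} (hu : constantCoeff u = 0)
    (hv : constantCoeff v = 0) (hfg : C s ∣ f - g) (huv : C s ∣ u - v) :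
    C s ∣ (f.subst u : R⟦X⟧) - g.subst v := by
  rw [rig_C_dvd_iff_map] at *
  rw [rig_map_subst _ _ _ hu, rig_map_subst _ _ _ hv, hfg, huv]

theorem rig_subst_C_mul (s : R) (f u : R⟦X⟧) (hu : constantCoeff u = 0) :
    ((C s * f).subst u : R⟦X⟧) = C s * f.subst u := by
  rw [subst_mul (rig_hs hu), subst_C]; rfl

/-- Lipschitz property of substitution in the `X`-adic topology. -/
theorem rig_lip (k : ℕ) (c u v : R⟦X⟧) (hu : constantCoeff u = 0) (hv : constantCoeff v = 0)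
    (h : X ^ k ∣ u - v) : X ^ k ∣ (c.subst u : R⟦X⟧) - c.subst v := by
  have e := eq_X_pow_mul_shift_add_trunc k c
  set r : R⟦X⟧ := PowerSeries.mk fun i => coeff (i + k) c
  have h1 : ∀ w : R⟦X⟧, constantCoeff w = 0 → (c.subst w : R⟦X⟧) =
      w ^ k * r.subst w + Polynomial.aeval w (trunc k c) := by
    intro w hw
    conv_lhs => rw [e]
    rw [subst_add (rig_hs hw), subst_mul (rig_hs hw), subst_pow (rig_hs hw), subst_X (rig_hs hw),
      subst_coe (rig_hs hw)]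
  rw [h1 u hu, h1 v hv]
  have hx : ∀ w : R⟦X⟧, constantCoeff w = 0 → X ^ k ∣ w ^ k * (r.subst w : R⟦X⟧) := fun w hw =>
    (pow_dvd_pow_of_dvd (X_dvd_iff.mpr hw) k).mul_right _
  have h2 : u - v ∣ Polynomial.aeval u (trunc k c) - Polynomial.aeval v (trunc k c) := by
    rw [Polynomial.aeval_def, Polynomial.aeval_def, Polynomial.eval₂_eq_eval_map,
      Polynomial.eval₂_eq_eval_map]
    exact Polynomial.sub_dvd_eval_sub _ _ _
  have : u ^ k * r.subst u + Polynomial.aeval u (trunc k c) -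
      (v ^ k * r.subst v + Polynomial.aeval v (trunc k c)) =
      (u ^ k * r.subst u - v ^ k * r.subst v) +
        (Polynomial.aeval u (trunc k c) - Polynomial.aeval v (trunc k c)) := by ring
  rw [this]
  exact ((hx u hu).sub (hx v hv)).add (h.trans h2)

/-- Substitution of a non-zero series without constant term is injective over a domain. -/
theorem rig_subst_eq_zero [IsDomain R] (f u : R⟦X⟧) (hu : constantCoeff u = 0) (hu0 : u ≠ 0)
    (h : (f.subst u : R⟦X⟧) = 0) : f = 0 := by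
  by_contra hf
  have e := X_pow_order_mul_divXPowOrder (f := f)
  have hc : constantCoeff (divXPowOrder f) ≠ 0 := by
    rwa [Ne, constantCoeff_divXPowOrder_eq_zero_iff]
  set g := divXPowOrder f
  rw [← e, subst_mul (rig_hs hu), subst_pow (rig_hs hu), subst_X (rig_hs hu)] at h
  rcases mul_eq_zero.mp h with h | h
  · exact hu0 (pow_eq_zero_iff' .. |>.mp h).1
  · apply hc
    have e2 : g = X * (PowerSeries.mk fun i => coeff (i + 1) g) + C (constantCoeff g) :=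
      eq_X_mul_shift_add_const g
    rw [e2, subst_add (rig_hs hu), subst_mul (rig_hs hu), subst_X (rig_hs hu), subst_C] at h
    have := congrArg (constantCoeff (R := R)) h
    rw [map_add, map_mul, hu, zero_mul, zero_add, map_zero] at this
    exact this

/-- the `X²`-coefficient of `ψ ∘ P` for `P = O(X²)`. -/
theorem rig_coeff_two_left (ψ P : R⟦X⟧) (hψ : constantCoeff ψ = 0) (hP : X ^ 2 ∣ P) :
    coeff 2 (ψ.subst P : R⟦X⟧) = coeff 1 ψ * coeff 2 P := by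
  have hP0 : constantCoeff P = 0 := X_dvd_iff.mp ((dvd_pow_self _ two_ne_zero).trans hP)
  have e := eq_X_pow_mul_shift_add_trunc 2 ψ
  set r : R⟦X⟧ := PowerSeries.mk fun i => coeff (i + 2) ψ
  have e2 : ψ = X ^ 2 * r + C (coeff 1 ψ) * X := by
    conv_lhs => rw [e]
    congr 1
    ext n
    rw [Polynomial.coeff_coe, coeff_trunc, coeff_C_mul, coeff_X]
    rcases n with _ | _ | n <;> simp [hψ]
  conv_lhs => rw [e2]
  rw [subst_add (rig_hs hP0), subst_mul (rig_hs hP0), subst_pow (rig_hs hP0),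
    subst_X (rig_hs hP0), rig_subst_C_mul _ _ _ hP0, subst_X (rig_hs hP0), map_add, coeff_C_mul]
  have : X ^ 4 ∣ P ^ 2 * (r.subst P : R⟦X⟧) := by
    refine Dvd.dvd.mul_right ?_ _
    have := pow_dvd_pow_of_dvd hP 2
    rwa [← pow_mul] at this
  rw [X_pow_dvd_iff.mp this 2 (by norm_num), zero_add]

/-- the `X²`-coefficient of `P ∘ ψ` for `P = O(X²)`. -/
theorem rig_coeff_two_right (ψ P : R⟦X⟧) (hψ : constantCoeff ψ = 0) (hP : X ^ 2 ∣ P) :
    coeff 2 (P.subst ψ : R⟦X⟧) = coeff 2 P * coeff 1 ψ ^ 2 := by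
  obtain ⟨Q, rfl⟩ := hP
  obtain ⟨w, rfl⟩ := X_dvd_iff.mpr hψ
  rw [subst_mul (rig_hs hψ), subst_pow (rig_hs hψ), subst_X (rig_hs hψ), mul_pow, mul_assoc]
  have h2 : ∀ g : R⟦X⟧, coeff 2 (X ^ 2 * g) = constantCoeff g := fun g => by
    simpa using coeff_X_pow_mul g 2 0
  have h1 : coeff 1 (X * w) = constantCoeff w := by
    simp
  rw [h2, h2, h1, map_mul, map_pow, mul_comm]
  congr 1
  have e2 : Q = X * (PowerSeries.mk fun i => coeff (i + 1) Q) + C (constantCoeff Q) :=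
    eq_X_mul_shift_add_const Q
  conv_lhs => rw [e2]
  rw [subst_add (rig_hs hψ), subst_mul (rig_hs hψ), subst_X (rig_hs hψ), subst_C, map_add, map_mul,
    hψ, zero_mul, zero_add]
  rfl

/-- In characteristic two, a series in `X²` doubles the order of a congruence. -/
theorem rig_sq_cong [CharP R 2] (s : R) (Q : R⟦X⟧) {u v : R⟦X⟧} (hu : constantCoeff u = 0)
    (hv : constantCoeff v = 0) (huv : C s ∣ u - v) :
    C (s ^ 2) ∣ (PowerSeries.subst u (Q.subst (X ^ 2 : R⟦X⟧) : R⟦X⟧) : R⟦X⟧) -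
      (PowerSeries.subst v (Q.subst (X ^ 2 : R⟦X⟧) : R⟦X⟧) : R⟦X⟧) := by
  have hX2 : HasSubst (X ^ 2 : R⟦X⟧) := HasSubst.X_pow two_ne_zero
  rw [subst_comp_subst_apply hX2 (rig_hs hu), subst_comp_subst_apply hX2 (rig_hs hv),
    subst_pow (rig_hs hu), subst_pow (rig_hs hv), subst_X (rig_hs hu), subst_X (rig_hs hv)]
  refine rig_subst_cong _ (by simp [hu]) (by simp [hv]) (by simp) ?_
  obtain ⟨θ, hθ⟩ := huv
  have h2 : (2 : R⟦X⟧) = 0 := by
    have : (2 : R⟦X⟧) = C (2 : R) := by simp [map_ofNat]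
    rw [this, CharTwo.two_eq_zero, map_zero]
  refine ⟨θ ^ 2, ?_⟩
  have : u = v + C s * θ := by rw [← hθ]; ring
  rw [this, map_pow]
  linear_combination (v * (C s * θ)) * h2

end Gen

section Rig
variable {F : Type*} [Field F]

/-- specialisation `a ↦ a'` of the coefficients of a family over `F⟦a⟧`. -/
noncomputable def spz (a' : F⟦X⟧) (ha : constantCoeff a' = 0) : F⟦X⟧ →+* F⟦X⟧ :=
  (substAlgHom (R := F) (rig_hs ha)).toRingHom

theorem spz_apply (a' : F⟦X⟧) (ha : constantCoeff a' = 0) (c : F⟦X⟧) :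
    spz a' ha c = c.subst a' := by
  simp [spz, coe_substAlgHom]

theorem spz_cc (a' : F⟦X⟧) (ha : constantCoeff a' = 0) (c : F⟦X⟧) :
    constantCoeff (spz a' ha c) = constantCoeff c := by
  have e2 : c = X * (PowerSeries.mk fun i => coeff (i + 1) c) + C (constantCoeff c) :=
    eq_X_mul_shift_add_const c
  conv_lhs => rw [e2]
  rw [spz_apply, subst_add (rig_hs ha), subst_mul (rig_hs ha), subst_X (rig_hs ha), subst_C,
    map_add, map_mul, ha, zero_mul, zero_add]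
  rfl

theorem spz_X (a' : F⟦X⟧) (ha : constantCoeff a' = 0) : spz a' ha X = a' := by
  rw [spz_apply, subst_X (rig_hs ha)]

theorem rig_red_iff (f g : F⟦X⟧⟦X⟧) : C (X : F⟦X⟧) ∣ f - g ↔
    PowerSeries.map (constantCoeff (R := F)) f = PowerSeries.map (constantCoeff (R := F)) g := by
  rw [rig_C_dvd_iff, PowerSeries.ext_iff]
  refine forall_congr' fun n => ?_
  rw [coeff_map, coeff_map, X_dvd_iff, map_sub, map_sub, sub_eq_zero]

/-- **Effective rigidity.**  `P = Q(X²) = a X² + …` over `F⟦a⟧` with non-zero reduction; `P₁, P₂` its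
specialisations at `a₁, a₂`; `ψ ≡ X mod a` with `ψ ∘ P₁ ≡ P₂ ∘ ψ mod a^m`.  Then `ψ ≡ X` and
`a₁ ≡ a₂ mod a^m`. -/
theorem rig_main [CharP F 2] (Q : F⟦X⟧⟦X⟧) (hQ0 : constantCoeff Q = 0) (hQ1 : coeff 1 Q = X)
    (hQ : PowerSeries.map (constantCoeff (R := F)) Q ≠ 0)
    (a₁ a₂ : F⟦X⟧) (h₁ : constantCoeff a₁ = 0) (h₂ : constantCoeff a₂ = 0)
    (ψ : F⟦X⟧⟦X⟧) (hψ0 : constantCoeff ψ = 0)
    (hψ : PowerSeries.map (constantCoeff (R := F)) ψ = X) (m : ℕ)
    (h : C (X ^ m : F⟦X⟧) ∣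
      (ψ.subst ((PowerSeries.map (spz a₁ h₁) Q).subst (X ^ 2 : F⟦X⟧⟦X⟧) : F⟦X⟧⟦X⟧) : F⟦X⟧⟦X⟧) -
        (PowerSeries.subst ψ
          ((PowerSeries.map (spz a₂ h₂) Q).subst (X ^ 2 : F⟦X⟧⟦X⟧) : F⟦X⟧⟦X⟧) : F⟦X⟧⟦X⟧)) :
    C (X ^ m : F⟦X⟧) ∣ ψ - X ∧ X ^ m ∣ a₁ - a₂ := by
  have : CharP F⟦X⟧ 2 := charP_of_injective_ringHom (C_injective (R := F)) 2
  have hX2 : HasSubst (X ^ 2 : F⟦X⟧⟦X⟧) := HasSubst.X_pow two_ne_zero
  set P₁ : F⟦X⟧⟦X⟧ := (PowerSeries.map (spz a₁ h₁) Q).subst (X ^ 2 : F⟦X⟧⟦X⟧) with hP₁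
  set P₂ : F⟦X⟧⟦X⟧ := (PowerSeries.map (spz a₂ h₂) Q).subst (X ^ 2 : F⟦X⟧⟦X⟧) with hP₂
  have hc : ∀ (a : F⟦X⟧) (ha : constantCoeff a = 0),
      X ^ 2 ∣ ((PowerSeries.map (spz a ha) Q).subst (X ^ 2 : F⟦X⟧⟦X⟧) : F⟦X⟧⟦X⟧) ∧
      coeff 2 ((PowerSeries.map (spz a ha) Q).subst (X ^ 2 : F⟦X⟧⟦X⟧) : F⟦X⟧⟦X⟧) = a := by
    intro a ha
    constructor
    · rw [X_pow_dvd_iff]
      intro n hn
      rw [coeff_subst_X_pow two_ne_zero]
      interval_cases n
      · simp [hQ0]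
      · simp
    · rw [coeff_subst_X_pow two_ne_zero]
      simp [hQ1, spz_X]
  have hP10 : constantCoeff P₁ = 0 :=
    X_dvd_iff.mp ((dvd_pow_self _ two_ne_zero).trans (hc a₁ h₁).1)
  have hPb : PowerSeries.map (constantCoeff (R := F)) P₁ ≠ 0 := by
    rw [hP₁, rig_map_subst _ _ _ (by simp)]
    intro h0
    apply hQ
    have := rig_subst_eq_zero _ _ (by simp) (by simp [X_ne_zero]) h0
    rw [← this]
    ext n
    simp [coeff_map, spz_cc]
  -- the step for the parameter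
  have stepA : ∀ j, j + 1 ≤ m → C (X ^ j : F⟦X⟧) ∣ ψ - X → X ^ (j + 1) ∣ a₁ - a₂ := by
    intro j hj hjψ
    have e1 := (rig_C_dvd_iff _ _).mp h 2
    rw [map_sub, rig_coeff_two_left _ _ hψ0 (hc a₁ h₁).1, rig_coeff_two_right _ _ hψ0 (hc a₂ h₂).1,
      (hc a₁ h₁).2, (hc a₂ h₂).2] at e1
    set u := coeff 1 ψ
    have hu : constantCoeff u = 1 := by
      have := congrArg (coeff 1) hψ
      simpa [coeff_map] using this
    have hun : IsUnit u := by rw [isUnit_iff_constantCoeff, hu]; exact isUnit_one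
    have e2 : X ^ (j + 1) ∣ a₁ - a₂ * u := by
      have : u * a₁ - a₂ * u ^ 2 = u * (a₁ - a₂ * u) := by ring
      rw [this, hun.dvd_mul_left] at e1
      exact (pow_dvd_pow _ hj).trans e1
    have e3 : X ^ j ∣ u - 1 := by
      have := (rig_C_dvd_iff _ _).mp hjψ 1
      simpa using this
    have e4 : X ^ (j + 1) ∣ a₂ * (u - 1) := by
      rw [pow_succ']
      exact mul_dvd_mul (X_dvd_iff.mpr h₂) e3
    have : a₁ - a₂ = (a₁ - a₂ * u) + a₂ * (u - 1) := by ring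
    rw [this]
    exact e2.add e4
  have stepB : ∀ j, 1 ≤ j → j + 1 ≤ m → C (X ^ j : F⟦X⟧) ∣ ψ - X →
      C (X ^ (j + 1) : F⟦X⟧) ∣ ψ - X := by
    intro j hj1 hj hjψ
    have ha := stepA j hj hjψ
    have hP : C (X ^ (j + 1) : F⟦X⟧) ∣ P₁ - P₂ := by
      refine rig_subst_cong _ (by simp) (by simp) ?_ (by simp)
      rw [rig_C_dvd_iff]
      intro n
      rw [map_sub, coeff_map, coeff_map, spz_apply, spz_apply]
      exact rig_lip _ _ _ _ h₁ h₂ ha
    have hs : C (X ^ (j + 1) : F⟦X⟧) ∣ (P₂.subst ψ : F⟦X⟧⟦X⟧) - P₂ := by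
      have := rig_sq_cong (X ^ j : F⟦X⟧) (PowerSeries.map (spz a₂ h₂) Q) hψ0 (by simp) hjψ
      rw [X_subst] at this
      refine (map_dvd C ?_).trans this
      rw [← pow_mul]
      exact pow_dvd_pow _ (by omega)
    obtain ⟨θ, hθ⟩ := hjψ
    have eψ : ψ = X + C (X ^ j) * θ := by rw [← hθ]; ring
    have e1 : (ψ.subst P₁ : F⟦X⟧⟦X⟧) = P₁ + C (X ^ j) * θ.subst P₁ := by
      conv_lhs => rw [eψ]
      rw [subst_add (rig_hs hP10), subst_X (rig_hs hP10), rig_subst_C_mul _ _ _ hP10]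
    have h' : C (X ^ (j + 1) : F⟦X⟧) ∣ (ψ.subst P₁ : F⟦X⟧⟦X⟧) - P₂.subst ψ :=
      (map_dvd C (pow_dvd_pow _ hj)).trans h
    have e2 : C (X ^ (j + 1) : F⟦X⟧) ∣ C (X ^ j) * (θ.subst P₁ : F⟦X⟧⟦X⟧) := by
      have : C (X ^ j) * (θ.subst P₁ : F⟦X⟧⟦X⟧) =
          ((ψ.subst P₁ : F⟦X⟧⟦X⟧) - P₂.subst ψ) + ((P₂.subst ψ : F⟦X⟧⟦X⟧) - P₂) - (P₁ - P₂) := by
        rw [e1]; ring
      rw [this]
      exact (h'.add hs).sub hP
    have hne : (C (X ^ j : F⟦X⟧) : F⟦X⟧⟦X⟧) ≠ 0 := by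
      rw [Ne, map_eq_zero_iff _ C_injective]
      exact pow_ne_zero _ X_ne_zero
    rw [pow_succ, map_mul, mul_dvd_mul_iff_left hne] at e2
    have e3 := (rig_red_iff (θ.subst P₁ : F⟦X⟧⟦X⟧) 0).mp (by simpa using e2)
    rw [rig_map_subst _ _ _ hP10, map_zero] at e3
    have hcm : constantCoeff (PowerSeries.map (constantCoeff (R := F)) P₁) = 0 := by
      rw [← coeff_zero_eq_constantCoeff_apply, coeff_map, coeff_zero_eq_constantCoeff_apply, hP10,
        map_zero]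
    have e4 := rig_subst_eq_zero _ _ hcm hPb e3
    have e5 := (rig_red_iff θ 0).mpr (by rw [e4, map_zero])
    rw [hθ, pow_succ, map_mul]
    exact mul_dvd_mul_left _ (by simpa using e5)
  have all : ∀ j, j ≤ m → C (X ^ j : F⟦X⟧) ∣ ψ - X := by
    intro j
    induction j with
    | zero => intro _; simp
    | succ j ih =>
      intro hj
      rcases Nat.eq_zero_or_pos j with rfl | hj0
      · rw [zero_add, pow_one, rig_red_iff, hψ]; simp
      · exact stepB j hj0 hj (ih (by omega))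
  refine ⟨all m le_rfl, ?_⟩
  rcases m with _ | m
  · simp
  · exact stepA m le_rfl (all m (by omega))

/-- **Rigidity**, exact form. -/
theorem rig_exact [CharP F 2] (Q : F⟦X⟧⟦X⟧) (hQ0 : constantCoeff Q = 0) (hQ1 : coeff 1 Q = X)
    (hQ : PowerSeries.map (constantCoeff (R := F)) Q ≠ 0)
    (a₁ a₂ : F⟦X⟧) (h₁ : constantCoeff a₁ = 0) (h₂ : constantCoeff a₂ = 0)
    (ψ : F⟦X⟧⟦X⟧) (hψ0 : constantCoeff ψ = 0)
    (hψ : PowerSeries.map (constantCoeff (R := F)) ψ = X)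
    (h : (ψ.subst ((PowerSeries.map (spz a₁ h₁) Q).subst (X ^ 2 : F⟦X⟧⟦X⟧) : F⟦X⟧⟦X⟧) : F⟦X⟧⟦X⟧) =
        (PowerSeries.subst ψ
          ((PowerSeries.map (spz a₂ h₂) Q).subst (X ^ 2 : F⟦X⟧⟦X⟧) : F⟦X⟧⟦X⟧) : F⟦X⟧⟦X⟧)) :
    ψ = X ∧ a₁ = a₂ := by
  have key := fun m => rig_main Q hQ0 hQ1 hQ a₁ a₂ h₁ h₂ ψ hψ0 hψ m (by rw [h]; simp)
  constructor
  · rw [← sub_eq_zero]
    ext n k
    have := X_pow_dvd_iff.mp ((rig_C_dvd_iff _ _).mp (key (k + 1)).1 n) k (by omega)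
    simpa using this
  · rw [← sub_eq_zero]
    ext k
    have := X_pow_dvd_iff.mp (key (k + 1)).2 k (by omega)
    simpa using this

end Rig

end Crest.Agent.R007
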