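import Crest.Agent.R007.GPt
import Crest.Agent.R007.GRig

/-! Row 7, block FG: formal points over `A⟦X⟧`, substitutions, natural endomorphisms. -/

set_option autoImplicit false
set_option linter.unusedSectionVars false

open PowerSeries

namespace Crest.Agent.R007

section PS
variable {A : Type} [CommRing A] [CharP A 2]

/-- the ideal `(X)` -/
noncomputable abbrev mX (A : Type) [CommRing A] : Ideal A⟦X⟧ := Ideal.span {X}

omit [CharP A 2] in
theorem mem_mX {u : A⟦X⟧} : u ∈ mX A ↔ constantCoeff u = 0 := by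
  rw [Ideal.mem_span_singleton, X_dvd_iff]

instance : Lc (mX A) where
  two := by
    have : (2 : A⟦X⟧) = C (2 : A) := by simp [map_ofNat]
    rw [this, CharTwo.two_eq_zero, map_zero]
  unit x hx := by
    rw [isUnit_iff_constantCoeff, map_add, mem_mX.mp hx]; simp

/-- formal points of `E_b` over `A⟦X⟧` -/
abbrev Pt (b : A) : Type := FPt (mX A) (C b)

theorem Pt.cc {b : A} (U : Pt b) : constantCoeff U.t = 0 := mem_mX.mp U.ht

theorem exists_pt (b : A) (u : A⟦X⟧) (hu : constantCoeff u = 0) : ∃ U : Pt b, U.t = u := by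
  have h2 : (2 : A⟦X⟧) = 0 := Lc.two (m := mX A)
  have hm : (Polynomial.X ^ 2 + (Polynomial.C (1 + C b * u) * Polynomial.X - Polynomial.C (u ^ 3)) :
      Polynomial A⟦X⟧).Monic := by
    apply Polynomial.monic_X_pow_add
    rw [sub_eq_add_neg, ← Polynomial.C_neg]
    exact (Polynomial.degree_linear_lt).trans_le (by norm_num)
  obtain ⟨w, hw, hw'⟩ := HenselianRing.is_henselian (I := mX A) _ hm 0 (by
      simp [mem_mX, hu]) (by
      apply IsUnit.map
      rw [Polynomial.derivative_add, Polynomial.derivative_sub, Polynomial.derivative_C]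
      simp [isUnit_iff_constantCoeff, hu])
  refine ⟨⟨u, w, mem_mX.mpr hu, by simpa using hw', ?_⟩, rfl⟩
  simp only [Polynomial.IsRoot.def, Polynomial.eval_add, Polynomial.eval_pow, Polynomial.eval_X,
    Polynomial.eval_sub, Polynomial.eval_mul, Polynomial.eval_C] at hw
  linear_combination hw

/-- the point with parameter `u` -/
noncomputable def ofT (b : A) (u : A⟦X⟧) (hu : constantCoeff u = 0) : Pt b :=
  (exists_pt b u hu).choose

@[simp] theorem ofT_t (b : A) (u : A⟦X⟧) (hu : constantCoeff u = 0) : (ofT b u hu).t = u :=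
  (exists_pt b u hu).choose_spec

/-- the generic point -/
noncomputable def gen (b : A) : Pt b := ofT b X (by simp)

@[simp] theorem gen_t (b : A) : (gen b).t = X := ofT_t _ _ _

/-- substitution as a ring homomorphism -/
noncomputable def sbR (u : A⟦X⟧) (hu : constantCoeff u = 0) : A⟦X⟧ →+* A⟦X⟧ :=
  (substAlgHom (R := A) (rig_hs hu)).toRingHom

omit [CharP A 2] in
theorem sbR_apply (u : A⟦X⟧) (hu : constantCoeff u = 0) (f : A⟦X⟧) : sbR u hu f = f.subst u := by
  simp [sbR, coe_substAlgHom]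

variable [IsDomain A]

/-- substitution acting on points -/
noncomputable def sub (b : A) (u : A⟦X⟧) (hu : constantCoeff u = 0) : Pt b →+ Pt b :=
  FPt.map (sbR u hu) (fun x hx => by
    rw [mem_mX] at *; rw [sbR_apply]; exact rig_cc_subst _ _ hu hx) (by
    rw [sbR_apply, subst_C]; rfl)

@[simp] theorem sub_t (b : A) (u : A⟦X⟧) (hu : constantCoeff u = 0) (U : Pt b) :
    (sub b u hu U).t = U.t.subst u := sbR_apply _ _ _

theorem sub_gen (b : A) (U : Pt b) : sub b U.t U.cc (gen b) = U :=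
  FPt.ext_t (by rw [sub_t, gen_t, subst_X (rig_hs U.cc)])

/-- change of coefficients acting on points -/
noncomputable def cmap {A' : Type} [CommRing A'] [CharP A' 2] [IsDomain A'] (h : A →+* A') (b : A)
    (b' : A') (hb : h b = b') : Pt b →+ Pt b' :=
  FPt.map (PowerSeries.map h) (fun x hx => by
    rw [mem_mX] at *
    rw [← coeff_zero_eq_constantCoeff_apply, coeff_map, coeff_zero_eq_constantCoeff_apply, hx,
      map_zero]) (by rw [map_C, hb])

@[simp] theorem cmap_t {A' : Type} [CommRing A'] [CharP A' 2] [IsDomain A'] (h : A →+* A') (b : A)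
    (b' : A') (hb : h b = b') (U : Pt b) : (cmap h b b' hb U).t = PowerSeries.map h U.t := rfl

theorem cmap_gen {A' : Type} [CommRing A'] [CharP A' 2] [IsDomain A'] (h : A →+* A') (b : A)
    (b' : A') (hb : h b = b') : cmap h b b' hb (gen b) = gen b' := FPt.ext_t (by simp)

end PS

section Cong
variable {S : Type*} [CommRing S] [IsDomain S] {m : Ideal S} {b : S} [hL : Lc m]

theorem FPt.dvd_sub (s : S) (U V : FPt m b) (h : s ∣ U.t - V.t) : s ∣ (U - V).t := by
  let π := Ideal.Quotient.mk (Ideal.span {s})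
  have : Lc (m.map π) := ⟨by rw [← map_ofNat π 2, hL.two, map_zero], by
    intro x hx
    obtain ⟨y, hy, rfl⟩ := (Ideal.mem_map_iff_of_surjective π Ideal.Quotient.mk_surjective).mp hx
    simpa using (hL.unit y hy).map π⟩
  have hf : ∀ x ∈ m, π x ∈ m.map π := fun x hx => Ideal.mem_map_of_mem _ hx
  have h0 : FPt.map0 π hf rfl U = FPt.map0 π hf rfl V := FPt.ext_t (by
    show π U.t = π V.t
    rwa [Ideal.Quotient.eq, Ideal.mem_span_singleton])
  have h1 := FPt.map0_add π hf rfl U (-V)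
  rw [h0, ← FPt.map0_add, add_neg_cancel, ← sub_eq_add_neg] at h1
  have h2 : π (U - V).t = π 0 := congrArg FPt.t h1
  rwa [Ideal.Quotient.eq, Ideal.mem_span_singleton, sub_zero] at h2

end Cong

section PS2
variable {A : Type} [CommRing A] [CharP A 2] [IsDomain A]

theorem Pt.X3_dvd_w {b : A} (U : Pt b) : X ^ 3 ∣ U.w := by
  have h : U.w * (1 + C b * U.t + U.w) = U.t ^ 3 := by linear_combination U.eq
  rw [← (FPt.unit_u U).dvd_mul_right, h]
  exact pow_dvd_pow_of_dvd (X_dvd_iff.mpr U.cc) 3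

theorem Pt.lam_dvd {b : A} (U V : Pt b) : X ^ 2 ∣ FPt.lam U V := by
  have hU := X_dvd_iff.mpr U.cc
  have hV := X_dvd_iff.mpr V.cc
  refine Dvd.dvd.mul_right (dvd_add (dvd_add (dvd_add ?_ ?_) ?_) ?_) _
  · exact pow_dvd_pow_of_dvd hU 2
  · rw [pow_two]; exact mul_dvd_mul hU hV
  · exact pow_dvd_pow_of_dvd hV 2
  · exact ((pow_dvd_pow _ (by norm_num)).trans U.X3_dvd_w).mul_left _

theorem Pt.neg_t_sub {b : A} (U : Pt b) (k : ℕ) (h : X ^ k ∣ U.t) : X ^ (k + 1) ∣ (-U).t - U.t := by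
  have hi := Ring.mul_inverse_cancel _ (FPt.unit_u U)
  rw [FPt.neg_t]
  set i := Ring.inverse (1 + C b * U.t + U.w)
  have : U.t * i - U.t = U.t * (-(C b * U.t + U.w) * i) := by linear_combination U.t * hi
  rw [this, pow_succ]
  refine mul_dvd_mul h (Dvd.dvd.mul_right (dvd_neg.mpr (dvd_add ?_ ?_)) _)
  · exact (X_dvd_iff.mpr U.cc).mul_left _
  · exact (dvd_pow_self _ (by norm_num)).trans U.X3_dvd_w

theorem Pt.coeff_one_add {b : A} (U V : Pt b) :
    coeff 1 (U + V).t = coeff 1 U.t + coeff 1 V.t := by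
  have h1 := Pt.neg_t_sub (FPt.third U V) 1 (by simpa using X_dvd_iff.mpr (Pt.cc (FPt.third U V)))
  have h2 := X_pow_dvd_iff.mp h1 1 (by norm_num)
  rw [map_sub, sub_eq_zero] at h2
  rw [FPt.add_def, h2]
  have h3 : X ^ 2 ∣ C b * FPt.lam U V + FPt.lam U V ^ 2 :=
    dvd_add ((Pt.lam_dvd U V).mul_left _) ((Pt.lam_dvd U V).trans (dvd_pow_self _ two_ne_zero))
  show coeff 1 (C b * FPt.lam U V + FPt.lam U V ^ 2 + U.t + V.t) = _
  rw [map_add, map_add, X_pow_dvd_iff.mp h3 1 (by norm_num), zero_add]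

/-- the tangent map -/
noncomputable def Pt.tan (b : A) : Pt b →+ A :=
  AddMonoidHom.mk' (fun U => coeff 1 U.t) Pt.coeff_one_add

theorem Pt.tan_apply (b : A) (U : Pt b) : Pt.tan b U = coeff 1 U.t := rfl

omit [CharP A 2] [IsDomain A] in
theorem even_odd (s : A⟦X⟧) : ∃ e o : A⟦X⟧,
    s = (e.subst (X ^ 2 : A⟦X⟧) : A⟦X⟧) + X * (o.subst (X ^ 2 : A⟦X⟧) : A⟦X⟧) := by
  refine ⟨PowerSeries.mk fun n => coeff (2 * n) s, PowerSeries.mk fun n => coeff (2 * n + 1) s, ?_⟩
  ext n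
  rw [map_add, coeff_subst_X_pow two_ne_zero]
  rcases n with _ | n
  · simp
  · rw [coeff_succ_X_mul, coeff_subst_X_pow two_ne_zero]
    rcases Nat.even_or_odd' n with ⟨k, rfl | rfl⟩
    · have : ¬ 2 ∣ 2 * k + 1 := by omega
      simp [this]
    · have h1 : ¬ 2 ∣ 2 * k + 1 := by omega
      have h2 : 2 ∣ 2 * k + 1 + 1 := by omega
      have h3 : 2 * ((2 * k + 1 + 1) / 2) = 2 * k + 1 + 1 := by omega
      simp [h1, h2, h3]

/-- `τ : Pt b'` defines a homomorphism from the formal group of `E_b` to that of `E_{b'}`. -/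
def IsHom (b : A) {b' : A} (τ : Pt b') : Prop :=
  ∀ U V : Pt b, sub b' (U + V).t (U + V).cc τ = sub b' U.t U.cc τ + sub b' V.t V.cc τ

/-- a homomorphism with zero tangent map is a series in `X²`. -/
theorem IsHom.exists_sq {b b' : A} {τ : Pt b'} (h : IsHom b τ) (h1 : coeff 1 τ.t = 0) :
    ∃ e : A⟦X⟧, constantCoeff e = 0 ∧ τ.t = e.subst (X ^ 2 : A⟦X⟧) := by
  have h2 : (2 : A⟦X⟧) = 0 := Lc.two (m := mX A)
  obtain ⟨e, o, hs⟩ := even_odd τ.t
  have hX2 : HasSubst (X ^ 2 : A⟦X⟧) := HasSubst.X_pow two_ne_zero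
  have hτ2 : X ^ 2 ∣ τ.t := by
    rw [X_pow_dvd_iff]
    intro n hn
    interval_cases n
    · simpa using τ.cc
    · exact h1
  set O : A⟦X⟧ := o.subst (X ^ 2 : A⟦X⟧) with hO
  have key : ∀ n : ℕ, X ^ (n + 1) ∣ O := by
    intro n
    set N : Pt b := ofT b (X ^ (n + 1)) (by simp)
    have hN : N.t = X ^ (n + 1) := ofT_t _ _ _
    set V : Pt b := gen b + N with hV
    obtain ⟨g, hg⟩ : X ^ (n + 1) ∣ V.t - X := by
      have := FPt.dvd_add_sub (X ^ (n + 1)) (gen b) N (by rw [hN])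
      rwa [gen_t] at this
    have hg0 : constantCoeff g ≠ 0 := by
      intro h0
      have : X ^ (n + 2) ∣ V.t - (gen b).t := by
        rw [gen_t, hg, pow_succ _ (n + 1)]; exact mul_dvd_mul_left _ (X_dvd_iff.mpr h0)
      have h3 := FPt.dvd_sub _ _ _ this
      rw [hV, add_sub_cancel_left, hN] at h3
      have := X_pow_dvd_iff.mp h3 (n + 1) (by omega)
      simp at this
    -- `τ(V) ≡ τ(X)` modulo `X^(2n+2)`
    have e1 : (X ^ (n + 1)) ^ 2 ∣ (τ.t.subst V.t : A⟦X⟧) - τ.t := by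
      have h4 := FPt.dvd_add_sub ((X ^ (n + 1)) ^ 2) (sub b' (gen b).t (gen b).cc τ)
        (sub b' N.t N.cc τ) (by
          obtain ⟨r, hr⟩ := hτ2
          rw [sub_t, hr, subst_mul (rig_hs N.cc), subst_pow (rig_hs N.cc), subst_X (rig_hs N.cc), hN]
          exact Dvd.intro _ rfl)
      rw [← h] at h4
      simpa using h4
    have hV2 : (X ^ (n + 1)) ^ 2 ∣ V.t ^ 2 - X ^ 2 := by
      refine ⟨g ^ 2, ?_⟩
      have : V.t = X + X ^ (n + 1) * g := by rw [← hg]; ring
      rw [this]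
      linear_combination (X * (X ^ (n + 1) * g)) * h2
    have e2 : ∀ c : A⟦X⟧, (X ^ (n + 1)) ^ 2 ∣
        (PowerSeries.subst V.t (c.subst (X ^ 2 : A⟦X⟧) : A⟦X⟧) : A⟦X⟧) - c.subst (X ^ 2 : A⟦X⟧) := by
      intro c
      rw [subst_comp_subst_apply hX2 (rig_hs V.cc), subst_pow (rig_hs V.cc), subst_X (rig_hs V.cc),
        ← pow_mul]
      exact rig_lip _ _ _ _ (by simp [V.cc]) (by simp) (by rwa [pow_mul])
    have e3 : (X ^ (n + 1)) ^ 2 ∣ X ^ (n + 1) * (g * O) := by
      have e4 : (τ.t.subst V.t : A⟦X⟧) = PowerSeries.subst V.t (e.subst (X ^ 2 : A⟦X⟧) : A⟦X⟧) +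
          V.t * PowerSeries.subst V.t O := by
        conv_lhs => rw [hs]
        rw [subst_add (rig_hs V.cc), subst_mul (rig_hs V.cc), subst_X (rig_hs V.cc)]
      have : X ^ (n + 1) * (g * O) = ((τ.t.subst V.t : A⟦X⟧) - τ.t) -
          ((PowerSeries.subst V.t (e.subst (X ^ 2 : A⟦X⟧) : A⟦X⟧) : A⟦X⟧) - e.subst (X ^ 2 : A⟦X⟧)) -
          V.t * ((PowerSeries.subst V.t O : A⟦X⟧) - O) := by
        rw [e4, ← mul_assoc, ← hg]
        linear_combination hs
      rw [this]
      exact (e1.sub (e2 e)).sub ((e2 o).mul_left _)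
    rw [pow_two, mul_dvd_mul_iff_left (pow_ne_zero _ X_ne_zero)] at e3
    -- cancel `g`
    by_contra hn
    have hO0 : O ≠ 0 := by rintro h0; exact hn (by rw [h0]; exact dvd_zero _)
    have hgo : g.order = 0 := by
      by_contra h0
      exact hg0 (order_ne_zero_iff_constCoeff_eq_zero.mp h0)
    apply hn
    rw [X_pow_dvd_iff] at e3 ⊢
    intro k hk
    apply coeff_of_lt_order
    have := nat_le_order _ _ e3
    rw [order_mul, hgo, zero_add] at this
    exact lt_of_lt_of_le (by exact_mod_cast hk) this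
  have hO0 : O = 0 := by
    ext k
    exact X_pow_dvd_iff.mp (key k) k (by omega)
  rw [hO0, mul_zero, add_zero] at hs
  refine ⟨e, ?_, hs⟩
  have := τ.cc
  rw [hs, constantCoeff_subst_X_pow two_ne_zero e] at this
  exact this

theorem isHom_zsmul (b : A) (k : ℤ) : IsHom b (k • gen b) := by
  intro U V
  simp only [map_zsmul, sub_gen, zsmul_add]

/-- the `2`-series -/
noncomputable def P2 (b : A) : A⟦X⟧ := ((2 : ℤ) • gen b).t

theorem P2_cc (b : A) : constantCoeff (P2 b) = 0 := Pt.cc _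

theorem two_smul_t {b : A} (U : Pt b) : ((2 : ℤ) • U).t = (P2 b).subst U.t := by
  conv_lhs => rw [← sub_gen b U, ← map_zsmul, sub_t]
  rfl

theorem P2_map {A' : Type} [CommRing A'] [CharP A' 2] [IsDomain A'] (h : A →+* A') (b : A) :
    PowerSeries.map h (P2 b) = P2 (h b) := by
  rw [P2, ← cmap_t h b (h b) rfl, map_zsmul, cmap_gen, P2]

theorem P2_sq (b : A) : ∃ e : A⟦X⟧, constantCoeff e = 0 ∧ P2 b = e.subst (X ^ 2 : A⟦X⟧) :=
  (isHom_zsmul b 2).exists_sq (by
    rw [← Pt.tan_apply, map_zsmul, two_zsmul, CharTwo.add_self_eq_zero])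

theorem P2_coeff_two (b : A) : coeff 2 (P2 b) = b := by
  have h2 : (2 : A⟦X⟧) = 0 := Lc.two (m := mX A)
  set l := FPt.lam (gen b) (gen b)
  have hl2 : X ^ 2 ∣ l := Pt.lam_dvd _ _
  have hl : X ^ 3 ∣ l - X ^ 2 := by
    have e := FPt.lam_mul (gen b) (gen b)
    rw [gen_t] at e
    have : l - X ^ 2 = C b * (gen b).w - l * (C b * X) := by
      linear_combination e + (X ^ 2 - l * (gen b).w) * h2
    rw [this]
    refine dvd_sub ((gen b).X3_dvd_w.mul_left _) ?_
    rw [pow_succ]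
    exact mul_dvd_mul hl2 (Dvd.intro_left _ rfl)
  have ht : (FPt.third (gen b) (gen b)).t = C b * l + l ^ 2 := by
    show C b * l + l ^ 2 + (gen b).t + (gen b).t = _
    linear_combination (gen b).t * h2
  have h3 := Pt.neg_t_sub (FPt.third (gen b) (gen b)) 2 (by
    rw [ht]; exact dvd_add (hl2.mul_left _) (hl2.trans (dvd_pow_self _ two_ne_zero)))
  have h4 := X_pow_dvd_iff.mp h3 2 (by norm_num)
  rw [map_sub, sub_eq_zero, ht] at h4
  rw [P2, two_zsmul, FPt.add_def, h4, map_add, coeff_C_mul]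
  have h5 := X_pow_dvd_iff.mp hl 2 (by norm_num)
  have h6 : X ^ 3 ∣ l ^ 2 := by
    refine (pow_dvd_pow _ (by norm_num : 3 ≤ 2 * 2)).trans ?_
    rw [pow_mul]; exact pow_dvd_pow_of_dvd hl2 2
  rw [map_sub, sub_eq_zero] at h5
  rw [X_pow_dvd_iff.mp h6 2 (by norm_num), h5]
  simp

theorem IsHom.comm_P2 {b b' : A} {τ : Pt b'} (h : IsHom b τ) :
    (τ.t.subst (P2 b) : A⟦X⟧) = (P2 b').subst τ.t := by
  have := congrArg FPt.t (h (gen b) (gen b))
  rw [← two_zsmul (sub b' _ _ τ), two_smul_t, sub_t, sub_t, gen_t, X_subst, ← two_zsmul] at this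
  exact this

end PS2

end Crest.Agent.R007
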