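import Mathlib

/-! Row 7, block GEO: Hensel splitting over `F⟦a⟧`. -/

set_option autoImplicit false

open Polynomial

namespace Crest.Agent.R007

section Hen
variable {F : Type*} [Field F]

/-- Hensel: a simple root of the reduction lifts. -/
theorem hen_lift (p : (PowerSeries F)[X]) (hp : p.Monic) (r : F)
    (h0 : (p.map (PowerSeries.constantCoeff (R := F))).eval r = 0)
    (h1 : (p.map (PowerSeries.constantCoeff (R := F))).derivative.eval r ≠ 0) :
    ∃ b : PowerSeries F, p.IsRoot b ∧ PowerSeries.constantCoeff b = r := by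
  have key : ∀ q : (PowerSeries F)[X], PowerSeries.constantCoeff (q.eval (PowerSeries.C r)) =
      (q.map (PowerSeries.constantCoeff (R := F))).eval r := by
    intro q
    rw [eval_map, ← eval₂_at_apply]
    simp
  obtain ⟨b, hb, hb'⟩ := HenselianRing.is_henselian (I := (Ideal.span {PowerSeries.X} : Ideal (PowerSeries F)))
    p hp (PowerSeries.C r) (by
      rw [Ideal.mem_span_singleton, PowerSeries.X_dvd_iff, key, h0]) (by
      apply IsUnit.map
      rw [PowerSeries.isUnit_iff_constantCoeff, key, ← derivative_map]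
      exact isUnit_iff_ne_zero.mpr h1)
  refine ⟨b, hb, ?_⟩
  rw [Ideal.mem_span_singleton, PowerSeries.X_dvd_iff] at hb'
  simpa [sub_eq_zero] using hb'

/-- A monic polynomial over `F⟦a⟧` (`F` algebraically closed) with separable reduction splits. -/
theorem hen_splits [IsAlgClosed F] (p : (PowerSeries F)[X]) (hp : p.Monic)
    (hs : (p.map (PowerSeries.constantCoeff (R := F))).Separable) : p.Splits := by
  classical
  set pb := p.map (PowerSeries.constantCoeff (R := F)) with hpb
  have hm : pb.Monic := hp.map _
  have hex : ∀ r : F, r ∈ pb.roots → ∃ b : PowerSeries F, p.IsRoot b ∧ PowerSeries.constantCoeff b = r := by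
    intro r hr
    have h0 : pb.eval r = 0 := (mem_roots hm.ne_zero).mp hr
    exact hen_lift p hp r h0 (by
      have := hs.eval₂_derivative_ne_zero (RingHom.id F) (x := r) (by simpa using h0)
      rw [eval₂_id] at this; exact this)
  choose! g hg using hex
  have hnd : pb.roots.Nodup := nodup_roots hs
  have hcard : pb.roots.card = p.natDegree := by
    rw [← hp.natDegree_map (PowerSeries.constantCoeff (R := F))]
    exact (IsAlgClosed.splits pb).natDegree_eq_card_roots.symm
  have hle : pb.roots.map g ≤ p.roots := by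
    rw [Multiset.le_iff_subset]
    · intro b hb
      obtain ⟨r, hr, rfl⟩ := Multiset.mem_map.mp hb
      exact (mem_roots hp.ne_zero).mpr (hg r hr).1
    · refine Multiset.Nodup.map_on ?_ hnd
      intro x hx y hy hxy
      rw [← (hg x hx).2, ← (hg y hy).2, hxy]
  rw [splits_iff_card_roots]
  apply le_antisymm (card_roots' p)
  have := Multiset.card_le_card hle
  rwa [Multiset.card_map, hcard] at this

/-- `n`-th roots of power series with non-zero constant term, `n` invertible. -/
theorem hen_root [IsAlgClosed F] (n : ℕ) (hn : (n : F) ≠ 0) (u : PowerSeries F)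
    (hu : PowerSeries.constantCoeff u ≠ 0) : ∃ b : PowerSeries F, b ^ n = u := by
  have hn0 : n ≠ 0 := by rintro rfl; simp at hn
  obtain ⟨r, hr⟩ := IsAlgClosed.exists_pow_nat_eq (PowerSeries.constantCoeff u) (Nat.pos_of_ne_zero hn0)
  have hr0 : r ≠ 0 := by rintro rfl; rw [zero_pow hn0] at hr; exact hu hr.symm
  obtain ⟨b, hb, -⟩ := hen_lift (X ^ n - C u) (monic_X_pow_sub_C u hn0) r (by simp [hr]) (by
    simp [derivative_X_pow, hn, hr0])
  exact ⟨b, by simpa [sub_eq_zero] using hb⟩

/-- Same with prescribed constant term. -/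
theorem hen_root' (n : ℕ) (hn : (n : F) ≠ 0) (u : PowerSeries F) (r : F) (hr0 : r ≠ 0)
    (hr : r ^ n = PowerSeries.constantCoeff u) :
    ∃ b : PowerSeries F, b ^ n = u ∧ PowerSeries.constantCoeff b = r := by
  have hn0 : n ≠ 0 := by rintro rfl; simp at hn
  obtain ⟨b, hb, hb'⟩ := hen_lift (X ^ n - C u) (monic_X_pow_sub_C u hn0) r (by simp [hr]) (by
    simp [derivative_X_pow, hn, hr0])
  exact ⟨b, by simpa [sub_eq_zero] using hb, hb'⟩

end Hen

end Crest.Agent.R007
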