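import Mathlib

/-! Row 7, block I: almost integral elements over the integral closure are integral. -/

set_option autoImplicit false
set_option linter.dupNamespace false

namespace Crest.Agent.R007

open Polynomial

theorem isIntegral_of_smul_pow_field {A K Ω : Type*} [CommRing A] [IsDomain A] [IsNoetherianRing A]
    [IsIntegrallyClosed A] [Field K] [Algebra A K] [IsFractionRing A K] [Field Ω] [IsAlgClosed Ω]
    [Algebra K Ω] [Algebra A Ω] [IsScalarTower A K Ω] {d : A} (hd : d ≠ 0) {γ : Ω}
    (h : ∀ k : ℕ, IsIntegral A (d • γ ^ k)) : IsIntegral A γ := by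
  let S : Subring Ω :=
    { carrier := {y | ∃ r : ℕ, ∀ k : ℕ, IsIntegral A (d ^ r • y ^ k)}
      mul_mem' := by
        rintro a b ⟨r, hr⟩ ⟨s, hs⟩
        refine ⟨r + s, fun n ↦ ?_⟩
        rw [mul_pow, pow_add, mul_smul_mul_comm]
        exact (hr _).mul (hs _)
      one_mem' := ⟨0, fun k => by simpa using isIntegral_one⟩
      add_mem' := by
        rintro a b ⟨r, hr⟩ ⟨s, hs⟩
        refine ⟨r + s, fun n ↦ ?_⟩
        simp only [add_pow, pow_add, Finset.smul_sum, ← smul_mul_assoc _ (_ * _),
          ← smul_mul_smul_comm _ (a ^ _)]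
        exact IsIntegral.sum _ fun i _ ↦ ((hr _).mul (hs _)).mul
          (by simpa using isIntegral_algebraMap (R := A) (A := Ω) (x := (n.choose i : A)))
      zero_mem' := ⟨0, fun k => by simpa using isIntegral_zero.pow k⟩
      neg_mem' := by
        rintro a ⟨r, hr⟩
        refine ⟨r, fun n => ?_⟩
        rw [neg_pow, ← mul_smul_comm]
        exact (isIntegral_one.neg.pow n).mul (hr n) }
  have hd' : algebraMap A K d ≠ 0 := by simpa using hd
  have hγ : IsIntegral K γ := by
    have h1 : IsIntegral K (d • γ ^ 1) := (h 1).tower_top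
    have : γ = (algebraMap A K d)⁻¹ • (d • γ ^ 1) := by
      rw [pow_one, ← algebraMap_smul K d γ, smul_smul, inv_mul_cancel₀ hd', one_smul]
    rw [this]
    exact h1.smul _
  have hm := (minpoly.monic hγ).map (algebraMap K Ω)
  have hl : (minpoly K γ).map (algebraMap K Ω) ∈ Polynomial.lifts S.subtype := by
    refine (IsAlgClosed.splits _).mem_lift_of_roots_mem_range hm _ fun y hy => ?_
    refine ⟨⟨y, 1, fun k => ?_⟩, rfl⟩
    obtain ⟨q, hq, h0⟩ := h k
    refine ⟨q, hq, ?_⟩
    have hy' : aeval y (minpoly K γ) = 0 := by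
      rwa [mem_roots hm.ne_zero, IsRoot.def, eval_map_algebraMap] at hy
    have key : ∀ w : Ω, aeval w ((q.map (algebraMap A K)).comp (C (algebraMap A K d) * X ^ k)) =
        aeval (d • w ^ k) q := fun w => by
      rw [aeval_comp, aeval_map_algebraMap, map_mul, aeval_C, map_pow, aeval_X, Algebra.smul_def,
        ← IsScalarTower.algebraMap_apply]
    obtain ⟨u, hu⟩ := minpoly.dvd K γ ((key γ).trans h0)
    rw [pow_one, ← aeval_def, ← key, hu, map_mul, hy', zero_mul]
  have hc : ∀ n, (minpoly K γ).coeff n ∈ (algebraMap A K).range := fun n => by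
    obtain ⟨⟨y, r, hr⟩, hy⟩ := (lifts_iff_coeff_lifts _).1 hl n
    rw [coeff_map] at hy
    have hy' : y = algebraMap K Ω ((minpoly K γ).coeff n) := hy
    refine IsIntegrallyClosed.isIntegral_iff.1 (IsAlmostIntegral.isIntegral
      ⟨d ^ r, pow_mem (mem_nonZeroDivisors_of_ne_zero hd) r, fun k => ?_⟩)
    refine IsIntegrallyClosed.isIntegral_iff.1 ?_
    rw [← isIntegral_algHom_iff (IsScalarTower.toAlgHom A K Ω) (algebraMap K Ω).injective,
      map_smul, map_pow]
    exact hy' ▸ hr k
  obtain ⟨p, hp, -, hp'⟩ := lifts_and_natDegree_eq_and_monic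
    ((lifts_iff_coeff_lifts _).2 hc) (minpoly.monic hγ)
  refine ⟨p, hp', ?_⟩
  rw [← aeval_def, ← aeval_map_algebraMap K, hp, minpoly.aeval]

theorem isIntegral_of_mul_pow {A R : Type*} [CommRing A] [IsDomain A] [IsNoetherianRing A]
    [IsIntegrallyClosed A] [CommRing R] [IsDomain R] [Algebra A R] [FaithfulSMul A R] {D γ : R}
    (hD : D ≠ 0) (h : ∀ k : ℕ, IsIntegral A (D * γ ^ k)) : IsIntegral A γ := by
  have h0 : IsIntegral A D := by simpa using h 0
  let D' : integralClosure A R := ⟨D, h0⟩
  have h1 := Ideal.comap_ne_bot_of_integral_mem (R := A) (I := Ideal.span {D'})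
    (x := D') (fun e => hD (congrArg Subtype.val e)) (Ideal.mem_span_singleton_self _)
    (integralClosure.isIntegral D')
  obtain ⟨d, hd, hd0⟩ := Submodule.exists_mem_ne_zero_of_ne_bot h1
  obtain ⟨b, hb⟩ := Ideal.mem_span_singleton'.1 (Ideal.mem_comap.1 hd)
  have hb' : (b : R) * D = algebraMap A R d := congrArg Subtype.val hb
  let Ω := AlgebraicClosure (FractionRing R)
  have inj : Function.Injective (algebraMap R Ω) :=
    (algebraMap (FractionRing R) Ω).injective.comp (IsFractionRing.injective R _)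
  have : FaithfulSMul A Ω := by
    rw [faithfulSMul_iff_algebraMap_injective, IsScalarTower.algebraMap_eq A R Ω]
    exact inj.comp (FaithfulSMul.algebraMap_injective A R)
  let _ := FractionRing.liftAlgebra A Ω
  rw [← isIntegral_algHom_iff (IsScalarTower.toAlgHom A R Ω) inj]
  refine isIntegral_of_smul_pow_field (K := FractionRing A) hd0 fun k => ?_
  rw [← map_pow, ← map_smul, isIntegral_algHom_iff _ inj, Algebra.smul_def, ← hb', mul_assoc]
  exact b.2.mul (h k)

/-- integrality from the duplication formula -/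
theorem isIntegral_of_dup {A R I : Type*} [CommRing A] [CommRing R] [IsDomain R] [Algebra A R]
    [Finite I] {ξ : I → R} {ρ : A} (h : ∀ P, ∃ Q, ξ Q * ξ P ^ 2 = ξ P ^ 4 + algebraMap A R ρ)
    (P : I) : IsIntegral A (ξ P) := by
  let Ω := FractionRing R
  have inj : Function.Injective (algebraMap R Ω) := IsFractionRing.injective R _
  rw [← isIntegral_algHom_iff (IsScalarTower.toAlgHom A R Ω) inj]
  have key : algebraMap R Ω (ξ P) ∈
      (integralClosure (Subring.closure (Set.range (algebraMap A Ω))) Ω).toSubring := by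
    rw [← iInf_valuationSubring_superset, Subring.mem_iInf]
    rintro ⟨V, hV⟩
    have : Nonempty I := ⟨P⟩
    obtain ⟨P₀, h₀⟩ := Finite.exists_max fun Q => V.valuation (algebraMap R Ω (ξ Q))
    refine (V.valuation_le_one_iff _).1 ((h₀ P).trans (le_of_not_gt fun hlt => ?_))
    obtain ⟨Q, hQ⟩ := h P₀
    set x := algebraMap R Ω (ξ P₀)
    have e : x ^ 4 = algebraMap R Ω (ξ Q) * x ^ 2 - algebraMap A Ω ρ := by
      have := congrArg (algebraMap R Ω) hQ
      rw [map_mul, map_add, map_pow, map_pow, ← IsScalarTower.algebraMap_apply] at this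
      linear_combination -this
    have hρ : V.valuation (algebraMap A Ω ρ) ≤ 1 := (V.valuation_le_one_iff _).2 (hV ⟨ρ, rfl⟩)
    have h1 : V.valuation (x ^ 4) ≤ V.valuation x ^ 3 := by
      rw [e]
      refine Valuation.map_sub_le _ ?_ (hρ.trans (one_le_pow₀ hlt.le))
      rw [map_mul, map_pow, pow_succ' _ 2]
      gcongr
      exact h₀ Q
    rw [map_pow] at h1
    exact absurd h1 (not_le.2 (pow_lt_pow_right₀ hlt (by norm_num)))
  obtain ⟨p, hp, h0⟩ := key
  let f : A →+* Subring.closure (Set.range (algebraMap A Ω)) :=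
    (algebraMap A Ω).codRestrict _ fun a => Subring.subset_closure ⟨a, rfl⟩
  have hf : Function.Surjective f := fun y => by
    obtain ⟨a, ha⟩ : y.1 ∈ (algebraMap A Ω).range := Subring.closure_le.2 (fun _ h => h) y.2
    exact ⟨a, Subtype.ext ha⟩
  obtain ⟨q, rfl, -, hq⟩ := lifts_and_natDegree_eq_and_monic
    ((mem_lifts p).2 (map_surjective f hf p)) hp
  exact ⟨q, hq, by rwa [eval₂_map] at h0⟩

end Crest.Agent.R007
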