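import Crest.Agent.R007.GE
import Crest.Agent.R007.GEnd
import Crest.Agent.R007.GHen
import Crest.Agent.R007.IAlm

/-! Row 7, block GEO: periodic points of doubling, Hensel lifts. -/

set_option autoImplicit false
set_option linter.unusedSectionVars false

noncomputable section
namespace Crest.Agent.R007

open PowerSeries

instance psCharP {A : Type} [CommRing A] [CharP A 2] : CharP A⟦X⟧ 2 :=
  charP_of_injective_ringHom (C_injective (R := A)) 2

instance lsCharP {F : Type} [Field F] [CharP F 2] : CharP (LaurentSeries F) 2 :=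
  charP_of_injective_ringHom (f := algebraMap F⟦X⟧ (LaurentSeries F))
    (IsFractionRing.injective _ _) 2

theorem ls_algebraMap {F : Type} [Field F] (c : F) :
    algebraMap F (LaurentSeries F) c = ((C c : F⟦X⟧) : LaurentSeries F) := by
  rw [LaurentSeries.algebraMap_apply, PowerSeries.coe_C]

/-- `s n * M n (z) = N n (z)` with `N 0 = X`, `M 0 = 1`, `N (n+1) = N n ^ 4 + ρ M n ^ 4`,
`M (n+1) = N n ^ 2 M n ^ 2`, `N n` monic of degree `4^n`, `deg M n + 1 ≤ 4^n` (and `+ 2` for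
`n ≥ 1`); or use `isIntegral_of_dup` of `IAlm.lean` on the finite index set `Fin r` -/
theorem Per.isIntegral {R K : Type} [CommRing R] [Field K] [Algebra R K] {ρ : R} {z : K}
    (h : Per (algebraMap R K ρ) z) : IsIntegral R z := by
  obtain ⟨r, hr, s, h0, h1, h2⟩ := h
  have := isIntegral_of_dup (ξ := fun i : Fin r => s i) (ρ := ρ) (fun P => by
    by_cases hP : (P : ℕ) + 1 < r
    · exact ⟨⟨P + 1, hP⟩, (h2 P).2⟩
    · have e : (P : ℕ) + 1 = r := by have := P.2; omega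
      refine ⟨⟨0, hr⟩, ?_⟩
      have h3 := (h2 P).2
      rw [e, h1, ← h0] at h3
      exact h3) ⟨0, hr⟩
  rwa [← h0]

variable {F : Type} [Field F] [IsAlgClosed F] [CharP F 2]

omit [IsAlgClosed F] [CharP F 2] in
theorem h62_polys {K : Type} [Field K] (j : F⟦X⟧ →+* K) {b : F⟦X⟧}
    (hb : constantCoeff b = 0) (x : ℕ → K) (hne : ∀ i, j b ^ 2 * x i ^ 2 + 1 ≠ 0)
    (hrec : ∀ i, x (i + 1) * (j b ^ 2 * x i ^ 2 + 1) = x i ^ 4 + j b * x i ^ 2) (n : ℕ) :
    ∃ N M : Polynomial F⟦X⟧, N.Monic ∧ N.natDegree = 4 ^ n ∧ M.natDegree + 1 ≤ 4 ^ n ∧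
      (n ≠ 0 → M.natDegree + 2 ≤ 4 ^ n) ∧
      N.map (constantCoeff (R := F)) = Polynomial.X ^ 4 ^ n ∧
      M.map (constantCoeff (R := F)) = 1 ∧ M.eval₂ j (x 0) ≠ 0 ∧
      x n * M.eval₂ j (x 0) = N.eval₂ j (x 0) := by
  induction n with
  | zero => exact ⟨Polynomial.X, 1, Polynomial.monic_X, by simp, by simp, by simp, by simp,
      by simp, by simp, by simp⟩
  | succ n ih =>
    obtain ⟨N, M, hN, hNd, hMd, -, hNc, hMc, hM0, hNM⟩ := ih
    have h1 : ∀ c : F⟦X⟧, (Polynomial.C c * (N ^ 2 * M ^ 2)).natDegree + 2 ≤ 4 ^ (n + 1) := by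
      intro c
      have a1 := Polynomial.natDegree_C_mul_le c (N ^ 2 * M ^ 2)
      have a2 := Polynomial.natDegree_mul_le (p := N ^ 2) (q := M ^ 2)
      have a3 := Polynomial.natDegree_pow_le (p := N) (n := 2)
      have a4 := Polynomial.natDegree_pow_le (p := M) (n := 2)
      rw [pow_succ 4 n]
      omega
    have h2 : (N ^ 4).natDegree = 4 ^ (n + 1) := by
      rw [hN.natDegree_pow, hNd, pow_succ']
    have h3 : (Polynomial.C (b ^ 2) * (N ^ 2 * M ^ 2) + M ^ 4).natDegree + 2 ≤ 4 ^ (n + 1) := by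
      have a1 := Polynomial.natDegree_add_le (Polynomial.C (b ^ 2) * (N ^ 2 * M ^ 2)) (M ^ 4)
      have a2 := h1 (b ^ 2)
      have a3 := Polynomial.natDegree_pow_le (p := M) (n := 4)
      rw [pow_succ 4 n] at a2 ⊢
      omega
    have h4 : (Polynomial.C b * (N ^ 2 * M ^ 2)).natDegree < (N ^ 4).natDegree := by
      have := h1 b
      omega
    have e : (Polynomial.C (b ^ 2) * (N ^ 2 * M ^ 2) + M ^ 4).eval₂ j (x 0) =
        M.eval₂ j (x 0) ^ 4 * (j b ^ 2 * x n ^ 2 + 1) := by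
      simp only [Polynomial.eval₂_add, Polynomial.eval₂_mul, Polynomial.eval₂_pow,
        Polynomial.eval₂_C, map_pow, ← hNM]
      ring
    refine ⟨N ^ 4 + Polynomial.C b * (N ^ 2 * M ^ 2),
      Polynomial.C (b ^ 2) * (N ^ 2 * M ^ 2) + M ^ 4,
      (hN.pow 4).add_of_left (Polynomial.degree_lt_degree h4), ?_, by omega, fun _ => h3, ?_, ?_,
      ?_, ?_⟩
    · rw [Polynomial.natDegree_add_eq_left_of_natDegree_lt h4, h2]
    · rw [Polynomial.map_add, Polynomial.map_mul, Polynomial.map_C, hb, map_zero, zero_mul,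
        add_zero, Polynomial.map_pow, hNc, ← pow_mul, pow_succ 4 n]
    · simp [hMc, hb]
    · rw [e]
      exact mul_ne_zero (pow_ne_zero _ hM0) (hne n)
    · rw [e]
      simp only [Polynomial.eval₂_add, Polynomial.eval₂_mul, Polynomial.eval₂_pow,
        Polynomial.eval₂_C, ← hNM]
      linear_combination M.eval₂ j (x 0) ^ 4 * hrec n

/-- put `x i = (b³ s i + 1) / b`; then `x (i+1) (b² x i ² + 1) = x i ⁴ + b x i ²`.  Polynomials over
`F⟦X⟧`: `N 0 = X`, `M 0 = 1`, `N (n+1) = N n ^ 4 + b N n ^ 2 M n ^ 2`,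
`M (n+1) = b² N n ^ 2 M n ^ 2 + M n ^ 4`; `N n` monic of degree `4^n`, `deg M (n+1) + 2 ≤ 4^(n+1)`,
`M n (x 0) ≠ 0`, `x n M n (x 0) = N n (x 0)`; `N r + X M r` reduces to the separable polynomial
`X^(4^r) + X`, so it splits over `F⟦X⟧` (`hen_splits`) -/
theorem Per.mem_ps {K : Type} [Field K] (j : F⟦X⟧ →+* K) (hj : Function.Injective j) {b : F⟦X⟧}
    (hb : constantCoeff b = 0) (hb0 : b ≠ 0) {z : K} (h : Per (rhoE (j b)) z) :
    ∃ x : F⟦X⟧, z = (j b * j x + 1) / j b ^ 3 := by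
  obtain ⟨r, hr, s, hs0, hsr, hs⟩ := h
  have hB : j b ≠ 0 := (map_ne_zero_iff j hj).2 hb0
  have h2 : (2 : K) = 0 := by
    rw [← map_ofNat j 2, (CharTwo.two_eq_zero : (2 : F⟦X⟧) = 0), map_zero]
  set x : ℕ → K := fun i => (j b ^ 3 * s i + 1) / j b with hx
  have hxs : ∀ i, j b * x i + 1 = j b ^ 3 * s i := fun i => by
    simp only [hx]
    rw [mul_div_cancel₀ _ hB]
    linear_combination h2
  have hne : ∀ i, j b ^ 2 * x i ^ 2 + 1 ≠ 0 := fun i h0 => by
    have : (j b ^ 3 * s i) ^ 2 = 0 := by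
      rw [← hxs]
      linear_combination h0 + j b * x i * h2
    exact mul_ne_zero (pow_ne_zero _ hB) (hs i).1 (pow_eq_zero_iff two_ne_zero |>.1 this)
  have hrec : ∀ i, x (i + 1) * (j b ^ 2 * x i ^ 2 + 1) = x i ^ 4 + j b * x i ^ 2 := fun i => by
    have h1 : j b ^ 3 * ((j b ^ 3 * s (i + 1)) * (j b ^ 3 * s i) ^ 2) =
        (j b ^ 3 * s i) ^ 4 + (j b ^ 3 + 1) := by
      have h3 := (hs i).2
      rw [rhoE] at h3
      have h4 : j b ^ 12 * ((j b ^ 3 + 1) / j b ^ 12) = j b ^ 3 + 1 :=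
        mul_div_cancel₀ _ (pow_ne_zero _ hB)
      linear_combination j b ^ 12 * h3 + h4
    rw [← hxs, ← hxs] at h1
    refine mul_left_cancel₀ (pow_ne_zero 4 hB) ?_
    generalize x (i + 1) = v at h1 ⊢
    generalize x i = u at h1 ⊢
    generalize j b = B at h1 ⊢
    linear_combination h1 + (1 + 2 * B * u + 3 * B ^ 2 * u ^ 2 + 2 * B ^ 3 * u ^ 3 - B ^ 4 * u
      - B ^ 5 * u * v - B ^ 5 * u ^ 2) * h2
  obtain ⟨n, rfl⟩ := Nat.exists_eq_succ_of_ne_zero hr.ne'
  obtain ⟨N, M, hN, hNd, -, hMd, hNc, hMc, hM0, hNM⟩ := h62_polys j hb x hne hrec (n + 1)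
  have hm : (N + Polynomial.X * M).Monic := by
    refine hN.add_of_left (Polynomial.degree_lt_degree ?_)
    have := Polynomial.natDegree_mul_le (p := Polynomial.X) (q := M)
    have h5 := hMd n.succ_ne_zero
    rw [Polynomial.natDegree_X] at this
    omega
  have hsp := hen_splits _ hm (by
    rw [Polynomial.map_add, Polynomial.map_mul, hNc, hMc, Polynomial.map_X, mul_one,
      Polynomial.separable_def, Polynomial.derivative_add, Polynomial.derivative_X_pow,
      Polynomial.derivative_X]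
    have : ((4 ^ (n + 1) : ℕ) : F) = 0 := by
      rw [CharP.cast_eq_zero_iff F 2]
      exact Dvd.intro (2 * 4 ^ n) (by ring)
    rw [this, map_zero, zero_mul, zero_add]
    exact isCoprime_one_right)
  have hroot : x 0 ∈ ((N + Polynomial.X * M).map j).roots := by
    rw [Polynomial.mem_roots (hm.map j).ne_zero, Polynomial.IsRoot, Polynomial.eval_map,
      Polynomial.eval₂_add, Polynomial.eval₂_mul, Polynomial.eval₂_X, ← hNM]
    have : x (n + 1) = x 0 := by simp only [hx]; rw [hs0, ← hsr]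
    rw [this]
    linear_combination x 0 * Polynomial.eval₂ j (x 0) M * h2
  rw [hsp.roots_map_of_injective hj, Multiset.mem_map] at hroot
  obtain ⟨y, -, hy⟩ := hroot
  refine ⟨y, ?_⟩
  rw [hy, hxs, hs0, mul_div_cancel_left₀ _ (pow_ne_zero _ hB)]

/-- `hen_lift` for `Y² + (b x + 1) Y + x³` -/
theorem exists_y {b : F⟦X⟧} (hb : constantCoeff b = 0) (x : F⟦X⟧) :
    ∃ y : F⟦X⟧, y ^ 2 + b * x * y + y = x ^ 3 := by
  have h2 : (2 : F) = 0 := CharTwo.two_eq_zero
  have h2' : (2 : F⟦X⟧) = 0 := CharTwo.two_eq_zero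
  obtain ⟨r, hr⟩ := IsAlgClosed.exists_root
    (Polynomial.X ^ 2 + Polynomial.X + Polynomial.C (constantCoeff x ^ 3) : Polynomial F) (by
      have : (Polynomial.X ^ 2 + Polynomial.X + Polynomial.C (constantCoeff x ^ 3) :
          Polynomial F).degree = 2 := by compute_degree!
      rw [this]; decide)
  obtain ⟨y, hy, -⟩ := hen_lift (Polynomial.X ^ 2 + Polynomial.C (b * x + 1) * Polynomial.X +
    Polynomial.C (x ^ 3) : Polynomial F⟦X⟧) (by monicity!) r (by simpa [hb] using hr) (by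
      simp [hb, one_add_one_eq_two, h2, Polynomial.derivative_pow])
  refine ⟨y, ?_⟩
  simp only [Polynomial.IsRoot, Polynomial.eval_add, Polynomial.eval_pow, Polynomial.eval_X,
    Polynomial.eval_mul, Polynomial.eval_C] at hy
  linear_combination hy - x ^ 3 * h2'

/-- `(X³+1)^(2d+1) / U⁸ = 1 + X³ + X⁶ A` (`U⁸ = 1 + X⁸ e⁸`, `(X³+1)^(2d) = (1 + X⁶)^d`).
`hen_lift` for the monic `r₁⁴ + X² r₁³ + X r₁² + r₁ + X² A` at the root `0`; `r₁ · unit = X² A`
so `r₁ = X² r`; `z = 1 + X³ r` has `z⁴ + X³ z³ = 1 + X³ + X⁴ (r₁⁴ + X² r₁³ + X r₁² + r₁)`;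
`κ` by `hen_lift` (`IsAlgClosed.exists_root`), `u` by `hen_root'` -/
theorem hen_target (d : ℕ) {U : F⟦X⟧} (hU : constantCoeff U = 1) :
    ∃ r κ u : F⟦X⟧, κ ^ 2 + κ = r ∧ u ^ 3 = 1 + X ^ 3 * r ∧ constantCoeff u = 1 ∧
      (u ^ 12 + X ^ 3 * u ^ 9) * U ^ 8 = (X ^ 3 + 1) ^ (2 * d + 1) := by
  have h2 : (2 : F⟦X⟧) = 0 := CharTwo.two_eq_zero
  have h2F : (2 : F) = 0 := CharTwo.two_eq_zero
  obtain ⟨V, hV⟩ : ∃ V : F⟦X⟧, U * V = 1 :=
    (isUnit_iff_constantCoeff.2 (by rw [hU]; exact isUnit_one)).exists_right_inv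
  have hV0 : constantCoeff V = 1 := by
    have := congrArg constantCoeff hV
    rwa [map_mul, hU, one_mul, map_one] at this
  obtain ⟨e, he⟩ : (X : F⟦X⟧) ∣ V - 1 := X_dvd_iff.2 (by rw [map_sub, hV0, map_one, sub_self])
  have hV8 : V ^ 8 = 1 + X ^ 8 * e ^ 8 := by
    have h := add_pow_char_pow (1 : F⟦X⟧) (X * e) 2 3
    rw [show V = 1 + X * e by rw [← he]; ring]
    rw [show (2 : ℕ) ^ 3 = 8 by norm_num] at h
    rw [h, one_pow, mul_pow]
  obtain ⟨g, hg⟩ := sub_dvd_pow_sub_pow ((X : F⟦X⟧) ^ 6 + 1) 1 d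
  rw [one_pow, add_sub_cancel_right] at hg
  have hd : ((X : F⟦X⟧) ^ 3 + 1) ^ (2 * d + 1) = (1 + X ^ 6 * g) * (X ^ 3 + 1) := by
    rw [pow_succ, pow_mul, ← hg,
      show ((X : F⟦X⟧) ^ 3 + 1) ^ 2 = X ^ 6 + 1 by linear_combination (X ^ 3 : F⟦X⟧) * h2]
    ring
  set A : F⟦X⟧ := (1 + X ^ 3) * (g + X ^ 2 * e ^ 8 + X ^ 8 * g * e ^ 8) with hA
  have hAU : (1 + X ^ 3 + X ^ 6 * A) * U ^ 8 = (X ^ 3 + 1) ^ (2 * d + 1) := by
    have h8 : U ^ 8 * V ^ 8 = 1 := by rw [← mul_pow, hV, one_pow]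
    rw [hd, hA]
    rw [hV8] at h8
    linear_combination ((1 + X ^ 6 * g) * (X ^ 3 + 1)) * h8
  obtain ⟨r₁, hr₁, hr₀⟩ := hen_lift (Polynomial.X ^ 4 + Polynomial.C (X ^ 2) * Polynomial.X ^ 3 +
    Polynomial.C X * Polynomial.X ^ 2 + Polynomial.X - Polynomial.C (X ^ 2 * A))
    (by monicity!) (0 : F) (by simp) (by simp)
  simp only [Polynomial.IsRoot, Polynomial.eval_sub, Polynomial.eval_add, Polynomial.eval_mul,
    Polynomial.eval_pow, Polynomial.eval_X, Polynomial.eval_C] at hr₁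
  obtain ⟨w, hw⟩ : ∃ w : F⟦X⟧, (r₁ ^ 3 + X ^ 2 * r₁ ^ 2 + X * r₁ + 1) * w = 1 :=
    (isUnit_iff_constantCoeff.2 (by simp [hr₀])).exists_right_inv
  have hr : r₁ = X ^ 2 * (A * w) := by linear_combination w * hr₁ - r₁ * hw
  set r : F⟦X⟧ := A * w with hrdef
  have hrA : r + X ^ 3 * r ^ 2 + X ^ 6 * r ^ 3 + X ^ 6 * r ^ 4 = A := by
    refine mul_left_cancel₀ (pow_ne_zero 2 (X_ne_zero (R := F))) ?_
    rw [hr] at hr₁
    linear_combination hr₁
  obtain ⟨k₀, hk₀⟩ := IsAlgClosed.exists_root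
    (Polynomial.X ^ 2 + Polynomial.X - Polynomial.C (constantCoeff r) : Polynomial F) (by
      rw [show (Polynomial.X ^ 2 + Polynomial.X - Polynomial.C (constantCoeff r) :
        Polynomial F).degree = 2 by compute_degree!]
      norm_num)
  obtain ⟨κ, hκ, -⟩ := hen_lift (Polynomial.X ^ 2 + Polynomial.X - Polynomial.C r)
    (by monicity!) k₀ (by simpa using hk₀) (by
      simp only [Polynomial.map_sub, Polynomial.map_add, Polynomial.map_pow, Polynomial.map_X,
        Polynomial.map_C, Polynomial.derivative_sub, Polynomial.derivative_add,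
        Polynomial.derivative_X_pow, Polynomial.derivative_X, Polynomial.derivative_C,
        Polynomial.eval_sub, Polynomial.eval_add, Polynomial.eval_mul, Polynomial.eval_C,
        Nat.cast_ofNat, h2F, zero_mul, Polynomial.eval_one, Polynomial.eval_zero]
      norm_num)
  simp only [Polynomial.IsRoot, Polynomial.eval_sub, Polynomial.eval_add,
    Polynomial.eval_pow, Polynomial.eval_X, Polynomial.eval_C] at hκ
  obtain ⟨u, hu, hu0⟩ := hen_root' 3 (by
    rw [show ((3 : ℕ) : F) = 2 + 1 by norm_num, h2F]; norm_num) (1 + X ^ 3 * r) (1 : F)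
    one_ne_zero (by simp)
  refine ⟨r, κ, u, sub_eq_zero.1 hκ, hu, hu0, ?_⟩
  rw [← hAU, ← hrA, show u ^ 12 = (u ^ 3) ^ 4 by ring, show u ^ 9 = (u ^ 3) ^ 3 by ring, hu]
  congr 1
  linear_combination (2 * X ^ 3 * r + 3 * X ^ 6 * r ^ 2 + 2 * X ^ 9 * r ^ 3 + X ^ 6 * r +
    X ^ 9 * r ^ 2) * h2

omit [IsAlgClosed F] in
/-- `n • γ = sub γ.t (n • gen)` (`sub_gen`), `rig_subst_eq_zero`; `n • gen ≠ 0`: for odd `n` by
`Pt.tan`, for `n = 2` by `P2_coeff_two` -/
theorem Pt.tf {A : Type} [CommRing A] [CharP A 2] [IsDomain A] {b : A} (hb : b ≠ 0) (n : ℕ)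
    (γ : Pt b) (hn : n ≠ 0) (h : n • γ = 0) : γ = 0 := by
  have key : ∀ (n : ℕ) (γ : Pt b), n • γ = 0 → γ = 0 ∨ (n • gen b).t = 0 := by
    intro n γ h
    by_cases h0 : γ.t = 0
    · exact Or.inl (FPt.eq_zero_of_t h0)
    · refine Or.inr (rig_subst_eq_zero _ γ.t γ.cc h0 ?_)
      rw [← sub_t b γ.t γ.cc, map_nsmul, sub_gen, h, FPt.zero_t]
  induction n using Nat.strong_induction_on generalizing γ with
  | _ n ih =>
  rcases Nat.even_or_odd' n with ⟨m, rfl | rfl⟩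
  · refine ih m (by omega) γ (by omega) ?_
    rw [mul_smul] at h
    refine (key 2 _ h).resolve_right fun h2 => hb ?_
    rw [← P2_coeff_two b, P2, show ((2 : ℤ) • gen b) = (2 : ℕ) • gen b from ofNat_zsmul _ _, h2,
      map_zero]
  · refine (key _ _ h).resolve_right fun h2 => ?_
    have h3 := map_nsmul (Pt.tan b) (2 * m + 1) (gen b)
    rw [Pt.tan_apply, Pt.tan_apply, h2, gen_t, map_zero, coeff_one_X, nsmul_eq_mul, mul_one] at h3
    push_cast at h3
    rw [CharTwo.two_eq_zero, zero_mul, zero_add] at h3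
    exact zero_ne_one h3

omit [IsAlgClosed F] in
/-- multiply by `X^(12 n)`, `n = natDegree p`: the constant coefficient of
`∑ p_i (X³+1)^i X^(12(n-i))` is the leading coefficient of `p` -/
theorem aeval_rhoE_eq (p : Polynomial F) (y : F⟦X⟧) (hy : constantCoeff y = 0)
    (h : Polynomial.aeval (rhoE ((X : F⟦X⟧) : LaurentSeries F)) p = (y : LaurentSeries F)) :
    p = 0 := by
  set φ : F⟦X⟧ →+* LaurentSeries F := HahnSeries.ofPowerSeries ℤ F with hφ
  have inj : Function.Injective φ := HahnSeries.ofPowerSeries_injective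
  have hX : φ X ≠ 0 := fun h0 => X_ne_zero (inj (h0.trans (map_zero φ).symm))
  have key : (∑ i ∈ Finset.range (p.natDegree + 1),
      C (p.coeff i) * (X ^ 3 + 1) ^ i * X ^ (12 * (p.natDegree - i)) : F⟦X⟧) =
        X ^ (12 * p.natDegree) * y := by
    apply inj
    rw [map_mul, ← h, Polynomial.aeval_eq_sum_range, map_sum, Finset.mul_sum]
    refine Finset.sum_congr rfl fun i hi => ?_
    have hi' : 12 * p.natDegree = 12 * (p.natDegree - i) + 12 * i := by
      have := Finset.mem_range.1 hi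
      omega
    rw [Algebra.smul_def, ls_algebraMap, hi']
    simp only [map_mul, map_pow, map_add, map_one, rhoE, div_pow, pow_add, pow_mul]
    field_simp
    exact mul_comm _ _
  have h0 := congrArg constantCoeff key
  rw [map_mul, hy, mul_zero, map_sum, Finset.sum_range_succ, Finset.sum_eq_zero, zero_add] at h0
  · simpa using h0
  · intro i hi
    have : 12 * (p.natDegree - i) ≠ 0 := by
      have := Finset.mem_range.1 hi
      omega
    simp [this]

end Crest.Agent.R007
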