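import Crest.Agent.R007.GGrp
import Crest.Agent.R007.GP

/-! Row 7, block FG: exported statement. -/

set_option autoImplicit false

open PowerSeries

namespace Crest.Agent.R007

theorem fg_main (F : Type) [Field F] [IsAlgClosed F] [CharP F 2] :
    ∃ (E : Type) (_ : Ring E) (G : Type) (_ : Group G) (φ : G →* Eˣ) (W : Type)
      (_ : AddCommGroup W) (_ : DistribMulAction G W)
      (σ : G →* (LaurentSeries F ≃ₐ[F] LaurentSeries F)) (mk : LaurentSeries F →+ W),
      GData E G φ W ∧ (∀ g x, mk (σ g x) = g • mk x) ∧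
      (∀ x, mk x = 0 → ∃ y : F⟦X⟧, constantCoeff y = 0 ∧ x = (y : LaurentSeries F)) ∧
      ∀ (b : F⟦X⟧) (τ : Pt b), constantCoeff b = 0 → IsHom (X : F⟦X⟧) τ → IsUnit (coeff 1 τ.t) →
        ∃ g, σ g ((X : F⟦X⟧) : LaurentSeries F) = (b : LaurentSeries F) := by
  have hC : ∀ r : F, algebraMap F (LaurentSeries F) r = algebraMap F⟦X⟧ (LaurentSeries F) (C r) := by
    intro r
    rfl
  have hlin : ∀ (g : GE F) (r : F), actK (LaurentSeries F) g (algebraMap F (LaurentSeries F) r) =
      algebraMap F (LaurentSeries F) r := by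
    intro g r
    rw [hC, actK_algebraMap, g.2.1.2, subst_C]; rfl
  let σ : GE F →* (LaurentSeries F ≃ₐ[F] LaurentSeries F) :=
    { toFun := fun g => AlgEquiv.ofRingEquiv (f := actK (LaurentSeries F) g) (hlin g)
      map_one' := AlgEquiv.ext fun x => by
        show actK (LaurentSeries F) 1 x = x
        rw [map_one]; rfl
      map_mul' := fun g h => AlgEquiv.ext fun x => by
        show actK (LaurentSeries F) (g * h) x = actK (LaurentSeries F) g (actK (LaurentSeries F) h x)
        rw [map_mul]; rfl }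
  refine ⟨OE F, inferInstance, GE F, inferInstance, phiG F, WE F (LaurentSeries F), inferInstance,
    inferInstance, σ, mkW F (LaurentSeries F), gdata _, fun g x => rfl, ?_, ?_⟩
  · intro x hx
    obtain ⟨c, hc, rfl⟩ := (mkW_eq_zero _).mp hx
    exact ⟨c, hc, rfl⟩
  · intro b τ hb h hu
    obtain ⟨g, hg⟩ := exists_GE (LaurentSeries F) b hb τ hu h
    refine ⟨g, ?_⟩
    have := hg X
    rw [subst_X (rig_hs hb)] at this
    exact this

end Crest.Agent.R007
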