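import Mathlib

/-! Row 7, block R: automorphisms of `ℂ`, Galois descent, almost integral power series. -/

set_option autoImplicit false
set_option linter.dupNamespace false

namespace Crest.Agent.R007

open MvPolynomial in
theorem exists_ext_aut {A ι : Type} [Field A] [Algebra A ℂ] {v : ι → ℂ}
    (hv : IsTranscendenceBasis A v) (e : MvPolynomial ι A ≃+* MvPolynomial ι A) :
    ∃ σ : ℂ ≃+* ℂ, ∀ p, σ (aeval v p) = aeval v (e p) := by
  letI := IsAlgClosed.isAlgClosure_of_transcendence_basis v hv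
  refine ⟨IsAlgClosure.equivOfEquiv ℂ ℂ ((hv.1.aevalEquiv.symm.toRingEquiv.trans e).trans
    hv.1.aevalEquiv.toRingEquiv), fun p => ?_⟩
  rw [← hv.1.algebraMap_aevalEquiv p, IsAlgClosure.equivOfEquiv_algebraMap,
    ← hv.1.algebraMap_aevalEquiv (e p)]
  simp

open MvPolynomial in
/-- the fixed field of `Aut(ℂ / K)` is `K` -/
theorem mem_of_fixed (K : Subfield ℂ) {x : ℂ}
    (h : ∀ σ : ℂ ≃+* ℂ, (∀ y ∈ K, σ y = y) → σ x = x) : x ∈ K := by
  by_cases hx : IsAlgebraic K x
  · let A := algebraicClosure K ℂ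
    obtain ⟨s, hs⟩ := exists_isTranscendenceBasis A ℂ
    have hA : x ∈ A := mem_algebraicClosure_iff.2 hx
    obtain ⟨y, hy⟩ := (InfiniteGalois.mem_range_algebraMap_iff_fixed (k := K) (K := A)
      ⟨x, hA⟩).2 fun τ => by
        obtain ⟨σ, hσ⟩ := exists_ext_aut hs (MvPolynomial.mapEquiv s τ.toRingEquiv)
        have h1 : ∀ a : A, σ a = τ a := fun a => by simpa using hσ (C a)
        refine Subtype.ext ((h1 ⟨x, hA⟩).symm.trans (h σ fun y hy => ?_))
        have := h1 (algebraMap K A ⟨y, hy⟩)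
        rwa [τ.commutes] at this
    rw [← show (y : ℂ) = x from congrArg Subtype.val hy]
    exact y.2
  · have hi : AlgebraicIndepOn K id ({x} : Set ℂ) := by
      simpa using! hx
    obtain ⟨s, hxs, hs⟩ := exists_isTranscendenceBasis_superset hi
    let φ : MvPolynomial s K →ₐ[K] MvPolynomial s K := aeval fun i => -X i
    have hφ : φ.comp φ = AlgHom.id _ _ := by ext; simp [φ]
    obtain ⟨σ, hσ⟩ := exists_ext_aut hs (AlgEquiv.ofAlgHom φ φ hφ hφ).toRingEquiv
    have h1 : σ x = -x := by simpa [φ] using hσ (X ⟨x, hxs rfl⟩)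
    have h2 := h σ fun y hy => by simpa [φ] using! hσ (C ⟨y, hy⟩)
    rw [show x = 0 by linear_combination (h2 - h1) / (-2 : ℂ)]
    exact K.zero_mem

/-- a finite-dimensional space of functions is determined by finitely many coordinates -/
theorem exists_dual_basis {I : Type*} (W : Submodule ℂ (I → ℂ)) [FiniteDimensional ℂ W] :
    ∃ (n : ℕ) (j : Fin n → I) (w : Fin n → I → ℂ), (∀ a, w a ∈ W) ∧
      (∀ a b, w a (j b) = if a = b then 1 else 0) ∧ ∀ f ∈ W, f = ∑ a, f (j a) • w a := by
  classical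
  let φ : I → Module.Dual ℂ W := fun i => (LinearMap.proj i).comp W.subtype
  have hφ : Submodule.span ℂ (Set.range φ) = ⊤ := Submodule.span_eq_top_of_ne_zero fun z hz => by
    obtain ⟨i, hi⟩ := Function.ne_iff.1 (fun h => hz (Subtype.ext h) : (z : I → ℂ) ≠ 0)
    exact ⟨_, ⟨i, rfl⟩, hi⟩
  obtain ⟨t, ht, hs, hl⟩ := exists_linearIndependent ℂ (Set.range φ)
  let b₀ := Module.Basis.mk hl (by rw [Subtype.range_coe, hs, hφ])
  haveI : Fintype t := FiniteDimensional.fintypeBasisIndex b₀
  let b := b₀.reindex (Fintype.equivFin t)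
  have hb : ∀ a, ∃ i, φ i = b a := fun a => by
    simpa [b, b₀] using ht ((Fintype.equivFin t).symm a).2
  choose j hj using hb
  let c := b.dualBasis.map (Module.evalEquiv ℂ W).symm
  have hc : ∀ a a', (c a : I → ℂ) (j a') = if a = a' then 1 else 0 := fun a a' => by
    change φ (j a') (c a) = _
    rw [hj, Module.Basis.map_apply, Module.apply_evalEquiv_symm_apply, b.dualBasis_apply_self]
    simp only [eq_comm]
  refine ⟨_, j, fun a => c a, fun a => (c a).2, hc, fun f hf => ?_⟩
  have h1 := congrArg Subtype.val (c.sum_repr ⟨f, hf⟩)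
  simp only [AddSubmonoidClass.coe_finsetSum, SetLike.val_smul] at h1
  have h2 : ∀ a, f (j a) = c.repr ⟨f, hf⟩ a := fun a => by
    rw [← congrFun h1 (j a)]
    simp [hc]
  simpa only [h2] using h1.symm

/-- **Galois descent** -/
theorem descent {I : Type*} (K : Subfield ℂ) (W : Submodule ℂ (I → ℂ)) [FiniteDimensional ℂ W]
    (hW : ∀ σ : ℂ ≃+* ℂ, (∀ y ∈ K, σ y = y) → ∀ f ∈ W, (fun i => σ (f i)) ∈ W) :
    ∃ (n : ℕ) (j : Fin n → I) (w : Fin n → I → ℂ), (∀ a, w a ∈ W) ∧ (∀ a i, w a i ∈ K) ∧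
      (∀ a b, w a (j b) = if a = b then 1 else 0) ∧ ∀ f ∈ W, f = ∑ a, f (j a) • w a := by
  obtain ⟨n, j, w, h1, h2, h3⟩ := exists_dual_basis W
  refine ⟨n, j, w, h1, fun a i => mem_of_fixed K fun σ hσ => ?_, h2, h3⟩
  have := congrFun (h3 _ (hW σ hσ _ (h1 a))) i
  simpa [h2, apply_ite σ, ite_apply] using this

/-- power series with coefficients in a subring -/
noncomputable def psSub {K : Type*} [CommRing K] (O : Subring K) : Subring (PowerSeries K) :=
  (PowerSeries.map O.subtype).range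

theorem mem_psSub {K : Type*} [CommRing K] {O : Subring K} {f : PowerSeries K} :
    f ∈ psSub O ↔ ∀ n, PowerSeries.coeff n f ∈ O := by
  constructor
  · rintro ⟨g, rfl⟩ n
    simp
  · intro h
    exact ⟨PowerSeries.mk fun n => ⟨_, h n⟩, by ext; simp⟩

/-- an integral fraction is almost integral -/
theorem almost_of_integral {R : Type*} [CommRing R] (S : Subring R) {D f : R} (hD : D ∈ S)
    (hf : D * f ∈ S) (h : IsIntegral S f) : ∃ n : ℕ, ∀ j : ℕ, D ^ n * f ^ j ∈ S := by
  obtain ⟨p, hp, h0⟩ := h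
  refine ⟨p.natDegree, fun j => ?_⟩
  rcases subsingleton_or_nontrivial S with hS | hS
  · have : (1 : R) = 0 := congrArg Subtype.val (Subsingleton.elim (1 : S) 0)
    rw [← mul_one (_ * _), this, mul_zero]
    exact S.zero_mem
  have h1 := Polynomial.aeval_modByMonic_eq_self_of_root (p := Polynomial.X ^ j) (q := p) (x := f) h0
  rw [map_pow, Polynomial.aeval_X] at h1
  rw [← h1, Polynomial.aeval_eq_sum_range, Finset.mul_sum]
  refine S.sum_mem fun i hi => ?_
  have h2 : i ≤ p.natDegree := (Nat.lt_succ_iff.1 (Finset.mem_range.1 hi)).trans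
    (Polynomial.natDegree_le_natDegree (Polynomial.degree_modByMonic_lt _ hp).le)
  obtain ⟨e, he⟩ := Nat.exists_eq_add_of_le h2
  generalize (Polynomial.X ^ j %ₘ p).coeff i = c
  rw [he, Subring.smul_def, smul_eq_mul,
    show D ^ (i + e) * (c * f ^ i) = c * D ^ e * (D * f) ^ i by ring]
  exact S.mul_mem (S.mul_mem c.2 (S.pow_mem hD _)) (S.pow_mem hf _)

open PowerSeries in
/-- power series over a completely integrally closed ring -/
theorem mem_psSub_of_almost {K : Type*} [CommRing K] (O : Subring K) (P : K → Prop)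
    (hO : ∀ d ∈ O, d ≠ 0 → ∀ a, P a → (∀ n : ℕ, d * a ^ n ∈ O) → a ∈ O) {D f : PowerSeries K}
    (hD : D ≠ 0) (hP : ∀ m, P (coeff m f)) (h : ∀ n : ℕ, D * f ^ n ∈ psSub O) : f ∈ psSub O := by
  refine mem_psSub.2 fun m => ?_
  induction m using Nat.strong_induction_on with | _ m ih =>
  have hg : ((trunc m f : Polynomial K) : PowerSeries K) ∈ psSub O := mem_psSub.2 fun i => by
    rw [Polynomial.coeff_coe, coeff_trunc]
    split_ifs with hi
    exacts [ih i hi, O.zero_mem]
  obtain ⟨u, hu⟩ : X ^ m ∣ f - ((trunc m f : Polynomial K) : PowerSeries K) := X_pow_dvd_iff.2 fun i hi => by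
    rw [map_sub, Polynomial.coeff_coe, coeff_trunc, if_pos hi, sub_self]
  have hu0 : constantCoeff u = coeff m f := by
    have := congrArg (coeff (0 + m)) hu
    rw [coeff_X_pow_mul, zero_add, map_sub, Polynomial.coeff_coe, coeff_trunc, if_neg (lt_irrefl _),
      sub_zero] at this
    simpa using this.symm
  obtain ⟨E, hE⟩ := X_pow_order_dvd (φ := D)
  set e := D.order.toNat
  have hE0 : constantCoeff E = coeff e D := by
    have := coeff_X_pow_mul E e 0
    rw [← hE, zero_add] at this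
    simpa using this.symm
  have key : ∀ n : ℕ, coeff e D * coeff m f ^ n ∈ O := fun n => by
    have h1 : D * (f - (trunc m f : Polynomial K)) ^ n ∈ psSub O := by
      rw [sub_eq_add_neg, add_pow, Finset.mul_sum]
      refine Subring.sum_mem _ fun i _ => ?_
      rw [← mul_assoc, ← mul_assoc]
      exact Subring.mul_mem _ (Subring.mul_mem _ (h i) (Subring.pow_mem _ (Subring.neg_mem _ hg) _))
        (natCast_mem _ _)
    have h2 := mem_psSub.1 h1 (0 + (e + m * n))
    rw [hu, hE, show X ^ e * E * (X ^ m * u) ^ n = X ^ (e + m * n) * (E * u ^ n) by ring,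
      coeff_X_pow_mul] at h2
    simpa [hE0, hu0] using h2
  exact hO _ (by simpa using key 0) (coeff_order hD) _ (hP m) key

end Crest.Agent.R007
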