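import Crest.Agent.R007.IAbs
import Crest.Agent.R007.RAut

/-! Row 7, block I: the Igusa ring generated by `μ`, `Z P`; power series; square roots in
characteristic two. -/

set_option autoImplicit false
set_option linter.dupNamespace false

namespace Crest.Agent.R007

open Polynomial

/-- **Katz descent for the Igusa ring.** -/
theorem igusa {𝕂 : Type*} [CommRing 𝕂] {I : Type*} (Λ O : Subring 𝕂) (φ : 𝕂 →+* 𝕂) (ι : 𝕂)
    (hι : 2 * ι = 1) (hO : O ≤ Λ) (δΛ : ∀ g ∈ Λ, ∃ t ∈ Λ, g ^ 2 - φ g = 2 * t)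
    (δO : ∀ g ∈ O, ∃ t ∈ O, g ^ 2 - φ g = 2 * t) (unit : ∀ x ∈ Λ, ∃ y ∈ Λ, (1 + 2 * x) * y = 1)
    {ε μ : 𝕂} {Z : I → 𝕂} (hε : ∃ u ∈ Λ, ε = 1 + 8 * u) (hμ : μ ∈ Λ) (hZ : ∀ P, Z P ∈ Λ)
    (φε : φ ε = (1 - 24 * μ) * ε) (φμ : (1 - 24 * μ) ^ 2 * (φ μ - 16 * φ μ ^ 2) = μ ^ 2)
    (φZ : ∀ P, (1 + 4 * Z P) * ((1 - 24 * μ) * φ (Z P) - 2 * μ) =
      Z P ^ 2 - 4 * (μ - 16 * μ ^ 2))
    {z : ℤ} (hz : (16 : ℤ) ∣ z - 9) {F : 𝕂[X]}
    (hF : ∀ m, F.coeff m ∈ Subring.closure ({ι, μ} ∪ (O : Set 𝕂) ∪ Set.range Z)) {γ : 𝕂}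
    (hγ : γ ∈ Λ) (h : ∀ s : ℕ, ∃ t ∈ Λ, F.eval ((z : 𝕂) ^ s * ε) = γ + 2 * t) :
    ∃ e : ℕ, ∃ s ∈ Subring.closure ({μ} ∪ (O : Set 𝕂) ∪ Set.range Z), ∃ t ∈ Λ,
      γ ^ 2 ^ e = s + 2 * t := by
  set A : Set 𝕂 := (Set.range fun n => φ^[n] μ) ∪ (O : Set 𝕂) ∪ Set.range Z with hA
  have φΛ : ∀ g ∈ Λ, φ g ∈ Λ := fun g hg => by
    obtain ⟨t, ht, e⟩ := δΛ g hg
    have : φ g = g ^ 2 - 2 * t := by linear_combination -e
    exact this ▸ sub_mem (pow_mem hg 2) (mul_mem (by simp) ht)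
  have hμn : ∀ n, φ^[n] μ ∈ Λ := fun n => by
    induction n with
    | zero => exact hμ
    | succ n ih => rw [Function.iterate_succ_apply']; exact φΛ _ ih
  have hAΛ : A ⊆ Λ := by
    rintro a ((⟨n, rfl⟩ | ha) | ⟨P, rfl⟩)
    exacts [hμn n, hO ha, hZ P]
  have hu : ∀ x ∈ Λ, ∀ y, (1 + 2 * x) * y = 1 → y ∈ Λ := fun x hx y hy => by
    obtain ⟨y', hy', e⟩ := unit x hx
    have : y = y' := by linear_combination y' * hy - y * e
    exact this ▸ hy'
  have mμ : ∀ n, φ^[n] μ ∈ genRing A := fun n => mem_genRing (Or.inl (Or.inl ⟨n, rfl⟩))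
  have mZ : ∀ P, Z P ∈ genRing A := fun P => mem_genRing (Or.inr ⟨P, rfl⟩)
  have inv : ∀ x ∈ genRing A, ∃ y ∈ genRing A, (1 + 2 * x) * y = 1 := fun x hx => by
    obtain ⟨y, -, e⟩ := unit x (genRing_le hAΛ hu hx)
    exact ⟨y, inv_mem_genRing hx e, e⟩
  have nat : ∀ n : ℕ, (n : 𝕂) ∈ genRing A := fun n => natCast_mem _ n
  have rel : ∀ n, (1 - 24 * φ^[n] μ) ^ 2 * (φ (φ^[n] μ) - 16 * φ (φ^[n] μ) ^ 2) =
      φ^[n] μ ^ 2 := fun n => by
    induction n with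
    | zero => exact φμ
    | succ n ih =>
      have := congrArg φ ih
      simpa only [Function.iterate_succ_apply', map_mul, map_pow, map_sub, map_one,
        map_ofNat] using this
  have δA : ∀ a ∈ A, ∃ t ∈ genRing A, a ^ 2 - φ a = 2 * t := by
    rintro a ((⟨n, rfl⟩ | ha) | ⟨P, rfl⟩)
    · have h1 := mμ n
      have h2 := mμ (n + 1)
      rw [Function.iterate_succ_apply'] at h2
      obtain ⟨y, hy, e⟩ := inv (-(12 * φ^[n] μ)) (neg_mem (mul_mem (by simp) h1))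
      refine ⟨φ^[n] μ ^ 2 * (288 * φ^[n] μ ^ 2 - 24 * φ^[n] μ) * y ^ 2 - 8 * φ (φ^[n] μ) ^ 2,
        sub_mem (mul_mem (mul_mem (pow_mem h1 2) (sub_mem (mul_mem (by simp) (pow_mem h1 2))
          (mul_mem (by simp) h1))) (pow_mem hy 2)) (mul_mem (by simp) (pow_mem h2 2)), ?_⟩
      have := rel n
      simp only
      generalize φ (φ^[n] μ) = b at *
      generalize φ^[n] μ = a at *
      linear_combination (-y ^ 2) * this +
        (b - 16 * b ^ 2 - a ^ 2) * ((1 - 24 * a) * y + 1) * e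
    · obtain ⟨t, ht, e⟩ := δO a ha
      exact ⟨t, mem_genRing (Or.inl (Or.inr ht)), e⟩
    · have h1 : μ ∈ genRing A := mμ 0
      have h2 := mZ P
      obtain ⟨y, hy, e⟩ := inv (-(12 * μ)) (neg_mem (mul_mem (by simp) h1))
      obtain ⟨y', hy', e'⟩ := inv (2 * Z P) (mul_mem (by simp) h2)
      refine ⟨y * y' * (Z P ^ 2 * (2 * Z P - 12 * μ - 48 * μ * Z P) - μ * (1 + 4 * Z P) +
        2 * (μ - 16 * μ ^ 2)), mul_mem (mul_mem hy hy') (add_mem (sub_mem (mul_mem (pow_mem h2 2)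
          (sub_mem (sub_mem (mul_mem (by simp) h2) (mul_mem (by simp) h1))
            (mul_mem (mul_mem (by simp) h1) h2))) (mul_mem h1 (add_mem (one_mem _)
              (mul_mem (by simp) h2)))) (mul_mem (by simp) (sub_mem h1 (mul_mem (by simp)
                (pow_mem h1 2))))), ?_⟩
      have := φZ P
      generalize φ (Z P) = b at *
      generalize Z P = a at *
      linear_combination (-(y * y')) * this + (b - a ^ 2) * ((1 + 4 * a) * y') * e +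
        (b - a ^ 2) * e'
  let D : KD 𝕂 :=
    { Λ := Λ, S := genRing A, φ := φ, ι := ι, two_mul_ι := hι, le := genRing_le hAΛ hu, δΛ := δΛ
      δS := genRing_delta φ δA, unit := unit, ε := ε, ε_eq := hε, lam := 1 - 24 * μ
      lam_mem := sub_mem (one_mem _) (mul_mem (by simp) (mμ 0)), φ_ε := φε }
  have hle : Subring.closure ({ι, μ} ∪ (O : Set 𝕂) ∪ Set.range Z) ≤ D.S' := by
    refine Subring.closure_le.2 ?_
    rintro a (((rfl | rfl) | ha) | ⟨P, rfl⟩)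
    exacts [D.ι_mem, D.S_le (mμ 0), D.S_le (mem_genRing (Or.inl (Or.inr ha))), D.S_le (mZ P)]
  obtain ⟨e, s, hs, t, ht, e1⟩ := D.descent hz (fun m => hle (hF m)) hγ h
  set S := Subring.closure ({μ} ∪ (O : Set 𝕂) ∪ Set.range Z) with hS
  have hSΛ : S ≤ Λ := by
    refine Subring.closure_le.2 ?_
    rintro a ((rfl | ha) | ⟨P, rfl⟩)
    exacts [hμ, hO ha, hZ P]
  have hm : ∀ n, ∃ s ∈ S, ∃ t ∈ Λ, φ^[n] μ = s + 2 * t := fun n => by
    induction n with
    | zero => exact ⟨μ, Subring.subset_closure (Or.inl (Or.inl rfl)), 0, zero_mem _, by simp⟩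
    | succ n ih =>
      obtain ⟨s, hs, t, ht, e⟩ := ih
      obtain ⟨u, hu, e'⟩ := δΛ _ (hμn n)
      refine ⟨s ^ 2, pow_mem hs 2, 2 * (s * t) + 2 * t ^ 2 - u, sub_mem (add_mem (mul_mem (by simp)
        (mul_mem (hSΛ hs) ht)) (mul_mem (by simp) (pow_mem ht 2))) hu, ?_⟩
      rw [Function.iterate_succ_apply']
      linear_combination -e' + (φ^[n] μ + s + 2 * t) * e
  obtain ⟨s', hs', t', ht', e2⟩ := genRing_mod hAΛ hu hSΛ (by
    rintro a ((⟨n, rfl⟩ | ha) | ⟨P, rfl⟩)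
    · exact hm n
    · exact ⟨a, Subring.subset_closure (Or.inl (Or.inr ha)), 0, zero_mem _, by simp⟩
    · exact ⟨Z P, Subring.subset_closure (Or.inr ⟨P, rfl⟩), 0, zero_mem _, by simp⟩) s hs
  exact ⟨e, s', hs', t' + t, add_mem ht' ht, by rw [e1, e2]; ring⟩

section ps

open PowerSeries

variable {K : Type*} [CommRing K]

/-- the Frobenius lift on power series: `φ₀` on coefficients and `X ↦ X ^ 2` -/
noncomputable def frobPS (φ₀ : K →+* K) : K⟦X⟧ →+* K⟦X⟧ :=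
  (PowerSeries.expand 2 two_ne_zero).toRingHom.comp (PowerSeries.map φ₀)

theorem coeff_frobPS (φ₀ : K →+* K) (g : K⟦X⟧) (n : ℕ) :
    coeff n (frobPS φ₀ g) = if 2 ∣ n then φ₀ (coeff (n / 2) g) else 0 := by
  simp [frobPS, PowerSeries.coeff_expand]

theorem frobPS_C (φ₀ : K →+* K) (a : K) : frobPS φ₀ (PowerSeries.C a) = PowerSeries.C (φ₀ a) := by
  simp [frobPS, PowerSeries.expand_C]

theorem sum_antidiag_sq (O : Subring K) {f : ℕ → K} (hf : ∀ n, f n ∈ O) (n : ℕ) :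
    ∃ t ∈ O, ∑ p ∈ Finset.HasAntidiagonal.antidiagonal n, f p.1 * f p.2 =
      (if 2 ∣ n then f (n / 2) ^ 2 else 0) + 2 * t := by
  classical
  refine ⟨∑ p ∈ (Finset.HasAntidiagonal.antidiagonal n).filter fun p => p.1 < p.2, f p.1 * f p.2,
    sum_mem fun p _ => mul_mem (hf _) (hf _), ?_⟩
  have h1 : ∑ p ∈ (Finset.HasAntidiagonal.antidiagonal n).filter fun p => p.2 < p.1, f p.1 * f p.2 =
      ∑ p ∈ (Finset.HasAntidiagonal.antidiagonal n).filter fun p => p.1 < p.2, f p.1 * f p.2 := by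
    refine Finset.sum_bij' (fun p _ => p.swap) (fun p _ => p.swap) ?_ ?_ ?_ ?_ ?_ <;>
      simp [add_comm, mul_comm]
  have h2 : ∑ p ∈ (Finset.HasAntidiagonal.antidiagonal n).filter fun p => p.1 = p.2, f p.1 * f p.2 =
      if 2 ∣ n then f (n / 2) ^ 2 else 0 := by
    split_ifs with h
    · rw [Finset.sum_eq_single (n / 2, n / 2), sq]
      · rintro ⟨a, b⟩ hp hne
        simp only [Finset.mem_filter, Finset.HasAntidiagonal.mem_antidiagonal] at hp
        exact absurd (Prod.ext (by simp; omega) (by simp; omega)) hne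
      · intro hp
        exact absurd (by simp; omega) hp
    · refine Finset.sum_eq_zero fun p hp => ?_
      simp only [Finset.mem_filter, Finset.HasAntidiagonal.mem_antidiagonal] at hp
      omega
  rw [← h2, two_mul]
  nth_rewrite 1 [← h1]
  simp only [Finset.sum_filter, ← Finset.sum_add_distrib]
  refine Finset.sum_congr rfl fun p _ => ?_
  split_ifs <;> first | omega | simp

theorem psSub_delta (O : Subring K) (φ₀ : K →+* K)
    (δO : ∀ a ∈ O, ∃ t ∈ O, a ^ 2 - φ₀ a = 2 * t) :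
    ∀ g ∈ psSub O, ∃ t ∈ psSub O, g ^ 2 - frobPS φ₀ g = 2 * t := by
  intro g hg
  rw [mem_psSub] at hg
  have : ∀ n, ∃ t ∈ O, coeff n (g ^ 2 - frobPS φ₀ g) = 2 * t := fun n => by
    obtain ⟨t, ht, e⟩ := sum_antidiag_sq O hg n
    rw [map_sub, sq, PowerSeries.coeff_mul, e, coeff_frobPS]
    split_ifs with h
    · obtain ⟨u, hu, e'⟩ := δO _ (hg (n / 2))
      exact ⟨u + t, add_mem hu ht, by linear_combination e'⟩
    · exact ⟨t, ht, by ring⟩
  choose t ht e using this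
  refine ⟨PowerSeries.mk t, mem_psSub.2 fun n => by simpa using ht n, ?_⟩
  ext n
  rw [e, show (2 : K⟦X⟧) = PowerSeries.C 2 from (map_ofNat _ 2).symm, PowerSeries.coeff_C_mul,
    coeff_mk]

theorem psSub_unit (O : Subring K) (unit : ∀ x ∈ O, ∃ y ∈ O, (1 + 2 * x) * y = 1) :
    ∀ x ∈ psSub O, ∃ y ∈ psSub O, (1 + 2 * x) * y = 1 := by
  rintro _ ⟨x, rfl⟩
  obtain ⟨y, hy, e⟩ := unit _ (constantCoeff x).2
  have hu : IsUnit (1 + 2 * x) := by
    rw [PowerSeries.isUnit_iff_constantCoeff]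
    refine IsUnit.of_mul_eq_one ⟨y, hy⟩ (Subtype.ext ?_)
    rw [map_add, map_one, map_mul, map_ofNat]
    exact e
  obtain ⟨v, hv⟩ := hu.exists_right_inv
  refine ⟨_, ⟨v, rfl⟩, ?_⟩
  simpa [map_ofNat] using congrArg (PowerSeries.map O.subtype) hv

end ps

/-- square roots stay in the function field -/
theorem mem_of_pow_mem {Ω : Type*} [Field Ω] [CharP Ω 2] {I : Type*} {F₀ : Set Ω}
    (hF : ∀ a ∈ F₀, ∃ b ∈ F₀, a = b ^ 2) {ρ : Ω} (hρ : ∀ x, x ^ 2 ≠ ρ) {ξ : I → Ω}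
    (hξ : ∀ Q, ∃ P, ξ Q * ξ P ^ 2 = ξ P ^ 4 + ρ) (e : ℕ) {x : Ω}
    (hx : x ^ 2 ^ e ∈ Subfield.closure ({ρ} ∪ F₀ ∪ Set.range ξ)) :
    x ∈ Subfield.closure ({ρ} ∪ F₀ ∪ Set.range ξ) := by
  set L := Subfield.closure ({ρ} ∪ F₀ ∪ Set.range ξ) with hL
  have h2 : (2 : Ω) = 0 := CharP.ofNat_eq_zero Ω 2
  have mρ : ρ ∈ L := Subfield.subset_closure (Or.inl (Or.inl rfl))
  have key : ∀ y ∈ L, ∃ u ∈ L, ∃ v ∈ L, y = u ^ 2 + v ^ 2 * ρ := by
    intro y hy
    have hy' := hy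
    induction hy using Subfield.closure_induction with
    | mem a ha =>
      rcases ha with (rfl | ha) | ⟨Q, rfl⟩
      · exact ⟨0, zero_mem _, 1, one_mem _, by simp⟩
      · obtain ⟨b, hb, rfl⟩ := hF a ha
        exact ⟨b, Subfield.subset_closure (Or.inl (Or.inr hb)), 0, zero_mem _, by simp⟩
      · obtain ⟨P, hP⟩ := hξ Q
        have h0 : ξ P ≠ 0 := fun h => hρ 0 (by simpa [h] using hP)
        have mP : ξ P ∈ L := Subfield.subset_closure (Or.inr ⟨P, rfl⟩)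
        refine ⟨ξ P, mP, (ξ P)⁻¹, inv_mem mP, ?_⟩
        field_simp
        linear_combination hP
    | one => exact ⟨1, one_mem _, 0, zero_mem _, by simp⟩
    | add a b ha hb ih ih' =>
      obtain ⟨u, hu, v, hv, rfl⟩ := ih ha
      obtain ⟨u', hu', v', hv', rfl⟩ := ih' hb
      exact ⟨u + u', add_mem hu hu', v + v', add_mem hv hv',
        by linear_combination (-(u * u') - v * v' * ρ) * h2⟩
    | neg a ha ih =>
      obtain ⟨u, hu, v, hv, rfl⟩ := ih ha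
      exact ⟨u, hu, v, hv, by linear_combination (-(u ^ 2 + v ^ 2 * ρ)) * h2⟩
    | inv a ha ih =>
      obtain ⟨u, hu, v, hv, e⟩ := ih ha
      refine ⟨u * a⁻¹, mul_mem hu (inv_mem ha), v * a⁻¹, mul_mem hv (inv_mem ha), ?_⟩
      rcases eq_or_ne a 0 with rfl | h0
      · simp
      · field_simp
        exact e
    | mul a b ha hb ih ih' =>
      obtain ⟨u, hu, v, hv, rfl⟩ := ih ha
      obtain ⟨u', hu', v', hv', rfl⟩ := ih' hb
      exact ⟨u * u' + v * v' * ρ, add_mem (mul_mem hu hu') (mul_mem (mul_mem hv hv') mρ),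
        u * v' + v * u', add_mem (mul_mem hu hv') (mul_mem hv hu'),
        by linear_combination (-2 * (u * u' * v * v' * ρ)) * h2⟩
  have step : ∀ y : Ω, y ^ 2 ∈ L → y ∈ L := fun y hy => by
    obtain ⟨u, hu, v, -, e⟩ := key _ hy
    rcases eq_or_ne v 0 with rfl | h0
    · have : (y - u) ^ 2 = 0 := by linear_combination e + (u ^ 2 - y * u) * h2
      rw [sub_eq_zero.1 (pow_eq_zero_iff two_ne_zero |>.1 this)]
      exact hu
    · refine absurd ?_ (hρ ((y - u) / v))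
      field_simp
      linear_combination e + (u ^ 2 - y * u) * h2
  induction e generalizing x with
  | zero => simpa using hx
  | succ e ih => exact step x (ih (by rwa [← pow_mul, ← pow_succ']))

end Crest.Agent.R007
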