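import Crest.Agent.R007.W
import Crest.Agent.R007.IGen
import Crest.Agent.R007.IAlm

/-! # Row 7, block I: the `δ`-ring `OO⟦X⟧` inside `KK⟦X⟧`, and the characteristic-two side. -/

set_option autoImplicit false
set_option linter.dupNamespace false
set_option linter.unusedSectionVars false

noncomputable section
namespace Crest.Agent.R007

open PowerSeries

/-- the inclusion `OO⟦X⟧ → KK⟦X⟧` -/
abbrev jj : OO⟦X⟧ →+* KK⟦X⟧ := PowerSeries.map (algebraMap OO KK)

theorem jj_inj : Function.Injective jj :=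
  PowerSeries.map_injective _ (IsFractionRing.injective OO KK)

theorem two_ne_OO : (2 : OO) ≠ 0 := WittVector.p_nonzero 2 FF

theorem two_ne_KK : (2 : KK) ≠ 0 := by
  rw [← map_ofNat (algebraMap OO KK) 2]
  exact fun h => two_ne_OO (IsFractionRing.injective OO KK (h.trans (map_zero _).symm))

theorem red_eq_zero {a : OO} : red a = 0 ↔ ∃ t, a = 2 * t :=
  (WittVector.mem_span_p_iff_coeff_zero_eq_zero a).symm.trans Ideal.mem_span_singleton

theorem two_FF0 : (2 : FF) = 0 := CharP.ofNat_eq_zero FF 2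

theorem two_FFX : (2 : FF⟦X⟧) = 0 := by rw [← map_ofNat (C (R := FF)) 2, two_FF0, map_zero]

theorem map_red_eq_zero {y : OO⟦X⟧} : PowerSeries.map red y = 0 ↔ ∃ t, y = 2 * t := by
  constructor
  · intro h
    have : ∀ n, ∃ t, coeff n y = 2 * t := fun n => red_eq_zero.1 (by
      rw [← coeff_map, h, map_zero])
    choose t ht using this
    refine ⟨PowerSeries.mk t, PowerSeries.ext fun n => ?_⟩
    rw [ht, ← map_ofNat (C (R := OO)) 2, coeff_C_mul, coeff_mk]
  · rintro ⟨t, rfl⟩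
    rw [map_mul, map_ofNat, two_FFX, zero_mul]

theorem KK_den (c : KK) : ∃ (n : ℕ) (a : OO), algebraMap OO KK a = 2 ^ n * c := by
  obtain ⟨a, b, hb, rfl⟩ := IsFractionRing.div_surjective (A := OO) c
  obtain ⟨n, u, hu⟩ := WittVector.exists_eq_pow_p_mul' b (nonZeroDivisors.ne_zero hb)
  refine ⟨n, a * (u⁻¹ : OOˣ), ?_⟩
  have h1 : algebraMap OO KK u * algebraMap OO KK (u⁻¹ : OOˣ) = 1 := by
    rw [← map_mul, Units.mul_inv, map_one]
  have h2 : algebraMap OO KK u ≠ 0 := left_ne_zero_of_mul_eq_one h1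
  have h3 := two_ne_KK
  rw [hu, map_mul, map_mul, map_pow, Nat.cast_ofNat, map_ofNat]
  field_simp
  linear_combination algebraMap OO KK a * h1

theorem exists_primitive {y : OO⟦X⟧} (hy : y ≠ 0) :
    ∃ (s : ℕ) (y' : OO⟦X⟧), PowerSeries.map red y' ≠ 0 ∧ y = 2 ^ s * y' := by
  obtain ⟨s, y', h1, h2⟩ := WfDvdMonoid.max_power_factor' (x := (2 : OO⟦X⟧)) hy fun h => by
    have := h.map (PowerSeries.map red)
    rw [map_ofNat, two_FFX] at this
    exact not_isUnit_zero this
  exact ⟨s, y', fun h => h1 (map_red_eq_zero.1 h), h2⟩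

/-- the Frobenius of `KK` -/
def φK : KK →+* KK :=
  (IsFractionRing.ringEquivOfRingEquiv (K := KK) (L := KK)
    (WittVector.frobeniusEquiv 2 FF)).toRingHom

theorem φK_apply (a : OO) : φK (algebraMap OO KK a) = algebraMap OO KK (WittVector.frobenius a) :=
  IsFractionRing.ringEquivOfRingEquiv_algebraMap _ a

theorem frob_jj (y : OO⟦X⟧) : frobPS φK (jj y) = jj (phiL y) := by
  ext n
  have : phiL y = frobPS WittVector.frobenius y := rfl
  rw [this, coeff_frobPS, coeff_map, coeff_map, coeff_frobPS]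
  split_ifs <;> simp [φK_apply]

theorem OO_delta (a : OO) : ∃ t, a ^ 2 - WittVector.frobenius a = 2 * t := by
  refine red_eq_zero.1 ?_
  rw [map_sub, map_pow]
  exact sub_eq_zero.2 (WittVector.coeff_frobenius_charP 2 a 0).symm

theorem phiL_delta (y : OO⟦X⟧) : ∃ t, y ^ 2 - phiL y = 2 * t := by
  obtain ⟨t, -, e⟩ := psSub_delta ⊤ WittVector.frobenius
    (fun a _ => (OO_delta a).imp fun _ h => ⟨trivial, h⟩) y (mem_psSub.2 fun _ => trivial)
  exact ⟨t, e⟩

theorem OOX_unit (x : OO⟦X⟧) : ∃ y, (1 + 2 * x) * y = 1 := by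
  refine IsUnit.exists_right_inv ?_
  rw [PowerSeries.isUnit_iff_constantCoeff]
  refine WittVector.isUnit_of_coeff_zero_ne_zero _ ?_
  rw [← WittVector.constantCoeff_apply, map_add, map_one, map_mul, map_ofNat, map_add, map_one, map_mul, map_ofNat, two_FF0]
  simp

theorem i1_phiL_lev (M : ℕ) [NeZero M] (x : ℤ⟦X⟧) : phiL (lev OO M x) = lev OO M (V2 x) := by
  have h1 : phiL (lev OO M x) = PowerSeries.expand 2 two_ne_zero
    (PowerSeries.map WittVector.frobenius (lev OO M x)) := rfl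
  have h2 : ∀ y, lev OO M y = PowerSeries.expand M (NeZero.ne M)
    (PowerSeries.map (Int.castRingHom OO) y) := fun _ => rfl
  rw [h1, map_lev, h2, h2, V2, map_expand, ← expand_mul, ← expand_mul]
  simp only [mul_comm]

/-- series with bounded denominators -/
def Bdd : Subalgebra KK KK⟦X⟧ where
  carrier := {x | ∃ (n : ℕ) (y : OO⟦X⟧), jj y = 2 ^ n * x}
  mul_mem' := by
    rintro a b ⟨n, y, e⟩ ⟨n', y', e'⟩
    exact ⟨n + n', y * y', by rw [map_mul, e, e']; ring⟩
  add_mem' := by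
    rintro a b ⟨n, y, e⟩ ⟨n', y', e'⟩
    exact ⟨n + n', 2 ^ n' * y + 2 ^ n * y', by
      rw [map_add, map_mul, map_mul, e, e', map_pow, map_pow, map_ofNat]; ring⟩
  algebraMap_mem' c := by
    obtain ⟨n, a, e⟩ := KK_den c
    exact ⟨n, C a, by rw [map_C, e, map_mul, map_pow, map_ofNat]; rfl⟩

theorem jj_Zser (M : ℕ) [NeZero M] (ho : Odd M) (P : ZMod M × ZMod M) :
    jj (Zser (eO M) P) = Zser (eKK M) P := map_Zser _ (prim_eO M ho) (eKK_eq M ho) P

theorem red_Zser (M : ℕ) [NeZero M] (ho : Odd M) (P : ZMod M × ZMod M) :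
    PowerSeries.map red (Zser (eO M) P) = Zser (eF M) P := map_Zser _ (prim_eO M ho) (eF_eq M ho) P

theorem ringA_le_Bdd (M : ℕ) [NeZero M] (ho : Odd M) : ringA (eKK M) ≤ Bdd := by
  refine Algebra.adjoin_le ?_
  rintro _ ((rfl | rfl) | ⟨P, -, rfl⟩)
  · exact ⟨0, lev OO M rho, by simp [map_lev]⟩
  · exact ⟨0, lev OO M mu, by simp [map_lev]⟩
  · exact ⟨0, _, by simpa using jj_Zser M ho P⟩

theorem adjoin_le_ringA {k : Type} [Field k] {h : ℕ} [NeZero h] (e : AddChar (ZMod h) k) :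
    Algebra.adjoin k {lev k h rho} ≤ ringA e :=
  Algebra.adjoin_mono fun _ hx => Or.inl (Or.inl hx)

theorem mem_range_of_integral {A R : Type*} [CommRing A] [IsDomain A] [IsIntegrallyClosed A]
    [CommRing R] [IsDomain R] [Algebra A R] [FaithfulSMul A R] {x : R} (hx : IsIntegral A x)
    {d e : A} (hd : d ≠ 0) (h : algebraMap A R d * x = algebraMap A R e) :
    x ∈ (algebraMap A R).range := by
  have h1 : minpoly A x ∣ Polynomial.C d * Polynomial.X - Polynomial.C e :=
    minpoly.isIntegrallyClosed_dvd hx (by simp [h])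
  have h2 : (Polynomial.C d * Polynomial.X - Polynomial.C e).natDegree = 1 := by compute_degree!
  have h3 := Polynomial.natDegree_le_of_dvd h1 (by rintro h0; simp [h0] at h2)
  have h4 := minpoly.natDegree_pos hx
  exact minpoly.natDegree_eq_one_iff.1 (by omega)

/-! ### characteristic two -/

section two

variable (M : ℕ) [NeZero M] (ho : Odd M)

theorem lev_FF_mu : lev FF M mu = lev FF M rho := by
  rw [rho_eq, map_sub, map_mul, map_ofNat]
  linear_combination (8 * lev FF M (mu ^ 2)) * two_FFX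

include ho

theorem half_smul (Q : ZMod M × ZMod M) : 2 • ((M + 1) / 2) • Q = Q := by
  obtain ⟨r, hr⟩ := ho
  have h : M • Q = 0 := by ext <;> simp
  rw [smul_smul, show 2 * ((M + 1) / 2) = M + 1 by omega, succ_nsmul, h, zero_add]

theorem ringA_FF_integral {x : FF⟦X⟧} (hx : x ∈ ringA (eF M)) :
    IsIntegral (Algebra.adjoin FF {lev FF M rho}) x := by
  let ρ : Algebra.adjoin FF {lev FF M rho} := ⟨_, Algebra.self_mem_adjoin_singleton _ _⟩
  have : ringA (eF M) ≤
      (integralClosure (Algebra.adjoin FF {lev FF M rho}) FF⟦X⟧).restrictScalars FF := by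
    refine Algebra.adjoin_le ?_
    rintro _ ((rfl | rfl) | ⟨P, hP, rfl⟩)
    · exact isIntegral_algebraMap (x := ρ)
    · rw [lev_FF_mu]; exact isIntegral_algebraMap (x := ρ)
    · rw [Zser_FF]
      refine isIntegral_of_dup (I := {P : ZMod M × ZMod M // P ≠ 0})
        (ξ := fun P => Xser (eF M) P.1) (ρ := ρ) (fun P => ⟨⟨2 • P.1, fun h => P.2 ?_⟩,
          dup_FF M ho P.2⟩) ⟨P, hP⟩
      rw [← half_smul M ho P.1, smul_comm, h, smul_zero]
  exact this hx

theorem rho_not_sq {a b : FF⟦X⟧} (hb : b ≠ 0) : a ^ 2 ≠ lev FF M rho * b ^ 2 := by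
  intro h
  have h1 := congrArg (PowerSeries.derivative FF) h
  simp only [sq, Derivation.leibniz, smul_eq_mul] at h1
  have h2 : b * b * PowerSeries.derivative FF (lev FF M rho) = 0 := by
    linear_combination -h1 + (a * PowerSeries.derivative FF a -
      lev FF M rho * (b * PowerSeries.derivative FF b)) * two_FFX
  have h3 := congrArg (coeff (M - 1))
    ((mul_eq_zero.1 h2).resolve_left (mul_ne_zero hb hb))
  have hM := ho.pos
  have h4 : coeff M (lev FF M rho) = 1 := by
    have := PowerSeries.coeff_expand_mul M (NeZero.ne M)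
      (PowerSeries.map (Int.castRingHom FF) rho) 1
    rw [mul_one, coeff_map, coeff_one_rho, map_one] at this
    exact this
  rw [coeff_derivative, Nat.sub_add_cancel hM, h4, one_mul, map_zero, ← Nat.cast_succ,
    Nat.succ_eq_add_one, Nat.sub_add_cancel hM, CharP.cast_eq_zero_iff FF 2] at h3
  exact (Nat.not_even_iff_odd.2 ho) (even_iff_two_dvd.2 h3)

/-- `2`-power roots of elements of `ringA` are fractions -/
theorem frac_of_pow {x : FF⟦X⟧} {e : ℕ} (hx : x ^ 2 ^ e ∈ ringA (eF M)) :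
    ∃ D ∈ ringA (eF M), D ≠ 0 ∧ D * x ∈ ringA (eF M) := by
  let Ω := FractionRing FF⟦X⟧
  let f := algebraMap FF⟦X⟧ Ω
  have inj : Function.Injective f := IsFractionRing.injective _ _
  have : CharP Ω 2 := charP_of_injective_algebraMap (algebraMap FF Ω).injective 2
  let ξ : {P : ZMod M × ZMod M // P ≠ 0} → Ω := fun P => f (Xser (eF M) P.1)
  let s : Set Ω := {f (lev FF M rho)} ∪ Set.range (algebraMap FF Ω) ∪ Set.range ξ
  have h1 : ∀ y ∈ ringA (eF M), f y ∈ Subfield.closure s := by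
    intro y hy
    induction hy using Algebra.adjoin_induction with
    | mem y hy =>
      rcases hy with (rfl | rfl) | ⟨P, hP, rfl⟩
      · exact Subfield.subset_closure (Or.inl (Or.inl rfl))
      · rw [lev_FF_mu]; exact Subfield.subset_closure (Or.inl (Or.inl rfl))
      · rw [Zser_FF]; exact Subfield.subset_closure (Or.inr ⟨⟨P, hP⟩, rfl⟩)
    | algebraMap c => exact Subfield.subset_closure (Or.inl (Or.inr ⟨c, rfl⟩))
    | add a b _ _ h h' => rw [map_add]; exact add_mem h h'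
    | mul a b _ _ h h' => rw [map_mul]; exact mul_mem h h'
  have h2 : Subring.closure s ≤ (ringA (eF M)).toSubring.map f := by
    refine Subring.closure_le.2 ?_
    rintro _ ((rfl | ⟨c, rfl⟩) | ⟨P, rfl⟩)
    · exact ⟨_, Algebra.subset_adjoin (Or.inl (Or.inl rfl)), rfl⟩
    · exact ⟨_, Subalgebra.algebraMap_mem _ c, rfl⟩
    · exact ⟨_, Algebra.subset_adjoin (Or.inr ⟨P.1, P.2, (Zser_FF _ _ _).symm⟩), rfl⟩
  have h3 : f x ∈ Subfield.closure s := by
    refine mem_of_pow_mem ?_ (fun y hy => ?_) (fun Q => ?_) e (map_pow f x _ ▸ h1 _ hx)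
    · rintro _ ⟨c, rfl⟩
      obtain ⟨b, rfl⟩ := IsAlgClosed.exists_pow_nat_eq c two_pos
      exact ⟨_, ⟨b, rfl⟩, map_pow _ _ _⟩
    · obtain ⟨a, b, hb, rfl⟩ := IsFractionRing.div_surjective (A := FF⟦X⟧) y
      have hb' := nonZeroDivisors.ne_zero hb
      refine rho_not_sq M ho hb' (a := a) (inj ?_)
      have : f b ≠ 0 := fun h => hb' (inj (h.trans (map_zero f).symm))
      rw [map_mul, map_pow, map_pow, ← hy, div_pow, div_mul_cancel₀ _ (pow_ne_zero 2 this)]
    · have hP : ((M + 1) / 2) • Q.1 ≠ 0 := fun h => Q.2 (by rw [← half_smul M ho Q.1, h, smul_zero])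
      refine ⟨⟨_, hP⟩, ?_⟩
      have := congrArg f (dup_FF M ho hP)
      rwa [half_smul M ho, map_mul, map_add, map_pow, map_pow] at this
  obtain ⟨y, hy, z, hz, e1⟩ := Subfield.mem_closure_iff.1 h3
  obtain ⟨y, hy', rfl⟩ := h2 hy
  obtain ⟨z, hz', rfl⟩ := h2 hz
  rcases eq_or_ne z 0 with rfl | h0
  · have : x = 0 := inj (by simpa using e1.symm)
    exact ⟨1, one_mem _, one_ne_zero, by simp [this]⟩
  · have : f z ≠ 0 := fun h => h0 (inj (h.trans (map_zero f).symm))
    have e2 : z * x = y := inj (by rw [map_mul, ← e1, mul_div_cancel₀ _ this])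
    exact ⟨z, hz', h0, e2 ▸ hy'⟩

theorem good_of_pow {D γ : FF⟦X⟧} (hD : D ≠ 0)
    (h : ∀ k : ℕ, ∃ e : ℕ, (D * γ ^ k) ^ 2 ^ e ∈ ringA (eF M)) : Good (eF M) γ := by
  have : IsPrincipalIdealRing (Algebra.adjoin FF {lev FF M rho}) := by
    rw [Algebra.adjoin_singleton_eq_range_aeval]
    exact .of_surjective (Polynomial.aeval _).rangeRestrict (AlgHom.rangeRestrict_surjective _)
  refine ⟨isIntegral_of_mul_pow hD fun k => ?_, ?_⟩
  · obtain ⟨e, he⟩ := h k
    exact IsIntegral.of_pow (by positivity) (ringA_FF_integral M ho he)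
  · obtain ⟨e, he⟩ := h 0
    obtain ⟨e', he'⟩ := h 1
    obtain ⟨a, ha, a0, ha'⟩ := frac_of_pow M ho he
    obtain ⟨b, hb, b0, hb'⟩ := frac_of_pow M ho he'
    rw [pow_zero, mul_one] at ha'
    refine ⟨a * D * b, mul_mem ha' hb, mul_ne_zero (mul_ne_zero a0 hD) b0, ?_⟩
    convert mul_mem ha hb' using 1
    ring

end two

end Crest.Agent.R007
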