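import Crest.Agent.R007.GS2
import Crest.Agent.R007.GA
import Crest.Agent.R007.GFG
import Crest.Agent.R007.I1

/-! Row 7, block GEO: assembly. -/

set_option autoImplicit false

noncomputable section
namespace Crest.Agent.R007

open PowerSeries

/-- the inclusion as an algebra homomorphism -/
def cLA : FF⟦X⟧ →ₐ[FF] LaurentSeries FF :=
  { cL with commutes' := fun c => (ls_algebraMap c).symm }

theorem cLA_apply (x : FF⟦X⟧) : cLA x = cL x := rfl

/-- extension of an injective endomorphism to Laurent series -/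
def extL (f : FF⟦X⟧ →ₐ[FF] FF⟦X⟧) (hf : Function.Injective f) :
    LaurentSeries FF →ₐ[FF] LaurentSeries FF :=
  { IsFractionRing.lift (A := FF⟦X⟧) (g := (cLA.comp f).toRingHom) (cL_inj.comp hf) with
    commutes' := fun c => by
      have := IsFractionRing.lift_algebraMap (K := LaurentSeries FF) (A := FF⟦X⟧)
        (g := (cLA.comp f).toRingHom) (cL_inj.comp hf) (algebraMap FF FF⟦X⟧ c)
      exact (congrArg _ (ls_algebraMap c)).trans (this.trans ((cLA.comp f).commutes c)) }

theorem extL_cL (f : FF⟦X⟧ →ₐ[FF] FF⟦X⟧) (hf : Function.Injective f) (x : FF⟦X⟧) :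
    extL f hf (cL x) = cL (f x) :=
  IsFractionRing.lift_algebraMap (K := LaurentSeries FF) (A := FF⟦X⟧)
    (g := (cLA.comp f).toRingHom) (cL_inj.comp hf) x

theorem expand_inj (m : ℕ) (hm : m ≠ 0) :
    Function.Injective (PowerSeries.expand (R := FF) m hm) := fun x y h => by
  ext n
  have := congrArg (coeff (m * n)) h
  rwa [coeff_expand_mul, coeff_expand_mul] at this

variable (M : ℕ) [NeZero M]

/-- the function field of level `M` -/
def LM : IntermediateField FF (LaurentSeries FF) :=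
  IntermediateField.adjoin FF
    (insert (cL (lev FF M rho)) (Set.range fun P => cL (Xser (eF M) P)))

/-- the modulus -/
def rhoM : LM M := ⟨cL (lev FF M rho), IntermediateField.subset_adjoin _ _ (Set.mem_insert _ _)⟩

theorem lev_rho_cc : constantCoeff (lev FF M rho) = 0 := by
  have : constantCoeff rho = 0 := by rw [← coeff_zero_eq_constantCoeff_apply, coeff_zero_rho]
  simp only [lev, RingHom.coe_comp, Function.comp_apply, AlgHom.toRingHom_eq_coe, RingHom.coe_coe,
    constantCoeff_expand]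
  rw [← coeff_zero_eq_constantCoeff_apply, coeff_map, coeff_zero_eq_constantCoeff_apply, this,
    map_zero]

theorem val_aeval (p : Polynomial FF) :
    ((Polynomial.aeval (rhoM M) p : LM M) : LaurentSeries FF) =
      cL (Polynomial.aeval (lev FF M rho) p) := by
  have h1 := Polynomial.aeval_algHom_apply (LM M).val (rhoM M) p
  have h2 := Polynomial.aeval_algHom_apply cLA (lev FF M rho) p
  exact h1.symm.trans h2

theorem fldData (ho : Odd M) : FldData FF (LM M) (rhoM M) := by
  refine ⟨?_, ?_⟩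
  · rw [transcendental_iff]
    intro p hp
    have h1 := val_aeval M p
    rw [hp] at h1
    have h2 : Polynomial.aeval (lev FF M rho) p = 0 :=
      cL_inj (h1.symm.trans (map_zero cL).symm)
    rw [← subst_coe (rig_hs (lev_rho_cc M))] at h2
    exact Polynomial.coe_eq_zero_iff.mp (rig_subst_eq_zero _ _ (lev_rho_cc M) (lev_rho_ne M) h2)
  · obtain ⟨k, hρ, hξ⟩ := (kumT M ho).descend (LM M).val.toRingHom ⟨rhoM M, rfl⟩ fun P =>
      ⟨⟨cL (Xser (eF M) P), IntermediateField.subset_adjoin _ _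
        (Set.mem_insert_of_mem _ ⟨P, rfl⟩)⟩, rfl⟩
    have e : k.ρ = rhoM M := Subtype.ext hρ
    refine ⟨Set.range k.ξ, Set.finite_range _, ?_, ?_⟩
    · rintro _ ⟨P, rfl⟩
      by_cases hP : P = 0
      · exact Or.inl (by rw [hP, k.ξ_zero])
      · refine Or.inr (e ▸ k.per hP ho ?_)
        ext <;> simp
    · apply IntermediateField.lift_injective
      rw [IntermediateField.lift_adjoin, IntermediateField.lift_top, Set.image_insert_eq,
        ← Set.range_comp]
      have : (Subtype.val ∘ k.ξ) = fun P => cL (Xser (eF M) P) := funext hξ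
      rw [this]
      rfl

theorem ringA_mem {x : FF⟦X⟧} (hx : x ∈ ringA (eF M)) : cL x ∈ LM M := by
  have : ringA (eF M) ≤ (LM M).toSubalgebra.comap cLA := by
    refine Algebra.adjoin_le ?_
    rintro y ((rfl | rfl) | ⟨P, -, rfl⟩)
    · exact (rhoM M).2
    · rw [lev_FF_mu]
      exact (rhoM M).2
    · rw [Zser_FF]
      exact IntermediateField.subset_adjoin _ _ (Set.mem_insert_of_mem _ ⟨P, rfl⟩)
  exact this hx

theorem good_mem (g : goodAlg (eF M)) : cL g.1 ∈ LM M := by
  obtain ⟨-, D, hD, hD0, hDg⟩ := g.2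
  have h0 : cL D ≠ 0 := (map_ne_zero_iff _ cL_inj).mpr hD0
  have : cL g.1 = cL (D * g.1) / cL D := by rw [map_mul, mul_div_cancel_left₀ _ h0]
  rw [this]
  exact div_mem (ringA_mem M hDg) (ringA_mem M hD)

/-- good series as elements of the function field -/
def toL : goodAlg (eF M) →+ LM M where
  toFun g := ⟨cL g.1, good_mem M g⟩
  map_zero' := Subtype.ext (map_zero cL)
  map_add' g g' := Subtype.ext (map_add cL g.1 g'.1)

theorem toL_int (g : goodAlg (eF M)) :
    (Polynomial.aeval (rhoM M) : Polynomial FF →ₐ[FF] LM M).toRingHom.IsIntegralElem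
      (toL M g) := by
  obtain ⟨p, hp, h0⟩ := g.2.1
  let f : Polynomial FF →+* Algebra.adjoin FF ({lev FF M rho} : Set FF⟦X⟧) :=
    ((Polynomial.aeval (lev FF M rho)).codRestrict _ fun q =>
      Polynomial.aeval_mem_adjoin_singleton FF _).toRingHom
  have hf : Function.Surjective f := by
    rintro ⟨y, hy⟩
    rw [Algebra.adjoin_singleton_eq_range_aeval] at hy
    obtain ⟨q, rfl⟩ := hy
    exact ⟨q, rfl⟩
  obtain ⟨q, hq, -, hm⟩ := Polynomial.lifts_and_natDegree_eq_and_monic
    (Polynomial.mem_lifts_of_surjective hf p) hp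
  refine ⟨q, hm, Subtype.ext ?_⟩
  have h1 := Polynomial.hom_eval₂ q
    (Polynomial.aeval (rhoM M) : Polynomial FF →ₐ[FF] LM M).toRingHom (LM M).val.toRingHom (toL M g)
  rw [← hq, Polynomial.eval₂_map] at h0
  have h2 := congrArg cL h0
  rw [Polynomial.hom_eval₂, map_zero] at h2
  refine h1.trans (Eq.trans ?_ h2)
  congr 1
  ext1
  · ext1 c
    exact val_aeval M _
  · exact val_aeval M _

theorem geo_main' (ho : Odd M) (h3 : 3 ∣ M) :
    ∃ (E : Type) (_ : Ring E) (G : Type) (_ : Group G) (φ : G →* Eˣ) (W : Type)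
      (_ : AddCommGroup W) (_ : DistribMulAction G W) (ι : Type) (_ : Finite ι)
      (ev : ι → (goodAlg (eF M) →+ W)),
      GData E G φ W ∧ (∀ g, (∀ i, ev i g = 0) → g = 0) ∧
      ∀ l : ℕ, l.Prime → l ≠ 2 → ∀ i : ι, ∃ l₁ l₂ : List (G × ι),
        ∀ (f₁ f₂ : FF⟦X⟧) (g₁ g₂ g₃ : goodAlg (eF M)),
          (g₁ : FF⟦X⟧) = PowerSeries.expand M (NeZero.ne M) f₁ →
          (g₂ : FF⟦X⟧) = PowerSeries.expand M (NeZero.ne M) f₂ →
          (g₃ : FF⟦X⟧) = PowerSeries.expand M (NeZero.ne M) (Uop l f₁ + Vop l f₂) →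
          ev i g₃ = (l₁.map fun p => p.1 • ev p.2 g₁).sum +
            (l₂.map fun p => p.1 • ev p.2 g₂).sum := by
  obtain ⟨E, _, G, _, φ, W, _, _, σ, mk, hG, hmk, hker, hex⟩ := fg_main FF
  have H := fldData M ho
  refine ⟨E, inferInstance, G, inferInstance, φ, W, inferInstance, inferInstance,
    Emb FF (rhoM M), H.finite,
    fun η => mk.comp ((η.1 : LM M →+ LaurentSeries FF).comp (toL M)), hG, fun g hg => ?_,
    fun l hl hl2 η => ?_⟩
  · have := H.inj (toL_int M g) fun η => hker _ (hg η)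
    exact Subtype.ext (cL_inj ((congrArg Subtype.val this).trans (map_zero cL).symm))
  obtain ⟨d, rfl⟩ := hl.odd_of_ne_two hl2
  have hz : zz (M * (2 * d + 1)) ≠ 0 := fun e => by
    have := zz_pow (M * (2 * d + 1)) (ho.mul (odd_two_mul_add_one d))
    rw [e, zero_pow (NeZero.ne _)] at this
    exact zero_ne_one this
  let T : Option (Fin (2 * d + 1)) → FF⟦X⟧ →ₐ[FF] FF⟦X⟧ := fun o => o.elim
    (PowerSeries.expand ((2 * d + 1) ^ 2) (pow_ne_zero 2 (NeZero.ne (2 * d + 1))))
    fun j => rescaleAlgHom (zz (M * (2 * d + 1)) ^ (j : ℕ))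
  have hT : ∀ o, Function.Injective (T o) := by
    rintro (_ | j)
    · exact expand_inj _ _
    · show Function.Injective (rescaleAlgHom (zz (M * (2 * d + 1)) ^ (j : ℕ)))
      rw [show ⇑(rescaleAlgHom (zz (M * (2 * d + 1)) ^ (j : ℕ))) =
        ⇑(rescale (zz (M * (2 * d + 1)) ^ (j : ℕ))) from
          congrArg DFunLike.coe (coe_rescaleAlgHom _)]
      exact rescale_injective (pow_ne_zero _ hz)
  have hTs : ∀ (j : Fin (2 * d + 1)) x,
      T (some j) x = rescale (zz (M * (2 * d + 1)) ^ (j : ℕ)) x := fun j x =>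
    DFunLike.congr_fun (coe_rescaleAlgHom _) x
  obtain ⟨θ, hθ, hsum⟩ := H.hecke (d := d)
    ((extL (PowerSeries.expand (2 * d + 1) (NeZero.ne _)) (expand_inj _ _)).comp (LM M).val)
    (fun o => (extL (T o) (hT o)).comp (LM M).val) (fun o => by
      have e1 : extL (PowerSeries.expand (2 * d + 1) (NeZero.ne _)) (expand_inj _ _)
          (cL (lev FF M rho)) = cL (lev FF (M * (2 * d + 1)) rho) := by
        rw [extL_cL, expand_lev]
      have e2 := extL_cL (T o) (hT o) (lev FF M rho)
      rcases o with _ | j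
      · obtain ⟨k, h1, h2⟩ := tate_velu_expand M d ho h3
        exact ⟨k, h1.trans e1.symm, (congrArg (· * _) e2).trans h2⟩
      · obtain ⟨k, h1, h2⟩ := tate_velu_rescale M d ho h3 j
        rw [hTs] at e2
        exact ⟨k, h1.trans e1.symm, (congrArg (· * _) e2).trans h2⟩) η
  have key : ∀ o, ∃ (g : G) (η' : Emb FF (rhoM M)), ∀ x, θ o x = σ g (η'.1 x) := fun o => by
    obtain ⟨b, p, h1, h2, h3, h4⟩ := hθ o
    obtain ⟨g, hg⟩ := hex b p h1 h2 h3
    refine ⟨g, ⟨((σ g).symm : LaurentSeries FF →ₐ[FF] LaurentSeries FF).comp (θ o), ?_⟩,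
      fun x => ((σ g).apply_symm_apply _).symm⟩
    show (σ g).symm (θ o (rhoM M)) = _
    rw [h4, ← hg, AlgEquiv.symm_apply_eq]
    exact (map_rhoE (σ g : LaurentSeries FF →+* LaurentSeries FF) _).symm
  choose g η' hη' using key
  refine ⟨List.ofFn fun j => (g (some j), η' (some j)), [(g none, η' none)],
    fun f₁ f₂ g₁ g₂ g₃ h₁ h₂ h₃ => ?_⟩
  have h4 := hsum (toL M g₃) (fun o => o.elim (toL M g₂) fun _ => toL M g₁) (by
    rw [Fintype.sum_option]
    show extL (PowerSeries.expand (2 * d + 1) (NeZero.ne _)) (expand_inj _ _) (cL g₃.1) =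
      extL (T none) (hT _) (cL g₂.1) + ∑ j, extL (T (some j)) (hT _) (cL g₁.1)
    simp only [extL_cL, hTs]
    rw [h₁, h₂, h₃, ← map_sum, Fin.sum_univ_eq_sum_range
      (fun j => rescale (zz (M * (2 * d + 1)) ^ j) (PowerSeries.expand M (NeZero.ne M) f₁)),
      sum_rescale_expand M (2 * d + 1) ho (odd_two_mul_add_one d), map_add, map_add, map_add,
      add_comm, ← expand_sq_expand]
    rfl)
  show mk (η.1 (toL M g₃)) = _
  rw [h4, Fintype.sum_option, map_add, map_sum, add_comm, List.map_ofFn, List.sum_ofFn]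
  simp only [hη', hmk, List.map_cons, List.map_nil, List.sum_cons, List.sum_nil, add_zero]
  rfl

end Crest.Agent.R007
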