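import Crest.Agent.R007.I1

/-! # Row 7, block I: descent from the Igusa tower (δ-rings). -/

set_option autoImplicit false

noncomputable section
namespace Crest.Agent.R007

open PowerSeries UpperHalfPlane
open scoped ModularForm MatrixGroups TensorProduct

/-- bounded denominators -/
theorem good_bdd (M : ℕ) [NeZero M] (ho : Odd M) {x : KK⟦X⟧} (hx : Good (eKK M) x) :
    ∃ (n : ℕ) (y : OO⟦X⟧), PowerSeries.map (algebraMap OO KK) y = 2 ^ n * x := by
  obtain ⟨⟨p, hp, h0⟩, D, hD, hD0, hDx⟩ := hx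
  have hc : ∀ i, ∃ (n : ℕ) (y : OO⟦X⟧), jj y = 2 ^ n * (p.coeff i : KK⟦X⟧) := fun i =>
    ringA_le_Bdd M ho (adjoin_le_ringA _ (p.coeff i).2)
  choose n y hy using hc
  set s := (Finset.range p.natDegree).sup n
  set q := p.map (algebraMap (Algebra.adjoin KK {lev KK M rho}) KK⟦X⟧) with hq
  have hqm : q.Monic := hp.map _
  have hl : q.scaleRoots (2 ^ s) ∈ Polynomial.lifts jj := by
    refine (Polynomial.lifts_iff_coeff_lifts _).2 fun i => ?_
    rw [Polynomial.coeff_scaleRoots]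
    rcases lt_trichotomy i q.natDegree with h | rfl | h
    · have h1 : n i ≤ s := Finset.le_sup (f := n) (Finset.mem_range.2 (by rwa [hq, hp.natDegree_map] at h))
      obtain ⟨a, ha⟩ := Nat.exists_eq_add_of_le h1
      obtain ⟨b, hb⟩ := Nat.exists_eq_add_of_lt h
      refine ⟨y i * 2 ^ a * (2 ^ s) ^ b, ?_⟩
      rw [hb, show i + b + 1 - i = b + 1 by omega, map_mul, map_mul, hy, hq, Polynomial.coeff_map,
        pow_succ, map_pow, map_pow, map_pow, map_ofNat, ha, pow_add]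
      change _ = (p.coeff i : KK⟦X⟧) * _
      ring
    · exact ⟨1, by simp [hqm.coeff_natDegree]⟩
    · exact ⟨0, by simp [Polynomial.coeff_eq_zero_of_natDegree_lt h]⟩
  obtain ⟨r, hr, -, hr'⟩ := Polynomial.lifts_and_natDegree_eq_and_monic hl
    ((Polynomial.monic_scaleRoots_iff _).2 hqm)
  let _ : Algebra OO⟦X⟧ KK⟦X⟧ := jj.toAlgebra
  have : FaithfulSMul OO⟦X⟧ KK⟦X⟧ := (faithfulSMul_iff_algebraMap_injective _ _).2 jj_inj
  have hi : IsIntegral OO⟦X⟧ (2 ^ s * x) := by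
    refine ⟨r, hr', ?_⟩
    rw [← Polynomial.eval_map]
    change Polynomial.eval _ (r.map jj) = 0
    rw [hr, Polynomial.scaleRoots_eval_mul, hq, Polynomial.eval_map, h0, mul_zero]
  obtain ⟨a, d, hd⟩ := ringA_le_Bdd M ho hD
  obtain ⟨b, e, he⟩ := ringA_le_Bdd M ho hDx
  have h2 : (2 : KK⟦X⟧) ≠ 0 := by
    rw [← map_ofNat (C (R := KK)) 2]
    exact fun h => two_ne_KK (C_injective (h.trans (map_zero _).symm))
  obtain ⟨y, hy⟩ := mem_range_of_integral hi (d := 2 ^ b * d) (e := 2 ^ (a + s) * e) (fun h => by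
    have := congrArg jj h
    rw [map_mul, hd, map_pow, map_ofNat, map_zero] at this
    exact mul_ne_zero (pow_ne_zero _ h2) (mul_ne_zero (pow_ne_zero _ h2) hD0) this) (by
    change jj _ * _ = jj _
    rw [map_mul, map_mul, hd, he, map_pow, map_pow, map_ofNat]
    ring)
  exact ⟨s, y, hy⟩

theorem ai_sum {R ι : Type*} [CommRing R] (S : Subring R) (T : Submonoid R) (s : Finset ι)
    {f : ι → R} (h : ∀ i ∈ s, ∃ D ∈ T, ∀ j : ℕ, D * f i ^ j ∈ S) :
    ∃ D ∈ T, ∀ j : ℕ, D * (∑ i ∈ s, f i) ^ j ∈ S := by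
  refine Finset.sum_induction f (fun a => ∃ D ∈ T, ∀ j : ℕ, D * a ^ j ∈ S) ?_
    ⟨1, one_mem _, fun j => by simpa using pow_mem S.zero_mem j⟩ h
  rintro a b ⟨D, hD, h⟩ ⟨D', hD', h'⟩
  refine ⟨D * D', mul_mem hD hD', fun j => ?_⟩
  rw [add_pow, Finset.mul_sum]
  refine sum_mem fun i _ => ?_
  convert mul_mem (mul_mem (h i) (h' (j - i))) (natCast_mem S (j.choose i)) using 1
  ring

/-- Katz: a divided congruence fixed modulo 2 by `z₀ ≡ 9 mod 16` comes from level `M` -/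
theorem katz (M : ℕ) [NeZero M] (ho : Odd M) (r : ℕ) (x : ℕ → KK⟦X⟧)
    (hx : ∀ m, Good (eKK M) (x m)) (z₀ : ℤ) (hz : z₀ % 16 = 9) (G : ℕ → OO⟦X⟧)
    (hG : ∀ i, PowerSeries.map (algebraMap OO KK) (G i) =
      ∑ m ∈ Finset.range r, (z₀ : KK⟦X⟧) ^ (i * m) * x m * lev KK M eps ^ m)
    (hinv : ∀ i, PowerSeries.map red (G i) = PowerSeries.map red (G 0)) :
    Good (eF M) (PowerSeries.map red (G 0)) := by
  let A := (ringA (eKK M)).toSubring
  let F : Polynomial KK⟦X⟧ := ∑ m ∈ Finset.range r, Polynomial.monomial m (x m)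
  -- a common denominator
  obtain ⟨_, ⟨D, hD0, rfl⟩, hD⟩ := ai_sum (Polynomial.liftsRing A.subtype)
    ((nonZeroDivisors KK⟦X⟧).map Polynomial.C) (Finset.range r)
    (f := fun m => Polynomial.monomial m (x m)) fun m _ => by
      obtain ⟨⟨p, hp, h0⟩, D, hD, hD0, hDx⟩ := hx m
      obtain ⟨n, hn⟩ := almost_of_integral A hD hDx ⟨p.map (Subalgebra.inclusion
        (adjoin_le_ringA (eKK M))).toRingHom, hp.map _, by rwa [Polynomial.eval₂_map]⟩
      refine ⟨_, ⟨D ^ n, pow_mem (mem_nonZeroDivisors_of_ne_zero hD0) n, rfl⟩, fun j => ?_⟩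
      rw [Polynomial.monomial_pow, Polynomial.C_mul_monomial]
      exact ⟨Polynomial.monomial (m * j) ⟨_, hn j⟩, by simp⟩
  have hD' : ∀ j m : ℕ, D * (F ^ j).coeff m ∈ ringA (eKK M) := fun j m => by
    obtain ⟨a, ha⟩ := (Polynomial.lifts_iff_coeff_lifts _).1
      ((Polynomial.lifts_iff_liftsRing _ _).2 (hD j)) m
    rw [Polynomial.coeff_C_mul] at ha
    exact ha ▸ a.2
  have hDA : D ∈ ringA (eKK M) := by simpa using hD' 0 0
  obtain ⟨a, d, hd⟩ := ringA_le_Bdd M ho hDA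
  have h2 : (2 : KK⟦X⟧) * C 2⁻¹ = 1 := by
    rw [← map_ofNat (C (R := KK)) 2, ← map_mul, mul_inv_cancel₀ two_ne_KK, map_one]
  obtain ⟨s, d', hd0, rfl⟩ := exists_primitive (y := d) fun h => by
    rw [h, map_zero] at hd
    exact mul_ne_zero (pow_ne_zero _ (left_ne_zero_of_mul_eq_one h2))
      (nonZeroDivisors.ne_zero hD0) hd.symm
  have hd1 : jj d' = C (2⁻¹ ^ s * 2 ^ a) * D := by
    rw [map_mul, map_pow, map_ofNat] at hd
    rw [map_mul, map_pow, map_pow, map_ofNat, mul_assoc, ← hd, ← mul_assoc, ← mul_pow, mul_comm _ 2,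
      h2, one_pow, one_mul]
  refine good_of_pow M ho hd0 fun k => ?_
  let O : Subring KK⟦X⟧ := (jj.comp C).range
  let Z : {P : ZMod M × ZMod M // P ≠ 0} → KK⟦X⟧ := fun P => Zser (eKK M) P.1
  have hρ : lev OO M rho = lev OO M mu - 16 * lev OO M mu ^ 2 := by
    rw [rho_eq, map_sub, map_mul, map_pow, map_ofNat]
  have hl : lev OO M lam = 1 - 24 * lev OO M mu := by
    rw [lam, map_sub, map_mul, map_one, map_ofNat]
  have hA : A ≤ Subring.closure ({C 2⁻¹, jj (lev OO M mu)} ∪ (O : Set KK⟦X⟧) ∪ Set.range Z) := by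
    intro y hy
    have hμ : jj (lev OO M mu) ∈ Subring.closure ({C 2⁻¹, jj (lev OO M mu)} ∪ (O : Set KK⟦X⟧) ∪
      Set.range Z) := Subring.subset_closure (Or.inl (Or.inl (Or.inr rfl)))
    induction hy using Algebra.adjoin_induction with
    | mem y hy =>
      rcases hy with (rfl | rfl) | ⟨P, hP, rfl⟩
      · rw [← map_lev (algebraMap OO KK), hρ, map_sub, map_mul, map_pow, map_ofNat]
        exact sub_mem hμ (mul_mem (by simp) (pow_mem hμ 2))
      · rwa [← map_lev (algebraMap OO KK)]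
      · exact Subring.subset_closure (Or.inr ⟨⟨P, hP⟩, rfl⟩)
    | algebraMap c =>
      obtain ⟨n, b, e⟩ := KK_den c
      have : algebraMap KK KK⟦X⟧ c = C 2⁻¹ ^ n * jj (C b) := by
        rw [map_C, e, ← map_pow, ← map_mul, ← mul_assoc, ← mul_pow, inv_mul_cancel₀ two_ne_KK,
          one_pow, one_mul]
        rfl
      rw [this]
      refine mul_mem (pow_mem (Subring.subset_closure ?_) n) (Subring.subset_closure ?_)
      exacts [Or.inl (Or.inl (Or.inl rfl)), Or.inl (Or.inr ⟨b, rfl⟩)]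
    | add a b _ _ h h' => exact add_mem h h'
    | mul a b _ _ h h' => exact mul_mem h h'
  obtain ⟨e, s, hs, _, ⟨t, rfl⟩, e1⟩ := igusa jj.range O (frobPS φK) (C 2⁻¹) h2
    (by rintro _ ⟨a, rfl⟩; exact ⟨C a, rfl⟩)
    (by
      rintro _ ⟨g, rfl⟩
      obtain ⟨t, ht⟩ := phiL_delta g
      exact ⟨_, ⟨t, rfl⟩, by rw [frob_jj, ← map_pow, ← map_sub, ht, map_mul, map_ofNat]⟩)
    (by
      rintro _ ⟨a, rfl⟩
      obtain ⟨t, ht⟩ := OO_delta a
      refine ⟨_, ⟨t, rfl⟩, ?_⟩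
      simp only [RingHom.comp_apply, map_C, frobPS_C, φK_apply]
      rw [← map_pow, ← map_pow, ← map_sub, ← map_sub, ht, map_mul, map_mul, map_ofNat, map_ofNat])
    (by
      rintro _ ⟨g, rfl⟩
      obtain ⟨t, ht⟩ := OOX_unit g
      exact ⟨_, ⟨t, rfl⟩, by simpa [map_ofNat] using congrArg jj ht⟩)
    (ε := jj (lev OO M eps)) (μ := jj (lev OO M mu)) (Z := Z)
    ⟨_, ⟨3 * lev OO M sigO, rfl⟩, by simp only [eps, map_add, map_mul, map_one, map_ofNat]; ring⟩
    ⟨_, rfl⟩ (fun P => ⟨_, jj_Zser M ho P.1⟩)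
    (by rw [frob_jj, i1_phiL_lev, V2_eps, map_mul, hl]; simp [map_ofNat])
    (by
      have h1 := congrArg (fun y => jj (lev OO M y)) V2_rho
      simp only [rho_eq, lam, map_sub, map_mul, map_pow, map_ofNat, map_one] at h1
      rw [frob_jj, i1_phiL_lev]
      linear_combination h1)
    (fun P => by
      have h1 := congrArg jj (isog_OO M ho P.2)
      simp only [hρ, hl, map_sub, map_add, map_mul, map_pow, map_ofNat, map_one, ← frob_jj,
        jj_Zser M ho] at h1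
      linear_combination h1)
    (z := z₀) (by omega) (F := Polynomial.C (jj d') * F ^ k)
    (fun m => hA (by
      rw [Polynomial.coeff_C_mul, hd1, mul_assoc]
      exact mul_mem (Subalgebra.algebraMap_mem _ _) (hD' k m)))
    (γ := jj (d' * G 0 ^ k)) ⟨_, rfl⟩ (fun i => by
      obtain ⟨t, ht⟩ := (map_red_eq_zero (y := d' * G i ^ k - d' * G 0 ^ k)).1 (by
        simp only [map_sub, map_mul, map_pow, hinv i, sub_self])
      have h1 : F.eval ((z₀ : KK⟦X⟧) ^ i * jj (lev OO M eps)) = jj (G i) := by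
        rw [hG, map_lev, Polynomial.eval_finsetSum]
        refine Finset.sum_congr rfl fun m _ => ?_
        rw [Polynomial.eval_monomial, mul_pow, pow_mul]
        ring
      refine ⟨_, ⟨t, rfl⟩, ?_⟩
      rw [Polynomial.eval_mul, Polynomial.eval_C, Polynomial.eval_pow, h1, ← map_pow, ← map_mul,
        sub_eq_iff_eq_add'.1 ht, map_add, map_mul jj 2, map_ofNat])
  have hT : Subring.closure ({jj (lev OO M mu)} ∪ (O : Set KK⟦X⟧) ∪ Set.range Z) ≤
      ((ringA (eF M)).toSubring.comap (PowerSeries.map red)).map jj := by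
    refine Subring.closure_le.2 ?_
    rintro _ ((rfl | ⟨a, rfl⟩) | ⟨P, rfl⟩)
    · exact ⟨_, Algebra.subset_adjoin (Or.inl (Or.inr (map_lev _ _))), rfl⟩
    · refine ⟨C a, ?_, rfl⟩
      change PowerSeries.map red (C a) ∈ ringA (eF M)
      rw [map_C]
      exact Subalgebra.algebraMap_mem _ _
    · exact ⟨_, Algebra.subset_adjoin (Or.inr ⟨P.1, P.2, red_Zser M ho _⟩), jj_Zser M ho _⟩
  obtain ⟨s', hs', rfl⟩ := hT hs
  have e2 : (d' * G 0 ^ k) ^ 2 ^ e = s' + 2 * t := jj_inj (by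
    rw [map_pow, e1, map_add, map_mul, map_ofNat])
  have e3 := congrArg (PowerSeries.map red) e2
  rw [map_pow, map_mul, map_pow, map_add, map_mul, map_ofNat, two_FFX, zero_mul, add_zero] at e3
  exact ⟨e, e3 ▸ hs'⟩

/-- the `q`-expansion principle modulo 2 -/
theorem good_red (M : ℕ) [NeZero M] (ho : Odd M) {y : OO⟦X⟧}
    (hy : Good (eKK M) (PowerSeries.map (algebraMap OO KK) y)) :
    Good (eF M) (PowerSeries.map red y) :=
  katz M ho 1 (fun _ => PowerSeries.map (algebraMap OO KK) y) (fun _ => hy) 9 rfl (fun _ => y)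
    (fun _ => by simp) fun _ => rfl

end Crest.Agent.R007
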