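import Crest.Agent.R007.R
import Crest.Agent.R007.I
import Crest.Agent.R007.GMain

/-! # Row 7, block GEO: expansions at the supersingular point and the action of isogenies. -/

set_option autoImplicit false

noncomputable section
namespace Crest.Agent.R007

open PowerSeries UpperHalfPlane
open scoped ModularForm MatrixGroups TensorProduct

theorem geo_main (M : ℕ) [NeZero M] (ho : Odd M) (h3 : 3 ∣ M) :
    ∃ (E : Type) (_ : Ring E) (G : Type) (_ : Group G) (φ : G →* Eˣ) (W : Type)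
      (_ : AddCommGroup W) (_ : DistribMulAction G W) (ι : Type) (_ : Finite ι) (ev : ι → (goodAlg (eF M) →+ W)),
      GData E G φ W ∧ (∀ g, (∀ i, ev i g = 0) → g = 0) ∧
      ∀ l : ℕ, l.Prime → l ≠ 2 → ∀ i : ι, ∃ l₁ l₂ : List (G × ι),
        ∀ (f₁ f₂ : FF⟦X⟧) (g₁ g₂ g₃ : goodAlg (eF M)),
          (g₁ : FF⟦X⟧) = PowerSeries.expand M (NeZero.ne M) f₁ →
          (g₂ : FF⟦X⟧) = PowerSeries.expand M (NeZero.ne M) f₂ →
          (g₃ : FF⟦X⟧) = PowerSeries.expand M (NeZero.ne M) (Uop l f₁ + Vop l f₂) →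
          ev i g₃ = (l₁.map fun p => p.1 • ev p.2 g₁).sum + (l₂.map fun p => p.1 • ev p.2 g₂).sum := by
  exact geo_main' M ho h3

end Crest.Agent.R007
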