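import Crest.Agent.R007.Q2

/-! # Row 7, block Q: functionals on the Hecke ring and their `q`-expansions. -/

set_option autoImplicit false

noncomputable section
namespace Crest.Agent.R007

open PowerSeries UpperHalfPlane
open scoped ModularForm MatrixGroups TensorProduct

open Crest.NumberTheoryR.HeckeTwoAdic

variable {N : ℕ} {T D : ℕ → (i : ℕ) → (MF N i →ₗ[ℂ] MF N i)} {Tn Sd : (k : ℕ) → ℕ → stage N T D k}

namespace Qb

/-- properties of the weight components of a rational functional -/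
structure Nice (Tn Sd : (k : ℕ) → ℕ → stage N T D k) [NeZero (3 * N ^ 2)] (j : ℚ →+* KK)
    (t : OO⟦X⟧) {k : ℕ} (i : ℕ) (lam : stage N T D k →+ ℚ) : Prop where
  hom : ∀ d d' : ℕ, d.Coprime (2 * N) → d'.Coprime (2 * N) → d ≡ d' [MOD N] → ∀ x,
    (d : ℚ) ^ i * lam (Sd k d' * x) = (d' : ℚ) ^ i * lam (Sd k d * x)
  bd : Bd2 lam
  good : ∀ d : ℕ, d.Coprime (2 * N) → Good (eKK (3 * N ^ 2)) (PowerSeries.map j
    (PowerSeries.expand (3 * N ^ 2) (NeZero.ne _) (ser Tn Sd lam d)) *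
      PowerSeries.map (algebraMap OO KK) (1 + 2 * t) ^ ((i + 1) % 2) *
        lev KK (3 * N ^ 2) epsInv ^ ((i + 2) / 2))

theorem ser_zero {k d : ℕ} : ser Tn Sd (0 : stage N T D k →+ ℚ) d = 0 := by
  ext n; simp [ser]

theorem ser_add {k d : ℕ} (a b : stage N T D k →+ ℚ) :
    ser Tn Sd (a + b) d = ser Tn Sd a d + ser Tn Sd b d := by
  ext n
  simp only [ser, coeff_mk, map_add, AddMonoidHom.add_apply]
  split_ifs <;> simp

theorem ser_smul {k d : ℕ} (c : ℚ) (a : stage N T D k →+ ℚ) :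
    ser Tn Sd (c • a) d = c • ser Tn Sd a d := by
  ext n
  simp only [ser, coeff_mk, map_smul, AddMonoidHom.smul_apply]
  split_ifs <;> simp

theorem good_smul {M : ℕ} [NeZero M] (hM : M ≠ 0) (j : ℚ →+* KK) (c : ℚ) {S : ℚ⟦X⟧} {u v : KK⟦X⟧}
    (h : Good (eKK M) (PowerSeries.map j (PowerSeries.expand M hM S) * u * v)) :
    Good (eKK M) (PowerSeries.map j (PowerSeries.expand M hM (c • S)) * u * v) := by
  have h1 : PowerSeries.map j (PowerSeries.expand M hM (c • S)) * u * v =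
      j c • (PowerSeries.map j (PowerSeries.expand M hM S) * u * v) := by
    rw [map_smul, smul_eq_C_mul, smul_eq_C_mul, map_mul, map_C]; ring
  rw [h1]
  exact (goodAlg (eKK M)).smul_mem h _

section nice
variable [NeZero (3 * N ^ 2)] {j : ℚ →+* KK} {t : OO⟦X⟧} {k : ℕ}

theorem Nice.zero (i : ℕ) : Nice Tn Sd j t i (0 : stage N T D k →+ ℚ) := by
  refine ⟨fun d d' _ _ _ x => by simp, Bd2.zero, fun d _ => ?_⟩
  rw [ser_zero, map_zero, map_zero, zero_mul, zero_mul]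
  exact (goodAlg _).zero_mem

theorem Nice.add {i : ℕ} {a b : stage N T D k →+ ℚ} (ha : Nice Tn Sd j t i a)
    (hb : Nice Tn Sd j t i b) : Nice Tn Sd j t i (a + b) := by
  refine ⟨fun d d' h h' e x => ?_, ha.bd.add hb.bd, fun d hd => ?_⟩
  · simp only [AddMonoidHom.add_apply, mul_add, ha.hom d d' h h' e x, hb.hom d d' h h' e x]
  · rw [ser_add, map_add, map_add, add_mul, add_mul]
    exact (goodAlg _).add_mem (ha.good d hd) (hb.good d hd)

theorem Nice.smul {i : ℕ} (c : ℚ) {a : stage N T D k →+ ℚ} (ha : Nice Tn Sd j t i a) :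
    Nice Tn Sd j t i (c • a) := by
  refine ⟨fun d d' h h' e x => ?_, ha.bd.smul c, fun d hd => ?_⟩
  · simp only [AddMonoidHom.smul_apply, smul_eq_mul]
    linear_combination c * ha.hom d d' h h' e x
  · rw [ser_smul]
    exact good_smul _ j c (ha.good d hd)

theorem nice_phiF (hN : Odd N) (H : HeckeFacts N T D Tn Sd) (hc : Ctx (3 * N ^ 2) j t) (i : Fin k)
    (f : MF N ((i : ℕ) + 1)) {n₀ : ℕ} (h₀ : Smooth N n₀) (π : ℂ →ₗ[ℚ] ℚ) :
    Nice Tn Sd j t i (phiF T D i f n₀ π) := by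
  refine ⟨fun d d' h h' e x => ?_, bd2_phiF hN H i f h₀ π, fun d hd => ?_⟩
  · rw [phiF_Sd H i f n₀ π h, phiF_Sd H i f n₀ π h',
      H.D_congr d d' _ (Nat.Coprime.coprime_mul_left_right h) e]
    ring
  · rw [ser_phiF H i f h₀ π hd]
    exact good_smul _ j _ (good_dep H hc _ h₀ π)

theorem decomp (hN : Odd N) (H : HeckeFacts N T D Tn Sd) (hc : Ctx (3 * N ^ 2) j t)
    (p : Fin k → Prop) {lam : stage N T D k →+ ℚ} (h : lam ∈ Submodule.span ℚ (PhiSet T D p)) :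
    ∃ L : Fin k → (stage N T D k →+ ℚ), (∀ i : Fin k, Nice Tn Sd j t i (L i)) ∧ (∀ i, ¬ p i → L i = 0) ∧
      lam = ∑ i, L i := by
  classical
  induction h using Submodule.span_induction with
  | mem x hx =>
    obtain ⟨i, hi, f, n₀, π, h₀, rfl⟩ := hx
    refine ⟨Pi.single i (phiF T D i f n₀ π), fun i' => ?_, fun i' hi' => ?_, by simp⟩
    · by_cases e : i' = i
      · subst e
        rw [Pi.single_eq_same]; exact nice_phiF hN H hc _ f h₀ π
      · rw [Pi.single_eq_of_ne e]; exact Nice.zero _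
    · exact Pi.single_eq_of_ne (by rintro rfl; exact hi' hi) _
  | zero => exact ⟨0, fun i => Nice.zero _, fun _ _ => rfl, by simp⟩
  | add x y _ _ hx hy =>
    obtain ⟨L, h1, h2, rfl⟩ := hx
    obtain ⟨L', h1', h2', rfl⟩ := hy
    exact ⟨L + L', fun i => (h1 i).add (h1' i), fun i hi => by simp [h2 i hi, h2' i hi],
      Finset.sum_add_distrib.symm⟩
  | smul a x _ hx =>
    obtain ⟨L, h1, h2, rfl⟩ := hx
    exact ⟨a • L, fun i => (h1 i).smul a, fun i hi => by simp [h2 i hi], Finset.smul_sum⟩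

theorem exists_lift (hN : Odd N) (H : HeckeFacts N T D Tn Sd) (hc : Ctx (3 * N ^ 2) j t) {a : ℕ}
    {w : stage N T D k} (l : Kk (parI N T D a k) w) :
    ∃ L : Fin k → (stage N T D k →+ ℚ), (∀ i : Fin k, Nice Tn Sd j t i (L i)) ∧
      (∀ i : Fin k, (i : ℕ) % 2 ≠ a → L i = 0) ∧ ∀ x, Int2 (∑ i, L i x) (l.1 x) := by
  obtain ⟨lam, h1, h2⟩ := lift_of (fg_PhiSet hN H fun i : Fin k => (i : ℕ) % 2 = a)
    (by rintro _ ⟨i, -, f, n₀, π, h₀, rfl⟩; exact bd2_phiF hN H i f h₀ π) l.1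
    fun x hx => l.2.1 x (sep_PhiSet H _ x hx)
  obtain ⟨L, h3, h4, rfl⟩ := decomp hN H hc _ h1
  exact ⟨L, h3, h4, fun x => (h2 x).of_eq (AddMonoidHom.finsetSum_apply _ _ _)⟩

end nice

theorem l0_coprime {l₀ : ℕ} (h8 : l₀ % 8 = 5) (h1 : l₀ ≡ 1 [MOD N]) : l₀.Coprime (2 * N) := by
  refine Nat.Coprime.mul_right ((Nat.coprime_two_right).2 (Nat.odd_iff.2 (by omega))) ?_
  unfold Nat.Coprime
  rw [h1.gcd_eq, Nat.gcd_one_left]

theorem Kk_pow (H : HeckeFacts N T D Tn Sd) {l₀ : ℕ} (hl : l₀.Coprime (2 * N)) {a k : ℕ}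
    (l : Kk (parI N T D a k) (Sd k l₀ - 1)) {d : ℕ} (hd : d.Coprime (2 * N)) (e : ℕ)
    (x : stage N T D k) : l.1 (Sd k (d * l₀ ^ e) * x) = l.1 (Sd k d * x) := by
  induction e with
  | zero => rw [pow_zero, mul_one]
  | succ e ih =>
    have h := l.2.2 (Sd k (d * l₀ ^ e) * x)
    rw [sub_mul, one_mul, map_sub, sub_eq_zero, ← mul_assoc,
      ← H.Sd_mul k _ _ hl (Nat.Coprime.mul_left hd (hl.pow_left e))] at h
    rw [← ih, ← h, pow_succ, ← mul_assoc, mul_comm l₀]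

end Qb

open Qb

theorem stage_fg2 (hN : Odd N) (H : HeckeFacts N T D Tn Sd) (k : ℕ) : FG2 (stage N T D k) :=
  fg2_of (fg_PhiSet hN H fun _ : Fin k => True)
    (by rintro _ ⟨i, -, f, n₀, π, h₀, rfl⟩; exact bd2_phiF hN H i f h₀ π)
    fun x hx => Subtype.ext (funext fun i => sep_PhiSet H _ x hx i trivial)

/-- `w = S'_{ℓ₀} - 1` is nilpotent modulo 2 -/
theorem w_nil (hN : Odd N) (H : HeckeFacts N T D Tn Sd) {l₀ : ℕ} (h8 : l₀ % 8 = 5)
    (h1 : l₀ ≡ 1 [MOD N]) (k : ℕ) :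
    ∃ (n : ℕ) (m : ℤ) (y : stage N T D k), Odd m ∧ m • (Sd k l₀ - 1) ^ n = 2 * y := by
  have hl := l0_coprime h8 h1
  have hw : ∀ i : Fin k, ∃ c : ℤ, ((Sd k l₀ - 1 - (2 * c : ℤ) : stage N T D k) : EndProd N k) i = 0 := by
    intro i
    obtain ⟨c, hc⟩ := (Nat.odd_iff.2 (by omega : l₀ % 2 = 1)).pow (n := (i : ℕ))
    refine ⟨c, ?_⟩
    have hc' : (l₀ : ℂ) ^ (i : ℕ) = 2 * c + 1 := by exact_mod_cast hc
    rw [AddSubgroupClass.coe_sub, AddSubgroupClass.coe_sub, H.Sd_eq k l₀ hl, Subring.coe_one,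
      SubringClass.coe_intCast]
    simp only [Pi.sub_apply, Pi.one_apply, Pi.intCast_apply]
    rw [H.D_congr l₀ 1 _ (Nat.Coprime.coprime_mul_left_right hl) h1, H.D_one, hc']
    ext1 f
    simp only [LinearMap.sub_apply, LinearMap.smul_apply, LinearMap.id_apply, Module.End.one_apply,
      Module.End.intCast_apply, LinearMap.zero_apply]
    rw [← Int.cast_smul_eq_zsmul ℂ, add_smul, one_smul]
    push_cast
    abel
  choose c hc using hw
  have key : ∀ n : ℕ, ∃ y : stage N T D k, ∀ i : Fin k, (i : ℕ) < n →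
      (((Sd k l₀ - 1) ^ n - 2 * y : stage N T D k) : EndProd N k) i = 0 := by
    intro n
    induction n with
    | zero => exact ⟨0, fun i hi => absurd hi (Nat.not_lt_zero _)⟩
    | succ n ih =>
      obtain ⟨y, hy⟩ := ih
      obtain ⟨c', hc'⟩ : ∃ c' : ℤ, ∀ i : Fin k, (i : ℕ) = n → c i = c' := by
        by_cases h : n < k
        · exact ⟨c ⟨n, h⟩, fun i hi => congrArg c (Fin.ext hi)⟩
        · exact ⟨0, fun i hi => absurd (hi ▸ i.2) h⟩
      refine ⟨(Sd k l₀ - 1) * y + c' * ((Sd k l₀ - 1) ^ n - 2 * y), fun i hi => ?_⟩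
      have e : (Sd k l₀ - 1) ^ (n + 1) - 2 * ((Sd k l₀ - 1) * y + c' * ((Sd k l₀ - 1) ^ n - 2 * y))
          = (Sd k l₀ - 1 - (2 * c' : ℤ)) * ((Sd k l₀ - 1) ^ n - 2 * y) := by
        letI := commRingOfComm _ (H.comm k)
        push_cast; ring
      rw [e, Subring.coe_mul, Pi.mul_apply]
      rcases Nat.lt_succ_iff_lt_or_eq.1 hi with h | h
      · rw [hy i h, mul_zero]
      · rw [← hc' i h, hc i, zero_mul]
  obtain ⟨y, hy⟩ := key k
  refine ⟨k, 1, y, odd_one, ?_⟩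
  rw [one_smul, ← sub_eq_zero]
  exact Subtype.ext (funext fun i => hy i i.2)

theorem Kk_congr (hN : Odd N) (H : HeckeFacts N T D Tn Sd) {l₀ : ℕ} (h8 : l₀ % 8 = 5)
    (h1 : l₀ ≡ 1 [MOD N]) {a k : ℕ} (l : Kk (parI N T D a k) (Sd k l₀ - 1)) {d d' : ℕ}
    (hd : d.Coprime (2 * N)) (hdd : d ≡ d' [MOD 4 * N]) (t : stage N T D k) :
    l.1 (Sd k d * t) = l.1 (Sd k d' * t) := by
  have : NeZero (3 * N ^ 2) := ⟨(odd_level hN).pos.ne'⟩
  obtain ⟨j, t', hc⟩ := exists_ctx (3 * N ^ 2) (odd_level hN) (dvd_mul_right _ _)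
  obtain ⟨L, hL, -, hl⟩ := exists_lift hN H hc l
  have hl₀ := l0_coprime h8 h1
  have hd2 : d ≡ d' [MOD 2 * N] := hdd.of_dvd ⟨2, by ring⟩
  have hd' : d'.Coprime (2 * N) := by
    unfold Nat.Coprime
    rw [← hd2.gcd_eq]; exact hd
  have hdo : Odd d := Nat.coprime_two_right.1 (Nat.Coprime.coprime_mul_right_right hd)
  have hdo' : Odd d' := Nat.coprime_two_right.1 (Nat.Coprime.coprime_mul_right_right hd')
  choose n hn using fun i => (hL i).bd
  obtain ⟨e, he⟩ := exists_pow_congr (l₀ := l₀) (d := d) (d' := d') (by omega) (by exact_mod_cast hdo)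
    (dvd_sub_comm.1 ((dvd_mul_right 4 (N : ℤ)).trans (by exact_mod_cast hdd.dvd)))
    (Finset.univ.sup n)
  have hD : (d * l₀ ^ e).Coprime (2 * N) := Nat.Coprime.mul_left hd (hl₀.pow_left e)
  have hDN : d' ≡ d * l₀ ^ e [MOD N] := by
    have := (hdd.of_dvd (dvd_mul_left N 4)).mul (h1.pow e)
    rw [one_pow, mul_one] at this
    exact this.symm
  have h2 : ∀ i : Fin k, Int2 (L i (Sd k (d * l₀ ^ e) * t) - L i (Sd k d' * t)) 0 := by
    intro i
    obtain ⟨z, hz⟩ := he.trans (sub_dvd_pow_sub_pow _ _ (i : ℕ))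
    obtain ⟨c, hc⟩ := Int2.pow_mono (Finset.le_sup (f := n) (Finset.mem_univ i))
      (hn i (Sd k d' * t))
    refine Int2.of_odd_mul (m := (d' : ℤ) ^ (i : ℕ)) (Odd.pow (by exact_mod_cast hdo')) ?_
    refine ((Int2.intCast (2 * z)).mul hc).two_mul.of_eq ?_
    have h3 := (hL i).hom _ _ hd' hD hDN t
    have hz' := congrArg (Int.cast : ℤ → ℚ) hz
    push_cast at h3 hz' ⊢
    linear_combination -h3 - L i (Sd k d' * t) * hz'
  have h3 := Int2.sum Finset.univ fun i _ => h2 i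
  rw [Finset.sum_sub_distrib, Finset.sum_const_zero] at h3
  have h4 := (h3.add (hl (Sd k d' * t))).of_eq (sub_add_cancel _ _)
  rw [← Kk_pow H hl₀ l hd e, (hl _).unique h4, zero_add]

theorem Gser_good (hN : Odd N) [NeZero (3 * N ^ 2)] (H : HeckeFacts N T D Tn Sd) {l₀ : ℕ}
    (h8 : l₀ % 8 = 5) (h1 : l₀ ≡ 1 [MOD N]) {a k : ℕ} (ha : a < 2)
    (l : Kk (parI N T D a k) (Sd k l₀ - 1)) {d : ℕ} (hd : d.Coprime (2 * N)) :
    Good (eF (3 * N ^ 2))
      (PowerSeries.expand (3 * N ^ 2) (NeZero.ne _) (Gser Tn Sd l.1 d)) := by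
  classical
  obtain ⟨j, t, hc⟩ := exists_ctx (3 * N ^ 2) (odd_level hN) (dvd_mul_right _ _)
  obtain ⟨L, hL, hL0, hl⟩ := exists_lift hN H hc l
  have hl₀ := l0_coprime h8 h1
  have hM : 3 * N ^ 2 ≠ 0 := NeZero.ne _
  have hY : ∀ e : ℕ, ∃ Y : OO⟦X⟧, PowerSeries.map (algebraMap OO KK) Y =
      PowerSeries.map j (∑ i, ser Tn Sd (L i) (d * l₀ ^ e)) ∧
      PowerSeries.map red Y = Gser Tn Sd l.1 d := by
    intro e
    have : ∀ n, ∃ y : OO, algebraMap OO KK y = j (coeff n (∑ i, ser Tn Sd (L i) (d * l₀ ^ e))) ∧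
        red y = coeff n (Gser Tn Sd l.1 d) := by
      intro n
      simp only [map_sum (coeff n), ser, Gser, coeff_mk]
      split_ifs with hn
      · rw [← Kk_pow H hl₀ l hd e]
        exact (hl _).lift_OO j
      · exact ⟨0, by simp, by simp⟩
    choose y h1 h2 using this
    exact ⟨PowerSeries.mk y, by ext n; rw [coeff_map, coeff_map, coeff_mk, h1],
      by ext n; rw [coeff_map, coeff_mk, h2]⟩
  choose Y hY1 hY2 using hY
  have hser : ∀ (e : ℕ) (i : Fin k), ser Tn Sd (L i) (d * l₀ ^ e) =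
      PowerSeries.C (((l₀ : ℚ) ^ e) ^ (i : ℕ)) * ser Tn Sd (L i) d := by
    intro e i
    ext n
    rw [coeff_C_mul, ser, ser, coeff_mk, coeff_mk]
    split_ifs with hn
    · have hDN : d ≡ d * l₀ ^ e [MOD N] := by
        have := (Nat.ModEq.refl d).mul (h1.pow e)
        rw [one_pow, mul_one] at this
        exact this.symm
      have h3 := (hL i).hom _ _ hd (Nat.Coprime.mul_left hd (hl₀.pow_left e)) hDN (Tn k n)
      have hd0 : (d : ℚ) ≠ 0 := by
        have : Odd d := Nat.coprime_two_right.1 (Nat.Coprime.coprime_mul_right_right hd)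
        exact_mod_cast this.pos.ne'
      refine mul_left_cancel₀ (pow_ne_zero (i : ℕ) hd0) ?_
      rw [h3]; push_cast; ring
    · rw [mul_zero]
  let A' := PowerSeries.map (algebraMap OO KK) (1 + 2 * t)
  let y : Fin k → KK⟦X⟧ := fun i => PowerSeries.map j
    (PowerSeries.expand (3 * N ^ 2) hM (ser Tn Sd (L i) d)) * A' ^ ((a + 1) % 2) *
      lev KK (3 * N ^ 2) epsInv ^ (((i : ℕ) + 2) / 2)
  have hy0 : ∀ i : Fin k, (i : ℕ) % 2 ≠ a → y i = 0 := fun i hi => by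
    simp only [y, hL0 i hi, ser_zero, map_zero, zero_mul]
  have hy : ∀ i, y i ∈ goodAlg (eKK (3 * N ^ 2)) := by
    intro i
    by_cases hi : (i : ℕ) % 2 = a
    · have := (hL i).good d hd
      rwa [show ((i : ℕ) + 1) % 2 = (a + 1) % 2 by omega] at this
    · rw [hy0 i hi]; exact (goodAlg _).zero_mem
  let G : ℕ → OO⟦X⟧ := fun e => (l₀ : OO⟦X⟧) ^ (e * (2 - a)) * (1 + 2 * t) ^ ((a + 1) % 2) *
    PowerSeries.expand (3 * N ^ 2) hM (Y e)
  have hred : ∀ e, PowerSeries.map red (G e) =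
      PowerSeries.expand (3 * N ^ 2) hM (Gser Tn Sd l.1 d) := by
    intro e
    have h2 : (l₀ : FF⟦X⟧) = 1 := by
      have : (l₀ : FF⟦X⟧) = PowerSeries.C (algebraMap (ZMod 2) FF (l₀ : ZMod 2)) := by simp
      rw [this, (ZMod.natCast_eq_one_iff_odd).2 (Nat.odd_iff.2 (by omega)), map_one, map_one]
    simp only [G]
    rw [map_mul, map_mul, map_pow, map_pow, red_one_add, map_natCast, h2, one_pow, one_pow, one_mul,
      one_mul, map_expand, hY2]
  rw [← hred 0]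
  refine katz (3 * N ^ 2) (odd_level hN) (k + 2)
    (fun m => ∑ i ∈ Finset.univ.filter (fun i : Fin k => ((i : ℕ) + 2) / 2 = m), y i)
    (fun m => (goodAlg _).sum_mem fun i _ => hy i) ((l₀ : ℤ) ^ 2) ?_ G (fun e => ?_)
    fun e => by rw [hred, hred]
  · obtain ⟨q, hq⟩ : ∃ q : ℤ, (l₀ : ℤ) = 8 * q + 5 := ⟨l₀ / 8, by omega⟩
    have : (l₀ : ℤ) ^ 2 = 9 + 16 * (4 * q ^ 2 + 5 * q + 1) := by rw [hq]; ring
    rw [this, Int.add_mul_emod_self_left]; rfl
  · have e1 : ∑ m ∈ Finset.range (k + 2), (((l₀ : ℤ) ^ 2 : ℤ) : KK⟦X⟧) ^ (e * m) *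
        (∑ i ∈ Finset.univ.filter (fun i : Fin k => ((i : ℕ) + 2) / 2 = m), y i) *
          lev KK (3 * N ^ 2) eps ^ m = ∑ i : Fin k, (((l₀ : ℤ) ^ 2 : ℤ) : KK⟦X⟧) ^
            (e * (((i : ℕ) + 2) / 2)) * y i * lev KK (3 * N ^ 2) eps ^ (((i : ℕ) + 2) / 2) := by
      rw [← Finset.sum_fiberwise_of_maps_to (s := Finset.univ) (t := Finset.range (k + 2))
        (g := fun i : Fin k => ((i : ℕ) + 2) / 2) (fun i _ => Finset.mem_range.2 (by omega))]
      refine Finset.sum_congr rfl fun m _ => ?_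
      rw [Finset.mul_sum, Finset.sum_mul]
      refine Finset.sum_congr rfl fun i hi => ?_
      rw [(Finset.mem_filter.1 hi).2]
    rw [e1]
    simp only [G]
    rw [map_mul, map_mul, map_pow, map_pow, map_natCast, map_expand, hY1, map_sum, map_sum,
      Finset.mul_sum]
    refine Finset.sum_congr rfl fun i _ => ?_
    by_cases hi : (i : ℕ) % 2 = a
    · have he := lev_eps_mul_inv (R := KK) (h := 3 * N ^ 2)
      have hm : 2 * (e * (((i : ℕ) + 2) / 2)) = e * (2 - a) + e * i := by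
        rw [← mul_add, mul_left_comm]; congr 1; omega
      simp only [y]
      rw [hser, map_mul, map_mul, map_C, expand_C, ← map_expand]
      simp only [map_pow, map_natCast]
      push_cast
      rw [← pow_mul, ← pow_mul, hm, pow_add]
      calc _ = (l₀ : KK⟦X⟧) ^ (e * (2 - a)) * (l₀ : KK⟦X⟧) ^ (e * i) * (PowerSeries.map j
          (PowerSeries.expand (3 * N ^ 2) hM (ser Tn Sd (L i) d)) * A' ^ ((a + 1) % 2)) *
          (lev KK (3 * N ^ 2) eps * lev KK (3 * N ^ 2) epsInv) ^ (((i : ℕ) + 2) / 2) := by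
            rw [he]; ring
        _ = _ := by ring
    · rw [hy0 i hi, hL0 i hi, ser_zero, map_zero, map_zero]; ring

end Crest.Agent.R007
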