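import Crest.Agent.R007.H
import Crest.Agent.R007.Q
import Crest.Agent.R007.Geo
import Crest.Agent.R007.C

/-! # Row 7: assembly. -/

set_option autoImplicit false

noncomputable section
namespace Crest.Agent.R007

open PowerSeries
open Crest.NumberTheoryR.HeckeTwoAdic

variable {N : ℕ} {T D : ℕ → (i : ℕ) → (MF N i →ₗ[ℂ] MF N i)} {Tn Sd : (k : ℕ) → ℕ → stage N T D k}

theorem asm_Sd_res (H : HeckeFacts N T D Tn Sd) (k d : ℕ) (hd : d.Coprime (2 * N)) :
    restrictStageInt N T D k (Sd (k + 1) d) = Sd k d := by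
  apply Subtype.ext
  change forgetTop N k (Sd (k + 1) d : EndProd N (k + 1)) = _
  rw [H.Sd_eq _ _ hd, H.Sd_eq _ _ hd]
  rfl

theorem asm_surj (k : ℕ) : Function.Surjective (restrictStageInt N T D k) := by
  rintro ⟨t, ht⟩
  have : stage N T D k ≤ (stage N T D (k + 1)).map (forgetTop N k) := by
    rw [stage, Subring.closure_le]
    rintro a ⟨l, hl, hlN, ha⟩
    rcases ha with rfl | rfl
    · exact ⟨fun i : Fin (k + 1) => T l ((i : ℕ) + 1),
        Subring.subset_closure ⟨l, hl, hlN, Or.inl rfl⟩, rfl⟩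
    · exact ⟨fun i : Fin (k + 1) => ((l : ℂ) ^ (i : ℕ)) • D l ((i : ℕ) + 1),
        Subring.subset_closure ⟨l, hl, hlN, Or.inr rfl⟩, rfl⟩
  obtain ⟨s, hs, hst⟩ := this ht
  exact ⟨⟨s, hs⟩, Subtype.ext hst⟩

theorem asm_tf (a k : ℕ) (m : ℤ) (x : stage N T D k) (hm : m ≠ 0) (hx : m • x ∈ parI N T D a k) :
    x ∈ parI N T D a k := by
  intro i hi
  have h := hx i hi
  have h2 : ((m • x : stage N T D k) : EndProd N k) i = (m : ℂ) • ((x : EndProd N k) i) := by
    rw [Int.cast_smul_eq_zsmul]; rfl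
  rw [h2] at h
  exact (smul_eq_zero.mp h).resolve_left (Int.cast_ne_zero.mpr hm)

theorem asm_inf (k : ℕ) (x : stage N T D k) (h0 : x ∈ parI N T D 0 k) (h1 : x ∈ parI N T D 1 k) :
    x = 0 := by
  apply Subtype.ext
  funext i
  rcases Nat.mod_two_eq_zero_or_one (i : ℕ) with h | h
  · exact h0 i h
  · exact h1 i h

theorem asm_Gser_add {k : ℕ} (l l' : stage N T D k →+ ZMod 2) (d : ℕ) :
    Gser Tn Sd (l + l') d = Gser Tn Sd l d + Gser Tn Sd l' d := by
  ext n
  simp only [Gser, coeff_mk, map_add, AddMonoidHom.add_apply]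
  split_ifs <;> simp

theorem asm_Gser_zero {k : ℕ} (d : ℕ) : Gser Tn Sd (0 : stage N T D k →+ ZMod 2) d = 0 := by
  ext n
  simp [Gser]

/-- the series attached to a functional, as a good series -/
def asmG (hN : Odd N) [NeZero (3 * N ^ 2)] (H : HeckeFacts N T D Tn Sd) {l₀ : ℕ}
    (h8 : l₀ % 8 = 5) (h1 : l₀ ≡ 1 [MOD N]) {a : ℕ} (ha : a < 2) (k : ℕ) {d : ℕ}
    (hd : d.Coprime (2 * N)) : Kk (parI N T D a k) (Sd k l₀ - 1) →+ goodAlg (eF (3 * N ^ 2)) where
  toFun l := ⟨PowerSeries.expand (3 * N ^ 2) (NeZero.ne _) (Gser Tn Sd l.1 d),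
    Gser_good hN H h8 h1 ha l hd⟩
  map_zero' := Subtype.ext (by
    change PowerSeries.expand _ _ (Gser Tn Sd 0 d) = 0
    rw [asm_Gser_zero, map_zero])
  map_add' l l' := Subtype.ext (by
    change PowerSeries.expand _ _ (Gser Tn Sd (l.1 + l'.1) d) =
      PowerSeries.expand _ _ (Gser Tn Sd l.1 d) + PowerSeries.expand _ _ (Gser Tn Sd l'.1 d)
    rw [asm_Gser_add, map_add])

theorem asm_cop_mod {d : ℕ} (hd : d.Coprime (2 * N)) : (d % (4 * N)).Coprime (2 * N) := by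
  have h : d % (4 * N) % (2 * N) = d % (2 * N) :=
    Nat.mod_mod_of_dvd d ⟨2, by ring⟩
  unfold Nat.Coprime at hd ⊢
  rw [Nat.gcd_comm, Nat.gcd_rec, h, ← Nat.gcd_rec, Nat.gcd_comm]
  exact hd

theorem asm_Gser_congr (hN : Odd N) (H : HeckeFacts N T D Tn Sd) {l₀ : ℕ} (h8 : l₀ % 8 = 5)
    (h1 : l₀ ≡ 1 [MOD N]) {a k : ℕ} (l : Kk (parI N T D a k) (Sd k l₀ - 1)) {d : ℕ}
    (hd : d.Coprime (2 * N)) : Gser Tn Sd l.1 (d % (4 * N)) = Gser Tn Sd l.1 d := by
  ext n
  simp only [Gser, coeff_mk]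
  rw [Kk_congr hN H h8 h1 l hd (Nat.mod_modEq d (4 * N)).symm]

theorem asm_Gser_S (H : HeckeFacts N T D Tn Sd) {k : ℕ} (l l' : stage N T D k →+ ZMod 2) {d p : ℕ}
    (hd : d.Coprime (2 * N)) (hp : p.Coprime (2 * N)) (h : ∀ x, l' x = l (Sd k p * x)) :
    Gser Tn Sd l' d = Gser Tn Sd l (p * d) := by
  ext n
  simp only [Gser, coeff_mk]
  rw [h, H.Sd_mul k p d hp hd, mul_assoc]

theorem asm_Gser_T (H : HeckeFacts N T D Tn Sd) {k : ℕ} (l l' : stage N T D k →+ ZMod 2) {d p : ℕ}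
    (hd : d.Coprime (2 * N)) (hp : p.Prime) (hpN : ¬ p ∣ 2 * N) (h : ∀ x, l' x = l (Tn k p * x)) :
    Gser Tn Sd l' d = Uop p (Gser Tn Sd l d) + Vop p (Gser Tn Sd l (p * d)) := by
  have hpc : p.Coprime (2 * N) := (Nat.Prime.coprime_iff_not_dvd hp).mpr hpN
  ext n
  simp only [Gser, Uop, Vop, coeff_mk, map_add]
  by_cases hn : n.Coprime (2 * N)
  · have hnp : (n * p).Coprime (2 * N) := Nat.Coprime.mul_left hn hpc
    rw [if_pos hn, if_pos hnp, h]
    have e : Tn k p * (Sd k d * Tn k n) = Sd k d * (Tn k n * Tn k p) := by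
      rw [H.comm k (Tn k p), mul_assoc]
    rw [e, H.Tn_mul k n p hn hp hpN, mul_add, map_add, map_add]
    congr 1
    by_cases hpn : p ∣ n
    · have hq : (n / p).Coprime (2 * N) := Nat.Coprime.coprime_dvd_left (Nat.div_dvd_of_dvd hpn) hn
      rw [if_pos hpn, if_pos hpn, if_pos hq, H.Sd_mul k p d hpc hd, ← mul_assoc,
        H.comm k (Sd k d) (Sd k p)]
    · rw [if_neg hpn, if_neg hpn, mul_zero, map_zero, map_zero]
  · have hnp : ¬ (n * p).Coprime (2 * N) := fun h' => hn (Nat.Coprime.coprime_mul_right h')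
    rw [if_neg hn, if_neg hnp, zero_add]
    by_cases hpn : p ∣ n
    · have hq : ¬ (n / p).Coprime (2 * N) := fun h' => hn (by
        rw [← Nat.div_mul_cancel hpn]; exact Nat.Coprime.mul_left h' hpc)
      rw [if_pos hpn, if_neg hq]
    · rw [if_neg hpn]

/-- closure of the Hecke relation under ring operations -/
theorem asm_closure {A : Type} [Ring A] (hc : ∀ a b : A, a * b = b * a) (I : Ideal A) (w : A)
    {G : Type} [Group G] {W : Type} [AddCommGroup W] [DistribMulAction G W]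
    (two : ∀ w : W, w + w = 0) {ι : Type} (ev : ι → (Kk I w →+ W)) :
    ∃ S : Subring A, ∀ t, t ∈ S ↔ ∀ i, ∃ L : List (G × ι), ∀ l l' : Kk I w,
      (∀ x, l'.1 x = l.1 (t * x)) → ev i l' = (L.map fun p => p.1 • ev p.2 l).sum := by
  have act : ∀ (t : A) (l : Kk I w), ∃ l' : Kk I w, ∀ x, l'.1 x = l.1 (t * x) := by
    intro t l
    refine ⟨⟨l.1.comp (AddMonoidHom.mulLeft t), fun x hx => l.2.1 _ (I.mul_mem_left t hx),
      fun x => ?_⟩, fun x => rfl⟩
    change l.1 (t * (w * x)) = 0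
    rw [← mul_assoc, hc t w, mul_assoc]
    exact l.2.2 _
  have hneg : ∀ x : W, -x = x := fun x => neg_eq_of_add_eq_zero_left (two x)
  refine ⟨{ carrier := {t | ∀ i, ∃ L : List (G × ι), ∀ l l' : Kk I w,
              (∀ x, l'.1 x = l.1 (t * x)) → ev i l' = (L.map fun p => p.1 • ev p.2 l).sum}
            mul_mem' := ?_, one_mem' := ?_, add_mem' := ?_, zero_mem' := ?_, neg_mem' := ?_ },
    fun t => Iff.rfl⟩
  · intro s t hs ht i
    obtain ⟨L, hL⟩ := ht i
    choose L' hL' using hs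
    refine ⟨L.flatMap fun p => (L' p.2).map fun q => (p.1 * q.1, q.2), fun l l' h => ?_⟩
    obtain ⟨l₁, h₁⟩ := act s l
    rw [hL l₁ l' (fun x => by rw [h, h₁, mul_assoc])]
    clear hL
    induction L with
    | nil => simp
    | cons p L ih =>
      rw [List.map_cons, List.sum_cons, List.flatMap_cons, List.map_append, List.sum_append, ih,
        hL' p.2 l l₁ h₁, List.smul_sum, List.map_map, List.map_map]
      congr 2
      refine List.map_congr_left fun q _ => ?_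
      simp [mul_smul]
  · intro i
    refine ⟨[(1, i)], fun l l' h => ?_⟩
    have : l' = l := Subtype.ext (AddMonoidHom.ext fun x => by rw [h, one_mul])
    simp [this]
  · intro s t hs ht i
    obtain ⟨L, hL⟩ := hs i
    obtain ⟨L', hL'⟩ := ht i
    refine ⟨L ++ L', fun l l' h => ?_⟩
    obtain ⟨l₁, h₁⟩ := act s l
    obtain ⟨l₂, h₂⟩ := act t l
    have : l' = l₁ + l₂ := Subtype.ext (AddMonoidHom.ext fun x => by
      change l'.1 x = l₁.1 x + l₂.1 x
      rw [h, h₁, h₂, add_mul, map_add])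
    rw [this, map_add, hL l l₁ h₁, hL' l l₂ h₂, List.map_append, List.sum_append]
  · intro i
    refine ⟨[], fun l l' h => ?_⟩
    have : l' = 0 := Subtype.ext (AddMonoidHom.ext fun x => by rw [h, zero_mul, map_zero]; rfl)
    simp [this]
  · intro t ht i
    obtain ⟨L, hL⟩ := ht i
    refine ⟨L, fun l l' h => ?_⟩
    obtain ⟨l₁, h₁⟩ := act t l
    have : l' = -l₁ := Subtype.ext (AddMonoidHom.ext fun x => by
      change l'.1 x = -l₁.1 x
      rw [h, h₁, neg_mul, map_neg])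
    rw [this, map_neg, hneg, hL l l₁ h₁]

end Crest.Agent.R007
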