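import Crest.Agent.R007.Defs

/-! # Row 7: bridge between `HeckeTwo` and the abstract limit `LimT` (helper61). -/

set_option autoImplicit false

noncomputable section
namespace Crest.Agent.R007

open scoped TensorProduct
open Crest.NumberTheoryR.HeckeTwoAdic

theorem br_comm {R S : Type} [CommRing R] [CommRing S] (e : R ≃+* S)
    (h : ∀ P : Ideal S, P ∈ minimalPrimes S → ringKrullDim (S ⧸ P) ≤ 4) (P : Ideal R)
    (hP : P ∈ minimalPrimes R) : ringKrullDim (R ⧸ P) ≤ 4 := by
  have hQ : P.map (e : R →+* S) ∈ minimalPrimes S := by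
    obtain ⟨⟨hp, -⟩, hmin⟩ := hP
    refine ⟨⟨Ideal.map_isPrime_of_equiv e, bot_le⟩, ?_⟩
    rintro Q ⟨hQ, -⟩ hQP
    have h1 : Q.comap (e : R →+* S) ≤ P := by
      intro x hx
      have h2 := hQP (Ideal.mem_comap.1 hx)
      obtain ⟨y, hy, hyx⟩ := (Ideal.mem_map_iff_of_surjective (e : R →+* S) e.surjective).1 h2
      rwa [← e.injective hyx]
    have h2 : P ≤ Q.comap (e : R →+* S) := hmin ⟨Ideal.comap_isPrime _ Q, bot_le⟩ h1
    exact Ideal.map_le_iff_le_comap.2 h2
  rw [ringKrullDim_eq_of_ringEquiv (Ideal.quotientEquiv P (P.map (e : R →+* S)) e rfl)]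
  exact h _ hQ

theorem br_transfer {R S : Type} [Ring R] [Ring S] (e : R ≃+* S) (hS : ∀ a b : S, a * b = b * a)
    (hn : Nontrivial S)
    (h : ∀ P : Ideal S, P ∈ @minimalPrimes S (commRingOfComm S hS).toCommSemiring →
      @ringKrullDim (S ⧸ P)
        (@Ideal.Quotient.commRing S (commRingOfComm S hS) P).toCommSemiring ≤ 4) :
    ∃ hR : ∀ a b : R, a * b = b * a, Nontrivial R ∧ ∀ P : Ideal R,
      P ∈ @minimalPrimes R (commRingOfComm R hR).toCommSemiring →
      @ringKrullDim (R ⧸ P)
        (@Ideal.Quotient.commRing R (commRingOfComm R hR) P).toCommSemiring ≤ 4 := by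
  have hR : ∀ a b : R, a * b = b * a := fun a b => e.injective (by rw [map_mul, map_mul, hS])
  exact ⟨hR, e.toEquiv.nontrivial, fun P hP =>
    @br_comm R S (commRingOfComm R hR) (commRingOfComm S hS) e h P hP⟩

theorem br_equiv_abs (A : ℕ → Type) [∀ k, Ring (A k)] (r : ∀ k, A (k + 1) →+* A k)
    (B : ℕ → Type) [∀ k, Ring (B k)] (ρ : ∀ k, B (k + 1) →+* B k) (S : Subring (∀ k, B k))
    (hS : ∀ a, a ∈ S ↔ ∀ k, ρ k (a (k + 1)) = a k) (e : ∀ k, B k ≃+* ℤ_[2] ⊗[ℤ] A k)
    (he : ∀ k x, e k (ρ k x) = limMap A r k (e (k + 1) x)) : Nonempty (S ≃+* LimT A r) :=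
  ⟨{ toFun := fun a => ⟨fun k => e k (a.1 k), fun k => by rw [← he, (hS a.1).1 a.2 k]⟩
     invFun := fun b => ⟨fun k => (e k).symm (b.1 k), (hS _).2 fun k => (e k).injective (by
       rw [he, RingEquiv.apply_symm_apply, RingEquiv.apply_symm_apply]; exact b.2 k)⟩
     left_inv := fun a => Subtype.ext (funext fun k => (e k).symm_apply_apply _)
     right_inv := fun b => Subtype.ext (funext fun k => (e k).apply_symm_apply _)
     map_mul' := fun a b => Subtype.ext (funext fun k => map_mul (e k) _ _)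
     map_add' := fun a b => Subtype.ext (funext fun k => map_add (e k) _ _) }⟩

/-- a ring structure on the same type with the same addition and multiplication -/
def brEq {X : Type} (i j : Ring X) (ha : ∀ x y, i.add x y = j.add x y)
    (hm : ∀ x y, i.mul x y = j.mul x y) : @RingEquiv X X i.toMul j.toMul i.toAdd j.toAdd :=
  @RingEquiv.mk X X i.toMul j.toMul i.toAdd j.toAdd (Equiv.refl X) hm ha

/-- the ring structure used in `LimT` -/
@[reducible] def brRing (A : ℕ → Type) [∀ k, Ring (A k)] (k : ℕ) : Ring (ℤ_[2] ⊗[ℤ] A k) :=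
  inferInstance

variable (N : ℕ) (T D : ℕ → (i : ℕ) → (MF N i →ₗ[ℂ] MF N i))

theorem br_add (k : ℕ) (x y : stageTwo N T D k) :
    (stageTwo.instRing N T D k).add x y = (brRing (fun k => stage N T D k) k).add x y := rfl

theorem br_mul (k : ℕ) (x y : stageTwo N T D k) :
    (stageTwo.instRing N T D k).mul x y = (brRing (fun k => stage N T D k) k).mul x y := rfl

theorem br_res (k : ℕ) (x : stageTwo N T D (k + 1)) :
    restrictStage N T D k x = limMap (fun k => stage N T D k) (restrictStageInt N T D) k x := rfl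

theorem br_equiv :
    Nonempty (HeckeTwo N T D ≃+* LimT (fun k => stage N T D k) (restrictStageInt N T D)) :=
  br_equiv_abs (fun k => stage N T D k) (restrictStageInt N T D) (stageTwo N T D)
    (restrictStage N T D) (HeckeTwo N T D) (fun _ => Iff.rfl)
    (fun k => brEq (stageTwo.instRing N T D k) (brRing (fun k => stage N T D k) k)
      (br_add N T D k) (br_mul N T D k))
    (fun k x => br_res N T D k x)

end Crest.Agent.R007
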