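import Crest.Agent.R007.Asm1
import Crest.Agent.R007.Br

/-! # Row 7: assembly. -/

set_option autoImplicit false

noncomputable section
namespace Crest.Agent.R007

open PowerSeries
open scoped TensorProduct
open Crest.NumberTheoryR.HeckeTwoAdic

variable {N : ℕ} {T D : ℕ → (i : ℕ) → (MF N i →ₗ[ℂ] MF N i)} {Tn Sd : (k : ℕ) → ℕ → stage N T D k}

/-- the final statement for any ring isomorphic to the limit -/
def LimGood (A : ℕ → Type) [∀ k, Ring (A k)] (r : ∀ k, A (k + 1) →+* A k) : Prop :=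
  ∀ (R : Type) [Ring R], Nonempty (R ≃+* LimT A r) →
    ∃ hR : ∀ a b : R, a * b = b * a, Nontrivial R ∧ ∀ P : Ideal R,
      P ∈ @minimalPrimes R (commRingOfComm R hR).toCommSemiring →
      @ringKrullDim (R ⧸ P)
        (@Ideal.Quotient.commRing R (commRingOfComm R hR) P).toCommSemiring ≤ 4

theorem limGood_of (A : ℕ → Type) [∀ k, Ring (A k)] (r : ∀ k, A (k + 1) →+* A k)
    (hcomm : ∀ k, ∀ a b : A k, a * b = b * a) (hsurj : ∀ k, Function.Surjective (r k))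
    (hfg : ∀ k, FG2 (A k)) (I : Fin 2 → ∀ k, Ideal (A k))
    (hI : ∀ a k, ∀ x ∈ I a (k + 1), r k x ∈ I a k)
    (hI0 : ∀ k, ∀ x ∈ I 0 k, x ∈ I 1 k → x = 0)
    (htf : ∀ a k (m : ℤ) (x : A k), m ≠ 0 → m • x ∈ I a k → x ∈ I a k)
    (w : ∀ k, A k) (hw : ∀ k, r k (w (k + 1)) = w k)
    (hnil : ∀ k, ∃ (n : ℕ) (m : ℤ) (y : A k), Odd m ∧ m • w k ^ n = 2 * y)
    {E : Type} [Ring E] {G : Type} [Group G] {φ : G →* Eˣ} {W : Type} [AddCommGroup W]
    [DistribMulAction G W] (hG : GData E G φ W) {ι : Type} [Finite ι] (ev : ∀ a, ι → ∀ k, (Kk (I a k) (w k) →+ W))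
    (hcompat : ∀ a i k (l : Kk (I a k) (w k)) (l' : Kk (I a (k + 1)) (w (k + 1))),
      (∀ x, l'.1 x = l.1 (r k x)) → ev a i (k + 1) l' = ev a i k l)
    (hinj : ∀ a k (l : Kk (I a k) (w k)), (∀ i, ev a i k l = 0) → l = 0)
    (hhecke : ∀ a k (t : A k) (i : ι), ∃ L : List (G × ι), ∀ l l' : Kk (I a k) (w k),
      (∀ x, l'.1 x = l.1 (t * x)) → ev a i k l' = (L.map fun p => p.1 • ev a p.2 k l).sum)
    (hnt : Nontrivial (A 4)) : LimGood A r := by
  rintro R _ ⟨e⟩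
  refine br_transfer e (lim_comm A r hcomm) (lim_nontrivial A r 4 ?_)
    (lim_dim_le_four A r hcomm hsurj hfg I hI hI0 htf w hw hnil hG ev hcompat hinj hhecke _)
  intro m x hm hx
  exact hI0 4 x (htf 0 4 m x hm (by rw [hx]; exact Ideal.zero_mem _))
    (htf 1 4 m x hm (by rw [hx]; exact Ideal.zero_mem _))

end Crest.Agent.R007
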