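import Crest.Agent.R007.Defs
import Crest.Agent.R227.Frob

/-! # Row 7, GEO team B: shared definitions (owner helper41). -/

set_option autoImplicit false

noncomputable section
namespace Crest.Agent.R007

open PowerSeries Crest.LubinTate Crest.Agent.R227

/-! ### rings in which the odd integers are invertible -/

def oddS : Submonoid ℤ where
  carrier := {m | Odd m}
  mul_mem' := fun ha hb => Odd.mul ha hb
  one_mem' := odd_one

/-- `ℤ_(2)` -/
abbrev Z2 : Type := Localization oddS

class OddU (R : Type) [CommRing R] : Prop where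
  out : ∀ m : ℤ, Odd m → IsUnit (m : R)

theorem OddU.of_hom {R S : Type} [CommRing R] [CommRing S] (f : R →+* S) [OddU R] : OddU S :=
  ⟨fun m hm => by simpa using (OddU.out (R := R) m hm).map f⟩

theorem OddU.of_two {R : Type} [CommRing R] (h : (2 : R) = 0) : OddU R :=
  ⟨fun m ⟨k, hk⟩ => by rw [hk]; push_cast; rw [h, zero_mul, zero_add]; exact isUnit_one⟩

theorem two_FF : (2 : FF) = 0 := CharTwo.two_eq_zero

theorem two_of_alg (R : Type) [CommRing R] [Algebra FF R] : (2 : R) = 0 := by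
  have := congrArg (algebraMap FF R) two_FF
  rwa [map_ofNat, map_zero] at this

instance oddU_Z2 : OddU Z2 :=
  ⟨fun m hm => by simpa using IsLocalization.map_units (M := oddS) Z2 ⟨m, hm⟩⟩
instance oddU_rat : OddU ℚ :=
  ⟨fun m hm => IsUnit.mk0 _ (by rintro h; rw [Int.cast_eq_zero] at h; subst h; simp at hm)⟩
instance (priority := 90) oddU_ratAlg (R : Type) [CommRing R] [Algebra ℚ R] : OddU R :=
  OddU.of_hom (algebraMap ℚ R)
instance (priority := 90) oddU_FFAlg (R : Type) [CommRing R] [Algebra FF R] : OddU R :=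
  OddU.of_two (two_of_alg R)
instance oddU_OO : OddU OO :=
  ⟨fun m hm => WittVector.isUnit_of_coeff_zero_ne_zero _ (by
    have : (m : OO).coeff 0 = red (m : OO) := rfl
    rw [this, map_intCast]
    exact (OddU.out (R := FF) m hm).ne_zero)⟩
instance oddU_ps (R : Type) [CommRing R] [OddU R] : OddU R⟦X⟧ := OddU.of_hom (PowerSeries.C (R := R))
instance oddU_mv (σ R : Type) [CommRing R] [OddU R] : OddU (MvPolynomial σ R) :=
  OddU.of_hom (MvPolynomial.C (σ := σ) (R := R))

/-- the unique ring map `ℤ_(2) → R` -/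
def lift2 (R : Type) [CommRing R] [OddU R] : Z2 →+* R :=
  IsLocalization.lift (M := oddS) (g := Int.castRingHom R) fun y => OddU.out y.1 y.2

theorem Z2_ext {R : Type} [CommRing R] (f g : Z2 →+* R) : f = g :=
  IsLocalization.ringHom_ext oddS (Subsingleton.elim _ _)

/-! ### the formal group of `y² + a xy + b y = x³` in the parameter `T = -x/y` -/

/-- `W = -1/y` as a series in `T` -/
def IsW {R : Type} [CommRing R] (a b : R) (W : R⟦X⟧) : Prop :=
  constantCoeff W = 0 ∧ W = X ^ 3 + PowerSeries.C a * X * W + PowerSeries.C b * W ^ 2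

/-- the formal logarithm -/
def IsLog {R : Type} [CommRing R] (a b : R) (L : R⟦X⟧) : Prop :=
  constantCoeff L = 0 ∧ ∃ W, IsW a b W ∧
    PowerSeries.derivative R L * (1 - PowerSeries.C a * X - 2 * PowerSeries.C b * W) = 1

def ev2 {R : Type} [CommRing R] [OddU R] (a b : R) : MvPolynomial (Fin 2) Z2 →+* R :=
  MvPolynomial.eval₂Hom (lift2 R) ![a, b]

def FUSpec (F : FormalGroup (MvPolynomial (Fin 2) Z2)) : Prop :=
  F.IsComm ∧ ∀ (R : Type) [CommRing R] [Algebra ℚ R] (a b : R) (L : R⟦X⟧), IsLog a b L →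
    IsFGHom (F.map (ev2 a b)) FormalGroup.𝔾ₐ L

open Classical in
/-- the universal law (existence: `exists_FU` in `R007/BFG.lean`) -/
def FU : FormalGroup (MvPolynomial (Fin 2) Z2) :=
  if h : ∃ F, FUSpec F then h.choose else FormalGroup.𝔾ₐ

instance FU_comm : FU.IsComm := by
  unfold FU
  split_ifs with h
  · exact h.choose_spec.1
  · infer_instance

def Fab {R : Type} [CommRing R] [OddU R] (a b : R) : FormalGroup R := FU.map (ev2 a b)

theorem comp_ev2 {R S : Type} [CommRing R] [OddU R] [CommRing S] [OddU S] (f : R →+* S) (a b : R) :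
    f.comp (ev2 a b) = ev2 (f a) (f b) := by
  apply MvPolynomial.ringHom_ext'
  · exact Z2_ext _ _
  · intro i; fin_cases i <;> simp [ev2]

theorem Fab_map {R S : Type} [CommRing R] [OddU R] [CommRing S] [OddU S] (f : R →+* S) (a b : R) :
    (Fab a b).map f = Fab (f a) (f b) := by
  rw [Fab, R227.map_map, comp_ev2]; rfl

theorem isComm_map {R S : Type} [CommRing R] [CommRing S] (F : FormalGroup R) [hF : F.IsComm]
    (f : R →+* S) : (F.map f).IsComm := by
  constructor
  have h := congrArg (MvPowerSeries.map (σ := Fin 2) f) hF.comm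
  rw [fg_map2 f _ (by simp) (by simp), MvPowerSeries.map_X, MvPowerSeries.map_X] at h
  exact h

instance Fab_comm {R : Type} [CommRing R] [OddU R] (a b : R) : (Fab a b).IsComm :=
  isComm_map _ _

/-! ### the supersingular point -/

/-- `FF((a))` -/
abbrev Om : Type := FractionRing FF⟦X⟧
/-- the parameter `a` -/
def aO : Om := algebraMap FF⟦X⟧ Om X
/-- `a FF⟦a⟧` -/
def NW : AddSubgroup Om :=
  ((algebraMap FF⟦X⟧ Om).toAddMonoidHom.comp (AddMonoidHom.mulLeft (X : FF⟦X⟧))).range
theorem mem_NW {x : Om} : x ∈ NW ↔ ∃ f : FF⟦X⟧, algebraMap FF⟦X⟧ Om (X * f) = x := Iff.rfl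
/-- `FF((a)) / a FF⟦a⟧` -/
abbrev WB : Type := Om ⧸ NW

/-- expansions at the supersingular point: `c = ξ_{P₃} ↦ a⁻³` -/
def EmbB (M : ℕ) [NeZero M] : Type :=
  {η : goodAlg (eF M) →ₐ[FF] Om //
    ∀ g : goodAlg (eF M), (g : FF⟦X⟧) = Xser (eF M) (P3 M) → η g = aO⁻¹ ^ 3}

/-- the effect of `τ ↦ (Aτ + B)/D`, `A D = l`, from level `M` to level `M l` -/
def sF (M l A B : ℕ) [NeZero A] : FF⟦X⟧ →+* FF⟦X⟧ := sB (zz (M * l) ^ (A * B)) (A ^ 2)

/-- a monic equation over `FF[ρ]` with the pole order of a form of weight `k` -/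
def PoleEq {R : Type} [CommRing R] [Algebra FF R] (ρ : R) (k : ℕ) (x : R) : Prop :=
  ∃ (n : ℕ) (p : ℕ → Polynomial FF), 0 < n ∧ (∀ j, 12 * (p j).natDegree ≤ (n - j) * k) ∧
    x ^ n + ∑ j ∈ Finset.range n, Polynomial.aeval ρ (p j) * x ^ j = 0

end Crest.Agent.R007
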