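import Crest.Agent.R007.GS0

/-! Row 7, block W: the duplication formula in characteristic 2 through theta series. -/

set_option autoImplicit false

noncomputable section
namespace Crest.Agent.R007

open PowerSeries

section abstract
variable {Ω : Type} [NormedField Ω] [IsUltrametricDist Ω] [CompleteSpace Ω] [CharP Ω 2] {q : Ω}

omit [IsUltrametricDist Ω] [CompleteSpace Ω] in
theorem wd_fT_sq (v : Ω) : fT (v ^ 2) = fT v ^ 2 := by
  have : (1 + v) ^ 2 = 1 + v ^ 2 := by rw [CharTwo.add_sq, one_pow]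
  rw [fT, fT, div_pow, ← this]

omit [IsUltrametricDist Ω] [CompleteSpace Ω] in
theorem wd_sq {ι : Type} {f : ι → Ω} {a : Ω} (h : HasSum f a) :
    HasSum (fun i => f i ^ 2) (a ^ 2) :=
  h.map (frobenius Ω 2) (continuous_pow 2)

theorem wd_summ2 (hq : ‖q‖ < 1) (u : Ω) : Summable fun n : ℕ => fT (q ^ (n + 1) / u) := by
  have := summable_fT hq (q / u)
  refine this.congr fun n => ?_
  rw [pow_succ, mul_div_assoc]

theorem wd_split (hq0 : q ≠ 0) (hq : ‖q‖ < 1) {u : Ω} (hu : u ≠ 0) :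
    xiT q (u ^ 2) = xiT q u ^ 2 + xiT (q ^ 2) (q * u ^ 2) := by
  have hq2 : ‖q ^ 2‖ < 1 := by
    rw [norm_pow]; exact pow_lt_one₀ (norm_nonneg _) hq two_ne_zero
  have a1 := wd_sq (summable_fT hq u).hasSum
  have a2 := wd_sq (wd_summ2 hq u).hasSum
  have b1 := (summable_fT hq2 (q * u ^ 2)).hasSum
  have b2 := (wd_summ2 hq2 (q * u ^ 2)).hasSum
  have c1 : HasSum (fun n : ℕ => fT (q ^ n * u ^ 2)) _ :=
    HasSum.even_add_odd (f := fun n : ℕ => fT (q ^ n * u ^ 2))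
      (by convert a1 using 2 with n; rw [← wd_fT_sq]; congr 1; ring)
      (by convert b1 using 2 with n; congr 1; ring)
  have c2 : HasSum (fun n : ℕ => fT (q ^ (n + 1) / u ^ 2)) _ :=
    HasSum.even_add_odd (f := fun n : ℕ => fT (q ^ (n + 1) / u ^ 2))
      (by convert b2 using 2 with n; congr 1; field_simp; ring)
      (by convert a2 using 2 with n; rw [← wd_fT_sq]; congr 1; field_simp; ring)
  rw [xiT, c1.tsum_eq, c2.tsum_eq, xiT, xiT, CharTwo.add_sq]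
  ring

theorem wd_b0 (hq0 : q ≠ 0) (hq : ‖q‖ < 1) {u : Ω} (hu : u ≠ 0) :
    b0 (q ^ 2) (q * u ^ 2) * u ^ 2 = b1 q u ^ 2 := by
  have a := wd_sq (summable_b1C hq0 hq hu (χ := fun _ => 1) fun _ => norm_one.le).hasSum
  rw [b1, b1C, ← a.tsum_eq, b0, b0C, ← tsum_mul_right]
  refine tsum_congr fun n => ?_
  simp only [one_mul, mul_zpow, mul_pow, ← zpow_natCast, ← zpow_mul]
  rw [← mul_assoc, ← zpow_add₀ hq0, mul_assoc, ← zpow_add₀ hu]
  congr 2 <;> push_cast <;> ring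

theorem wd_b1 (hq0 : q ≠ 0) (hq : ‖q‖ < 1) {u : Ω} (hu : u ≠ 0) :
    b1 (q ^ 2) (q * u ^ 2) * (q * u ^ 2) = b0 q u ^ 2 := by
  have a := wd_sq (summable_b0C hq0 hq hu (χ := fun _ => 1) fun _ => norm_one.le).hasSum
  rw [b0, b0C, ← a.tsum_eq, b1, b1C, ← tsum_mul_right, ← (Equiv.addRight (1 : ℤ)).tsum_eq
    (fun n : ℤ => (1 * q ^ (n * n) * u ^ (2 * n)) ^ 2)]
  refine tsum_congr fun n => ?_
  rw [mul_assoc, ← zpow_add_one₀ (mul_ne_zero hq0 (pow_ne_zero 2 hu))]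
  simp only [Equiv.coe_addRight, one_mul, mul_zpow, mul_pow, ← zpow_natCast, ← zpow_mul]
  rw [← mul_assoc, ← zpow_add₀ hq0]
  congr 2 <;> push_cast <;> ring

theorem wd_kap (hq0 : q ≠ 0) (hq : ‖q‖ < 1) : HasSum (fun n : ℕ => q ^ (n * n + n)) (kap q) := by
  have a := (summable_b1C hq0 hq one_ne_zero (χ := fun n => (n : Ω))
    fun n => IsUltrametricDist.norm_intCast_le_one Ω n).hasSum.nat_add_neg_add_one
  have hk : kap q = ∑' b : ℤ, (b : Ω) * q ^ (b * b + b) * 1 ^ (2 * b + 1) := rfl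
  rw [hk]
  convert a using 2 with n
  have e : -((n : ℤ) + 1) * -((n : ℤ) + 1) + -((n : ℤ) + 1) = n * n + n := by ring
  rw [e, one_zpow, one_zpow, mul_one, mul_one, ← add_mul, ← zpow_natCast]
  push_cast
  rw [show (n : Ω) + -((n : Ω) + 1) = -1 by ring, CharTwo.neg_eq, one_mul]

theorem wd_dbl (hq0 : q ≠ 0) (hq : ‖q‖ < 1) {u : Ω} (hu : OffT q u)
    (hu' : OffT (q ^ 2) (q * u ^ 2)) :
    xiT q (u ^ 2) * xiT q u ^ 2 = xiT q u ^ 4 + q * kap q ^ 4 := by
  have hq2 : ‖q ^ 2‖ < 1 := by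
    rw [norm_pow]; exact pow_lt_one₀ (norm_nonneg _) hq two_ne_zero
  obtain ⟨h1, h2⟩ := xiT_eq hq0 hq hu
  obtain ⟨-, h3⟩ := xiT_eq (pow_ne_zero 2 hq0) hq2 hu'
  have h4 := wd_b0 hq0 hq hu.1
  have h5 := wd_b1 hq0 hq hu.1
  have h6 : kap (q ^ 2) = kap q ^ 2 := by
    refine (wd_kap (pow_ne_zero 2 hq0) hq2).unique ?_
    convert wd_sq (wd_kap hq0 hq) using 2 with n
    ring
  rw [wd_split hq0 hq hu.1, add_mul, ← pow_add, add_right_inj]
  refine mul_right_cancel₀ (pow_ne_zero 2 h1) ?_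
  rw [h6] at h3
  have h7 : xiT (q ^ 2) (q * u ^ 2) * b0 q u ^ 2 = q * kap q ^ 2 * b1 q u ^ 2 := by
    rw [← h5, ← h4, ← mul_assoc, h3]; ring
  calc xiT (q ^ 2) (q * u ^ 2) * xiT q u ^ 2 * b1 q u ^ 2
      = xiT (q ^ 2) (q * u ^ 2) * (xiT q u * b1 q u) ^ 2 := by ring
    _ = kap q ^ 2 * (xiT (q ^ 2) (q * u ^ 2) * b0 q u ^ 2) := by rw [h2]; ring
    _ = q * kap q ^ 4 * b1 q u ^ 2 := by rw [h7]; ring

theorem wd_rho (hq0 : q ≠ 0) (hq : ‖q‖ < 1) :
    HasSum (fun n : ℕ => q ^ ((2 * n + 1) ^ 2)) (q * kap q ^ 4) := by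
  have := (wd_sq (wd_sq (wd_kap hq0 hq))).mul_left q
  rw [← pow_mul] at this
  have e : (fun n : ℕ => q ^ ((2 * n + 1) ^ 2)) = fun i : ℕ => q * ((q ^ (i * i + i)) ^ 2) ^ 2 := by
    funext n
    ring
  rw [e]
  exact this

end abstract

theorem wd_cast_sq (d : ℕ) : (d : FF) ^ 3 = d := by
  rcases Nat.even_or_odd' d with ⟨k, rfl | rfl⟩
  · simp [CharTwo.two_eq_zero]
  · simp [CharTwo.two_eq_zero]

theorem wd_even {k : ℕ} (hk : k ≠ 0) :
    ∑ d ∈ (2 * k).divisors, (d : FF) = ∑ d ∈ k.divisors, (d : FF) := by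
  symm
  refine Finset.sum_subset (Nat.divisors_subset_of_dvd (by omega) (dvd_mul_left k 2)) ?_
  intro d hd hd'
  rcases Nat.even_or_odd' d with ⟨j, rfl | rfl⟩
  · simp [CharTwo.two_eq_zero]
  · exfalso
    refine hd' (Nat.mem_divisors.mpr ⟨?_, hk⟩)
    exact (Nat.Coprime.dvd_mul_left (by simp)).mp (Nat.dvd_of_mem_divisors hd)

open Classical in
theorem wd_odd {n : ℕ} (hn : Odd n) :
    ∑ d ∈ n.divisors, (d : FF) = if ∃ m, n = (2 * m + 1) ^ 2 then 1 else 0 := by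
  have h1 : ∑ d ∈ n.divisors, (d : FF) = ∑ p ∈ n.divisorsAntidiagonal, (1 : FF) := by
    rw [Nat.sum_divisorsAntidiagonal (fun _ _ => (1 : FF))]
    refine Finset.sum_congr rfl fun d hd => ?_
    obtain ⟨j, rfl⟩ := hn.of_dvd_nat (Nat.dvd_of_mem_divisors hd)
    simp [CharTwo.two_eq_zero]
  rw [h1, ← Finset.sum_filter_add_sum_filter_not _ (fun p : ℕ × ℕ => p.1 = p.2)]
  have h2 : ∑ p ∈ n.divisorsAntidiagonal with ¬ p.1 = p.2, (1 : FF) = 0 := by
    refine Finset.sum_involution (fun p _ => p.swap) (fun _ _ => CharTwo.add_self_eq_zero 1)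
      (fun p hp _ e => (Finset.mem_filter.mp hp).2 (congrArg Prod.snd e)) (fun p hp => ?_)
      (fun p _ => Prod.swap_swap p)
    rw [Finset.mem_filter] at hp ⊢
    exact ⟨Nat.swap_mem_divisorsAntidiagonal.mpr hp.1, fun e => hp.2 e.symm⟩
  rw [h2, add_zero]
  split_ifs with h
  · obtain ⟨m, rfl⟩ := h
    rw [Finset.sum_eq_single_of_mem (2 * m + 1, 2 * m + 1)]
    · simp only [Finset.mem_filter, Nat.mem_divisorsAntidiagonal, and_true]
      exact ⟨(sq _).symm, by positivity⟩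
    · rintro ⟨a, b⟩ hp hne
      simp only [Finset.mem_filter, Nat.mem_divisorsAntidiagonal] at hp
      obtain ⟨⟨e, -⟩, rfl⟩ := hp
      rw [← sq, Nat.pow_left_inj two_ne_zero] at e
      exact absurd (by rw [e]) hne
  · refine Finset.sum_eq_zero ?_
    rintro ⟨a, b⟩ hp
    simp only [Finset.mem_filter, Nat.mem_divisorsAntidiagonal] at hp
    obtain ⟨⟨e, -⟩, rfl⟩ := hp
    obtain ⟨m, rfl⟩ := hn.of_dvd_nat (Dvd.intro _ e)
    exact absurd ⟨m, by rw [← e, sq]⟩ h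

open Classical in
theorem wd_coeff (n : ℕ) : (Int.castRingHom FF) (coeff n (sig 3 - V2 (sig 3))) =
    if ∃ m, n = (2 * m + 1) ^ 2 then 1 else 0 := by
  have hs : ∀ k, (Int.castRingHom FF) (coeff k (sig 3)) = ∑ d ∈ k.divisors, (d : FF) := fun k => by
    simp [sig, ArithmeticFunction.sigma_apply, wd_cast_sq]
  rw [map_sub, map_sub, V2, coeff_expand, hs]
  rcases Nat.even_or_odd n with ⟨k, rfl⟩ | hn
  · rw [← two_mul, if_pos (dvd_mul_right 2 k), Nat.mul_div_cancel_left k two_pos, hs, if_neg]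
    · by_cases hk : k = 0
      · simp [hk]
      · rw [wd_even hk, sub_self]
    · rintro ⟨m, hm⟩
      have : (2 * m + 1) ^ 2 = 2 * (2 * m * m + 2 * m) + 1 := by ring
      omega
  · rw [if_neg hn.not_two_dvd_nat, map_zero, sub_zero, wd_odd hn]

attribute [local instance] omRank omNF omUltra

theorem wd_norm (h : ℕ) [NeZero h] : ‖cL X ^ h‖ < 1 := by
  simpa using norm_X_pow_lt (NeZero.ne h) 1

theorem wd_X_ne : cL X ≠ 0 := (map_ne_zero_iff _ cL_inj).mpr X_ne_zero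

theorem wd_lev_rho (h : ℕ) [NeZero h] :
    cL (lev FF h rho) = cL X ^ h * kap (cL X ^ h) ^ 4 := by
  have hh := Nat.pos_of_ne_zero (NeZero.ne h)
  refine HasSum.unique ?_ (wd_rho (pow_ne_zero h wd_X_ne) (wd_norm h))
  have := hasSum_cL (fun n => X ^ (h * (2 * n + 1) ^ 2)) (lev FF h rho) ?_ ?_
  · simpa only [map_pow, pow_mul] using this
  · intro m N hN
    rw [coeff_X_pow, if_neg]
    have : m ≤ h * (2 * m + 1) ^ 2 := by nlinarith
    omega
  · intro N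
    rw [rho, map_mul, map_pow, lev_FF_epsInv, one_pow, mul_one]
    simp only [lev, RingHom.coe_comp, Function.comp_apply, AlgHom.toRingHom_eq_coe, RingHom.coe_coe,
      coeff_expand, coeff_map, wd_coeff, coeff_X_pow]
    by_cases e : ∃ m, N = h * (2 * m + 1) ^ 2
    · obtain ⟨m, rfl⟩ := e
      rw [if_pos (dvd_mul_right _ _), Nat.mul_div_cancel_left _ hh, if_pos ⟨m, rfl⟩,
        Finset.sum_eq_single_of_mem m, if_pos rfl]
      · rw [Finset.mem_range]; nlinarith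
      · intro b _ hb
        rw [if_neg]
        intro e
        rw [Nat.mul_right_inj hh.ne', Nat.pow_left_inj two_ne_zero] at e
        omega
    · rw [Finset.sum_eq_zero fun m _ => if_neg fun e' => e ⟨m, e'⟩]
      split_ifs with h1 h2
      · obtain ⟨k, rfl⟩ := h1
        rw [Nat.mul_div_cancel_left _ hh] at h2
        obtain ⟨m, rfl⟩ := h2
        exact absurd ⟨m, rfl⟩ e
      · rfl
      · rfl

theorem wd_ptT (h : ℕ) [NeZero h] (b : ZMod h) (z : ℤ) :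
    ptT h b z = HahnSeries.single z (eF h b) := by
  rw [ptT, HahnSeries.ofPowerSeries_C, HahnSeries.ofPowerSeries_X, ← RatFunc.single_zpow,
    HahnSeries.C_apply, HahnSeries.single_mul_single, zero_add, mul_one]

theorem dup_FF' (h : ℕ) [NeZero h] (ho : Odd h) {P : ZMod h × ZMod h} (hP : P ≠ 0) :
    Xser (eF h) (2 • P) * Xser (eF h) P ^ 2 = Xser (eF h) P ^ 4 + lev FF h rho := by
  apply cL_inj
  have hz : (((P.1.val : ℕ) : ℤ) : ZMod h) = P.1 := by simp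
  have hz2 : ((2 * ((P.1.val : ℕ) : ℤ) : ℤ) : ZMod h) = (2 • P).1 := by
    simp [two_mul]
  have hsq : ptT h P.2 (P.1.val : ℕ) ^ 2 = ptT h (2 • P).2 (2 * ((P.1.val : ℕ) : ℤ)) := by
    rw [ptT, ptT, Prod.smul_snd, AddChar.map_nsmul_eq_pow, map_pow, map_pow, mul_pow,
      ← zpow_natCast (cL X ^ ((P.1.val : ℕ) : ℤ)), ← zpow_mul, mul_comm (2 : ℤ)]
    rfl
  have hu := offT_ptT h ho hP hz
  have hu' : OffT ((cL X ^ h) ^ 2) (cL X ^ h * ptT h P.2 (P.1.val : ℕ) ^ 2) := by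
    refine ⟨mul_ne_zero (pow_ne_zero _ wd_X_ne) (pow_ne_zero _ hu.1), fun n e => ?_⟩
    rw [hsq, wd_ptT, ← pow_mul, ← zpow_natCast, ← zpow_natCast, ← zpow_mul,
      HahnSeries.ofPowerSeries_X, ← RatFunc.single_zpow, ← RatFunc.single_zpow,
      HahnSeries.single_mul_single] at e
    have e2 := congrArg (fun x : LaurentSeries FF => x.coeff (((h * 2 : ℕ) : ℤ) * n)) e
    simp only [HahnSeries.coeff_single_same] at e2
    rw [HahnSeries.coeff_single_of_ne] at e2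
    · exact zero_ne_one e2
    · obtain ⟨k, rfl⟩ := ho
      intro e3
      push_cast at e3
      have : ((2 * k + 1 : ℤ) * 2) * n = 2 * ((2 * k + 1) * n) := by ring
      omega
  have := wd_dbl (pow_ne_zero h wd_X_ne) (wd_norm h) hu hu'
  rw [hsq, xiT_ptT h ho _ hz2, xiT_ptT h ho _ hz, ← wd_lev_rho] at this
  simpa using this

end Crest.Agent.R007
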