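import Crest.Agent.R007.HasQ

/-! # Row 7, block W: level one forms, `ε`, identities in `ℤ⟦q⟧` (helper61). -/

set_option autoImplicit false

noncomputable section
namespace Crest.Agent.R007

open PowerSeries UpperHalfPlane
open scoped ModularForm MatrixGroups TensorProduct

theorem wi_coeff_lev (R : Type) [CommRing R] (h : ℕ) [NeZero h] (x : ℤ⟦X⟧) (n : ℕ) :
    coeff n (lev R h x) = if h ∣ n then ((coeff (n / h) x : ℤ) : R) else 0 := by
  change coeff n (PowerSeries.expand h (NeZero.ne h) (PowerSeries.map (Int.castRingHom R) x)) = _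
  rw [coeff_expand, coeff_map]
  rfl

theorem wi_coeff_lev_one (x : ℤ⟦X⟧) (n : ℕ) : coeff n (lev ℂ 1 x) = ((coeff n x : ℤ) : ℂ) := by
  rw [wi_coeff_lev, if_pos (one_dvd n), Nat.div_one]

theorem wi_coeff_V2 (x : ℤ⟦X⟧) (n : ℕ) : coeff n (V2 x) = if 2 ∣ n then coeff (n / 2) x else 0 :=
  coeff_expand _ _ _

theorem wi_coeff_ofNat {R : Type} [CommRing R] (n c : ℕ) [c.AtLeastTwo] (x : R⟦X⟧) :
    coeff n (ofNat(c) * x) = ofNat(c) * coeff n x := by
  rw [← map_ofNat C c, coeff_C_mul]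

theorem wi_lev_V2 (x : ℤ⟦X⟧) :
    lev ℂ 1 (V2 x) = PowerSeries.expand 2 two_ne_zero (lev ℂ 1 x) := by
  ext n
  rw [wi_coeff_lev_one, wi_coeff_V2, coeff_expand, wi_coeff_lev_one]
  split_ifs <;> simp

/-- a level one form of Mathlib as an `IsMF` -/
theorem wi_isMF {k : ℤ} (f : ModularForm 𝒮ℒ k) : IsMF k ⊤ f := by
  have inv : ∀ γ : SL(2, ℤ), (f : ℍ → ℂ) ∣[k] γ = f := fun γ =>
    f.slash_action_eq' _ ⟨γ, rfl⟩
  refine ⟨f.holo', fun γ _ => inv γ, fun γ => ?_⟩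
  rw [inv γ]
  exact ModularFormClass.bdd_at_infty f

theorem wi_hasQ_E4 : HasQ 1 ModularForm.E₄ (lev ℂ 1 E4s) := by
  have h := (wi_isMF ModularForm.E₄).hasQ 1 (Subgroup.mem_top _)
  convert h using 1
  ext n
  rw [wi_coeff_lev_one, Nat.cast_one,
    EisensteinSeries.E_qExpansion_coeff (by norm_num : 3 ≤ 4) ⟨2, rfl⟩ n]
  have hb : bernoulli 4 = -1 / 30 := by decide +kernel
  rw [hb]
  split_ifs with h0
  · subst h0; simp [E4s, sig]
  · simp [E4s, sig, coeff_one, h0, wi_coeff_ofNat]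
    norm_num

theorem wi_hasQ_E6 : HasQ 1 ModularForm.E₆ (lev ℂ 1 E6s) := by
  have h := (wi_isMF ModularForm.E₆).hasQ 1 (Subgroup.mem_top _)
  convert h using 1
  ext n
  rw [wi_coeff_lev_one, Nat.cast_one,
    EisensteinSeries.E_qExpansion_coeff (by norm_num : 3 ≤ 6) ⟨3, rfl⟩ n]
  have hb : bernoulli 6 = 1 / 42 := by decide +kernel
  rw [hb]
  split_ifs with h0
  · subst h0; simp [E6s, sig]
  · simp [E6s, sig, coeff_one, h0, wi_coeff_ofNat]
    norm_num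

theorem wi_E4f : E4f = ModularForm.E₄ := wi_hasQ_E4.qfun_eq
theorem wi_E6f : E6f = ModularForm.E₆ := wi_hasQ_E6.qfun_eq

theorem wi_hasQ_E4f : HasQ 1 E4f (lev ℂ 1 E4s) := wi_E4f ▸ wi_hasQ_E4
theorem wi_hasQ_E6f : HasQ 1 E6f (lev ℂ 1 E6s) := wi_E6f ▸ wi_hasQ_E6
theorem wi_isMF_E4f : IsMF 4 ⊤ E4f := wi_E4f ▸ wi_isMF _
theorem wi_isMF_E6f : IsMF 6 ⊤ E6f := wi_E6f ▸ wi_isMF _

/-! ### the operator `f(τ) ↦ f(2τ)` -/

theorem wi_hasQ_V {f : ℍ → ℂ} {x : ℤ⟦X⟧} (k : ℤ) (a : HasQ 1 f (lev ℂ 1 x)) :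
    HasQ 1 (betaFun k 2 0 1 f) (lev ℂ 1 (V2 x)) := by
  have h := a.beta k 2 0 1
  rw [wi_lev_V2]
  simpa [sB] using h

/-- the conjugate of `γ ∈ Γ₀(2)` by `diag(2, 1)` -/
theorem wi_conj {γ : SL(2, ℤ)} {c : ℤ} (hc : γ 1 0 = 2 * c) :
    ∃ γ' : SL(2, ℤ), γ' 1 0 = c ∧ γ' 1 1 = γ 1 1 ∧
      ∀ (k : ℤ) (f : ℍ → ℂ), (betaFun k 2 0 1 f) ∣[k] γ = betaFun k 2 0 1 (f ∣[k] γ') := by
  have hdet : γ 0 0 * γ 1 1 - γ 0 1 * γ 1 0 = 1 := by
    have := γ.det_coe
    rwa [Matrix.det_fin_two] at this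
  let γ' : SL(2, ℤ) := ⟨!![γ 0 0, 2 * γ 0 1; c, γ 1 1], by
    rw [Matrix.det_fin_two_of]; rw [hc] at hdet; linear_combination hdet⟩
  have g00 : γ' 0 0 = γ 0 0 := rfl
  have g01 : γ' 0 1 = 2 * γ 0 1 := rfl
  have g10 : γ' 1 0 = c := rfl
  have g11 : γ' 1 1 = γ 1 1 := rfl
  refine ⟨γ', rfl, rfl, fun k f => ?_⟩
  exact h5_beta_key 2 0 1 2 0 1 γ γ' (by rw [g00]; push_cast; ring)
    (by rw [g00, g01]; push_cast; ring) (by rw [g10, hc]; push_cast; ring)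
    (by rw [g10, g11]; push_cast; ring) k f

theorem wi_beta_bdd {k : ℤ} {f : ℍ → ℂ} (hf : ∀ γ : SL(2, ℤ), IsBoundedAtImInfty (f ∣[k] γ))
    (γ : SL(2, ℤ)) : IsBoundedAtImInfty ((betaFun k 2 0 1 f) ∣[k] γ) := by
  obtain ⟨A', B', D', i1, i2, γ', -, H⟩ := beta_slash 2 0 1 γ
  rw [H]
  exact h5_beta_bdd k A' B' D' (hf γ')

theorem wi_mem_Gamma0 {N : ℕ} {γ : SL(2, ℤ)} :
    γ ∈ CongruenceSubgroup.Gamma0 N ↔ (N : ℤ) ∣ γ 1 0 := by
  rw [CongruenceSubgroup.Gamma0_mem, ZMod.intCast_zmod_eq_zero_iff_dvd]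

/-- an integer series which is the expansion of a modular form -/
def MFZ (k : ℤ) (N : ℕ) (x : ℤ⟦X⟧) : Prop :=
  ∃ f : ℍ → ℂ, IsMF k (CongruenceSubgroup.Gamma0 N) f ∧ HasQ 1 f (lev ℂ 1 x)

theorem MFZ.V {k : ℤ} {N : ℕ} {x : ℤ⟦X⟧} (a : MFZ k N x) : MFZ k (2 * N) (V2 x) := by
  obtain ⟨f, h1, h2⟩ := a
  have h3 := wi_hasQ_V k h2
  refine ⟨_, ⟨h3.holo, fun γ hγ => ?_, wi_beta_bdd h1.bdd⟩, h3⟩
  obtain ⟨c, hc⟩ := wi_mem_Gamma0.1 hγ
  obtain ⟨γ', e1, -, e3⟩ := wi_conj (γ := γ) (c := N * c) (by rw [hc]; push_cast; ring)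
  rw [e3, h1.inv γ' (wi_mem_Gamma0.2 ⟨c, e1⟩)]

theorem MFZ.mono {k : ℤ} {N M : ℕ} {x : ℤ⟦X⟧} (a : MFZ k N x) (h : N ∣ M) : MFZ k M x := by
  obtain ⟨f, h1, h2⟩ := a
  exact ⟨f, h1.mono fun γ hγ => wi_mem_Gamma0.2
    ((Int.natCast_dvd_natCast.2 h).trans (wi_mem_Gamma0.1 hγ)), h2⟩

theorem MFZ.add {k : ℤ} {N : ℕ} {x y : ℤ⟦X⟧} (a : MFZ k N x) (b : MFZ k N y) : MFZ k N (x + y) := by
  obtain ⟨f, h1, h2⟩ := a
  obtain ⟨g, h3, h4⟩ := b
  exact ⟨f + g, h1.add h3, by rw [map_add]; exact h2.add h4⟩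

theorem MFZ.sub {k : ℤ} {N : ℕ} {x y : ℤ⟦X⟧} (a : MFZ k N x) (b : MFZ k N y) : MFZ k N (x - y) := by
  obtain ⟨f, h1, h2⟩ := a
  obtain ⟨g, h3, h4⟩ := b
  exact ⟨f - g, h1.sub h3, by rw [map_sub]; exact h2.sub h4⟩

theorem MFZ.mul {k l m : ℤ} {N : ℕ} {x y : ℤ⟦X⟧} (a : MFZ k N x) (b : MFZ l N y)
    (h : k + l = m) : MFZ m N (x * y) := by
  obtain ⟨f, h1, h2⟩ := a
  obtain ⟨g, h3, h4⟩ := b
  exact ⟨f * g, h ▸ h1.mul h3, by rw [map_mul]; exact h2.mul h4⟩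

theorem MFZ.cmul {k : ℤ} {N : ℕ} {x : ℤ⟦X⟧} (c : ℤ) (a : MFZ k N x) : MFZ k N (C c * x) := by
  obtain ⟨f, h1, h2⟩ := a
  refine ⟨(c : ℂ) • f, h1.smul _, ?_⟩
  convert h2.smul (c : ℂ) using 1
  ext n
  rw [wi_coeff_lev_one, coeff_C_mul, coeff_smul, wi_coeff_lev_one, smul_eq_mul, Int.cast_mul]

theorem MFZ.sturm {k N i : ℕ} [NeZero N] {x : ℤ⟦X⟧} (a : MFZ k N x)
    (hi : (CongruenceSubgroup.Gamma0 N).index ≤ i) (hz : ∀ n : ℕ, 12 * n ≤ k * i → coeff n x = 0) :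
    x = 0 := by
  obtain ⟨f, h1, h2⟩ := a
  have := h1.sturm h2 fun n hn => by
    rw [wi_coeff_lev_one, hz n (hn.trans (Nat.mul_le_mul_left _ hi)), Int.cast_zero]
  ext n
  have h3 := congrArg (coeff n) this
  rw [wi_coeff_lev_one] at h3
  simpa using h3

theorem wi_index_le {N : ℕ} {m : ℕ} (u v : Fin m → ℤ) (huv : ∀ i, IsCoprime (u i) (v i))
    (h : ∀ a b c d : ZMod N, a * d - b * c = 1 → ∃ i, (u i : ZMod N) * a + (v i : ZMod N) * c = 0) :
    (CongruenceSubgroup.Gamma0 N).index ≤ m := by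
  choose g hg0 hg1 using fun i => (huv i).exists_SL2_row 1
  have hs : Function.Surjective fun i : Fin m =>
      (((g i)⁻¹ : SL(2, ℤ)) : SL(2, ℤ) ⧸ CongruenceSubgroup.Gamma0 N) := by
    intro q
    obtain ⟨γ, rfl⟩ := QuotientGroup.mk_surjective q
    have hdet : γ 0 0 * γ 1 1 - γ 0 1 * γ 1 0 = 1 := by
      have := γ.det_coe
      rwa [Matrix.det_fin_two] at this
    obtain ⟨i, hi⟩ := h (γ 0 0 : ℤ) (γ 0 1 : ℤ) (γ 1 0 : ℤ) (γ 1 1 : ℤ) (by exact_mod_cast congrArg (Int.cast : ℤ → ZMod N) hdet)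
    refine ⟨i, QuotientGroup.eq.2 ?_⟩
    rw [inv_inv, CongruenceSubgroup.Gamma0_mem]
    have : (g i * γ) 1 0 = u i * γ 0 0 + v i * γ 1 0 := by
      rw [← hg0, ← hg1]
      simp [Matrix.mul_apply, Fin.sum_univ_two]
    rw [this]
    push_cast
    exact hi
  simpa [Subgroup.index] using Nat.card_le_card_of_surjective _ hs

theorem wi_index_two : (CongruenceSubgroup.Gamma0 2).index ≤ 3 :=
  wi_index_le ![0, 1, 1] ![1, 0, 1] (by
    intro i; fin_cases i <;> simp [isCoprime_one_left, isCoprime_one_right]) (by decide)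

theorem wi_index_four : (CongruenceSubgroup.Gamma0 4).index ≤ 6 :=
  wi_index_le ![0, 1, 1, 1, 1, 2] ![1, 0, 1, 2, 3, 1] (by
    intro i; fin_cases i <;> simp [isCoprime_one_left, isCoprime_one_right]) (by decide)

/-! ### `ε = 2 E₂(2τ) - E₂(τ)` -/

theorem wi_sig_one (n : ℕ) :
    coeff n (sig 1) = coeff n sigO + 2 * coeff n (V2 (sig 1)) := by
  rw [wi_coeff_V2]
  simp only [sig, sigO, coeff_mk, ArithmeticFunction.sigma_one_apply, Nat.cast_sum]
  rw [← Finset.sum_filter_add_sum_filter_not n.divisors Odd]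
  congr 1
  split_ifs with h2
  · obtain ⟨m, rfl⟩ := h2
    rw [Nat.mul_div_cancel_left _ two_pos, Finset.mul_sum]
    symm
    refine Finset.sum_bij (fun d _ => 2 * d) ?_ ?_ ?_ ?_
    · intro d hd
      rw [Nat.mem_divisors] at hd
      simp only [Finset.mem_filter, Nat.mem_divisors, Nat.not_odd_iff_even]
      exact ⟨⟨Nat.mul_dvd_mul_left 2 hd.1, by omega⟩, even_two_mul d⟩
    · intro a _ b _ h; omega
    · intro d hd
      simp only [Finset.mem_filter, Nat.mem_divisors, Nat.not_odd_iff_even] at hd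
      obtain ⟨e, rfl⟩ := hd.2.two_dvd
      exact ⟨e, Nat.mem_divisors.2 ⟨Nat.dvd_of_mul_dvd_mul_left two_pos hd.1.1, by omega⟩, rfl⟩
    · intro d _; push_cast; ring
  · rw [mul_zero]
    refine Finset.sum_eq_zero fun d hd => ?_
    simp only [Finset.mem_filter, Nat.mem_divisors, Nat.not_odd_iff_even] at hd
    exact absurd (hd.2.two_dvd.trans hd.1.1) h2

theorem wi_sig_one_eq : sig 1 = sigO + 2 * V2 (sig 1) := by
  ext n
  rw [wi_sig_one n, map_add, ← map_ofNat C 2, coeff_C_mul]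

theorem wi_hasQ_E2 : HasQ 1 EisensteinSeries.E2 (lev ℂ 1 (1 - 24 * sig 1)) := by
  intro τ
  have h := EisensteinSeries.hasSum_qExpansion_E2 (z := τ)
  convert h using 2 with n
  rw [wi_coeff_lev_one, smul_eq_mul]
  congr 1
  · split_ifs with h0
    · subst h0; simp [sig]
    · simp [sig, coeff_one, h0, wi_coeff_ofNat]
  · simp [Function.Periodic.qParam]

theorem wi_D2_bdd (γ : SL(2, ℤ)) : IsBoundedAtImInfty (EisensteinSeries.D2 γ) := by
  rw [isBoundedAtImInfty_iff]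
  refine ⟨2 * Real.pi, 1, fun z hz => ?_⟩
  have hd : |((γ 1 0 : ℤ) : ℝ)| ≤ ‖denom γ z‖ := by
    have h1 := Complex.abs_im_le_norm (denom γ z)
    have h2 : (denom γ z).im = (γ 1 0 : ℤ) * z.im := by
      simp [ModularGroup.denom_apply]
    rw [h2, abs_mul, abs_of_pos z.im_pos] at h1
    nlinarith [abs_nonneg ((γ 1 0 : ℤ) : ℝ)]
  have hp : 0 < ‖denom γ z‖ := norm_pos_iff.2 (denom_ne_zero _ z)
  simp only [EisensteinSeries.D2, norm_div, norm_mul, Complex.norm_ofNat, Complex.norm_real,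
    Complex.norm_I, mul_one, Complex.norm_intCast, Real.norm_eq_abs, abs_of_pos Real.pi_pos]
  rw [div_le_iff₀ hp]
  have := Real.pi_pos
  gcongr

theorem wi_E2_bdd (γ : SL(2, ℤ)) : IsBoundedAtImInfty (EisensteinSeries.E2 ∣[(2 : ℤ)] γ) := by
  rw [EisensteinSeries.E2_slash_action]
  exact EisensteinSeries.isBoundedAtImInfty_E2.sub ((wi_D2_bdd γ).smul _)

theorem wi_eps_eq : eps = 2 * V2 (1 - 24 * sig 1) - (1 - 24 * sig 1) := by
  rw [eps, map_sub, map_mul, map_one, map_ofNat]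
  linear_combination (-24) * wi_sig_one_eq

theorem wi_hasQ_eps : HasQ 1 ((2 : ℂ) • betaFun 2 2 0 1 EisensteinSeries.E2 - EisensteinSeries.E2)
    (lev ℂ 1 eps) := by
  have h := ((wi_hasQ_V 2 wi_hasQ_E2).smul 2).sub wi_hasQ_E2
  convert h using 1
  rw [wi_eps_eq, map_sub (lev ℂ 1), map_mul, map_ofNat, two_smul, two_mul]

theorem wi_epsf : epsf = (2 : ℂ) • betaFun 2 2 0 1 EisensteinSeries.E2 - EisensteinSeries.E2 :=
  wi_hasQ_eps.qfun_eq

theorem wi_hasQ_epsf : HasQ 1 epsf (lev ℂ 1 eps) := wi_epsf ▸ wi_hasQ_eps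

theorem wi_isMF_epsf : IsMF 2 (CongruenceSubgroup.Gamma0 2) epsf := by
  refine ⟨wi_hasQ_epsf.holo, fun γ hγ => ?_, fun γ => ?_⟩
  · obtain ⟨c, hc⟩ := wi_mem_Gamma0.1 hγ
    obtain ⟨γ', e1, e2, e3⟩ := wi_conj (γ := γ) (c := c) (by rw [hc]; push_cast; ring)
    rw [wi_epsf, sub_eq_add_neg, SlashAction.add_slash, SlashAction.neg_slash,
      ModularForm.SL_smul_slash, e3, EisensteinSeries.E2_slash_action,
      EisensteinSeries.E2_slash_action]
    funext τ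
    have hd : denom γ' (betaPt 2 0 1 τ) = denom γ τ := by
      rw [ModularGroup.denom_apply, ModularGroup.denom_apply, h5_coe_betaPt, e1, e2, hc]
      push_cast
      ring
    simp only [betaFun, Pi.add_apply, Pi.smul_apply, Pi.sub_apply, Pi.neg_apply, smul_eq_mul,
      EisensteinSeries.D2, hd, e1, hc]
    push_cast
    simp only [one_zpow]
    ring
  · rw [wi_epsf, sub_eq_add_neg, SlashAction.add_slash, SlashAction.neg_slash,
      ModularForm.SL_smul_slash]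
    exact ((wi_beta_bdd wi_E2_bdd γ).smul _).add (wi_E2_bdd γ).neg

/-! ### identities in `ℤ⟦q⟧` -/

theorem wi_MFZ_E4 : MFZ 4 1 E4s := ⟨_, wi_isMF_E4f.mono le_top, wi_hasQ_E4f⟩
theorem wi_MFZ_E6 : MFZ 6 1 E6s := ⟨_, wi_isMF_E6f.mono le_top, wi_hasQ_E6f⟩
theorem wi_MFZ_eps : MFZ 2 2 eps := ⟨_, wi_isMF_epsf, wi_hasQ_epsf⟩

theorem wi_cm0 (x y : ℤ⟦X⟧) : coeff 0 (x * y) = coeff 0 x * coeff 0 y := by
  simp [coeff_mul]
theorem wi_cm1 (x y : ℤ⟦X⟧) : coeff 1 (x * y) = coeff 0 x * coeff 1 y + coeff 1 x * coeff 0 y := by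
  simp [coeff_mul, Finset.Nat.antidiagonal_succ]
theorem wi_cm2 (x y : ℤ⟦X⟧) : coeff 2 (x * y) =
    coeff 0 x * coeff 2 y + coeff 1 x * coeff 1 y + coeff 2 x * coeff 0 y := by
  simp [coeff_mul, Finset.Nat.antidiagonal_succ, add_assoc]

theorem wi_c_E4 : coeff 0 E4s = 1 ∧ coeff 1 E4s = 240 ∧ coeff 2 E4s = 2160 := by
  simp only [E4s, sig, map_add, wi_coeff_ofNat, coeff_one, coeff_mk]
  decide +kernel
theorem wi_c_E6 : coeff 0 E6s = 1 ∧ coeff 1 E6s = -504 := by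
  simp only [E6s, sig, map_sub, wi_coeff_ofNat, coeff_one, coeff_mk]
  decide +kernel
theorem wi_c_eps : coeff 0 eps = 1 ∧ coeff 1 eps = 24 ∧ coeff 2 eps = 24 := by
  simp only [eps, sigO, map_add, wi_coeff_ofNat, coeff_one, coeff_mk]
  decide +kernel
theorem wi_c_V (x : ℤ⟦X⟧) :
    coeff 0 (V2 x) = coeff 0 x ∧ coeff 1 (V2 x) = 0 ∧ coeff 2 (V2 x) = coeff 1 x := by
  simp [wi_coeff_V2]

theorem wi_I1 : E4s + 4 * V2 E4s = 5 * (eps * eps) := by
  have h : MFZ (4 : ℕ) 2 (E4s + C 4 * V2 E4s - C 5 * (eps * eps)) :=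
    ((wi_MFZ_E4.mono (one_dvd _)).add (wi_MFZ_E4.V.cmul 4)).sub
      ((wi_MFZ_eps.mul wi_MFZ_eps rfl).cmul 5)
  have := h.sturm wi_index_two fun n hn => by
    obtain rfl | rfl : n = 0 ∨ n = 1 := by omega
    all_goals simp only [map_sub, map_add, coeff_C_mul, wi_cm0, wi_cm1, wi_c_V, wi_c_E4, wi_c_eps]
    all_goals norm_num
  simp only [map_ofNat] at this
  linear_combination this

theorem wi_I2 : 5 * E6s = 5 * (eps * eps * eps) - 12 * (eps * (E4s - V2 E4s)) := by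
  have h : MFZ (6 : ℕ) 2 (C 5 * E6s - (C 5 * (eps * eps * eps) - C 12 * (eps * (E4s - V2 E4s)))) :=
    ((wi_MFZ_E6.mono (one_dvd _)).cmul 5).sub
      ((((wi_MFZ_eps.mul wi_MFZ_eps rfl).mul wi_MFZ_eps rfl).cmul 5).sub
        ((wi_MFZ_eps.mul ((wi_MFZ_E4.mono (one_dvd _)).sub wi_MFZ_E4.V) rfl).cmul 12))
  have := h.sturm wi_index_two fun n hn => by
    obtain rfl | rfl : n = 0 ∨ n = 1 := by omega
    all_goals simp only [map_sub, coeff_C_mul, wi_cm0, wi_cm1, wi_c_V, wi_c_E4, wi_c_E6,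
      wi_c_eps]
    all_goals norm_num
  simp only [map_ofNat] at this
  linear_combination this

theorem wi_MFZ_B : MFZ 2 4 (eps - V2 eps) := (wi_MFZ_eps.mono (by norm_num)).sub wi_MFZ_eps.V
theorem wi_MFZ_A : MFZ 4 2 (E4s - V2 E4s) := (wi_MFZ_E4.mono (one_dvd _)).sub wi_MFZ_E4.V

theorem wi_I3 : 3 * (E4s - V2 E4s) =
    30 * ((eps - V2 eps) * eps) - 20 * ((eps - V2 eps) * (eps - V2 eps)) := by
  have h : MFZ (4 : ℕ) 4 (C 3 * (E4s - V2 E4s) -
      (C 30 * ((eps - V2 eps) * eps) - C 20 * ((eps - V2 eps) * (eps - V2 eps)))) :=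
    ((wi_MFZ_A.mono (by norm_num)).cmul 3).sub
      (((wi_MFZ_B.mul (wi_MFZ_eps.mono (by norm_num)) rfl).cmul 30).sub
        ((wi_MFZ_B.mul wi_MFZ_B rfl).cmul 20))
  have := h.sturm wi_index_four fun n hn => by
    obtain rfl | rfl | rfl : n = 0 ∨ n = 1 ∨ n = 2 := by omega
    all_goals simp only [map_sub, coeff_C_mul, wi_cm0, wi_cm1, wi_cm2, wi_c_V, wi_c_E4,
      wi_c_eps]
    all_goals norm_num
  simp only [map_ofNat] at this
  linear_combination this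

theorem wi_I4 : 12 * V2 (E4s - V2 E4s) = 5 * ((eps - V2 eps) * (eps - V2 eps)) := by
  have h : MFZ (4 : ℕ) 4 (C 12 * V2 (E4s - V2 E4s) - C 5 * ((eps - V2 eps) * (eps - V2 eps))) :=
    (wi_MFZ_A.V.cmul 12).sub ((wi_MFZ_B.mul wi_MFZ_B rfl).cmul 5)
  have := h.sturm wi_index_four fun n hn => by
    obtain rfl | rfl | rfl : n = 0 ∨ n = 1 ∨ n = 2 := by omega
    all_goals simp only [map_sub, coeff_C_mul, wi_cm0, wi_cm1, wi_cm2, wi_c_V, wi_c_E4,
      wi_c_eps]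
    all_goals norm_num
  simp only [map_ofNat] at this
  linear_combination this

theorem wi_cancel (c : ℕ) [c.AtLeastTwo] {x y : ℤ⟦X⟧} (h : ofNat(c) * x = ofNat(c) * y) : x = y := by
  refine mul_left_cancel₀ ?_ h
  rw [← map_ofNat C c]
  intro h0
  have := congrArg (coeff 0) h0
  rw [coeff_zero_C, map_zero] at this
  exact OfNat.ofNat_ne_zero c this

theorem wi_eps_inv : eps * epsInv = 1 :=
  PowerSeries.mul_invOfUnit eps 1 (by
    rw [← coeff_zero_eq_constantCoeff_apply]; exact wi_c_eps.1)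

theorem wi_A : E4s - V2 E4s = 240 * (sig 3 - V2 (sig 3)) := by
  rw [E4s, map_add, map_one, map_mul, map_ofNat]; ring
theorem wi_B : eps - V2 eps = 24 * (sigO - V2 sigO) := by
  rw [eps, map_add, map_one, map_mul, map_ofNat]; ring
theorem wi_rho : eps ^ 2 * rho = sig 3 - V2 (sig 3) := by
  rw [rho]
  linear_combination (sig 3 - V2 (sig 3)) * (eps * epsInv + 1) * wi_eps_inv
theorem wi_mu : eps * mu = sigO - V2 sigO := by
  rw [mu]
  linear_combination (sigO - V2 sigO) * wi_eps_inv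

theorem wi_E4s_eq : E4s = eps ^ 2 * (1 + 192 * rho) :=
  wi_cancel 5 (by linear_combination wi_I1 + 4 * wi_A - 960 * wi_rho)

theorem wi_E6s_eq : E6s = eps ^ 3 * (1 - 576 * rho) :=
  wi_cancel 5 (by linear_combination wi_I2 - 12 * eps * wi_A + 2880 * eps * wi_rho)

theorem wi_V2_eps : V2 eps = lam * eps := by
  rw [lam]
  linear_combination -wi_B + 24 * wi_mu

theorem wi_rho_eq : rho = mu - 16 * mu ^ 2 := by
  have h := wi_I3
  rw [wi_A, wi_B, ← wi_rho, ← wi_mu] at h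
  have h2 : eps ^ 2 * rho = eps ^ 2 * (mu - 16 * mu ^ 2) :=
    wi_cancel 720 (by linear_combination h)
  linear_combination epsInv ^ 2 * h2 - (rho - (mu - 16 * mu ^ 2)) * (eps * epsInv + 1) * wi_eps_inv

theorem wi_V2_rho : V2 rho * lam ^ 2 = mu ^ 2 := by
  have h := wi_I4
  rw [wi_A, wi_B, ← wi_rho, ← wi_mu, map_mul, map_mul, map_pow, map_ofNat, wi_V2_eps] at h
  have h2 : eps ^ 2 * (V2 rho * lam ^ 2) = eps ^ 2 * mu ^ 2 :=
    wi_cancel 2880 (by linear_combination h)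
  linear_combination epsInv ^ 2 * h2 - (V2 rho * lam ^ 2 - mu ^ 2) * (eps * epsInv + 1) * wi_eps_inv

theorem wi_Dels_eq : 1728 * Dels = E4s ^ 3 - E6s ^ 2 := by
  rw [wi_E4s_eq, wi_E6s_eq, Dels]; ring

theorem wi_hasQ_disc : HasQ 1 (fun τ => ModularForm.discriminant τ) (lev ℂ 1 Dels) := by
  have h := ((wi_hasQ_E4.pow 3).sub (wi_hasQ_E6.pow 2)).smul (1 / 1728)
  convert h using 1
  · funext τ
    rw [ModularForm.discriminant_eq_E₄_cube_sub_E₆_sq]
    simp only [Pi.smul_apply, Pi.sub_apply, Pi.pow_apply, smul_eq_mul]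
    ring
  · rw [← map_pow, ← map_pow, ← map_sub, ← wi_Dels_eq, map_mul, map_ofNat]
    ext n
    rw [coeff_smul, wi_coeff_ofNat, smul_eq_mul]
    ring

theorem wi_Delf_eq : Delf = fun τ => ModularForm.discriminant τ := wi_hasQ_disc.qfun_eq
theorem wi_hasQ_Delf : HasQ 1 Delf (lev ℂ 1 Dels) := wi_Delf_eq ▸ wi_hasQ_disc
theorem wi_isMF_Delf : IsMF 12 ⊤ Delf := by
  rw [wi_Delf_eq]
  exact wi_isMF (CuspForm.discriminant : ModularForm 𝒮ℒ 12)

/-! ### points `(0, b)` -/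

theorem wi_coeff_Xser {R : Type} [CommRing R] {h : ℕ} [NeZero h] (e : AddChar (ZMod h) R)
    (b : ZMod h) {n : ℕ} (hn : n ≠ 0) : coeff (h * n) (Xser e (0, b)) =
      ∑ d ∈ n.divisors, (d : R) * (e (b * d) + e (-(b * d)) - 2) := by
  have h0 : h * n ≠ 0 := mul_ne_zero (NeZero.ne h) hn
  simp only [Xser, coeff_mk, if_neg h0, neg_zero]
  rw [h75_sum_div (NeZero.ne h) (fun d m => (d : R) *
    ((if (m : ZMod h) = 0 then e (b * d) else 0) + (if (m : ZMod h) = 0 then e (-(b * d)) else 0) -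
      (if (m : ZMod h) = 0 then 2 else 0))) (fun d m hm => by
        simp [ZMod.natCast_eq_zero_iff, hm]),
    if_pos (dvd_mul_right h n), Nat.mul_div_cancel_left _ (Nat.pos_of_ne_zero (NeZero.ne h))]
  rw [← Nat.sum_divisorsAntidiagonal (fun d _ => (d : R) * (e (b * d) + e (-(b * d)) - 2))]
  refine Finset.sum_congr rfl fun p _ => ?_
  simp

theorem wi_coeff_Xser_not {R : Type} [CommRing R] {h : ℕ} [NeZero h] (e : AddChar (ZMod h) R)
    (b : ZMod h) {n : ℕ} (hn : ¬ h ∣ n) : coeff n (Xser e (0, b)) = 0 := by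
  have h0 : n ≠ 0 := fun h0 => hn (h0 ▸ dvd_zero h)
  simp only [Xser, coeff_mk, if_neg h0, neg_zero]
  rw [h75_sum_div (NeZero.ne h) (fun d m => (d : R) *
    ((if (m : ZMod h) = 0 then e (b * d) else 0) + (if (m : ZMod h) = 0 then e (-(b * d)) else 0) -
      (if (m : ZMod h) = 0 then 2 else 0))) (fun d m hm => by
        simp [ZMod.natCast_eq_zero_iff, hm]), if_neg hn]

theorem wi_zC_four : zC 4 = Complex.I := by
  have h : 2 * (Real.pi : ℂ) * Complex.I / ((4 : ℕ) : ℂ) = Real.pi / 2 * Complex.I := by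
    push_cast; ring
  rw [zC, h, Complex.exp_pi_div_two_mul_I]

theorem wi_eC_four (d : ℕ) : eC 4 (d : ZMod 4) = Complex.I ^ d := by
  rw [eC, chr_nat (zC_prim 4).pow_eq_one, wi_zC_four]

/-- sums over the even divisors -/
theorem wi_sum_even {R : Type} [CommRing R] (g : ℕ → R) (n : ℕ) :
    ∑ d ∈ n.divisors with ¬ Odd d, g d =
      if 2 ∣ n then ∑ d ∈ (n / 2).divisors, g (2 * d) else 0 := by
  split_ifs with h2
  · obtain ⟨m, rfl⟩ := h2
    rw [Nat.mul_div_cancel_left _ two_pos]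
    symm
    refine Finset.sum_bij (fun d _ => 2 * d) ?_ ?_ ?_ ?_
    · intro d hd
      rw [Nat.mem_divisors] at hd
      simp only [Finset.mem_filter, Nat.mem_divisors, Nat.not_odd_iff_even]
      exact ⟨⟨Nat.mul_dvd_mul_left 2 hd.1, by omega⟩, even_two_mul d⟩
    · intro a _ b _ h; omega
    · intro d hd
      simp only [Finset.mem_filter, Nat.mem_divisors, Nat.not_odd_iff_even] at hd
      obtain ⟨e, rfl⟩ := hd.2.two_dvd
      exact ⟨e, Nat.mem_divisors.2 ⟨Nat.dvd_of_mul_dvd_mul_left two_pos hd.1.1, by omega⟩, rfl⟩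
    · intro d _; rfl
  · refine Finset.sum_eq_zero fun d hd => ?_
    simp only [Finset.mem_filter, Nat.mem_divisors, Nat.not_odd_iff_even] at hd
    exact absurd (hd.2.two_dvd.trans hd.1.1) h2

theorem wi_term (d : ℕ) : eC 4 (1 * (d : ZMod 4)) + eC 4 (-(1 * (d : ZMod 4))) =
    Complex.I ^ d + (-Complex.I) ^ d := by
  have h : -(1 * (d : ZMod 4)) = ((3 * d : ℕ) : ZMod 4) := by
    push_cast
    have : (3 : ZMod 4) = -1 := by decide
    rw [this]; ring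
  rw [h, one_mul, wi_eC_four, wi_eC_four, pow_mul, Complex.I_pow_three]

theorem wi_xQ_eq : 12 * (PowerSeries.C (1 / 12) + Xser (eC 4) (0, 1)) =
    -lev ℂ 4 eps - 4 * lev ℂ 4 (lam * eps) := by
  rw [← wi_V2_eps]
  ext n
  rw [wi_coeff_ofNat, map_add, map_sub, map_neg, wi_coeff_ofNat, wi_coeff_lev, wi_coeff_lev,
    coeff_C]
  by_cases h4 : 4 ∣ n
  · obtain ⟨n, rfl⟩ := h4
    rw [if_pos (dvd_mul_right 4 n), if_pos (dvd_mul_right 4 n),
      Nat.mul_div_cancel_left _ (by norm_num : 0 < 4)]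
    by_cases hn : n = 0
    · subst hn
      have e1 : eC 4 1 = Complex.I := by simpa using wi_eC_four 1
      rw [(wi_c_V eps).1, wi_c_eps.1]
      simp only [Xser, coeff_mk, mul_zero, if_true, e1, Ring.inverse_eq_inv']
      have h1 : (1 - Complex.I) ^ 2 = -2 * Complex.I := by
        linear_combination Complex.I_sq
      rw [inv_pow, h1]
      field_simp
      norm_num
    · rw [if_neg (by omega), wi_coeff_Xser _ _ hn, wi_coeff_V2,
        ← Finset.sum_filter_add_sum_filter_not n.divisors Odd, wi_sum_even]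
      have o1 : ∑ d ∈ n.divisors with Odd d,
          (d : ℂ) * (eC 4 (1 * (d : ZMod 4)) + eC 4 (-(1 * (d : ZMod 4))) - 2) =
          -2 * ((coeff n sigO : ℤ) : ℂ) := by
        simp only [sigO, coeff_mk, Int.cast_sum, Int.cast_natCast, Finset.mul_sum]
        refine Finset.sum_congr rfl fun d hd => ?_
        rw [wi_term, (Finset.mem_filter.1 hd).2.neg_pow]
        ring
      have o2 : ∀ m : ℕ, ∑ d ∈ m.divisors, ((2 * d : ℕ) : ℂ) *
          (eC 4 (1 * ((2 * d : ℕ) : ZMod 4)) + eC 4 (-(1 * ((2 * d : ℕ) : ZMod 4))) - 2) =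
          -8 * ((coeff m sigO : ℤ) : ℂ) := by
        intro m
        simp only [sigO, coeff_mk, Int.cast_sum, Finset.mul_sum, Finset.sum_filter]
        refine Finset.sum_congr rfl fun d _ => ?_
        rw [wi_term, pow_mul, pow_mul, neg_sq, Complex.I_sq]
        rcases Nat.even_or_odd d with hd | hd
        · rw [hd.neg_one_pow, if_neg (Nat.not_odd_iff_even.2 hd)]; push_cast; ring
        · rw [hd.neg_one_pow, if_pos hd]; push_cast; ring
      rw [o1, o2]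
      have e1 : coeff n eps = 24 * coeff n sigO := by
        rw [eps, map_add, wi_coeff_ofNat, coeff_one, if_neg hn, zero_add]
      rw [e1]
      split_ifs with h2
      · have e2 : coeff (n / 2) eps = 24 * coeff (n / 2) sigO := by
          rw [eps, map_add, wi_coeff_ofNat, coeff_one, if_neg (by omega), zero_add]
        rw [e2]; push_cast; ring
      · push_cast; ring
  · rw [if_neg h4, if_neg h4, if_neg (fun h0 : n = 0 => h4 (h0 ▸ dvd_zero 4)),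
      wi_coeff_Xser_not _ _ h4]
    ring

/-! ### the `x`-coordinate separates points up to sign -/

theorem wi_actP_inj {h : ℕ} {P Q : ZMod h × ZMod h} (γ : SL(2, ℤ)) (e : actP P γ = actP Q γ) :
    P = Q := by
  have hdet : γ 0 0 * γ 1 1 - γ 0 1 * γ 1 0 = 1 := by
    have := γ.det_coe
    rwa [Matrix.det_fin_two] at this
  have hd : ((γ 0 0 : ℤ) : ZMod h) * (γ 1 1 : ℤ) - (γ 0 1 : ℤ) * (γ 1 0 : ℤ) = 1 := by
    exact_mod_cast congrArg (Int.cast : ℤ → ZMod h) hdet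
  have e1 := congrArg Prod.fst e
  have e2 := congrArg Prod.snd e
  simp only [actP] at e1 e2
  refine Prod.ext ?_ ?_
  · linear_combination ((γ 1 1 : ℤ) : ZMod h) * e1 - ((γ 1 0 : ℤ) : ZMod h) * e2 - (P.1 - Q.1) * hd
  · linear_combination ((γ 0 0 : ℤ) : ZMod h) * e2 - ((γ 0 1 : ℤ) : ZMod h) * e1 - (P.2 - Q.2) * hd

theorem wi_actP_neg {h : ℕ} (P : ZMod h × ZMod h) (γ : SL(2, ℤ)) : actP (-P) γ = -actP P γ := by
  refine Prod.ext ?_ ?_ <;> simp only [actP, Prod.fst_neg, Prod.snd_neg] <;> ring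

theorem wi_actP_ne_zero {h : ℕ} {P : ZMod h × ZMod h} (hP : P ≠ 0) (γ : SL(2, ℤ)) :
    actP P γ ≠ 0 := fun h0 => hP (wi_actP_inj γ (h0.trans (by simp [actP, Prod.ext_iff])))

/-- every torsion point is conjugate to a point `(0, b)` -/
theorem wi_exists_actP {h : ℕ} [NeZero h] (P : ZMod h × ZMod h) :
    ∃ γ : SL(2, ℤ), (actP P γ).1 = 0 := by
  obtain ⟨a, b⟩ := P
  obtain ⟨a, rfl⟩ := ZMod.intCast_surjective a
  obtain ⟨b, rfl⟩ := ZMod.intCast_surjective b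
  rcases Nat.eq_zero_or_pos (Int.gcd a b) with h0 | h0
  · rw [Int.gcd_eq_zero_iff] at h0
    exact ⟨1, by simp [actP, h0.1]⟩
  obtain ⟨g, a', b', -, hc, rfl, rfl⟩ := Int.exists_gcd_one' h0
  obtain ⟨γ, h1, h2⟩ := ((Int.isCoprime_iff_gcd_eq_one.2 hc).symm.neg_right).exists_SL2_col 0
  refine ⟨γ, ?_⟩
  simp only [actP, h1, h2]
  push_cast
  ring

theorem wi_xf_inj (h : ℕ) [NeZero h]
    (hq : ∀ P : ZMod h × ZMod h, HasQ h (xf h P) (PowerSeries.C (1 / 12) + Xser (eC h) P))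
    (hs : ∀ P : ZMod h × ZMod h, P ≠ 0 → ∀ γ : SL(2, ℤ), (xf h P) ∣[(2 : ℤ)] γ = xf h (actP P γ))
    {P Q : ZMod h × ZMod h} (hP : P ≠ 0) (hQ : Q ≠ 0) (hx : xf h P = xf h Q) :
    P = Q ∨ P = -Q := by
  obtain ⟨γ, hγ⟩ := wi_exists_actP P
  have h1 : xf h (actP P γ) = xf h (actP Q γ) := by rw [← hs P hP, ← hs Q hQ, hx]
  have hP' := wi_actP_ne_zero hP γ
  have hQ' := wi_actP_ne_zero hQ γ
  suffices actP P γ = actP Q γ ∨ actP P γ = -actP Q γ by
    rcases this with h2 | h2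
    · exact Or.inl (wi_actP_inj γ h2)
    · exact Or.inr (wi_actP_inj γ (h2.trans (wi_actP_neg Q γ).symm))
  generalize actP P γ = P' at *
  generalize actP Q γ = Q' at *
  have h2 := congrArg (coeff 0) (add_left_cancel ((hq P').unique (h1 ▸ hq Q')))
  obtain ⟨a, b⟩ := P'
  obtain ⟨a', b'⟩ := Q'
  simp only at hγ
  subst hγ
  have hb : b ≠ 0 := fun h0 => hP' (by rw [h0]; rfl)
  have hu : 1 - eC h b ≠ 0 := (prim_eC h b hb).ne_zero
  have hu0 : ∀ x, eC h x * eC h (-x) = 1 := fun x => by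
    rw [← AddChar.map_add_eq_mul, add_neg_cancel, AddChar.map_zero_eq_one]
  have hne : eC h b ≠ 0 := left_ne_zero_of_mul_eq_one (hu0 b)
  have hinj : ∀ x y, eC h x = eC h y → x = y := by
    intro x y e
    by_contra hxy
    apply (prim_eC h (x - y) (sub_ne_zero.2 hxy)).ne_zero
    rw [sub_eq_add_neg x, AddChar.map_add_eq_mul, e, hu0, sub_self]
  simp only [Xser, coeff_mk, if_true, Ring.inverse_eq_inv'] at h2
  split_ifs at h2 with ha
  · subst ha
    have hb' : b' ≠ 0 := fun h0 => hQ' (by rw [h0]; rfl)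
    have hv : 1 - eC h b' ≠ 0 := (prim_eC h b' hb').ne_zero
    field_simp at h2
    have h3 : (eC h b - eC h b') * (1 - eC h b * eC h b') = 0 := by linear_combination h2
    rcases mul_eq_zero.1 h3 with h4 | h4
    · exact Or.inl (by rw [hinj b b' (sub_eq_zero.1 h4)])
    · right
      have : eC h b = eC h (-b') := by
        linear_combination (-eC h (-b')) * h4 - eC h b * hu0 b'
      rw [hinj b (-b') this]
      simp
  · exact absurd h2 (mul_ne_zero hne (pow_ne_zero 2 (inv_ne_zero hu)))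

end Crest.Agent.R007
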