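import Crest.Agent.R007.HasQ

/-! # Row 7, block W: transfer of `a₁` to `OO`, and small algebraic consequences. -/

set_option autoImplicit false

noncomputable section
namespace Crest.Agent.R007

open PowerSeries UpperHalfPlane
open scoped ModularForm MatrixGroups TensorProduct

theorem actP_ne_zero_ {h : ℕ} {P : ZMod h × ZMod h} (hP : P ≠ 0) (γ : SL(2, ℤ)) :
    actP P γ ≠ 0 := by
  intro h0
  apply hP
  have h1 : P.1 * ((γ 0 0 : ℤ) : ZMod h) + P.2 * ((γ 1 0 : ℤ) : ZMod h) = 0 := congrArg Prod.fst h0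
  have h2 : P.1 * ((γ 0 1 : ℤ) : ZMod h) + P.2 * ((γ 1 1 : ℤ) : ZMod h) = 0 := congrArg Prod.snd h0
  have hd : γ 0 0 * γ 1 1 - γ 0 1 * γ 1 0 = 1 := by
    have := γ.det_coe
    rwa [Matrix.det_fin_two] at this
  have hd' : ((γ 0 0 : ℤ) : ZMod h) * (γ 1 1 : ℤ) - ((γ 0 1 : ℤ) : ZMod h) * (γ 1 0 : ℤ) = 1 := by
    exact_mod_cast congrArg (Int.cast : ℤ → ZMod h) hd
  refine Prod.ext ?_ ?_
  · change P.1 = 0
    linear_combination (-P.1) * hd' + ((γ 1 1 : ℤ) : ZMod h) * h1 - ((γ 1 0 : ℤ) : ZMod h) * h2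
  · change P.2 = 0
    linear_combination (-P.2) * hd' - ((γ 0 1 : ℤ) : ZMod h) * h1 + ((γ 0 0 : ℤ) : ZMod h) * h2

theorem Lifts.DXser {h : ℕ} {ι : KC h →+* KK} [NeZero h] (ho : Odd h) (hι : IsIota h ι) (h' : ℕ)
    [NeZero h'] (hd : h' ∣ h) (P : ZMod h' × ZMod h') :
    Lifts ι (DXser (eC h') P) (DXser (eO h') P) :=
  ((Lifts.ofNat 2).mul (Lifts.Yser ho hι h' hd P)).add (Lifts.Xser ho hι h' hd P)

theorem Lifts.Zser {h : ℕ} {ι : KC h →+* KK} [NeZero h] (ho : Odd h) (hι : IsIota h ι) (h' : ℕ)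
    [NeZero h'] (hd : h' ∣ h) (P : ZMod h' × ZMod h') :
    Lifts ι (Zser (eC h') P) (Zser (eO h') P) :=
  ((Lifts.Xser ho hι h' hd P).sub ((Lifts.ofNat 2).mul (Lifts.lev h' sigO))).mul
    (Lifts.lev h' epsInv)

theorem h88_lifts_N {h : ℕ} {ι : KC h →+* KK} [NeZero h] (ho : Odd h) (hι : IsIota h ι) (h' : ℕ)
    [NeZero h'] (hd : h' ∣ h) (P : ZMod h' × ZMod h') :
    Lifts ι (6 * Xser (eC h') P ^ 2 + Xser (eC h') P - 10 * lev ℂ h' (sig 3))
      (6 * Xser (eO h') P ^ 2 + Xser (eO h') P - 10 * lev OO h' (sig 3)) :=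
  (((Lifts.ofNat 6).mul ((Lifts.Xser ho hι h' hd P).pow 2)).add (Lifts.Xser ho hι h' hd P)).sub
    ((Lifts.ofNat 10).mul (Lifts.lev h' (sig 3)))

theorem lifts_A1_of {h : ℕ} [NeZero h] (ho : Odd h) {ι : KC h →+* KK} (hι : IsIota h ι) (h' : ℕ)
    [NeZero h'] (hd : h' ∣ h) {P : ZMod h' × ZMod h'} (hD : DXser (eC h') P ≠ 0) {A : ℂ⟦X⟧}
    {A' : OO⟦X⟧} (a : IsA1 (eC h') P A) (a' : IsA1 (eO h') P A') : Lifts ι A A' := by
  refine Lifts.of_mul hD (Lifts.DXser ho hι h' hd P) ?_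
  rw [mul_comm _ A, mul_comm _ A', a.1, a'.1]
  exact h88_lifts_N ho hι h' hd P

/-- a series over `OO` that vanishes modulo 2 is divisible by 2 -/
theorem exists_two_mul_of_red {f : OO⟦X⟧} (hf : PowerSeries.map red f = 0) :
    ∃ t : OO⟦X⟧, f = 2 * t := by
  have h1 : ∀ n, ∃ c : OO, coeff n f = 2 * c := by
    intro n
    have h2 : red (coeff n f) = 0 := by
      have := congrArg (coeff n) hf
      rwa [PowerSeries.coeff_map, map_zero] at this
    have h3 : coeff n f ∈ RingHom.ker (WittVector.constantCoeff : OO →+* FF) := h2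
    rw [WittVector.ker_constantCoeff, Ideal.mem_span_singleton] at h3
    obtain ⟨c, hc⟩ := h3
    exact ⟨c, by rw [hc]; norm_num⟩
  choose c hc using h1
  refine ⟨PowerSeries.mk c, PowerSeries.ext fun n => ?_⟩
  have : (2 : OO⟦X⟧) = PowerSeries.C (2 : OO) := (map_ofNat _ 2).symm
  rw [this, PowerSeries.coeff_C_mul, PowerSeries.coeff_mk, hc]

theorem wa1_two_FF : (2 : FF⟦X⟧) = 0 := by
  have : (2 : FF⟦X⟧) = PowerSeries.C (2 : FF) := (map_ofNat _ 2).symm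
  rw [this, show (2 : FF) = 0 from CharP.ofNat_eq_zero FF 2, map_zero]

theorem exists_A1_OO_of (h : ℕ) [NeZero h] (ho : Odd h) {P : ZMod h × ZMod h}
    (hA : ∃ A : ℂ⟦X⟧, IsA1 (eC h) P A) (hD : DXser (eC h) P ≠ 0) :
    ∃ t : OO⟦X⟧, IsA1 (eO h) P (1 + 2 * t) := by
  obtain ⟨ι, hι⟩ := exists_iota h ho
  obtain ⟨A, hA1, hA2⟩ := hA
  have lX := Lifts.Xser ho hι h dvd_rfl P
  have lD := Lifts.DXser ho hι h dvd_rfl P
  have lN := h88_lifts_N ho hι h dvd_rfl P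
  have hD' : DXser (eO h) P ≠ 0 := by
    intro h0
    rw [h0] at lD
    exact hD (lD.unique' Lifts.zero)
  have l1 := lN.pow 2
  have l2 := (lD.pow 2).mul (Lifts.one.add ((Lifts.ofNat 12).mul lX))
  rw [← hA1, mul_pow, hA2, mul_comm] at l1
  have e := l1.unique l2
  have hdvd : DXser (eO h) P ^ 2 ∣
      (6 * Xser (eO h) P ^ 2 + Xser (eO h) P - 10 * lev OO h (sig 3)) ^ 2 := ⟨_, e⟩
  obtain ⟨B, hB⟩ := (IsIntegrallyClosed.pow_dvd_pow_iff two_ne_zero).1 hdvd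
  have hB2 : B ^ 2 = 1 + 12 * Xser (eO h) P := by
    rw [hB, mul_pow] at e
    exact mul_left_cancel₀ (pow_ne_zero 2 hD') e
  have h1 : PowerSeries.map red (B - 1) = 0 := by
    have h2 := congrArg (PowerSeries.map red) hB2
    rw [map_pow, map_add, map_one, map_mul, map_ofNat] at h2
    refine pow_eq_zero_iff (n := 2) two_ne_zero |>.1 ?_
    rw [map_sub, map_one]
    linear_combination h2 + (1 - PowerSeries.map red B +
      6 * PowerSeries.map red (Xser (eO h) P)) * wa1_two_FF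
  obtain ⟨t, ht⟩ := exists_two_mul_of_red h1
  have hBt : 1 + 2 * t = B := by rw [← ht]; ring
  refine ⟨t, ?_⟩
  rw [hBt]
  exact ⟨by rw [hB, mul_comm], hB2⟩

theorem rho_FF_of (h : ℕ) [NeZero h] (ho : Odd h) {P : ZMod h × ZMod h} (h3 : 3 • P = 0)
    (hd : Xser (eF h) (2 • P) * Xser (eF h) P ^ 2 = Xser (eF h) P ^ 4 + lev FF h rho) :
    lev FF h rho = Xser (eF h) P ^ 4 + Xser (eF h) P ^ 3 := by
  have h2 : 2 • P = -P := by
    rw [eq_neg_iff_add_eq_zero, ← succ_nsmul]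
    exact h3
  rw [h2, Xser_neg _ (prim_eF h ho)] at hd
  linear_combination -hd - Xser (eF h) P ^ 4 * wa1_two_FF

end Crest.Agent.R007
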