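import Crest.Agent.R007.WP3
import Crest.Agent.R007.WA1

/-! # Row 7, block W: series identities (2-isogeny, duplication) and the form `a₁`. -/

set_option autoImplicit false

noncomputable section
namespace Crest.Agent.R007

open PowerSeries UpperHalfPlane PeriodPair
open scoped ModularForm MatrixGroups

theorem h67_two_mul_eq_zero {h : ℕ} (ho : Odd h) {a : ZMod h} (ha : 2 * a = 0) : a = 0 := by
  have hu : IsUnit ((2 : ℕ) : ZMod h) :=
    (ZMod.isUnit_iff_coprime 2 h).2 (Nat.coprime_two_left.2 ho)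
  exact (hu.mul_right_eq_zero).1 (by exact_mod_cast ha)

theorem two_smul_P_ne_zero {h : ℕ} [NeZero h] (ho : Odd h) {P : ZMod h × ZMod h} (hP : P ≠ 0) :
    2 • P ≠ 0 := by
  intro h2
  refine hP (Prod.ext (h67_two_mul_eq_zero ho ?_) (h67_two_mul_eq_zero ho ?_))
  · simpa [two_mul, two_smul] using congrArg Prod.fst h2
  · simpa [two_mul, two_smul] using congrArg Prod.snd h2
theorem frobP_ne_zero {h : ℕ} [NeZero h] (ho : Odd h) {P : ZMod h × ZMod h} (hP : P ≠ 0) :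
    ((P.1, 2 * P.2) : ZMod h × ZMod h) ≠ 0 := by
  intro h2
  exact hP (Prod.ext (Prod.ext_iff.1 h2).1 (h67_two_mul_eq_zero ho (Prod.ext_iff.1 h2).2))
theorem two_zP_notMem (h : ℕ) [NeZero h] {P : ZMod h × ZMod h} (hP : 2 • P ≠ 0) (τ : ℍ) :
    2 * zP h P τ ∉ (Lat τ).lattice := by
  intro h2
  refine zP_notMem h hP τ ?_
  simpa using (Lat τ).lattice.sub_mem h2 (zP_two h P τ)

/-- `wpn_isog'` at `z = zP h P τ`; `2 z ≡ zP h (a, 2b) (2τ)` modulo `Lat (2τ)` (`zP_congr`);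
`HasQ.beta 2 2 0 1` (see `wi_hasQ_V`) for `xf h (a, 2b)`; `HasQ.lev`, `HasQ.unique`. -/
theorem isog_C (h : ℕ) [NeZero h] (ho : Odd h) {P : ZMod h × ZMod h} (hP : P ≠ 0) :
    (16 * PowerSeries.expand 2 two_ne_zero (Xser (eC h) (P.1, 2 * P.2)) + 1 - 4 * Xser (eC h) P) *
        (12 * Xser (eC h) P + 1 + 2 * lev ℂ h eps) = 4 * lev ℂ h eps ^ 2 - lev ℂ h E4s := by
  have hQ := frobP_ne_zero ho hP
  have h1 : HasQ h (betaFun 0 2 0 1 (xf h (P.1, 2 * P.2))) (PowerSeries.C (1 / 12) +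
      PowerSeries.expand 2 two_ne_zero (Xser (eC h) (P.1, 2 * P.2))) := by
    simpa [sB, PowerSeries.expand_C] using (wp_hasQ_xf h (P.1, 2 * P.2)).beta 0 2 0 1
  have h2 := wp_hasQ_xf h P
  have h3 := wi_hasQ_epsf.lev h
  have h4 := wi_hasQ_E4f.lev h
  have hL := ((h1.smul 16).sub (h2.smul 4)).mul ((h2.smul 12).add (h3.smul 2))
  have hR := ((h3.pow 2).smul 4).sub h4
  have he : ((16 : ℂ) • betaFun 0 2 0 1 (xf h (P.1, 2 * P.2)) - (4 : ℂ) • xf h P) *
      ((12 : ℂ) • xf h P + (2 : ℂ) • epsf) = (4 : ℂ) • epsf ^ 2 - E4f := by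
    funext τ
    have k1 := wpn_isog' τ (two_zP_notMem h (two_smul_P_ne_zero ho hP) τ)
    have k2 := zP_congr h (P.1, 2 * P.2) (betaPt 2 0 1 τ) (A := P.1.val) (B := 2 * P.2.val)
      (by simp) (by simp)
    have k3 : (((P.1.val : ℤ) : ℂ) * (betaPt 2 0 1 τ : ℍ) + ((2 * P.2.val : ℤ) : ℂ)) / h =
        2 * zP h P τ := by
      rw [h5_coe_betaPt, zP]
      push_cast
      ring
    rw [k3] at k2
    rw [wpn_congr _ k2, ← xf_eq h hQ, ← xf_eq h hP] at k1
    simp only [Pi.mul_apply, Pi.sub_apply, Pi.add_apply, Pi.smul_apply, Pi.pow_apply, smul_eq_mul,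
      betaFun, neg_zero, zpow_zero, one_mul]
    linear_combination 48 * k1
  rw [he] at hL
  have key := hL.unique hR
  have hc : (12 : ℂ⟦X⟧) * PowerSeries.C (1 / 12) = 1 := by
    rw [← map_ofNat (PowerSeries.C (R := ℂ)) 12, ← map_mul]
    norm_num
  simp only [smul_eq_C_mul, map_ofNat] at key
  linear_combination key - (12 * PowerSeries.C (1 / 12 : ℂ) + 1 + 8 * Xser (eC h) P +
    2 * lev ℂ h eps + 16 * PowerSeries.expand 2 two_ne_zero (Xser (eC h) (P.1, 2 * P.2))) * hc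

/-- `WittVector.frobenius (teichmuller x) = teichmuller x ^ 2`, `map_Xser`, `map_lev`,
`Xser (e ∘ 2) (a, b) = Xser e (a, 2 b)`, `expand 2 (lev h x) = lev h (V2 x)` -/
theorem phiL_Xser (h : ℕ) [NeZero h] (ho : Odd h) (P : ZMod h × ZMod h) :
    phiL (Xser (eO h) P) = PowerSeries.expand 2 two_ne_zero (Xser (eO h) (P.1, 2 * P.2)) := by
  have h1 : ∀ x, (eO h).mulShift 2 x = WittVector.frobenius (eO h x) := fun x => by
    have e : (2 : ZMod h) * (x.val : ZMod h) = ((2 * x.val : ℕ) : ZMod h) := by push_cast; rfl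
    rw [AddChar.mulShift_apply, ← ZMod.natCast_zmod_val x, e, eO, chr_nat (zO_pow h ho),
      chr_nat (zO_pow h ho), map_pow, zO, WittVector.frobenius_eq_map_frobenius,
      WittVector.map_teichmuller, frobenius_def, map_pow, pow_mul]
  have h2 : phiL (Xser (eO h) P) = PowerSeries.expand 2 two_ne_zero
    (PowerSeries.map WittVector.frobenius (Xser (eO h) P)) := rfl
  rw [h2, map_Xser _ (prim_eO h ho) h1]
  congr 1
  ext n
  simp only [Xser, coeff_mk, AddChar.mulShift_apply, mul_neg, mul_assoc]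
theorem wp_phiL_lev (h : ℕ) [NeZero h] (x : ℤ⟦X⟧) : phiL (lev OO h x) = lev OO h (V2 x) := by
  have h1 : phiL (lev OO h x) = PowerSeries.expand 2 two_ne_zero
    (PowerSeries.map WittVector.frobenius (lev OO h x)) := rfl
  have h2 : ∀ y, lev OO h y = PowerSeries.expand h (NeZero.ne h)
    (PowerSeries.map (Int.castRingHom OO) y) := fun _ => rfl
  rw [h1, map_lev, h2, h2, V2, map_expand, ← expand_mul, ← expand_mul]
  simp only [mul_comm]

/-- transfer `isog_C` to `OO` (`exists_iota`, `Lifts.*`, `Lifts.unique`); with `Z ε = X - 2 σ`,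
`φZ · λ ε = φX - 2 Vσ`, `24 σ = ε - 1`, `24 Vσ = λ ε - 1` (`wi_V2_eps`, `wi_eps_inv`),
`E₄ = ε²(1 + 192 ρ)`, `λ = 1 - 24 μ` the identity is `48 ε²` times the claim; `OO⟦X⟧` is a domain of
characteristic zero. -/
theorem wp_isog_OO (h : ℕ) [NeZero h] (ho : Odd h) {P : ZMod h × ZMod h} (hP : P ≠ 0) :
    lev OO h lam * phiL (Zser (eO h) P) * (1 + 4 * Zser (eO h) P) =
      2 * lev OO h mu * (1 + 4 * Zser (eO h) P) + Zser (eO h) P ^ 2 - 4 * lev OO h rho := by
  obtain ⟨ι, hι⟩ := exists_iota h ho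
  have lX : ∀ Q, Lifts ι (Xser (eC h) Q) (Xser (eO h) Q) := Lifts.Xser ho hι h dvd_rfl
  have l1 := ((((Lifts.ofNat (ι := ι) 16).mul ((lX (P.1, 2 * P.2)).expand 2 two_ne_zero)).add
    Lifts.one).sub ((Lifts.ofNat 4).mul (lX P))).mul
      ((((Lifts.ofNat 12).mul (lX P)).add Lifts.one).add ((Lifts.ofNat 2).mul (Lifts.lev h eps)))
  have l2 := ((Lifts.ofNat (ι := ι) 4).mul ((Lifts.lev h eps).pow 2)).sub (Lifts.lev h E4s)
  have key : (16 * phiL (Xser (eO h) P) + 1 - 4 * Xser (eO h) P) *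
      (12 * Xser (eO h) P + 1 + 2 * lev OO h eps) = 4 * lev OO h eps ^ 2 - lev OO h E4s := by
    rw [phiL_Xser h ho]
    exact Lifts.unique l1 ((isog_C h ho hP).symm ▸ l2)
  have e1 : lev OO h eps * lev OO h epsInv = 1 := by rw [← map_mul, wi_eps_inv, map_one]
  have e2 : lev OO h lam * lev OO h eps * lev OO h (V2 epsInv) = 1 := by
    rw [← map_mul, ← wi_V2_eps, ← map_mul, ← map_mul, wi_eps_inv, map_one, map_one]
  have e3 : lev OO h eps = 1 + 24 * lev OO h sigO := by rw [eps, map_add, map_mul, map_one, map_ofNat]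
  have e4 : lev OO h eps * lev OO h mu = lev OO h sigO - lev OO h (V2 sigO) := by
    rw [← map_mul, wi_mu, map_sub]
  have e5 : lev OO h E4s = lev OO h eps ^ 2 * (1 + 192 * lev OO h rho) := by
    rw [wi_E4s_eq, map_mul, map_pow, map_add, map_mul, map_one, map_ofNat]
  have z1 : Xser (eO h) P = Zser (eO h) P * lev OO h eps + 2 * lev OO h sigO := by
    rw [Zser]
    linear_combination (2 * lev OO h sigO - Xser (eO h) P) * e1
  have z2 : phiL (Xser (eO h) P) =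
      lev OO h lam * phiL (Zser (eO h) P) * lev OO h eps + 2 * lev OO h (V2 sigO) := by
    rw [Zser, map_mul, map_sub, map_mul, map_ofNat, wp_phiL_lev, wp_phiL_lev]
    linear_combination (2 * lev OO h (V2 sigO) - phiL (Xser (eO h) P)) * e2
  have hc : CharZero OO := h31_charZero_OO
  have n1 : (48 : OO⟦X⟧) ≠ 0 := by
    rw [← map_ofNat C 48]
    exact (map_ne_zero_iff _ C_injective).2 (OfNat.ofNat_ne_zero 48)
  refine mul_left_cancel₀ (mul_ne_zero n1 (pow_ne_zero 2 (left_ne_zero_of_mul_eq_one e1))) ?_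
  rw [z2, e5] at key
  generalize lev OO h lam * phiL (Zser (eO h) P) = W at key ⊢
  have f1 : 16 * (W * lev OO h eps + 2 * lev OO h (V2 sigO)) + 1 - 4 * Xser (eO h) P =
      lev OO h eps * (16 * W + 1 - 32 * lev OO h mu - 4 * Zser (eO h) P) := by
    linear_combination (-4) * z1 - e3 + 32 * e4
  have f2 : 12 * Xser (eO h) P + 1 + 2 * lev OO h eps =
      3 * lev OO h eps * (1 + 4 * Zser (eO h) P) := by
    linear_combination 12 * z1 - e3
  rw [f1, f2] at key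
  linear_combination key

/-- `wpn_dup`, `zP_two`, `HasQ.unique`; the unknowns are `12 x = 1 + 12 X` -/
theorem dup_C (h : ℕ) [NeZero h] {P : ZMod h × ZMod h} (hP : P ≠ 0) (h2 : 2 • P ≠ 0) :
    4 * (1 + 12 * Xser (eC h) (2 • P)) * ((1 + 12 * Xser (eC h) P) ^ 3 -
        3 * lev ℂ h E4s * (1 + 12 * Xser (eC h) P) + 2 * lev ℂ h E6s) =
      (1 + 12 * Xser (eC h) P) ^ 4 + 6 * lev ℂ h E4s * (1 + 12 * Xser (eC h) P) ^ 2 -
        16 * lev ℂ h E6s * (1 + 12 * Xser (eC h) P) + 9 * lev ℂ h E4s ^ 2 := by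
  have c : ∀ n : ℕ, HasQ h (fun _ => (n : ℂ)) (n : ℂ⟦X⟧) := fun n => by
    simpa only [map_natCast] using HasQ.const h n
  have e : (12 : ℂ⟦X⟧) * PowerSeries.C (1 / 12) = 1 := by
    rw [← map_ofNat PowerSeries.C 12, ← map_mul]
    norm_num
  have u : ∀ {Q : ZMod h × ZMod h}, Q ≠ 0 →
      HasQ h (fun τ => 12 * wpn τ (zP h Q τ)) (1 + 12 * Xser (eC h) Q) := fun hQ => by
    rw [← e, ← mul_add]
    exact (c 12).mul (hasQ_wpn h hQ)
  have a4 := wi_hasQ_E4f.lev h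
  have a6 := wi_hasQ_E6f.lev h
  have l1 := ((c 4).mul (u h2)).mul ((((u hP).pow 3).sub (((c 3).mul a4).mul (u hP))).add
    ((c 2).mul a6))
  have l2 := ((((u hP).pow 4).add (((c 6).mul a4).mul ((u hP).pow 2))).sub
    (((c 16).mul a6).mul (u hP))).add ((c 9).mul (a4.pow 2))
  refine l1.unique (cast (congrArg (HasQ h · _) (funext fun τ => Eq.symm ?_)) l2)
  have h3 := wpn_dup τ (two_zP_notMem h h2 τ)
  rw [wpn_congr τ (zP_two h P τ)] at h3
  simp only [Pi.mul_apply, Pi.add_apply, Pi.sub_apply, Pi.pow_apply, Nat.cast_ofNat]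
  linear_combination 20736 * h3

/-- substitute `1 + 12 X = ε (1 + 12 Z)`, `E₄ = ε²(1 + 192ρ)`, `E₆ = ε³(1 - 576ρ)` in `dup_C` and
cancel `20736 ε⁴` -/
theorem dup_C_Z (h : ℕ) [NeZero h] {P : ZMod h × ZMod h} (hP : P ≠ 0) (h2 : 2 • P ≠ 0) :
    Zser (eC h) (2 • P) * (4 * Zser (eC h) P ^ 3 + Zser (eC h) P ^ 2 -
        16 * lev ℂ h rho * Zser (eC h) P - 4 * lev ℂ h rho) =
      Zser (eC h) P ^ 4 + 8 * lev ℂ h rho * Zser (eC h) P ^ 2 + 8 * lev ℂ h rho * Zser (eC h) P +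
        lev ℂ h rho + 16 * lev ℂ h rho ^ 2 := by
  have e0 := lev_eps_mul_inv (R := ℂ) (h := h)
  have e1 : ∀ Q, 1 + 12 * Xser (eC h) Q = lev ℂ h eps * (1 + 12 * Zser (eC h) Q) := fun Q => by
    have e : lev ℂ h eps = 1 + 24 * lev ℂ h sigO := by
      rw [eps, map_add, map_one, map_mul, map_ofNat]
    rw [Zser]
    linear_combination -e - 12 * (Xser (eC h) Q - 2 * lev ℂ h sigO) * e0
  have e2 := dup_C h hP h2
  rw [e1, e1, wi_E4s_eq, wi_E6s_eq] at e2
  simp only [map_mul, map_pow, map_add, map_sub, map_one, map_ofNat] at e2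
  have h0 : (20736 : ℂ⟦X⟧) * lev ℂ h eps ^ 4 ≠ 0 := by
    refine mul_ne_zero ?_ (pow_ne_zero _ (left_ne_zero_of_mul_eq_one e0))
    rw [← map_ofNat PowerSeries.C 20736]
    exact (map_ne_zero _).2 (by norm_num)
  exact mul_left_cancel₀ h0 (by linear_combination e2)

/-- `dup_C_Z`, `Lifts.Zser`, `Lifts.unique`, then `PowerSeries.map red` (`map_Zser`, `map_lev`,
`Zser_FF`, `h25_two_FF`) -/
theorem wp_dup_FF (h : ℕ) [NeZero h] (ho : Odd h) {P : ZMod h × ZMod h} (hP : P ≠ 0) :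
    Xser (eF h) (2 • P) * Xser (eF h) P ^ 2 = Xser (eF h) P ^ 4 + lev FF h rho := by
  obtain ⟨ι, hι⟩ := exists_iota h ho
  have z := Lifts.Zser ho hι h dvd_rfl P
  have r : Lifts ι _ _ := Lifts.lev h rho
  have l1 := (Lifts.Zser ho hι h dvd_rfl (2 • P)).mul
    (((((Lifts.ofNat 4).mul (z.pow 3)).add (z.pow 2)).sub (((Lifts.ofNat 16).mul r).mul z)).sub
      ((Lifts.ofNat 4).mul r))
  have l2 := ((((z.pow 4).add (((Lifts.ofNat 8).mul r).mul (z.pow 2))).add
    (((Lifts.ofNat 8).mul r).mul z)).add r).add ((Lifts.ofNat 16).mul (r.pow 2))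
  rw [dup_C_Z h hP (two_smul_P_ne_zero ho hP)] at l1
  have e := congrArg (PowerSeries.map red) (l1.unique l2)
  simp only [map_mul, map_pow, map_add, map_sub, map_ofNat, map_lev,
    map_Zser red (prim_eO h ho) (eF_eq h ho), Zser_FF] at e
  linear_combination e + (-Xser (eF h) (2 • P) * (2 * Xser (eF h) P ^ 3 -
    8 * lev FF h rho * Xser (eF h) P - 2 * lev FF h rho) + 4 * lev FF h rho * Xser (eF h) P ^ 2 +
    4 * lev FF h rho * Xser (eF h) P + 8 * lev FF h rho ^ 2) * h25_two_FF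

/-! ### the 3-torsion points -/

/-- pointwise from `wp_xf_slash`, `wp_dxf_slash`, `wi_isMF_E4f.inv` (`ModularForm.SL_slash_apply`) -/
theorem wp_a1f_slash (h : ℕ) [NeZero h] {P : ZMod h × ZMod h} (hP : P ≠ 0) (γ : SL(2, ℤ)) :
    (a1f h P) ∣[(1 : ℤ)] γ = a1f h (actP P γ) := by
  funext τ
  have hd : denom γ τ ≠ 0 := denom_ne_zero _ _
  have h1 := congrFun (wp_xf_slash h hP γ) τ
  have h2 := congrFun (wp_dxf_slash h hP γ) τ
  have h3 := congrFun (wi_isMF_E4f.inv γ (Subgroup.mem_top γ)) τ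
  rw [ModularForm.SL_slash_apply, zpow_neg, zpow_ofNat] at h1 h2 h3
  rw [ModularForm.SL_slash_apply, zpow_neg, zpow_one, a1f, a1f, ← h1, ← h2, ← h3]
  by_cases h0 : dxf h P (γ • τ) = 0
  · rw [h0, zero_mul, div_zero, div_zero, zero_mul]
  · field_simp

theorem h32_two_smul_ne {h : ℕ} {P : ZMod h × ZMod h} (hP : P ≠ 0) (h3 : 3 • P = 0) :
    2 • P ≠ 0 := by
  intro h2
  rw [succ_nsmul, h2, zero_add] at h3
  exact hP h3

/-- `wpn_dup` with `x(2P) = x(-P) = x(P)` (`Xser_neg`) and `wpn_ode` -/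
theorem three_tors_sq (h : ℕ) [NeZero h] {P : ZMod h × ZMod h} (hP : P ≠ 0) (h3 : 3 • P = 0)
    (τ : ℍ) : (6 * xf h P τ ^ 2 - E4f τ / 24) ^ 2 = 12 * xf h P τ * dxf h P τ ^ 2 := by
  have h2 := h32_two_smul_ne hP h3
  have k1 := wpn_dup τ (two_zP_notMem h h2 τ)
  have k2 := wpn_ode τ (zP_notMem h hP τ)
  have k3 : xf h (2 • P) τ = xf h P τ := by
    have e : 2 • P = -P := by
      rw [eq_neg_iff_add_eq_zero, ← succ_nsmul]
      exact h3
    rw [e, xf, xf, Xser_neg _ (prim_eC h)]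
  rw [wpn_congr τ (zP_two h P τ), ← xf_eq h h2, k3, ← xf_eq h hP] at k1
  rw [← xf_eq h hP, ← dxf_eq h hP] at k2
  linear_combination (-4) * k1 - 12 * xf h P τ * k2

/-- otherwise the cubic has a double root, contradicting `E4_E6_ne` -/
theorem dxf_ne_zero (h : ℕ) [NeZero h] {P : ZMod h × ZMod h} (hP : P ≠ 0) (h3 : 3 • P = 0)
    (τ : ℍ) : dxf h P τ ≠ 0 := by
  intro h0
  have k1 := three_tors_sq h hP h3 τ
  have k2 := wpn_ode τ (zP_notMem h hP τ)
  rw [← xf_eq h hP, ← dxf_eq h hP] at k2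
  rw [h0] at k1 k2
  have k3 : 6 * xf h P τ ^ 2 - E4f τ / 24 = 0 := by
    refine pow_eq_zero_iff (n := 2) two_ne_zero |>.1 ?_
    linear_combination k1
  have e4 : E4f τ = 144 * xf h P τ ^ 2 := by linear_combination (-24) * k3
  have e6 : E6f τ = 1728 * xf h P τ ^ 3 := by
    rw [e4] at k2
    linear_combination (-216) * k2
  refine E4_E6_ne τ ?_
  rw [e4, e6]
  ring

theorem a1f_sq (h : ℕ) [NeZero h] {P : ZMod h × ZMod h} (hP : P ≠ 0) (h3 : 3 • P = 0)
    (τ : ℍ) : a1f h P τ ^ 2 = 12 * xf h P τ := by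
  have k1 := three_tors_sq h hP h3 τ
  have k2 := dxf_ne_zero h hP h3 τ
  rw [a1f, div_pow, k1]
  field_simp


/-- holomorphic as a quotient (`UpperHalfPlane.mdifferentiable_iff`), bounded since its square is
(`isBoundedAtImInfty_iff`); `3 • actP P γ = 0`. -/
theorem wp_isMF_a1f (h : ℕ) [NeZero h] {P : ZMod h × ZMod h} (hP : P ≠ 0) (h3 : 3 • P = 0) :
    IsMF 1 (CongruenceSubgroup.Gamma h) (a1f h P) := by
  refine ⟨?_, fun γ hγ => by rw [wp_a1f_slash h hP, actP_of_mem P hγ], fun γ => ?_⟩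
  · have h1 := UpperHalfPlane.mdifferentiable_iff.1 (wp_hasQ_xf h P).holo
    have h2 := UpperHalfPlane.mdifferentiable_iff.1 (wp_hasQ_dxf h P).holo
    have h4 := UpperHalfPlane.mdifferentiable_iff.1 wi_isMF_E4f.holo
    exact UpperHalfPlane.mdifferentiable_iff.2
      ((((h1.pow 2).const_mul 6).sub (h4.div_const 24)).div h2 fun z _ => dxf_ne_zero h hP h3 _)
  · have h4 : 3 • actP P γ = 0 := by
      have a : 3 * P.1 = 0 := by simpa using congrArg Prod.fst h3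
      have b : 3 * P.2 = 0 := by simpa using congrArg Prod.snd h3
      refine Prod.ext ?_ ?_
      · rw [Prod.smul_fst]
        simp only [actP, nsmul_eq_mul, Prod.fst_zero]
        push_cast
        linear_combination ((γ 0 0 : ℤ) : ZMod h) * a + ((γ 1 0 : ℤ) : ZMod h) * b
      · rw [Prod.smul_snd]
        simp only [actP, nsmul_eq_mul, Prod.snd_zero]
        push_cast
        linear_combination ((γ 0 1 : ℤ) : ZMod h) * a + ((γ 1 1 : ℤ) : ZMod h) * b
    rw [wp_a1f_slash h hP]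
    obtain ⟨M, A, hM⟩ := isBoundedAtImInfty_iff.1 (wp_hasQ_xf h (actP P γ)).bdd
    refine isBoundedAtImInfty_iff.2 ⟨12 * M + 1, A, fun z hz => ?_⟩
    have h5 := congrArg norm (a1f_sq h (wi_actP_ne_zero hP γ) h4 z)
    rw [norm_pow, norm_mul, Complex.norm_ofNat] at h5
    nlinarith [hM z hz, sq_nonneg (‖a1f h (actP P γ) z‖ - 1), norm_nonneg (a1f h (actP P γ) z)]

/-- `A = qExpansion h (a1f h P)` (`IsMF.hasQ`, `T ^ h ∈ Γ(h)`), `HasQ.unique` -/
theorem wp_hasQ_a1f (h : ℕ) [NeZero h] {P : ZMod h × ZMod h} (hP : P ≠ 0) (h3 : 3 • P = 0) :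
    ∃ A : ℂ⟦X⟧, HasQ h (a1f h P) A ∧ IsA1 (eC h) P A := by
  have hT : ModularGroup.T ^ h ∈ CongruenceSubgroup.Gamma h := by
    simpa using CongruenceSubgroup.ModularGroup_T_pow_mem_Gamma (h : ℤ) (h : ℤ) dvd_rfl
  have hA := (wp_isMF_a1f h hP h3).hasQ h hT
  have hx := wp_hasQ_xf h P
  have c12 : (PowerSeries.C (1 / 12 : ℂ)) * 12 = 1 := by
    rw [← map_ofNat (PowerSeries.C (R := ℂ)) 12, ← map_mul]; simp
  refine ⟨_, hA, ?_, ?_⟩
  · have h1 := (hA.mul (wp_hasQ_dxf h P)).smul 24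
    have h2 := ((hx.pow 2).smul 144).sub (wi_hasQ_E4f.lev h)
    have h4 : (24 : ℂ) • (a1f h P * dxf h P) = (144 : ℂ) • xf h P ^ 2 - E4f := by
      funext τ
      have := dxf_ne_zero h hP h3 τ
      simp only [Pi.smul_apply, Pi.mul_apply, Pi.sub_apply, Pi.pow_apply, smul_eq_mul, a1f]
      field_simp
      ring
    rw [h4] at h1
    have h5 := h1.unique h2
    simp only [E4s, map_add, map_mul, map_one, map_ofNat, smul_eq_C_mul] at h5
    have h6 : (24 : ℂ⟦X⟧) ≠ 0 := by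
      rw [← map_ofNat (PowerSeries.C (R := ℂ)) 24]
      exact (map_ne_zero_iff _ PowerSeries.C_injective).2 (by norm_num)
    refine mul_left_cancel₀ h6 ?_
    linear_combination h5 + (12 * PowerSeries.C (1 / 12 : ℂ) + 1 + 24 * Xser (eC h) P) * c12
  · have h1 := hA.pow 2
    have h4 : a1f h P ^ 2 = (12 : ℂ) • xf h P := funext fun τ => a1f_sq h hP h3 τ
    rw [h4] at h1
    have h5 := h1.unique (hx.smul 12)
    simp only [map_ofNat, smul_eq_C_mul] at h5
    linear_combination h5 + c12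

theorem wp_DXser_C_ne_zero (h : ℕ) [NeZero h] {P : ZMod h × ZMod h} (hP : P ≠ 0)
    (h3 : 3 • P = 0) : DXser (eC h) P ≠ 0 := by
  intro h0
  have h1 := wp_hasQ_dxf h P
  rw [h0] at h1
  exact dxf_ne_zero h hP h3 UpperHalfPlane.I (congrFun (h1.fun_eq (HasQ.zero h)) _)

end Crest.Agent.R007
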