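import Crest.Agent.R007.WP3

/-! # Row 7, block W: the Tate model of the formal group. -/

set_option autoImplicit false

noncomputable section
namespace Crest.Agent.R007

open PowerSeries

/-- the differential equation of `℘` at the torsion points, as series -/
def ODEC : Prop := ∀ (h : ℕ) [NeZero h] (P : ZMod h × ZMod h), P ≠ 0 →
  3 * DXser (eC h) P ^ 2 = 12 * Xser (eC h) P ^ 3 + 3 * Xser (eC h) P ^ 2 -
    60 * lev ℂ h (sig 3) * Xser (eC h) P - 5 * lev ℂ h (sig 3) - 7 * lev ℂ h (sig 5)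

theorem odeC : ODEC := by
  intro h _ P hP
  have hx := hasQ_wpn h hP
  have l1 := ((hasQ_wpd h hP).pow 2).smul 216
  have l2 := (((hx.pow 3).smul 864).sub (((wi_hasQ_E4f.lev h).mul hx).smul 18)).add
    (wi_hasQ_E6f.lev h)
  have e : (216 : ℂ) • (fun τ => wpd τ (zP h P τ)) ^ 2 =
      (864 : ℂ) • (fun τ => wpn τ (zP h P τ)) ^ 3 -
        (18 : ℂ) • (E4f * fun τ => wpn τ (zP h P τ)) + E6f := by
    funext τ
    simp only [Pi.smul_apply, Pi.pow_apply, Pi.add_apply, Pi.sub_apply, Pi.mul_apply, smul_eq_mul]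
    linear_combination 216 * wpn_ode τ (zP_notMem h hP τ)
  rw [← e] at l2
  have e2 := l1.unique l2
  have h12 : (12 : ℂ⟦X⟧) * C (1 / 12 : ℂ) = 1 := by
    rw [← map_ofNat (C : ℂ →+* ℂ⟦X⟧) 12, ← map_mul]; norm_num
  simp only [smul_eq_C_mul, map_ofNat, E4s, E6s, map_add, map_sub, map_mul, map_one] at e2
  have : CharZero ℂ⟦X⟧ := charZero_of_injective_ringHom (f := C) C_injective
  refine mul_left_cancel₀ (show (144 : ℂ⟦X⟧) ≠ 0 by norm_num) ?_
  generalize (C (1 / 12 : ℂ) : ℂ⟦X⟧) = c at h12 e2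
  linear_combination 2 * e2 + (432 * Xser (eC h) P ^ 2 + 36 * Xser (eC h) P * (12 * c + 1) +
    (144 * c ^ 2 + 12 * c + 1) - 3 - 720 * lev ℂ h (sig 3)) * h12

namespace Tt

section gen
variable {R S : Type} [CommRing R] [CommRing S]

/-- `∑_n ∑_{d ∣ n} d (u^d + v^d - 2) q^n` -/
def Xt (u v : R) : R⟦X⟧ :=
  PowerSeries.mk fun n => ∑ p ∈ n.divisorsAntidiagonal, (p.1 : R) * (u ^ p.1 + v ^ p.1 - 2)

/-- `∑_n ∑_{d ∣ n} (C(d,2) u^d - C(d+1,2) v^d + d) q^n` -/
def Yt (u v : R) : R⟦X⟧ :=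
  PowerSeries.mk fun n => ∑ p ∈ n.divisorsAntidiagonal,
    ((p.1.choose 2 : R) * u ^ p.1 - ((p.1 + 1).choose 2 : R) * v ^ p.1 + p.1)

/-- `(u - 1)² X(u)` -/
def xh (u v : R) : R⟦X⟧ := C u + C (u - 1) ^ 2 * Xt u v
/-- `(u - 1)³ Y(u)` -/
def yh (u v : R) : R⟦X⟧ := -C u ^ 2 + C (u - 1) ^ 3 * Yt u v
/-- an integer series over `R` -/
def zs (R : Type) [CommRing R] : ℤ⟦X⟧ →+* R⟦X⟧ := PowerSeries.map (Int.castRingHom R)

/-- the equation of the Tate curve, denominators cleared -/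
def Phi (u v : R) : R⟦X⟧ :=
  3 * (2 * yh u v + C (u - 1) * xh u v) ^ 2 - (12 * xh u v ^ 3 + 3 * C (u - 1) ^ 2 * xh u v ^ 2 -
    60 * zs R (sig 3) * C (u - 1) ^ 4 * xh u v -
      (5 * zs R (sig 3) + 7 * zs R (sig 5)) * C (u - 1) ^ 6)

theorem map_Xt (f : R →+* S) (u v : R) : PowerSeries.map f (Xt u v) = Xt (f u) (f v) := by
  ext n
  simp [Xt, map_ofNat]

theorem map_Yt (f : R →+* S) (u v : R) : PowerSeries.map f (Yt u v) = Yt (f u) (f v) := by
  ext n
  simp [Yt]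

theorem map_zs (f : R →+* S) (x : ℤ⟦X⟧) : PowerSeries.map f (zs R x) = zs S x := by
  ext n
  simp [zs]

theorem map_Phi (f : R →+* S) (u v : R) : PowerSeries.map f (Phi u v) = Phi (f u) (f v) := by
  simp only [Phi, xh, yh, map_sub, map_add, map_mul, map_pow, map_neg, map_ofNat, map_C, map_Xt,
    map_Yt, map_zs, map_one]

theorem sum_lev (h : ℕ) [NeZero h] (g : ℕ → R) (n : ℕ) :
    ∑ p ∈ n.divisorsAntidiagonal, (if (p.2 : ZMod h) = 0 then g p.1 else 0) =
      if h ∣ n then ∑ p ∈ (n / h).divisorsAntidiagonal, g p.1 else 0 := by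
  rw [h75_sum_div (NeZero.ne h) (fun d e => if (e : ZMod h) = 0 then g d else 0)
    fun d e he => if_neg fun h' => he ((ZMod.natCast_eq_zero_iff e h).1 h')]
  simp

variable {h : ℕ} [NeZero h] (e : AddChar (ZMod h) R) (b : ZMod h)

omit [NeZero h] in
theorem e_mul (d : ℕ) : e (b * d) = e b ^ d := by
  rw [← AddChar.map_nsmul_eq_pow, nsmul_eq_mul, mul_comm]

omit [NeZero h] in
theorem e_neg_mul (d : ℕ) : e (-(b * d)) = e (-b) ^ d := by rw [← e_mul, neg_mul]

theorem Xser_eq : Xser e (0, b) = C (e b * Ring.inverse (1 - e b) ^ 2) +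
    PowerSeries.expand h (NeZero.ne h) (Xt (e b) (e (-b))) := by
  ext n
  simp only [Xser, Xt, coeff_mk, map_add, coeff_C, coeff_expand, if_true, neg_zero]
  by_cases hn : n = 0
  · subst hn
    simp
  · rw [if_neg hn, if_neg hn, zero_add,
      ← sum_lev h fun d => (d : R) * (e b ^ d + e (-b) ^ d - 2)]
    refine Finset.sum_congr rfl fun p _ => ?_
    split_ifs
    · rw [e_mul, e_neg_mul]
    · simp

theorem Yser_eq : Yser e (0, b) = C (e b ^ 2 * Ring.inverse (1 - e b) ^ 3) +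
    PowerSeries.expand h (NeZero.ne h) (Yt (e b) (e (-b))) := by
  ext n
  simp only [Yser, Yt, coeff_mk, map_add, coeff_C, coeff_expand, if_true, neg_zero]
  by_cases hn : n = 0
  · subst hn
    simp
  · rw [if_neg hn, if_neg hn, zero_add,
      ← sum_lev h fun d => (d.choose 2 : R) * e b ^ d - ((d + 1).choose 2 : R) * e (-b) ^ d + d]
    refine Finset.sum_congr rfl fun p _ => ?_
    split_ifs
    · rw [e_mul, e_neg_mul]
    · simp

theorem expand_inj {f : R⟦X⟧} (hf : PowerSeries.expand h (NeZero.ne h) f = 0) : f = 0 := by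
  ext n
  rw [← coeff_expand_mul h (NeZero.ne h), hf, map_zero, map_zero]

end gen

theorem Phi_root (hO : ODEC) (h : ℕ) [NeZero h] {b : ZMod h} (hb : b ≠ 0) :
    Phi (eC h b) (eC h (-b)) = 0 := by
  have hu := prim_eC h b hb
  have e := hO h (0, b) fun e => hb (congrArg Prod.snd e)
  have hi : (C (eC h b) - 1) * C (Ring.inverse (1 - eC h b)) = (-1 : ℂ⟦X⟧) := by
    rw [← neg_sub, neg_mul, ← map_one C, ← map_sub, ← map_mul, Ring.mul_inverse_cancel _ hu]
  have hx : PowerSeries.expand h (NeZero.ne h) (xh (eC h b) (eC h (-b))) =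
      (C (eC h b) - 1) ^ 2 * Xser (eC h) (0, b) := by
    simp only [xh, Xser_eq, map_add, map_mul, map_pow, map_sub, map_one, expand_C]
    linear_combination (-C (eC h b) * ((C (eC h b) - 1) * C (Ring.inverse (1 - eC h b)) - 1)) * hi
  have hy : PowerSeries.expand h (NeZero.ne h) (yh (eC h b) (eC h (-b))) =
      (C (eC h b) - 1) ^ 3 * Yser (eC h) (0, b) := by
    simp only [yh, Yser_eq, map_add, map_mul, map_pow, map_sub, map_one, map_neg, expand_C]
    linear_combination (-C (eC h b) ^ 2 * (((C (eC h b) - 1) * C (Ring.inverse (1 - eC h b))) ^ 2 -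
      (C (eC h b) - 1) * C (Ring.inverse (1 - eC h b)) + 1)) * hi
  refine expand_inj (h := h) ?_
  have hz : ∀ x, PowerSeries.expand h (NeZero.ne h) (zs ℂ x) = lev ℂ h x := fun _ => rfl
  simp only [Phi, map_add, map_mul, map_pow, map_sub, map_one, map_ofNat, expand_C, hx, hy, hz]
  rw [DXser] at e
  linear_combination (C (eC h b) - 1) ^ 6 * e

open LaurentPolynomial in
theorem laurent_eq_zero {p : ℤ[T;T⁻¹]} (S : Set ℂ) (hS : S.Infinite)
    (hp : ∀ x ∈ S, ∃ u : ℂˣ, (u : ℂ) = x ∧ LaurentPolynomial.eval₂ (Int.castRingHom ℂ) u p = 0) :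
    p = 0 := by
  obtain ⟨n, f, hf⟩ := exists_T_pow p
  have h0 : f.map (Int.castRingHom ℂ) = 0 := by
    refine Polynomial.eq_zero_of_infinite_isRoot _ (hS.mono fun x hx => ?_)
    obtain ⟨u, rfl, hu⟩ := hp x hx
    rw [Set.mem_ofPred_eq, Polynomial.IsRoot, Polynomial.eval_map, ← eval₂_toLaurent, hf, map_mul,
      hu, zero_mul]
  rw [(Polynomial.map_eq_zero_iff (RingHom.injective_int _)).1 h0, map_zero] at hf
  exact (isUnit_T (n : ℤ)).mul_left_eq_zero.1 hf.symm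

open LaurentPolynomial in
theorem Phi_univ (hO : ODEC) : Phi (T 1 : ℤ[T;T⁻¹]) (T (-1)) = 0 := by
  ext1 n
  refine laurent_eq_zero (Set.range fun k : ℕ => zC (k + 2))
    (Set.infinite_range_of_injective fun k l e => ?_) ?_
  · have h1 := (zC_prim (k + 2)).eq_orderOf
    have h2 := (zC_prim (l + 2)).eq_orderOf
    rw [show zC (k + 2) = zC (l + 2) from e, ← h2] at h1
    omega
  · rintro _ ⟨k, rfl⟩
    have h1 : eC (k + 2) 1 = zC (k + 2) := by
      simpa [eC] using chr_nat (zC_prim (k + 2)).pow_eq_one 1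
    have h2 : eC (k + 2) 1 * eC (k + 2) (-1) = 1 := by
      rw [← AddChar.map_add_eq_mul, add_neg_cancel, AddChar.map_zero_eq_one]
    refine ⟨⟨_, _, h2, (mul_comm _ _).trans h2⟩, h1, ?_⟩
    have : Fact (1 < k + 2) := ⟨by omega⟩
    rw [← coeff_map, map_Phi, eval₂_T, eval₂_T, zpow_one, zpow_neg, zpow_one]
    exact congrArg (coeff n) (Phi_root hO (k + 2) one_ne_zero)

open LaurentPolynomial in
theorem Phi_eq (hO : ODEC) {R : Type} [CommRing R] (u : Rˣ) : Phi (u : R) (u⁻¹ : Rˣ) = 0 := by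
  have := congrArg (PowerSeries.map (LaurentPolynomial.eval₂ (Int.castRingHom R) u)) (Phi_univ hO)
  rwa [map_Phi, eval₂_T, eval₂_T, zpow_one, zpow_neg, zpow_one, map_zero] at this

section swap
variable {A : Type} [CommRing A]

/-- exchange of the two variables -/
def sw : A⟦X⟧⟦X⟧ →+* A⟦X⟧⟦X⟧ where
  toFun F := PowerSeries.mk fun j => PowerSeries.mk fun n => coeff j (coeff n F)
  map_one' := by
    ext j n
    simp only [coeff_mk, coeff_one]
    split_ifs <;> simp_all [coeff_one]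
  map_mul' F G := by
    ext j n
    simp only [coeff_mk, coeff_mul, map_sum]
    exact Finset.sum_comm
  map_zero' := by
    ext j n
    simp
  map_add' F G := by
    ext j n
    simp

theorem coeff_sw (F : A⟦X⟧⟦X⟧) (j n : ℕ) : coeff n (coeff j (sw F)) = coeff j (coeff n F) := by
  simp [sw]

theorem sw_C (f : A⟦X⟧) : sw (C f) = PowerSeries.map C f := by
  ext j n
  rw [coeff_sw, coeff_map, coeff_C, coeff_C]
  split_ifs <;> simp

theorem sw_zs (x : ℤ⟦X⟧) : sw (zs A⟦X⟧ x) = C (zs A x) := by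
  ext j n
  rw [coeff_sw, zs, zs, coeff_map, coeff_C, eq_intCast, ← map_intCast (C : A →+* A⟦X⟧), coeff_C]
  split_ifs <;> simp

theorem deriv_sw (F : A⟦X⟧⟦X⟧) :
    d⁄dX A⟦X⟧ (sw F) = sw (PowerSeries.mk fun n => d⁄dX A (coeff n F)) := by
  ext j n
  rw [coeff_sw, coeff_mk, coeff_derivative, coeff_derivative, ← coeff_sw,
    show ((j : A⟦X⟧) + 1) = C ((j : A) + 1) by simp, coeff_mul_C]

theorem deriv_map {B : Type} [CommRing B] (f : A →+* B) (G : A⟦X⟧) :
    d⁄dX B (PowerSeries.map f G) = PowerSeries.map f (d⁄dX A G) := by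
  ext n
  simp [coeff_derivative]

theorem deriv_Xt {v : A⟦X⟧} (hv : (1 + X) * v = 1) :
    C (1 + X) * (PowerSeries.mk fun n => d⁄dX A (coeff n (Xt (1 + X) v))) =
      2 * Yt (1 + X) v + Xt (1 + X) v := by
  have hu : d⁄dX A (1 + X : A⟦X⟧) = 1 := by simp
  have hv' : (1 + X) * d⁄dX A v = -v := by
    have := congrArg (d⁄dX A) hv
    rw [Derivation.leibniz, hu, Derivation.map_one_eq_zero, smul_eq_mul, smul_eq_mul] at this
    linear_combination this
  ext1 n
  rw [coeff_C_mul, two_mul, map_add, map_add]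
  simp only [coeff_mk, Xt, Yt, map_sum, Finset.mul_sum, ← Finset.sum_add_distrib]
  refine Finset.sum_congr rfl fun p hp => ?_
  obtain ⟨d, hd⟩ : ∃ d, p.1 = d + 1 :=
    Nat.exists_eq_succ_of_ne_zero (Nat.left_ne_zero_of_mem_divisorsAntidiagonal hp)
  have c1 : ∀ m : ℕ, 2 * (((m + 1).choose 2 : ℕ) : A⟦X⟧) = (m + 1) * m := fun m => by
    have h1 : 2 * (m + 1).choose 2 = (m + 1) * m := by
      rw [Nat.choose_two_right, Nat.add_sub_cancel]
      exact Nat.mul_div_cancel' (by rw [mul_comm]; exact (Nat.even_mul_succ_self m).two_dvd)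
    exact_mod_cast congrArg (Nat.cast : ℕ → A⟦X⟧) h1
  have h2 : d⁄dX A (2 : A⟦X⟧) = 0 := by simpa using (d⁄dX A).map_natCast 2
  rw [Derivation.leibniz, Derivation.map_natCast, smul_zero, add_zero, map_sub, map_add,
    derivative_pow, derivative_pow, hu, h2, smul_eq_mul, hd, Nat.add_sub_cancel]
  have e1 := c1 d
  have e2 := c1 (d + 1)
  push_cast at e2 ⊢
  linear_combination ((d : A⟦X⟧) + 1) ^ 2 * v ^ d * hv' - (1 + X) ^ (d + 1) * e1 + v ^ (d + 1) * e2

theorem dX_mul (a b : A⟦X⟧) : d⁄dX A (a * b) = a * d⁄dX A b + b * d⁄dX A a := by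
  rw [Derivation.leibniz, smul_eq_mul, smul_eq_mul]

end swap

/-- the algebra of the change of coordinates -/
theorem model {R : Type} [CommRing R] [IsDomain R] (D : R → R)
    (Dadd : ∀ a b, D (a + b) = D a + D b) (Dmul : ∀ a b, D (a * b) = a * D b + b * D a)
    {s u x y w A a : R} (hs : s ≠ 0) (Ds : D s = u) (DA : D A = 0) (Da : D a = 0)
    (hw : y * w = 1) (hη : 2 * y + a * s ^ 3 + A * s * x ≠ 0)
    (e : y * y + A * (s * (x * y)) + a * (s * (s * (s * y))) = x * (x * x))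
    (Dx : s * D x = 2 * u * x + (2 * y + a * s ^ 3 + A * s * x)) {T W : R}
    (hT : T = -(s * x * w)) (hW : W = -(s ^ 3 * w)) :
    W = T ^ 3 + A * T * W + a * W ^ 2 ∧ D T = 1 - A * T - 2 * a * W := by
  have hy : y ≠ 0 := left_ne_zero_of_mul_eq_one hw
  have hT' : T * y + s * x = 0 := by rw [hT]; linear_combination (-(s * x)) * hw
  have hW' : W * y + s ^ 3 = 0 := by rw [hW]; linear_combination (-s ^ 3) * hw
  have D0 : D 0 = 0 := by simpa using Dmul 0 0
  constructor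
  · refine mul_left_cancel₀ (pow_ne_zero 3 hy) ?_
    have t1 : T * y = -(s * x) := by linear_combination hT'
    have t2 : W * y = -s ^ 3 := by linear_combination hW'
    calc y ^ 3 * W = y ^ 2 * (W * y) := by ring
      _ = (T * y) ^ 3 + A * (T * y) * (W * y) * y + a * (W * y) ^ 2 * y := by
        rw [t1, t2]; linear_combination (-s ^ 3) * e
      _ = _ := by ring
  · have e1 := congrArg D e
    simp only [Dadd, Dmul, Ds, DA, Da, mul_zero, add_zero] at e1
    have Dy : s * D y = 3 * u * y + 3 * x ^ 2 - A * s * y := by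
      refine mul_left_cancel₀ hη ?_
      linear_combination s * e1 + (3 * x ^ 2 - A * s * y) * Dx - 6 * u * e
    have e2 := congrArg D hT'
    simp only [Dadd, Dmul, Ds, D0] at e2
    refine mul_left_cancel₀ (mul_ne_zero hs (pow_ne_zero 2 hy)) ?_
    linear_combination (s * y) * e2 - T * y * Dy - s * y * Dx -
      (3 * u * y + 3 * x ^ 2 - A * s * y - A * s * y) * hT' + 2 * a * s * y * hW' - 3 * s * e

theorem ode_OO (hO : ODEC) (h : ℕ) [NeZero h] (ho : Odd h) {P : ZMod h × ZMod h} (hP : P ≠ 0) :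
    3 * DXser (eO h) P ^ 2 = 12 * Xser (eO h) P ^ 3 + 3 * Xser (eO h) P ^ 2 -
      60 * lev OO h (sig 3) * Xser (eO h) P - 5 * lev OO h (sig 3) - 7 * lev OO h (sig 5) := by
  obtain ⟨ι, hι⟩ := exists_iota h ho
  have lX := Lifts.Xser ho hι h dvd_rfl P
  have l1 := (Lifts.ofNat 3).mul
    ((((Lifts.ofNat 2).mul (Lifts.Yser ho hι h dvd_rfl P)).add lX).pow 2)
  have l2 := (((((Lifts.ofNat 12).mul (lX.pow 3)).add ((Lifts.ofNat 3).mul (lX.pow 2))).sub
    (((Lifts.ofNat 60).mul (Lifts.lev h (sig 3))).mul lX)).sub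
    ((Lifts.ofNat 5).mul (Lifts.lev h (sig 3)))).sub ((Lifts.ofNat 7).mul (Lifts.lev h (sig 5)))
  rw [← hO h P hP] at l2
  exact l1.unique l2

end Tt

open Tt in
theorem tate_model_of (hO : ODEC) (h : ℕ) [NeZero h] (ho : Odd h) {P : ZMod h × ZMod h}
    (hP : P ≠ 0) {t₀ : OO⟦X⟧} (h₀ : IsA1 (eO h) P (1 + 2 * t₀)) {A : OO⟦X⟧}
    (hA : IsA1 (eO h) P A) :
    ∃ T W : OO⟦X⟧⟦X⟧, constantCoeff T = 0 ∧ coeff 1 T = 1 ∧ constantCoeff W = 0 ∧
      W = T ^ 3 + PowerSeries.C A * T * W + PowerSeries.C (DXser (eO h) P) * W ^ 2 ∧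
      (1 + X) * PowerSeries.derivative (OO⟦X⟧) T =
        1 - PowerSeries.C A * T - 2 * PowerSeries.C (DXser (eO h) P) * W := by
  obtain ⟨t, rfl⟩ : ∃ t, A = 1 + 2 * t := by
    rcases sq_eq_sq_iff_eq_or_eq_neg.1 (hA.2.trans h₀.2.symm) with e | e
    · exact ⟨t₀, e⟩
    · exact ⟨-1 - t₀, by linear_combination e⟩
  have : CharZero OO := h31_charZero_OO
  have : CharZero OO⟦X⟧ := charZero_of_injective_ringHom (f := C) C_injective
  have : CharZero OO⟦X⟧⟦X⟧ := charZero_of_injective_ringHom (f := C) C_injective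
  obtain ⟨u, hu⟩ : IsUnit (1 + X : OO⟦X⟧) := by simp [isUnit_iff_constantCoeff]
  have hv : (1 + X) * ((u⁻¹ : OO⟦X⟧ˣ) : OO⟦X⟧) = 1 := by rw [← hu, Units.mul_inv]
  have E := Phi_eq hO u
  rw [hu] at E
  generalize ((u⁻¹ : OO⟦X⟧ˣ) : OO⟦X⟧) = v at hv E
  let ε : OO⟦X⟧ →+* OO⟦X⟧ := (PowerSeries.expand (R := OO) h (NeZero.ne h)).toRingHom
  let Ψ : OO⟦X⟧⟦X⟧ →+* OO⟦X⟧⟦X⟧ := (PowerSeries.map ε).comp sw
  have ΨX : Ψ (C X) = X := by simp [Ψ, sw_C]
  have Ψz : ∀ x, Ψ (zs OO⟦X⟧ x) = C (lev OO h x) := fun x => by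
    rw [RingHom.comp_apply, sw_zs, map_C]; rfl
  have DXt : (1 + X) * d⁄dX OO⟦X⟧ (Ψ (Xt (1 + X) v)) =
      2 * Ψ (Yt (1 + X) v) + Ψ (Xt (1 + X) v) := by
    have := congrArg Ψ (deriv_Xt hv)
    rw [map_mul, map_add C, map_add, map_add, map_mul, map_ofNat, map_one, map_one, ΨX] at this
    rw [← this, RingHom.comp_apply, RingHom.comp_apply, deriv_map, deriv_sw]
  have E' := congrArg Ψ E
  simp only [Phi, xh, yh, add_sub_cancel_left, map_sub, map_add, map_mul, map_pow, map_neg,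
    map_ofNat, map_one, map_zero, ΨX, Ψz] at E'
  generalize Ψ (Xt (1 + X) v) = xt at DXt E'
  generalize Ψ (Yt (1 + X) v) = yt at DXt E'
  have EP := congrArg (C : OO⟦X⟧ →+* OO⟦X⟧⟦X⟧) (ode_OO hO h ho hP)
  have A1 := congrArg (C : OO⟦X⟧ →+* OO⟦X⟧⟦X⟧) hA.1
  have A2 := congrArg (C : OO⟦X⟧ →+* OO⟦X⟧⟦X⟧) hA.2
  have ha : (C (DXser (eO h) P) : OO⟦X⟧⟦X⟧) = 2 * C (Yser (eO h) P) + C (Xser (eO h) P) := by
    rw [DXser, map_add, map_mul, map_ofNat]
  have hA' : (C (1 + 2 * t) : OO⟦X⟧⟦X⟧) = 1 + 2 * C t := by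
    rw [map_add, map_mul, map_ofNat, map_one]
  simp only [map_sub, map_add, map_mul, map_pow, map_ofNat, map_one, ha] at EP A1 A2
  obtain ⟨x, hx⟩ : ∃ x : OO⟦X⟧⟦X⟧, x = 1 + X + X * (X * xt) + -(X * (X * C (Xser (eO h) P))) :=
    ⟨_, rfl⟩
  obtain ⟨y, hy⟩ : ∃ y : OO⟦X⟧⟦X⟧,
    y = -(1 + X) ^ 2 + X ^ 3 * yt - X ^ 3 * C (Yser (eO h) P) - C t * X * x := ⟨_, rfl⟩
  have cx : constantCoeff x = 1 := by simp [hx]
  have cy : constantCoeff y = -1 := by simp [hy]
  obtain ⟨w, hw⟩ : ∃ w, y * w = 1 :=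
    (isUnit_iff_constantCoeff.2 (cy ▸ isUnit_one.neg)).exists_right_inv
  have cw : constantCoeff w = -1 := by
    have := congrArg constantCoeff hw
    rw [map_mul, cy, map_one] at this
    linear_combination -this
  obtain ⟨h1, h2⟩ := model (fun G => (1 + X) * d⁄dX OO⟦X⟧ G)
    (fun a b => by rw [map_add, mul_add])
    (fun a b => by rw [dX_mul]; ring)
    (s := X) (u := 1 + X) (x := x) (y := y) (w := w) (A := C (1 + 2 * t))
    (a := C (DXser (eO h) P)) X_ne_zero (by simp) (by rw [derivative_C, mul_zero])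
    (by rw [derivative_C, mul_zero]) hw
    (fun e => by simpa [cy, map_ofNat] using congrArg constantCoeff e)
    (mul_left_cancel₀ (show (12 : OO⟦X⟧⟦X⟧) ≠ 0 by norm_num) (by
      rw [ha, hA', hy, hx]
      linear_combination E' - X ^ 6 * EP -
        6 * X ^ 4 * (1 + X + X * (X * xt) + -(X * (X * C (Xser (eO h) P)))) * A1 -
        3 * X ^ 2 * (1 + X + X * (X * xt) + -(X * (X * C (Xser (eO h) P)))) ^ 2 * A2))
    (by
      rw [ha, hA', hy, hx]
      simp only [map_add, map_neg, dX_mul, derivative_X, derivative_C, derivative_one]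
      linear_combination X ^ 3 * DXt) rfl rfl
  refine ⟨_, _, by simp, ?_, by simp, h1, h2⟩
  rw [mul_assoc, map_neg, ← zero_add 1, coeff_succ_X_mul, coeff_zero_eq_constantCoeff_apply, map_mul,
    cx, cw]
  simp

end Crest.Agent.R007
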