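import Crest.Agent.R007.HasQ
import Crest.Agent.R007.WInt
import Crest.Agent.R007.WP4
import Crest.Agent.R007.WTate
import Crest.Agent.R007.WDup
import Crest.Agent.R007.WTate

/-! # Row 7, block W: the Weierstrass function and the Tate curve (interface). -/

set_option autoImplicit false

noncomputable section
namespace Crest.Agent.R007

open PowerSeries UpperHalfPlane
open scoped ModularForm MatrixGroups TensorProduct

theorem hasQ_xf (h : ℕ) [NeZero h] (P : ZMod h × ZMod h) :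
    HasQ h (xf h P) (PowerSeries.C (1 / 12) + Xser (eC h) P) :=
  wp_hasQ_xf h P
theorem hasQ_dxf (h : ℕ) [NeZero h] (P : ZMod h × ZMod h) :
    HasQ h (dxf h P) (DXser (eC h) P) :=
  wp_hasQ_dxf h P
theorem actP_ne_zero {h : ℕ} {P : ZMod h × ZMod h} (hP : P ≠ 0) (γ : SL(2, ℤ)) : actP P γ ≠ 0 := by
  intro e
  have h1 : P.1 * (γ 0 0 : ℤ) + P.2 * (γ 1 0 : ℤ) = 0 := congrArg Prod.fst e
  have h2 : P.1 * (γ 0 1 : ℤ) + P.2 * (γ 1 1 : ℤ) = 0 := congrArg Prod.snd e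
  have hd := congrArg (Int.cast : ℤ → ZMod h) (Matrix.det_fin_two (γ : Matrix (Fin 2) (Fin 2) ℤ))
  rw [γ.det_coe] at hd
  push_cast at hd
  refine hP (Prod.ext ?_ ?_)
  · change P.1 = 0
    linear_combination P.1 * hd + (γ 1 1 : ℤ) * h1 - (γ 1 0 : ℤ) * h2
  · change P.2 = 0
    linear_combination P.2 * hd - (γ 0 1 : ℤ) * h1 + (γ 0 0 : ℤ) * h2
theorem xf_slash (h : ℕ) [NeZero h] {P : ZMod h × ZMod h} (hP : P ≠ 0) (γ : SL(2, ℤ)) :
    (xf h P) ∣[(2 : ℤ)] γ = xf h (actP P γ) :=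
  wp_xf_slash h hP γ
theorem dxf_slash (h : ℕ) [NeZero h] {P : ZMod h × ZMod h} (hP : P ≠ 0) (γ : SL(2, ℤ)) :
    (dxf h P) ∣[(3 : ℤ)] γ = dxf h (actP P γ) :=
  wp_dxf_slash h hP γ
theorem isMF_xf (h : ℕ) [NeZero h] {P : ZMod h × ZMod h} (hP : P ≠ 0) :
    IsMF 2 (CongruenceSubgroup.Gamma h) (xf h P) :=
  wp_isMF_xf h hP
theorem isMF_dxf (h : ℕ) [NeZero h] {P : ZMod h × ZMod h} (hP : P ≠ 0) :
    IsMF 3 (CongruenceSubgroup.Gamma h) (dxf h P) :=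
  wp_isMF_dxf h hP
/-- the `x`-coordinate separates points up to sign -/
theorem xf_inj (h : ℕ) [NeZero h] {P Q : ZMod h × ZMod h} (hP : P ≠ 0) (hQ : Q ≠ 0)
    (hx : xf h P = xf h Q) : P = Q ∨ P = -Q :=
  wi_xf_inj h (hasQ_xf h) (fun _ hP γ => xf_slash h hP γ) hP hQ hx

theorem hasQ_E4f : HasQ 1 E4f (lev ℂ 1 E4s) := wi_hasQ_E4f
theorem hasQ_E6f : HasQ 1 E6f (lev ℂ 1 E6s) := wi_hasQ_E6f
theorem hasQ_Delf : HasQ 1 Delf (lev ℂ 1 Dels) := wi_hasQ_Delf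
theorem hasQ_epsf : HasQ 1 epsf (lev ℂ 1 eps) := wi_hasQ_epsf
theorem isMF_E4f : IsMF 4 ⊤ E4f := wi_isMF_E4f
theorem isMF_E6f : IsMF 6 ⊤ E6f := wi_isMF_E6f
theorem isMF_Delf : IsMF 12 ⊤ Delf := wi_isMF_Delf
theorem isMF_epsf : IsMF 2 (CongruenceSubgroup.Gamma0 2) epsf := wi_isMF_epsf
theorem Delf_eq : Delf = fun τ => ModularForm.discriminant τ := wi_Delf_eq

/-! ### identities in `ℤ⟦q⟧` -/
theorem E4s_eq : E4s = eps ^ 2 * (1 + 192 * rho) := wi_E4s_eq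
theorem E6s_eq : E6s = eps ^ 3 * (1 - 576 * rho) := wi_E6s_eq
theorem rho_eq : rho = mu - 16 * mu ^ 2 := wi_rho_eq
theorem V2_rho : V2 rho * lam ^ 2 = mu ^ 2 := wi_V2_rho
theorem V2_eps : V2 eps = lam * eps := wi_V2_eps
theorem Dels_eq : 1728 * Dels = E4s ^ 3 - E6s ^ 2 := wi_Dels_eq
/-- the 4-torsion point `(0, 1/4)`: `12 x_Q = -ε - 4 ε(q²)` -/
theorem xQ_eq : 12 * (PowerSeries.C (1 / 12) + Xser (eC 4) (0, 1)) =
    -lev ℂ 4 eps - 4 * lev ℂ 4 (lam * eps) := wi_xQ_eq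

/-! ### the 3-torsion points -/
theorem a1f_slash (h : ℕ) [NeZero h] {P : ZMod h × ZMod h} (hP : P ≠ 0) (γ : SL(2, ℤ)) :
    (a1f h P) ∣[(1 : ℤ)] γ = a1f h (actP P γ) :=
  wp_a1f_slash h hP γ
theorem isMF_a1f (h : ℕ) [NeZero h] {P : ZMod h × ZMod h} (hP : P ≠ 0) (h3 : 3 • P = 0) :
    IsMF 1 (CongruenceSubgroup.Gamma h) (a1f h P) :=
  wp_isMF_a1f h hP h3
theorem hasQ_a1f (h : ℕ) [NeZero h] {P : ZMod h × ZMod h} (hP : P ≠ 0) (h3 : 3 • P = 0) :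
    ∃ A : ℂ⟦X⟧, HasQ h (a1f h P) A ∧ IsA1 (eC h) P A :=
  wp_hasQ_a1f h hP h3
theorem DXser_C_ne_zero (h : ℕ) [NeZero h] {P : ZMod h × ZMod h} (hP : P ≠ 0) (h3 : 3 • P = 0) :
    DXser (eC h) P ≠ 0 :=
  wp_DXser_C_ne_zero h hP h3
theorem h25_AS {R : Type} [CommRing R] (I : Ideal R) [HenselianRing R I] (c a : R)
    (h0 : a ^ 2 + a - c ∈ I) (h1 : IsUnit (Ideal.Quotient.mk I (2 * a + 1))) :
    ∃ t : R, t ^ 2 + t = c := by
  obtain ⟨t, ht, -⟩ := HenselianRing.is_henselian (I := I)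
    (Polynomial.X ^ 2 + Polynomial.X - Polynomial.C c) (by monicity!) a (by simpa using h0)
    (by convert h1 using 2; simp; ring)
  exact ⟨t, by simpa [sub_eq_zero] using ht⟩

theorem h25_AS_OO (c : OO) : ∃ t : OO, t ^ 2 + t = c := by
  have hd : (Polynomial.X ^ 2 + Polynomial.X - Polynomial.C (red c) : Polynomial FF).degree = 2 := by
    compute_degree!
  obtain ⟨r, hr⟩ := IsAlgClosed.exists_root _ (hd.trans_ne (by norm_num))
  have h2 : (2 : OO) ∈ Ideal.span {((2 : ℕ) : OO)} := Ideal.subset_span (by simp)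
  refine h25_AS (Ideal.span {((2 : ℕ) : OO)}) c (WittVector.teichmuller 2 r) ?_ ?_
  · rw [← WittVector.ker_constantCoeff, RingHom.mem_ker, map_sub, map_add, map_pow]
    simpa using hr
  · rw [map_add, Ideal.Quotient.eq_zero_iff_mem.2 (Ideal.mul_mem_right _ _ h2), zero_add, map_one]
    exact isUnit_one

theorem h25_AS_ser (y : OO⟦X⟧) : ∃ t : OO⟦X⟧, t ^ 2 + t = y := by
  obtain ⟨a, ha⟩ := h25_AS_OO (constantCoeff y)
  refine h25_AS (Ideal.span {X}) y (PowerSeries.C a) ?_ (IsUnit.map _ ?_)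
  · rw [Ideal.mem_span_singleton, X_dvd_iff]
    simp [ha]
  · rw [isUnit_iff_constantCoeff]
    have h2 : (2 : OO) ∈ Ideal.jacobson ⊥ :=
      HenselianRing.jac (I := Ideal.span {((2 : ℕ) : OO)}) (Ideal.subset_span (by simp))
    simpa [map_ofNat] using Ideal.mem_jacobson_bot.1 h2 a

theorem h25_lifts_DX {h : ℕ} [NeZero h] (ho : Odd h) {ι : KC h →+* KK} (hι : IsIota h ι) (h' : ℕ)
    [NeZero h'] (hd : h' ∣ h) (P : ZMod h' × ZMod h') :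
    Lifts ι (DXser (eC h') P) (DXser (eO h') P) :=
  ((Lifts.ofNat 2).mul (Lifts.Yser ho hι h' hd P)).add (Lifts.Xser ho hι h' hd P)

theorem h25_lifts_N {h : ℕ} [NeZero h] (ho : Odd h) {ι : KC h →+* KK} (hι : IsIota h ι) (h' : ℕ)
    [NeZero h'] (hd : h' ∣ h) (P : ZMod h' × ZMod h') :
    Lifts ι (6 * Xser (eC h') P ^ 2 + Xser (eC h') P - 10 * lev ℂ h' (sig 3))
      (6 * Xser (eO h') P ^ 2 + Xser (eO h') P - 10 * lev OO h' (sig 3)) :=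
  (((Lifts.ofNat 6).mul ((Lifts.Xser ho hι h' hd P).pow 2)).add (Lifts.Xser ho hι h' hd P)).sub
    ((Lifts.ofNat 10).mul (Lifts.lev h' _))

/-- `a₁` is 2-integral and `≡ 1 mod 2` (normality of `OO⟦X⟧`) -/
theorem exists_A1_OO (h : ℕ) [NeZero h] (ho : Odd h) {P : ZMod h × ZMod h} (hP : P ≠ 0)
    (h3 : 3 • P = 0) : ∃ t : OO⟦X⟧, IsA1 (eO h) P (1 + 2 * t) := by
  obtain ⟨ι, hι⟩ := exists_iota h ho
  obtain ⟨A, -, hA1, hA2⟩ := hasQ_a1f h hP h3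
  obtain ⟨t, ht⟩ := h25_AS_ser (3 * Xser (eO h) P)
  have l1 := (Lifts.one.add ((Lifts.ofNat 12).mul (Lifts.Xser ho hι h dvd_rfl P))).mul
    ((h25_lifts_DX ho hι h dvd_rfl P).pow 2)
  have l2 := (h25_lifts_N ho hι h dvd_rfl P).pow 2
  rw [← hA1, mul_pow, hA2] at l2
  have e := l1.unique l2
  have e2 : (1 + 2 * t) ^ 2 = 1 + 12 * Xser (eO h) P := by linear_combination 4 * ht
  rw [← e2, ← mul_pow, sq_eq_sq_iff_eq_or_eq_neg] at e
  rcases e with e | e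
  · exact ⟨t, e, e2⟩
  · exact ⟨-1 - t, by linear_combination -e, by linear_combination e2⟩
theorem lifts_A1 {h : ℕ} [NeZero h] (ho : Odd h) {ι : KC h →+* KK} (hι : IsIota h ι) (h' : ℕ)
    [NeZero h'] (hd : h' ∣ h) {P : ZMod h' × ZMod h'} (hP : P ≠ 0) (h3 : 3 • P = 0) {A : ℂ⟦X⟧}
    {A' : OO⟦X⟧} (a : IsA1 (eC h') P A) (a' : IsA1 (eO h') P A') : Lifts ι A A' := by
  refine Lifts.of_mul (DXser_C_ne_zero h' hP h3) (h25_lifts_DX ho hι h' hd P) ?_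
  rw [mul_comm, a.1, mul_comm (DXser _ _), a'.1]
  exact h25_lifts_N ho hι h' hd P

/-! ### 2-isogeny and duplication -/
theorem isog_OO (h : ℕ) [NeZero h] (ho : Odd h) {P : ZMod h × ZMod h} (hP : P ≠ 0) :
    lev OO h lam * phiL (Zser (eO h) P) * (1 + 4 * Zser (eO h) P) =
      2 * lev OO h mu * (1 + 4 * Zser (eO h) P) + Zser (eO h) P ^ 2 - 4 * lev OO h rho :=
  wp_isog_OO h ho hP
theorem dup_FF (h : ℕ) [NeZero h] (ho : Odd h) {P : ZMod h × ZMod h} (hP : P ≠ 0) :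
    Xser (eF h) (2 • P) * Xser (eF h) P ^ 2 = Xser (eF h) P ^ 4 + lev FF h rho := dup_FF' h ho hP
/-- `ρ = c⁴ + c³` (from `dup_FF` at a 3-torsion point) -/
theorem rho_FF (h : ℕ) [NeZero h] (ho : Odd h) {P : ZMod h × ZMod h} (hP : P ≠ 0) (h3 : 3 • P = 0) :
    lev FF h rho = Xser (eF h) P ^ 4 + Xser (eF h) P ^ 3 := by
  have e := dup_FF h ho hP
  rw [show 2 • P = -P from eq_neg_of_add_eq_zero_left (by rw [← succ_nsmul]; exact h3),
    Xser_neg _ (prim_eF h ho)] at e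
  linear_combination -e - Xser (eF h) P ^ 4 * h25_two_FF

/-! ### the Tate model of the formal group of `y² + a₁xy + a₃y = x³`, `u = 1 + s` -/
theorem tate_model (h : ℕ) [NeZero h] (ho : Odd h) {P : ZMod h × ZMod h} (hP : P ≠ 0)
    (h3 : 3 • P = 0) {A : OO⟦X⟧} (hA : IsA1 (eO h) P A) :
    ∃ T W : OO⟦X⟧⟦X⟧, constantCoeff T = 0 ∧ coeff 1 T = 1 ∧ constantCoeff W = 0 ∧
      W = T ^ 3 + PowerSeries.C A * T * W + PowerSeries.C (DXser (eO h) P) * W ^ 2 ∧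
      (1 + X) * PowerSeries.derivative (OO⟦X⟧) T =
        1 - PowerSeries.C A * T - 2 * PowerSeries.C (DXser (eO h) P) * W :=
  let ⟨_, h₀⟩ := exists_A1_OO h ho hP h3
  tate_model_of odeC h ho hP h₀ hA

end Crest.Agent.R007
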