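import Crest.Agent.R007.BDefs
import Crest.Agent.R007.W
import Crest.Agent.R007.GHen
import Crest.Agent.R007.IAlm

/-! # Row 7, GEO team B: embeddings into `FF((a))` (G6, G7; owner helper2). -/

set_option autoImplicit false

noncomputable section
namespace Crest.Agent.R007

open PowerSeries Crest.LubinTate Crest.Agent.R227

theorem Xser_good (M : ℕ) [NeZero M] (ho : Odd M) {P : ZMod M × ZMod M} (hP : P ≠ 0) :
    Xser (eF M) P ∈ goodAlg (eF M) := by
  refine ⟨isIntegral_of_dup (I := {P : ZMod M × ZMod M // P ≠ 0}) (ξ := fun P => Xser (eF M) P.1)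
    (ρ := ⟨_, Algebra.self_mem_adjoin_singleton _ _⟩)
    (fun P => ⟨⟨2 • P.1, fun h => P.2 ?_⟩, dup_FF M ho P.2⟩) ⟨P, hP⟩, 1, one_mem _, one_ne_zero, ?_⟩
  · obtain ⟨r, hr⟩ := ho
    have h1 : M • P.1 = 0 := by ext <;> simp
    rwa [show M • P.1 = (2 * r + 1) • P.1 by rw [← hr], succ_nsmul, mul_nsmul, h, smul_zero,
      zero_add] at h1
  · rw [one_mul]
    exact Algebra.subset_adjoin (Or.inr ⟨P, hP, (Zser_FF M _ P).symm⟩)

theorem rho_good (M : ℕ) [NeZero M] : lev FF M rho ∈ goodAlg (eF M) := by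
  refine ⟨isIntegral_algebraMap (x := (⟨_, Algebra.self_mem_adjoin_singleton _ _⟩ :
    Algebra.adjoin FF ({lev FF M rho} : Set FF⟦X⟧))), 1, one_mem _, one_ne_zero, ?_⟩
  rw [one_mul]
  exact Algebra.subset_adjoin (Or.inl (Or.inl rfl))

theorem h83_adjoin_map (φ : FF⟦X⟧ →ₐ[FF] FF⟦X⟧) {s s' : Set FF⟦X⟧} (hs : ∀ x ∈ s, φ x ∈ s')
    {y : FF⟦X⟧} (hy : y ∈ Algebra.adjoin FF s) : φ y ∈ Algebra.adjoin FF s' :=
  Algebra.adjoin_le (S := (Algebra.adjoin FF s').comap φ)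
    (fun x hx => Algebra.subset_adjoin (hs x hx)) hy

theorem expand_good (M l : ℕ) [NeZero M] [NeZero l] (ho : Odd M) (hl : Odd l) {f : FF⟦X⟧}
    (hf : f ∈ goodAlg (eF M)) : PowerSeries.expand l (NeZero.ne l) f ∈ goodAlg (eF (M * l)) := by
  obtain ⟨h1, D, hD, hD0, hDx⟩ := hf
  have hA : ∀ y ∈ ringA (eF M), PowerSeries.expand l (NeZero.ne l) y ∈ ringA (eF (M * l)) :=
    fun y hy => by
    refine h83_adjoin_map _ ?_ hy
    rintro _ ((rfl | rfl) | ⟨P, hP, rfl⟩)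
    · exact Or.inl (Or.inl (expand_lev l _))
    · exact Or.inl (Or.inr (expand_lev l _))
    · refine Or.inr ⟨liftP l P, liftP_ne_zero l hP, ?_⟩
      rw [Zser_FF, Zser_FF, eF, ← zz_mul M l ho hl]
      exact expand_Xser l (zz_pow _ (ho.mul hl)) P
  refine ⟨?_, _, hA D hD, fun h0 => hD0 (PowerSeries.ext fun n => ?_),
    by rw [← map_mul]; exact hA _ hDx⟩
  · refine h1.map_of_comp_eq (RingHom.codRestrict
      ((PowerSeries.expand (R := FF) l (NeZero.ne l)).toRingHom.comp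
        (algebraMap (Algebra.adjoin FF ({lev FF M rho} : Set FF⟦X⟧)) FF⟦X⟧))
      (Algebra.adjoin FF ({lev FF (M * l) rho} : Set FF⟦X⟧))
      fun y => h83_adjoin_map (PowerSeries.expand l (NeZero.ne l)) ?_ y.2)
      (PowerSeries.expand (R := FF) l (NeZero.ne l)).toRingHom rfl
    rintro _ rfl
    exact expand_lev l _
  · rw [← coeff_expand_mul l (NeZero.ne l), h0, map_zero, map_zero]

theorem emb_finite (M : ℕ) [NeZero M] (ho : Odd M) (h3 : 3 ∣ M) : Finite (EmbB M) := by sorry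

/-- G7: a good function vanishing at all the supersingular points is zero -/
theorem emb_inj (M : ℕ) [NeZero M] (ho : Odd M) (h3 : 3 ∣ M) (g : goodAlg (eF M))
    (hg : ∀ η : EmbB M, η.1 g ∈ NW) : g = 0 := by sorry

/-- G6: expansions extend to a higher level -/
theorem emb_ext (M l : ℕ) [NeZero M] [NeZero l] (ho : Odd M) (h3 : 3 ∣ M) (hl : Odd l) (η : EmbB M) :
    ∃ η' : EmbB (M * l), ∀ (g : goodAlg (eF M)) (g' : goodAlg (eF (M * l))),
      (g' : FF⟦X⟧) = PowerSeries.expand l (NeZero.ne l) (g : FF⟦X⟧) → η'.1 g' = η.1 g := by sorry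

theorem h75_aO_ne : aO ≠ 0 := fun h =>
  X_ne_zero ((map_eq_zero_iff _ (IsFractionRing.injective FF⟦X⟧ Om)).1 h)

theorem h75_pole_poly {m : ℕ} (p : Polynomial FF) (hp : 12 * p.natDegree ≤ m) :
    ∃ c : FF⟦X⟧, algebraMap FF⟦X⟧ Om c =
      aO ^ m * Polynomial.aeval ((aO⁻¹ ^ 3) ^ 4 + (aO⁻¹ ^ 3) ^ 3) p := by
  refine ⟨∑ i ∈ Finset.range (p.natDegree + 1),
    p.coeff i • (X ^ (m - 12 * i) * (1 + X ^ 3) ^ i), ?_⟩
  rw [Polynomial.aeval_eq_sum_range, map_sum, Finset.mul_sum]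
  refine Finset.sum_congr rfl fun i hi => ?_
  have hi' : 12 * i ≤ m := by have := Finset.mem_range.1 hi; omega
  obtain ⟨r, rfl⟩ := Nat.exists_eq_add_of_le hi'
  have ha := h75_aO_ne
  have e : aO ^ 12 * ((aO⁻¹ ^ 3) ^ 4 + (aO⁻¹ ^ 3) ^ 3) = 1 + aO ^ 3 := by field_simp
  rw [mul_smul_comm, Nat.add_sub_cancel_left, pow_add, pow_mul, mul_right_comm, ← mul_pow, e,
    Algebra.smul_def, Algebra.smul_def, map_mul, ← IsScalarTower.algebraMap_apply]
  simp only [map_mul, map_pow, map_add, map_one, aO]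
  ring

/-- pole order at the supersingular point -/
theorem pole_bound (k : ℕ) {x : Om} (hx : PoleEq ((aO⁻¹ ^ 3) ^ 4 + (aO⁻¹ ^ 3) ^ 3) k x) :
    ∃ f : FF⟦X⟧, algebraMap FF⟦X⟧ Om f = aO ^ k * x := by
  obtain ⟨n, p, -, hp, he⟩ := hx
  choose c hc using fun j => h75_pole_poly (p j) (hp j)
  refine IsIntegrallyClosed.isIntegral_iff.1 ⟨Polynomial.X ^ n +
    ∑ j ∈ Finset.range n, Polynomial.C (c j) * Polynomial.X ^ j, Polynomial.monic_X_pow_add ?_, ?_⟩
  · refine (Polynomial.degree_sum_le _ _).trans_lt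
      ((Finset.sup_lt_iff (WithBot.bot_lt_coe n)).2 fun j hj => ?_)
    exact (Polynomial.degree_C_mul_X_pow_le _ _).trans_lt
      (WithBot.coe_lt_coe.2 (Finset.mem_range.1 hj))
  · simp only [Polynomial.eval₂_add, Polynomial.eval₂_finsetSum, Polynomial.eval₂_mul,
      Polynomial.eval₂_C, Polynomial.eval₂_X_pow, hc]
    rw [← mul_zero ((aO ^ k) ^ n), ← he, mul_add, mul_pow, Finset.mul_sum]
    congr 1
    refine Finset.sum_congr rfl fun j hj => ?_
    obtain ⟨r, rfl⟩ := Nat.exists_eq_add_of_le (Finset.mem_range.1 hj).le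
    rw [Nat.add_sub_cancel_left]
    ring

end Crest.Agent.R007
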