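import Crest.Agent.R007.BFG
import Crest.Agent.R007.GRig

/-! # Row 7, GEO team B: the endomorphism ring of the supersingular formal group (G3). -/

set_option autoImplicit false
set_option linter.unusedSectionVars false

noncomputable section
namespace Crest.Agent.R007

open PowerSeries Crest.LubinTate Crest.Agent.R227

/-- endomorphisms of a formal group law -/
def EndF {R : Type} [CommRing R] (F : FormalGroup R) : Type := {f : R⟦X⟧ // IsFGHom F F f}

namespace EndF
variable {R : Type} [CommRing R] {F : FormalGroup R}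

theorem cc (f : EndF F) : MvPowerSeries.constantCoeff (σ := Unit) f.1 = 0 := f.2.1
theorem cc' (f : EndF F) : PowerSeries.constantCoeff f.1 = 0 := f.2.1
theorem hs (f : EndF F) : PowerSeries.HasSubst f.1 := fg_hs f.cc

variable [F.IsComm]

def negS (F : FormalGroup R) [F.IsComm] : R⟦X⟧ := (exists_neg F).choose
theorem negS_hom : IsFGHom F F (negS F) := (exists_neg F).choose_spec.1
theorem negS_add : (fadd F PowerSeries.X (negS F) : R⟦X⟧) = 0 := (exists_neg F).choose_spec.2.2

instance : Zero (EndF F) := ⟨⟨0, hom_zero F F⟩⟩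
instance : One (EndF F) := ⟨⟨X, hom_X F⟩⟩
instance : Add (EndF F) := ⟨fun f g => ⟨fadd F f.1 g.1, hom_add f.2 g.2⟩⟩
instance : Mul (EndF F) := ⟨fun f g => ⟨PowerSeries.subst g.1 f.1, hom_comp g.2 f.2⟩⟩
instance : Neg (EndF F) := ⟨fun f => ⟨PowerSeries.subst f.1 (negS F), hom_comp f.2 negS_hom⟩⟩

omit [F.IsComm] in
theorem ext {f g : EndF F} (h : f.1 = g.1) : f = g := Subtype.ext h

instance : Ring (EndF F) := Ring.ofMinimalAxioms
  (fun a b c => ext (F.assoc' a.hs b.hs c.hs))
  (fun a => ext (F.zero_add a.hs))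
  (fun a => ext (by
    show (fadd F (PowerSeries.subst a.1 (negS F)) a.1 : R⟦X⟧) = 0
    have h := congrArg (PowerSeries.subst a.1) (negS_add (F := F))
    rw [fg_ev_zero a.cc, fadd, fg_ev2 _ fg_ccX negS_hom.1 a.cc, PowerSeries.subst_X a.hs] at h
    rw [fadd, F.comm' (fg_hs (fg_cc a.cc negS_hom.1)) a.hs]
    exact h))
  (fun a b c => ext (fg_ev1 a.1 b.cc' c.cc))
  (fun a => ext (PowerSeries.subst_X a.hs))
  (fun a => ext (PowerSeries.X_subst a.1))
  (fun a b c => ext (hom_fadd a.2 b.cc c.cc))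
  (fun a b c => ext (fg_ev2 _ a.cc' b.cc' c.cc))

theorem zero_val : (0 : EndF F).1 = 0 := rfl
theorem one_val : (1 : EndF F).1 = X := rfl
theorem add_val (f g : EndF F) : (f + g).1 = fadd F f.1 g.1 := rfl
theorem mul_val (f g : EndF F) : (f * g).1 = PowerSeries.subst g.1 f.1 := rfl

theorem natCast_val (n : ℕ) : (n : EndF F).1 = mulSeries F n := by
  induction n with
  | zero => rw [Nat.cast_zero, fg_mul_zero]; rfl
  | succ n ih => rw [Nat.cast_succ, add_val, ih, fg_mul_succ]; rfl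

/-- the linear coefficient -/
def lin : EndF F →+* R where
  toFun f := coeff 1 f.1
  map_one' := by simp [one_val]
  map_mul' f g := coeff_one_subst g.cc'
  map_zero' := by simp [zero_val]
  map_add' f g := coeff_one_fadd F f.cc' g.cc'

theorem lin_apply (f : EndF F) : lin f = coeff 1 f.1 := rfl

theorem eq_zero_or [IsDomain R] {f g : EndF F} (h : f * g = 0) : f = 0 ∨ g = 0 := by
  by_cases hg : g.1 = 0
  · exact Or.inr (ext hg)
  · exact Or.inl (ext (rig_subst_eq_zero f.1 g.1 g.cc' hg (congrArg Subtype.val h)))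

instance [IsDomain R] : NoZeroDivisors (EndF F) := ⟨eq_zero_or⟩

theorem isUnit_of_lin {f : EndF F} (h : IsUnit (lin f)) : IsUnit f := by
  refine ⟨⟨f, ⟨f.1.substInvOfIsUnit h, hom_inv f.2 h⟩, ext ?_, ext ?_⟩, rfl⟩
  · exact PowerSeries.subst_substInvOfIsUnit_right f.1 f.cc' h
  · exact PowerSeries.subst_substInvOfIsUnit_left f.1 f.cc' h

end EndF

theorem hom_X_pow {R : Type} [CommRing R] (p : ℕ) [Fact p.Prime] [CharP R p] (F : FormalGroup R) :
    IsFGHom F (F.map (frobenius R p)) (X ^ p) := by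
  have hp : p ≠ 0 := (Fact.out : p.Prime).ne_zero
  refine ⟨by simp [hp], ?_⟩
  have sF := fg_hs F.zero_constantCoeff
  show PowerSeries.subst F.toPowerSeries ((X : R⟦X⟧) ^ p) =
    fadd (F.map (frobenius R p)) (in0 (X ^ p)) (in1 (X ^ p))
  rw [in0, in1, PowerSeries.subst_pow sF, PowerSeries.subst_X sF,
    PowerSeries.subst_pow (PowerSeries.HasSubst.X 0), PowerSeries.subst_X (PowerSeries.HasSubst.X 0),
    PowerSeries.subst_pow (PowerSeries.HasSubst.X 1), PowerSeries.subst_X (PowerSeries.HasSubst.X 1),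
    ← MvPowerSeries.map_frobenius_expand p hp, MvPowerSeries.map_expand, fadd,
    FormalGroup.map_toPowerSeries, MvPowerSeries.expand, MvPowerSeries.substAlgHom_apply]
  congr 1
  funext i
  fin_cases i <;> rfl

/-- the supersingular law -/
abbrev F0 : FormalGroup FF := Fab 0 1
abbrev E0 : Type := EndF F0

theorem F0_map (f : FF →+* FF) : F0.map f = F0 := by rw [Fab_map, map_zero, map_one]

instance : Fact (Nat.Prime 2) := ⟨Nat.prime_two⟩

theorem F0_c1 : coeff 1 (mulSeries F0 2) = 0 := by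
  rw [coeff_one_mulSeries]; exact two_FF
theorem F0_c2 : coeff 2 (mulSeries F0 2) = 0 := by rw [(Fab_two _ _).1, neg_zero]
theorem F0_c4 : coeff 4 (mulSeries F0 2) = 1 := by
  rw [(Fab_two _ _).2]
  have := two_FF
  linear_combination (-4) * this

theorem F0_low : ∀ l, l < 2 → coeff (2 ^ l) (mulSeries F0 2) = 0 := by
  intro l hl
  interval_cases l
  · exact F0_c1
  · exact F0_c2

def piB : E0 := ⟨X ^ 2, by simpa only [F0_map] using hom_X_pow 2 F0⟩

theorem zeta_eq : zz 3 ^ 2 + zz 3 + 1 = 0 := by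
  have h := (zz_spec.1 3 (by decide)).geom_sum_eq_zero (by norm_num)
  simp only [Finset.sum_range_succ, Finset.range_zero, Finset.sum_empty] at h
  linear_combination h

theorem zeta_cube : zz 3 ^ 3 = 1 := zz_pow 3 (by decide)

def omB : E0 := ⟨PowerSeries.C (zz 3) * X, by
  simpa only [mul_zero, mul_one, zeta_cube] using Fab_scale (zz 3) (0 : FF) 1⟩

theorem lin_om : EndF.lin omB = zz 3 := by
  show coeff 1 (PowerSeries.C (zz 3) * X) = _
  simp
theorem lin_pi : EndF.lin piB = 0 := by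
  show coeff 1 ((X : FF⟦X⟧) ^ 2) = _
  simp [coeff_X_pow]

theorem mul_om_val (x : E0) : (omB * x).1 = PowerSeries.C (zz 3) * x.1 := by
  rw [EndF.mul_val]
  show PowerSeries.subst x.1 (PowerSeries.C (zz 3) * X : FF⟦X⟧) = _
  rw [rig_subst_C_mul _ _ _ x.cc', PowerSeries.subst_X x.hs]

theorem pi_mul_val (x : E0) : (piB * x).1 = x.1 ^ 2 := by
  rw [EndF.mul_val]
  show PowerSeries.subst x.1 ((X : FF⟦X⟧) ^ 2) = _
  rw [PowerSeries.subst_pow x.hs, PowerSeries.subst_X x.hs]

theorem om_cube : omB ^ 3 = 1 := by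
  apply EndF.ext
  rw [pow_three, mul_om_val, mul_om_val, EndF.one_val]
  show _ * (_ * (PowerSeries.C (zz 3) * X)) = _
  rw [← mul_assoc, ← mul_assoc, ← map_mul, ← map_mul, ← sq, ← pow_succ, zeta_cube, map_one, one_mul]

theorem om_eq : omB ^ 2 + omB + 1 = 0 := by
  have h : (omB - 1) * (omB ^ 2 + omB + 1) = 0 := by
    have : (omB - 1) * (omB ^ 2 + omB + 1) = omB ^ 3 - 1 := by noncomm_ring
    rw [this, om_cube, sub_self]
  rcases mul_eq_zero.1 h with h | h
  · exfalso
    have h1 := congrArg EndF.lin h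
    rw [map_sub, lin_om, map_one, map_zero, sub_eq_zero] at h1
    have h2 := zeta_eq
    rw [h1] at h2
    have h3 := two_FF
    exact one_ne_zero (α := FF) (by linear_combination h2 - h3)
  · exact h

theorem pi_om : piB * omB = omB ^ 2 * piB := by
  apply EndF.ext
  rw [pi_mul_val, sq omB, mul_assoc, mul_om_val, mul_om_val]
  show (PowerSeries.C (zz 3) * X) ^ 2 = _ * (_ * X ^ 2)
  ring

theorem pi_ne : piB ≠ 0 := by
  intro h
  have := congrArg (fun x : E0 => coeff 2 x.1) h
  simp [piB, EndF.zero_val, coeff_X_pow] at this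

theorem exists_mul_pi {x : E0} (h : EndF.lin x = 0) : ∃ y : E0, x = y * piB := by
  obtain ⟨g, hg, e⟩ := hom_frob 2 x.2 h
  rw [F0_map] at hg
  exact ⟨⟨g, hg⟩, EndF.ext e⟩

theorem exists_unit_two : ∃ h : E0, IsUnit h ∧ piB ^ 2 = 2 * h := by
  obtain ⟨V, hV, e⟩ := exists_versch 2 F0 2 F0_low
  rw [F0_map] at hV
  let g : E0 := ⟨V, hV⟩
  have hg : IsUnit g := by
    apply EndF.isUnit_of_lin
    have := frob_coeff_subst_X_pow (q := 2 ^ 2) (by norm_num) V
    rw [← e] at this
    rw [EndF.lin_apply, ← this]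
    show IsUnit (coeff 4 _)
    rw [F0_c4]; exact isUnit_one
  have e2 : (2 : E0) = g * piB ^ 2 := by
    apply EndF.ext
    have : (2 : E0) = ((2 : ℕ) : E0) := by norm_num
    rw [this, EndF.natCast_val, e, EndF.mul_val, sq piB, pi_mul_val]
    show _ = PowerSeries.subst (((X : FF⟦X⟧) ^ 2) ^ 2) V
    rw [← pow_mul]; rfl
  obtain ⟨u, hu⟩ := hg
  refine ⟨↑u⁻¹, Units.isUnit _, ?_⟩
  have : (2 : E0) * ↑u⁻¹ = ↑u⁻¹ * 2 := by noncomm_ring
  rw [this, e2, ← hu, ← mul_assoc, Units.inv_mul, one_mul]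

theorem E0_tf (x : E0) (h : 2 * x = 0) : x = 0 := by
  rcases mul_eq_zero.1 h with h | h
  · obtain ⟨g, -, e⟩ := exists_unit_two
    rw [h, zero_mul] at e
    exact absurd (pow_eq_zero_iff two_ne_zero |>.1 e) pi_ne
  · exact h

theorem lin_four (x : E0) : EndF.lin x ^ 4 = EndF.lin x := by
  have := frob_lead 2 x.2 2 F0_low F0_low
  rw [show 2 ^ 2 = 4 from rfl, F0_c4, mul_one, mul_one] at this
  exact this.symm

theorem exists_lin (x : E0) : ∃ a b : ℤ, EndF.lin (x - ((a : E0) + (b : E0) * omB)) = 0 := by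
  have h := lin_four x
  have hz := zeta_eq
  have h2 := two_FF
  set t := EndF.lin x with ht
  have : t * (t - 1) * (t - zz 3) * (t - (1 + zz 3)) = 0 := by
    have e : t * (t - 1) * (t - zz 3) * (t - (1 + zz 3)) =
        (t ^ 4 - t) + (t ^ 2 - t) * (zz 3 ^ 2 + zz 3 + 1) +
          2 * (-(1 + zz 3) * t ^ 3 + zz 3 * t ^ 2 + t) := by ring
    rw [e, h, hz, h2]; ring
  simp only [mul_eq_zero] at this
  rcases this with ((h | h) | h) | h
  · exact ⟨0, 0, by simpa using h⟩
  · exact ⟨1, 0, by simpa using h⟩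
  · exact ⟨0, 1, by simpa [lin_om] using h⟩
  · exact ⟨1, 1, by simpa [lin_om] using h⟩

theorem E0_span (x : E0) : ∃ a b c d : ℤ, ∃ y : E0,
    x = a + b * omB + c * piB + d * (omB * piB) + 2 * y := by
  obtain ⟨h, -, e⟩ := exists_unit_two
  obtain ⟨a, b, h1⟩ := exists_lin x
  obtain ⟨x', e1⟩ := exists_mul_pi h1
  obtain ⟨c, d, h2⟩ := exists_lin x'
  obtain ⟨x'', e2⟩ := exists_mul_pi h2
  refine ⟨a, b, c, d, x'' * h, ?_⟩
  have e3 : x' = c + d * omB + x'' * piB := by rw [← e2]; abel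
  have e4 : x = a + b * omB + x' * piB := by rw [← e1]; abel
  have e5 : x'' * piB * piB = 2 * (x'' * h) := by
    rw [mul_assoc, ← sq, e]; noncomm_ring
  rw [e4, e3, add_mul, add_mul, e5, mul_assoc]; abel

/-- an element commuting with `π` and `ω` is `0` or `1` modulo 2 -/
theorem central {x : E0} (h1 : x * piB = piB * x) (h2 : x * omB = omB * x) :
    ∃ (a : ℤ) (y : E0), x = a + 2 * y ∧ y * piB = piB * y ∧ y * omB = omB * y := by
  obtain ⟨h, -, e⟩ := exists_unit_two
  have l1 : EndF.lin x ^ 2 = EndF.lin x := by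
    have : coeff 2 (x * piB).1 = coeff 2 (piB * x).1 := by rw [h1]
    rw [pi_mul_val, EndF.mul_val] at this
    have e1 := frob_coeff_subst_X_pow (q := 2) two_ne_zero x.1
    have e2 := rig_coeff_two_right x.1 (X ^ 2) x.cc' dvd_rfl
    rw [PowerSeries.subst_pow x.hs, PowerSeries.subst_X x.hs, coeff_X_pow, if_pos rfl, one_mul] at e2
    rw [EndF.lin_apply, ← e2, ← this]
    exact e1
  obtain ⟨a, ha⟩ : ∃ a : ℤ, EndF.lin (x - (a : E0)) = 0 := by
    have : EndF.lin x * (EndF.lin x - 1) = 0 := by linear_combination l1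
    rcases mul_eq_zero.1 this with h | h
    · exact ⟨0, by simpa using h⟩
    · exact ⟨1, by simpa using h⟩
  obtain ⟨x', e1⟩ := exists_mul_pi ha
  have c2 : (x - a) * omB = omB * (x - a) := by
    rw [sub_mul, mul_sub, h2, (Int.cast_commute a omB).eq]
  have c1 : (x - a) * piB = piB * (x - a) := by
    rw [sub_mul, mul_sub, h1, (Int.cast_commute a piB).eq]
  have l2 : EndF.lin x' = 0 := by
    have h3 : (x' * omB ^ 2 - omB * x') * piB = 0 := by
      rw [sub_mul, mul_assoc, ← pi_om, ← mul_assoc, mul_assoc omB, ← e1, c2, sub_self]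
    rcases mul_eq_zero.1 h3 with h3 | h3
    · have h4 := congrArg EndF.lin h3
      rw [map_sub, map_mul, map_mul, map_pow, lin_om, map_zero] at h4
      have hz := zeta_eq
      have h2 := two_FF
      linear_combination h4 - EndF.lin x' * hz + (EndF.lin x' * zz 3 + EndF.lin x') * h2
    · exact absurd h3 pi_ne
  obtain ⟨x'', e2⟩ := exists_mul_pi l2
  have e3 : x - a = 2 * (x'' * h) := by
    rw [e1, e2, mul_assoc, ← sq, e]; noncomm_ring
  refine ⟨a, x'' * h, by rw [← e3]; abel, ?_, ?_⟩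
  · rw [← sub_eq_zero]; apply E0_tf
    rw [e3] at c1
    rw [mul_sub, ← mul_assoc, c1]; noncomm_ring
  · rw [← sub_eq_zero]; apply E0_tf
    rw [e3] at c2
    rw [mul_sub, ← mul_assoc, c2]; noncomm_ring

theorem pi_sq : ∃ (m : ℤ) (y : E0), Odd m ∧ piB ^ 2 = 2 * (m + 4 * y) := by
  obtain ⟨h, hu, e⟩ := exists_unit_two
  have c1 : h * piB = piB * h := by
    rw [← sub_eq_zero]; apply E0_tf
    have : 2 * (h * piB - piB * h) = (2 * h) * piB - piB * (2 * h) := by noncomm_ring
    rw [this, ← e]; noncomm_ring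
  have c2 : h * omB = omB * h := by
    rw [← sub_eq_zero]; apply E0_tf
    have : 2 * (h * omB - omB * h) = (2 * h) * omB - omB * (2 * h) := by noncomm_ring
    rw [this, ← e]
    have e1 : piB ^ 2 * omB = omB ^ 3 * omB * piB ^ 2 := by
      have a1 : piB ^ 2 * omB = piB * (piB * omB) := by noncomm_ring
      have a2 : piB * (omB ^ 2 * piB) = (piB * omB) * omB * piB := by noncomm_ring
      have a3 : omB ^ 2 * piB * omB * piB = omB ^ 2 * (piB * omB) * piB := by noncomm_ring
      rw [a1, pi_om, a2, pi_om, a3, pi_om]; noncomm_ring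
    rw [e1, om_cube, one_mul, sub_self]
  obtain ⟨a, y, e1, d1, d2⟩ := central c1 c2
  obtain ⟨b, z, e2, -, -⟩ := central d1 d2
  refine ⟨a + 2 * b, z, ?_, ?_⟩
  · rcases Int.even_or_odd a with ⟨k, hk⟩ | ha
    · exfalso
      have := (hu.map EndF.lin).ne_zero
      apply this
      rw [e1, map_add, map_mul, map_intCast, map_ofNat, hk]
      push_cast
      have h2 := two_FF
      linear_combination ((k : FF) + EndF.lin y) * h2
    · exact ha.add_even (even_two_mul b)
  · rw [e, e1, e2]; push_cast; noncomm_ring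

theorem E0_gens : ∃ ω π : E0, ω ^ 2 + ω + 1 = 0 ∧ π * ω = ω ^ 2 * π ∧
    (∃ (m : ℤ) (y : E0), Odd m ∧ π ^ 2 = 2 * (m + 4 * y)) ∧
    ∀ x : E0, ∃ a b c d : ℤ, ∃ y : E0, x = a + b * ω + c * π + d * (ω * π) + 2 * y :=
  ⟨omB, piB, om_eq, pi_om, pi_sq, E0_span⟩

end Crest.Agent.R007
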