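import Crest.Agent.R007.BDefs
import Crest.Agent.R227.CZ1Aux

/-! # Row 7, GEO team B: the chord-tangent law has the logarithm `L` (helper48). -/

set_option autoImplicit false

noncomputable section
namespace Crest.Agent.R007

open MvPowerSeries Crest.LubinTate Crest.Agent.R227

section Abstract
variable {R A : Type} [CommRing R] [CommRing A] [Algebra R A]

/-- differentiate the equation of the curve -/
theorem h48_dC (D : Derivation R A A) {α β t w : A} (hα : D α = 0) (hβ : D β = 0)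
    (h : w = t ^ 3 + α * t * w + β * w ^ 2) :
    D w * (1 - α * t - 2 * β * w) = (3 * t ^ 2 + α * w) * D t := by
  have h1 := congrArg D h
  simp only [map_add, Derivation.leibniz, Derivation.leibniz_pow, smul_eq_mul, hα, hβ,
    nsmul_eq_mul, Nat.cast_ofNat, Nat.reduceSub, pow_one] at h1
  linear_combination h1

/-- the invariant differential changes sign under inversion -/
theorem h48_inv (D : Derivation R A A) {α β t w t' w' l l' : A} (hα : D α = 0) (hβ : D β = 0)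
    (h : w = t ^ 3 + α * t * w + β * w ^ 2) (hv : IsUnit (1 - α * t - β * w))
    (ht : t' * (1 - α * t - β * w) = -t) (hw : w' * (1 - α * t - β * w) = -w)
    (hl : l * (1 - α * t - 2 * β * w) = 1) (hl' : l' * (1 - α * t' - 2 * β * w') = 1) :
    l' * D t' = -(l * D t) := by
  have h1 := h48_dC D hα hβ h
  have h2 := congrArg D ht
  simp only [map_sub, map_neg, Derivation.leibniz, smul_eq_mul, hα, hβ,
    Derivation.map_one_eq_zero] at h2
  have h3 : (1 - α * t - β * w) ^ 2 *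
      ((1 - α * t - 2 * β * w) * D t' + (1 - α * t' - 2 * β * w') * D t) = 0 := by
    linear_combination ((1 - α * t - 2 * β * w) * (1 - α * t - β * w)) * h2 +
      ((1 - α * t - 2 * β * w) * (α * D t + β * D w) - α * (1 - α * t - β * w) * D t) * ht +
      (-2 * β * (1 - α * t - β * w) * D t) * hw + (-β * t) * h1 + (3 * β * D t) * h
  have h4 := (hv.pow 2).mul_right_eq_zero.1 h3
  linear_combination l * l' * h4 - l' * D t' * hl - l * D t * hl'

/-- the inverse point lies on the curve -/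
theorem h48_invC {α β t w t' w' : A}
    (h : w = t ^ 3 + α * t * w + β * w ^ 2) (hv : IsUnit (1 - α * t - β * w))
    (ht : t' * (1 - α * t - β * w) = -t) (hw : w' * (1 - α * t - β * w) = -w) :
    w' = t' ^ 3 + α * t' * w' + β * w' ^ 2 := by
  obtain ⟨v, hv'⟩ := hv.exists_right_inv
  have e1 : t' = -t * v := by linear_combination v * ht - t' * hv'
  have e2 : w' = -w * v := by linear_combination v * hw - w' * hv'
  rw [e1, e2]
  linear_combination (-v ^ 3) * h + (w * v ^ 2 + w * v) * hv'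

/-- Abel's theorem for the line through three points -/
theorem h48_abel [NoZeroDivisors A] (D : Derivation R A A) {α β t₁ t₂ t₃ w₁ w₂ w₃ m n l₁ l₂ l₃ : A}
    (hα : D α = 0) (hβ : D β = 0) (h₁ : w₁ = t₁ ^ 3 + α * t₁ * w₁ + β * w₁ ^ 2)
    (h₂ : w₂ = t₂ ^ 3 + α * t₂ * w₂ + β * w₂ ^ 2) (h₃ : w₃ = t₃ ^ 3 + α * t₃ * w₃ + β * w₃ ^ 2)
    (e₁ : w₁ = m * t₁ + n) (e₂ : w₂ = m * t₂ + n) (e₃ : w₃ = m * t₃ + n)
    (hs : t₃ = -(α * m + β * m ^ 2) - t₁ - t₂)
    (hp : α * n + 2 * β * m * n - m = t₁ * t₂ + t₁ * t₃ + t₂ * t₃)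
    (hl₁ : l₁ * (1 - α * t₁ - 2 * β * w₁) = 1) (hl₂ : l₂ * (1 - α * t₂ - 2 * β * w₂) = 1)
    (hl₃ : l₃ * (1 - α * t₃ - 2 * β * w₃) = 1) (n₁₂ : t₁ ≠ t₂) (n₁₃ : t₁ ≠ t₃) (n₂₃ : t₂ ≠ t₃) :
    l₁ * D t₁ + l₂ * D t₂ + l₃ * D t₃ = 0 := by
  have key : ∀ t w l : A, w = t ^ 3 + α * t * w + β * w ^ 2 → w = m * t + n →
      l * (1 - α * t - 2 * β * w) = 1 →
      (3 * t ^ 2 + 2 * (α * m + β * m ^ 2) * t + (α * n + 2 * β * m * n - m)) * (l * D t) =
        t * D m + D n := by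
    intro t w l h e hl
    have h1 := h48_dC D hα hβ h
    have h2 := congrArg D e
    simp only [map_add, Derivation.leibniz, smul_eq_mul] at h2
    rw [h2] at h1
    rw [e] at h1 hl
    linear_combination (-l) * h1 + (t * D m + D n) * hl
  have k1 := key _ _ _ h₁ e₁ hl₁
  have k2 := key _ _ _ h₂ e₂ hl₂
  have k3 := key _ _ _ h₃ e₃ hl₃
  have hs' : α * m + β * m ^ 2 = -(t₁ + t₂ + t₃) := by linear_combination hs
  rw [hs', hp] at k1 k2 k3
  have h : (t₁ - t₂) * (t₁ - t₃) * (t₂ - t₃) * (l₁ * D t₁ + l₂ * D t₂ + l₃ * D t₃) = 0 := by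
    linear_combination (t₂ - t₃) * k1 - (t₁ - t₃) * k2 + (t₁ - t₂) * k3
  exact (mul_eq_zero.1 h).resolve_left
    (mul_ne_zero (mul_ne_zero (sub_ne_zero.2 n₁₂) (sub_ne_zero.2 n₁₃)) (sub_ne_zero.2 n₂₃))

/-- the third point of intersection -/
theorem h48_third [NoZeroDivisors A] {α β t₁ t₂ t₃ w₁ w₂ m n : A}
    (h₁ : w₁ = t₁ ^ 3 + α * t₁ * w₁ + β * w₁ ^ 2) (h₂ : w₂ = t₂ ^ 3 + α * t₂ * w₂ + β * w₂ ^ 2)
    (e₁ : w₁ = m * t₁ + n) (e₂ : w₂ = m * t₂ + n) (hs : t₃ = -(α * m + β * m ^ 2) - t₁ - t₂)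
    (n₁₂ : t₁ ≠ t₂) : α * n + 2 * β * m * n - m = t₁ * t₂ + t₁ * t₃ + t₂ * t₃ ∧
      m * t₃ + n = t₃ ^ 3 + α * t₃ * (m * t₃ + n) + β * (m * t₃ + n) ^ 2 := by
  rw [e₁] at h₁
  rw [e₂] at h₂
  have hp : α * n + 2 * β * m * n - m = t₁ * t₂ + t₁ * t₃ + t₂ * t₃ := by
    have h : (t₁ - t₂) * (α * n + 2 * β * m * n - m - (t₁ * t₂ + t₁ * t₃ + t₂ * t₃)) = 0 := by
      rw [hs]
      linear_combination h₂ - h₁
    exact sub_eq_zero.1 ((mul_eq_zero.1 h).resolve_left (sub_ne_zero.2 n₁₂))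
  refine ⟨hp, ?_⟩
  have hs' : α * m + β * m ^ 2 = -(t₁ + t₂ + t₃) := by linear_combination hs
  linear_combination h₁ + (t₁ - t₃) * hp + (t₁ ^ 2 - t₃ ^ 2) * hs'

end Abstract

variable {R S : Type} [CommRing R] [CommRing S]

theorem h48_unit {τ : Type} {u : MvPowerSeries τ R} (h : constantCoeff u = 1) : IsUnit u :=
  isUnit_iff_constantCoeff.2 (h ▸ isUnit_one)

theorem h48_W {a b : R} {W : PowerSeries R} (hW : IsW a b W) {τ : Type} {t : MvPowerSeries τ R}
    (ht : constantCoeff t = 0) : (PowerSeries.subst t W : MvPowerSeries τ R) =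
      t ^ 3 + C a * t * PowerSeries.subst t W + C b * PowerSeries.subst t W ^ 2 := by
  have hs := fg_hs ht
  have h1 := congrArg (PowerSeries.subst t) hW.2
  simpa only [PowerSeries.subst_add hs, PowerSeries.subst_mul hs, PowerSeries.subst_pow hs,
    PowerSeries.subst_X hs, PowerSeries.subst_C] using h1

theorem h48_K {a b : R} {L : PowerSeries R} (hL : IsLog a b L) {τ : Type}
    {t w : MvPowerSeries τ R} (ht : constantCoeff t = 0) (hw : constantCoeff w = 0)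
    (h : w = t ^ 3 + C a * t * w + C b * w ^ 2) :
    PowerSeries.subst t (PowerSeries.derivative R L) * (1 - C a * t - 2 * C b * w) = 1 := by
  obtain ⟨-, W, hW, hL⟩ := hL
  have hs := fg_hs ht
  have h1 := h48_W hW ht
  have h0 := fg_cc ht hW.1
  have e : w = PowerSeries.subst t W := by
    have hu : IsUnit (1 - C a * t - C b * (w + PowerSeries.subst t W)) :=
      h48_unit (by simp [ht, hw, h0])
    refine sub_eq_zero.1 (hu.mul_left_eq_zero.1 ?_)
    linear_combination h - h1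
  have h2 := congrArg (PowerSeries.substAlgHom hs) hL
  simp only [map_mul, map_sub, map_one, map_ofNat] at h2
  simp only [PowerSeries.coe_substAlgHom, PowerSeries.subst_X hs, PowerSeries.subst_C] at h2
  rw [e]
  exact h2

/-- the equations of the chord-tangent law -/
structure h48Geo (a b : R) (w₁ w₂ m t₃ w₃ F : MvPowerSeries (Fin 2) R) : Prop where
  c₁ : constantCoeff w₁ = 0
  c₂ : constantCoeff w₂ = 0
  e₁ : w₁ = X 0 ^ 3 + C a * X 0 * w₁ + C b * w₁ ^ 2
  e₂ : w₂ = X 1 ^ 3 + C a * X 1 * w₂ + C b * w₂ ^ 2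
  em : m * (1 - C a * X 1 - C b * (w₁ + w₂)) = X 0 ^ 2 + X 0 * X 1 + X 1 ^ 2 + C a * w₁
  et : t₃ = -(C a * m + C b * m ^ 2) - X 0 - X 1
  ew : w₃ = m * t₃ + (w₁ - m * X 0)
  eF : F * (1 - C a * t₃ - C b * w₃) = -t₃

theorem h48_cc3 {a b : R} {w₁ w₂ m t₃ w₃ : MvPowerSeries (Fin 2) R} (c₁ : constantCoeff w₁ = 0)
    (c₂ : constantCoeff w₂ = 0)
    (em : m * (1 - C a * X 1 - C b * (w₁ + w₂)) = X 0 ^ 2 + X 0 * X 1 + X 1 ^ 2 + C a * w₁)
    (et : t₃ = -(C a * m + C b * m ^ 2) - X 0 - X 1) (ew : w₃ = m * t₃ + (w₁ - m * X 0)) :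
    constantCoeff m = 0 ∧ constantCoeff t₃ = 0 ∧ constantCoeff w₃ = 0 := by
  have h1 : constantCoeff m = 0 := by simpa [c₁, c₂] using congrArg constantCoeff em
  exact ⟨h1, by simp [et, h1], by simp [ew, h1, c₁]⟩

theorem h48_geo_exists {a b : R} {W : PowerSeries R} (hW : IsW a b W) :
    ∃ w₁ w₂ m t₃ w₃ F, h48Geo a b w₁ w₂ m t₃ w₃ F := by
  have x0 := constantCoeff_X (R := R) (0 : Fin 2)
  have x1 := constantCoeff_X (R := R) (1 : Fin 2)
  have c₁ := fg_cc x0 hW.1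
  have c₂ := fg_cc x1 hW.1
  obtain ⟨u, hu⟩ := (h48_unit (u := 1 - C a * X 1 - C b * (in0 W + in1 W))
    (by simp [c₁, c₂])).exists_left_inv
  have em : (X 0 ^ 2 + X 0 * X 1 + X 1 ^ 2 + C a * in0 W) * u *
      (1 - C a * X 1 - C b * (in0 W + in1 W)) = X 0 ^ 2 + X 0 * X 1 + X 1 ^ 2 + C a * in0 W := by
    rw [mul_assoc, hu, mul_one]
  generalize (X 0 ^ 2 + X 0 * X 1 + X 1 ^ 2 + C a * in0 W) * u = m at em
  obtain ⟨t₃, et⟩ : ∃ t₃, t₃ = -(C a * m + C b * m ^ 2) - X 0 - X 1 := ⟨_, rfl⟩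
  obtain ⟨w₃, ew⟩ : ∃ w₃, w₃ = m * t₃ + (in0 W - m * X 0) := ⟨_, rfl⟩
  obtain ⟨-, c₃, c₄⟩ := h48_cc3 c₁ c₂ em et ew
  obtain ⟨v, hv⟩ := (h48_unit (u := 1 - C a * t₃ - C b * w₃) (by simp [c₃, c₄])).exists_left_inv
  exact ⟨in0 W, in1 W, m, t₃, w₃, -t₃ * v, c₁, c₂, h48_W hW x0, h48_W hW x1, em, et, ew,
    by rw [mul_assoc, hv, mul_one]⟩

theorem h48Geo.map (φ : R →+* S) {a b : R} {w₁ w₂ m t₃ w₃ F : MvPowerSeries (Fin 2) R}
    (h : h48Geo a b w₁ w₂ m t₃ w₃ F) :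
    h48Geo (φ a) (φ b) (MvPowerSeries.map φ w₁) (MvPowerSeries.map φ w₂) (MvPowerSeries.map φ m)
      (MvPowerSeries.map φ t₃) (MvPowerSeries.map φ w₃) (MvPowerSeries.map φ F) := by
  refine ⟨by rw [constantCoeff_map, h.c₁, map_zero], by rw [constantCoeff_map, h.c₂, map_zero],
    ?_, ?_, ?_, ?_, ?_, ?_⟩
  · simpa only [map_add, map_mul, map_pow, map_X, map_C] using
      congrArg (MvPowerSeries.map φ) h.e₁
  · simpa only [map_add, map_mul, map_pow, map_X, map_C] using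
      congrArg (MvPowerSeries.map φ) h.e₂
  · simpa only [map_add, map_sub, map_one, map_mul, map_pow, map_X, map_C] using
      congrArg (MvPowerSeries.map φ) h.em
  · simpa only [map_add, map_sub, map_neg, map_mul, map_pow, map_X, map_C] using
      congrArg (MvPowerSeries.map φ) h.et
  · simpa only [map_add, map_sub, map_mul, map_X] using congrArg (MvPowerSeries.map φ) h.ew
  · simpa only [map_sub, map_neg, map_one, map_mul, map_C] using
      congrArg (MvPowerSeries.map φ) h.eF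

theorem h48Geo.log [IsDomain R] [IsAddTorsionFree R] {a b : R}
    {w₁ w₂ m t₃ w₃ F : MvPowerSeries (Fin 2) R} (h : h48Geo a b w₁ w₂ m t₃ w₃ F)
    {L : PowerSeries R} (hL : IsLog a b L) :
    constantCoeff F = 0 ∧ PowerSeries.subst F L = in0 L + in1 L := by
  obtain ⟨c₁, c₂, e₁, e₂, em, et, ew, eF⟩ := h
  obtain ⟨cm, c₃, c₄⟩ := h48_cc3 c₁ c₂ em et ew
  have x0 := constantCoeff_X (R := R) (0 : Fin 2)
  have x1 := constantCoeff_X (R := R) (1 : Fin 2)
  have cF : constantCoeff F = 0 := by simpa [c₃, c₄] using congrArg constantCoeff eF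
  have hv : IsUnit (1 - C a * t₃ - C b * w₃) := h48_unit (by simp [c₃, c₄])
  have hu : IsUnit (1 - C a * X 1 - C b * (w₁ + w₂)) := h48_unit (by simp [c₁, c₂])
  have hlin : ∀ i, constantCoeff (pderiv R i t₃) =
      -constantCoeff (pderiv R i (X 0)) - constantCoeff (pderiv R i (X 1)) := by
    intro i
    have h1 : constantCoeff (pderiv R i w₁) = 0 := by
      simpa [c₁] using congrArg constantCoeff (h48_dC (pderiv R i) pderiv_C pderiv_C e₁)
    have h2 : constantCoeff (pderiv R i m) = 0 := by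
      simpa [Derivation.leibniz, c₁, c₂, cm, h1] using
        congrArg (fun x => constantCoeff (pderiv R i x)) em
    simp [et, Derivation.leibniz, cm, h2]
  have n₁₂ : (X 0 : MvPowerSeries (Fin 2) R) ≠ X 1 := fun e => by
    simpa using congrArg (pderiv R 0) e
  have n₁₃ : X 0 ≠ t₃ := fun e => by
    have := hlin 1
    rw [← e] at this
    simp at this
  have n₂₃ : X 1 ≠ t₃ := fun e => by
    have := hlin 0
    rw [← e] at this
    simp at this
  have l₁ : w₁ = m * X 0 + (w₁ - m * X 0) := by ring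
  have l₂ : w₂ = m * X 1 + (w₁ - m * X 0) := by
    refine sub_eq_zero.1 (hu.mul_left_eq_zero.1 ?_)
    linear_combination e₂ - e₁ + (X 0 - X 1) * em
  obtain ⟨hp, e₃⟩ := h48_third e₁ e₂ l₁ l₂ et n₁₂
  rw [← ew] at e₃
  obtain ⟨v, hv'⟩ := hv.exists_left_inv
  have eW : -w₃ * v * (1 - C a * t₃ - C b * w₃) = -w₃ := by rw [mul_assoc, hv', mul_one]
  have cW : constantCoeff (-w₃ * v) = 0 := by simp [c₄]
  have e₄ := h48_invC e₃ hv eF eW
  refine ⟨cF, pderiv.ext (fun i => ?_) ?_⟩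
  · have h1 := h48_abel (pderiv R i) pderiv_C pderiv_C e₁ e₂ e₃ l₁ l₂ ew et hp
      (h48_K hL x0 c₁ e₁) (h48_K hL x1 c₂ e₂) (h48_K hL c₃ c₄ e₃) n₁₂ n₁₃ n₂₃
    have h2 := h48_inv (pderiv R i) pderiv_C pderiv_C e₃ hv eF eW (h48_K hL c₃ c₄ e₃)
      (h48_K hL cF cW e₄)
    rw [map_add, cz1_chain1 cF, cz1_chain1 x0, cz1_chain1 x1]
    linear_combination h2 - h1
  · rw [map_add, fg_cc cF hL.1, fg_cc x0 hL.1, fg_cc x1 hL.1, add_zero]

theorem h48_ev2_inj : Function.Injective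
    (ev2 (MvPolynomial.X 0 : MvPolynomial (Fin 2) ℚ) (MvPolynomial.X 1)) := by
  have e : ev2 (MvPolynomial.X 0 : MvPolynomial (Fin 2) ℚ) (MvPolynomial.X 1) =
      MvPolynomial.map (lift2 ℚ) := by
    apply MvPolynomial.ringHom_ext'
    · exact Z2_ext _ _
    · intro i
      fin_cases i <;> simp [ev2]
  rw [e]
  refine MvPolynomial.map_injective _ ((IsLocalization.lift_injective_iff _).2 fun x y => ?_)
  constructor
  · intro h
    simpa using congrArg (lift2 ℚ) h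
  · intro h
    rw [(Int.castRingHom ℚ).injective_int h]

theorem h48_Ga_map (φ : R →+* S) : (FormalGroup.𝔾ₐ : FormalGroup R).map φ = FormalGroup.𝔾ₐ := by
  apply FormalGroup.ext
  simp

theorem h48_fadd_Ga {τ : Type} {f g : MvPowerSeries τ R} (hf : constantCoeff f = 0)
    (hg : constantCoeff g = 0) : fadd FormalGroup.𝔾ₐ f g = f + g := by
  have hs := fg_hs2 hf hg
  simp [fadd, subst_add hs, subst_X hs]

end Crest.Agent.R007
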