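import Crest.Agent.R007.BDefs
import Crest.Agent.R007.BFU
import Crest.Agent.R007.W

/-! # Row 7, GEO team B: the universal formal group law (G1, G2; owner helper58). -/

set_option autoImplicit false

noncomputable section
namespace Crest.Agent.R007

open PowerSeries Crest.LubinTate Crest.Agent.R227

section
variable {R S : Type} [CommRing R] [CommRing S]

theorem h73_exists_V (a b : R) : ∃ V : R⟦X⟧,
    V = 1 + PowerSeries.C a * X * V + PowerSeries.C b * X ^ 3 * V ^ 2 := by
  have hm : (Polynomial.X ^ 2 + (Polynomial.C (PowerSeries.C a * X - 1) * Polynomial.X +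
      Polynomial.C (PowerSeries.C b * X ^ 3)) : Polynomial R⟦X⟧).Monic :=
    Polynomial.monic_X_pow_add (Polynomial.degree_linear_le.trans_lt (by norm_num))
  obtain ⟨Y, hY, h1⟩ := HenselianRing.is_henselian (I := (Ideal.span {X} : Ideal R⟦X⟧)) _ hm 1
    (by
      rw [Ideal.mem_span_singleton]
      exact ⟨PowerSeries.C a + PowerSeries.C b * X ^ 2, by simp; ring⟩)
    (by
      refine IsUnit.map _ ?_
      rw [PowerSeries.isUnit_iff_constantCoeff]
      simp [-map_pow, -map_mul, -map_sub, Polynomial.derivative_mul]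
      simp)
  rw [Ideal.mem_span_singleton, X_dvd_iff, map_sub, map_one, sub_eq_zero] at h1
  obtain ⟨V, hV⟩ := (PowerSeries.isUnit_iff_constantCoeff.2 (h1 ▸ isUnit_one)).exists_right_inv
  have h2 : Y ^ 2 + ((PowerSeries.C a * X - 1) * Y + PowerSeries.C b * X ^ 3) = 0 := by
    simpa using hY
  exact ⟨V, by linear_combination (-V ^ 2) * h2 + (Y * V + 1 + (PowerSeries.C a * X - 1) * V) * hV⟩

theorem h73_isW {a b : R} {V : R⟦X⟧}
    (h : V = 1 + PowerSeries.C a * X * V + PowerSeries.C b * X ^ 3 * V ^ 2) :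
    IsW a b (X ^ 3 * V) :=
  ⟨by simp, by linear_combination X ^ 3 * h⟩

theorem exists_isW (a b : R) : ∃ W, IsW a b W := by
  obtain ⟨V, hV⟩ := h73_exists_V a b
  exact ⟨_, h73_isW hV⟩

theorem IsW.unique {a b : R} {W W' : R⟦X⟧} (h : IsW a b W) (h' : IsW a b W') : W = W' := by
  have hu : IsUnit (1 - PowerSeries.C a * X - PowerSeries.C b * (W + W')) := by
    rw [PowerSeries.isUnit_iff_constantCoeff]
    simp [h.1, h'.1]
  rw [← sub_eq_zero, ← hu.mul_right_eq_zero]
  linear_combination h.2 - h'.2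

theorem h73_unit_succ [Algebra ℚ R] (n : ℕ) : IsUnit ((n : R) + 1) := by
  have h : IsUnit ((n : ℚ) + 1) := IsUnit.mk0 _ (by positivity)
  simpa using h.map (algebraMap ℚ R)

theorem exists_isLog [Algebra ℚ R] (a b : R) : ∃ L, IsLog a b L := by
  obtain ⟨W, hW⟩ := exists_isW a b
  have hu : IsUnit (1 - PowerSeries.C a * X - 2 * PowerSeries.C b * W) := by
    rw [PowerSeries.isUnit_iff_constantCoeff]
    simp [hW.1]
  obtain ⟨D, hD⟩ := hu.exists_left_inv
  choose c hc using fun n => (h73_unit_succ (R := R) n).exists_left_inv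
  refine ⟨X * PowerSeries.mk fun n => coeff n D * c n, by simp, W, hW, ?_⟩
  refine Eq.trans ?_ hD
  congr 1
  ext n
  rw [coeff_derivative, coeff_succ_X_mul, coeff_mk, mul_assoc, hc, mul_one]

theorem h73_log_ext [Algebra ℚ R] {L L' : R⟦X⟧} (h0 : constantCoeff L = constantCoeff L')
    (h : PowerSeries.derivative R L = PowerSeries.derivative R L') : L = L' := by
  ext n
  rcases n with _ | n
  · simpa using h0
  · have h1 := congrArg (coeff n) h
    rw [coeff_derivative, coeff_derivative] at h1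
    exact (h73_unit_succ n).mul_right_cancel h1

theorem IsLog.unique [Algebra ℚ R] {a b : R} {L L' : R⟦X⟧} (h : IsLog a b L) (h' : IsLog a b L') :
    L = L' := by
  obtain ⟨h0, W, hW, hL⟩ := h
  obtain ⟨h0', W', hW', hL'⟩ := h'
  obtain rfl := hW.unique hW'
  refine h73_log_ext (h0.trans h0'.symm) ?_
  linear_combination (PowerSeries.derivative R L') * hL - (PowerSeries.derivative R L) * hL'

theorem IsLog.map (f : R →+* S) {a b : R} {L : R⟦X⟧} (h : IsLog a b L) :
    IsLog (f a) (f b) (PowerSeries.map f L) := by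
  obtain ⟨h0, W, ⟨hW0, hW⟩, hL⟩ := h
  refine ⟨by rw [← coeff_zero_eq_constantCoeff_apply, coeff_map, coeff_zero_eq_constantCoeff_apply,
    h0, map_zero], PowerSeries.map f W, ⟨by rw [← coeff_zero_eq_constantCoeff_apply, coeff_map,
      coeff_zero_eq_constantCoeff_apply, hW0, map_zero], ?_⟩, ?_⟩
  · have h1 := congrArg (PowerSeries.map f) hW
    simpa only [map_add, map_mul, map_pow, PowerSeries.map_X, PowerSeries.map_C] using h1
  · have h1 := congrArg (PowerSeries.map f) hL
    have h2 : PowerSeries.map f (PowerSeries.derivative R L) =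
        PowerSeries.derivative S (PowerSeries.map f L) := by
      ext n
      rw [coeff_map, coeff_derivative, coeff_derivative, coeff_map, map_mul, map_add, map_natCast,
        map_one]
    simpa only [map_sub, map_mul, map_one, map_ofNat, PowerSeries.map_X, PowerSeries.map_C, h2]
      using h1

theorem IsLog.coeff_one {a b : R} {L : R⟦X⟧} (h : IsLog a b L) : coeff 1 L = 1 := by
  obtain ⟨-, W, hW, hL⟩ := h
  have h1 := congrArg constantCoeff hL
  have h2 : constantCoeff (PowerSeries.derivative R L) = coeff 1 L := by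
    rw [← coeff_zero_eq_constantCoeff_apply, coeff_derivative]
    simp
  simpa [h2, hW.1] using h1

/-- homogeneity: `L_{ua,u³b}(T) = u⁻¹ L_{a,b}(uT)`, i.e. the coefficient of `T^(n+1)` has weight `n` -/
theorem IsLog.scale [Algebra ℚ R] {a b : R} (u : R) {L L' : R⟦X⟧} (h : IsLog a b L)
    (h' : IsLog (u * a) (u ^ 3 * b) L') (n : ℕ) : coeff (n + 1) L' = u ^ n * coeff (n + 1) L := by
  obtain ⟨-, W, hW, hL⟩ := h
  obtain ⟨-, W', hW', hL'⟩ := h'
  obtain ⟨V, hV⟩ := h73_exists_V a b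
  have hC : ∀ r : R, rescale u (PowerSeries.C r) = PowerSeries.C r := fun r => by
    ext m
    rw [coeff_rescale, coeff_C]
    split_ifs with hm
    · rw [hm, pow_zero, one_mul]
    · rw [mul_zero]
  have hV' : rescale u V = 1 + PowerSeries.C (u * a) * X * rescale u V +
      PowerSeries.C (u ^ 3 * b) * X ^ 3 * rescale u V ^ 2 := by
    have h1 := congrArg (rescale u) hV
    simp only [map_add, map_mul, map_pow, map_one, hC, rescale_X] at h1 ⊢
    linear_combination h1
  obtain rfl := hW.unique (h73_isW hV)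
  obtain rfl := hW'.unique (h73_isW hV')
  have h1 := congrArg (rescale u) hL
  simp only [map_sub, map_mul, map_pow, map_one, map_ofNat, hC, rescale_X] at h1 hL'
  have h2 : PowerSeries.derivative R L' = rescale u (PowerSeries.derivative R L) := by
    linear_combination (rescale u (PowerSeries.derivative R L)) * hL' -
      (PowerSeries.derivative R L') * h1
  have h3 := congrArg (coeff n) h2
  rw [coeff_rescale, coeff_derivative, coeff_derivative, ← mul_assoc] at h3
  exact (h73_unit_succ n).mul_right_cancel h3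

/-- G2: the law `L⁻¹(L(T₁) + L(T₂))` has 2-integral coefficients -/
theorem exists_FU : ∃ F, FUSpec F := by
  obtain ⟨W, hW⟩ := exists_isW (MvPolynomial.X 0 : MvPolynomial (Fin 2) Z2) (MvPolynomial.X 1)
  obtain ⟨w₁, w₂, m, t₃, w₃, F, hG⟩ := h48_geo_exists hW
  obtain ⟨L₀, hL₀⟩ := exists_isLog (MvPolynomial.X 0 : MvPolynomial (Fin 2) ℚ) (MvPolynomial.X 1)
  have hu : IsUnit (coeff 1 L₀) := by
    rw [hL₀.coeff_one]
    exact isUnit_one
  obtain ⟨F₀, hF₀, hc⟩ := exists_conj FormalGroup.𝔾ₐ L₀ hL₀.1 hu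
  have hG' := hG.map (ev2 (MvPolynomial.X 0 : MvPolynomial (Fin 2) ℚ) (MvPolynomial.X 1))
  have e0 : ev2 (MvPolynomial.X 0 : MvPolynomial (Fin 2) ℚ) (MvPolynomial.X 1)
      (MvPolynomial.X 0) = MvPolynomial.X 0 := by simp [ev2]
  have e1 : ev2 (MvPolynomial.X 0 : MvPolynomial (Fin 2) ℚ) (MvPolynomial.X 1)
      (MvPolynomial.X 1) = MvPolynomial.X 1 := by simp [ev2]
  rw [e0, e1] at hG'
  obtain ⟨cF, hF⟩ := hG'.log hL₀
  have e : F₀.toPowerSeries = MvPowerSeries.map
      (ev2 (MvPolynomial.X 0 : MvPolynomial (Fin 2) ℚ) (MvPolynomial.X 1)) F := by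
    rw [← fg_inv_left hL₀.1 hu cF, hF, ← h48_fadd_Ga
      (fg_cc (MvPowerSeries.constantCoeff_X _) hL₀.1)
      (fg_cc (MvPowerSeries.constantCoeff_X _) hL₀.1), ← ((isFGHom_iff _ _ _).1 hF₀).2,
      fg_inv_left hL₀.1 hu F₀.zero_constantCoeff]
  obtain ⟨G, hG0, hGc⟩ := exists_descent _ h48_ev2_inj F₀ fun d => by
    rw [e, MvPowerSeries.coeff_map]
    exact ⟨_, rfl⟩
  refine ⟨G, hGc (hc inferInstance), fun R _ _ a b L hL => ?_⟩
  let ψ : MvPolynomial (Fin 2) ℚ →+* R := (MvPolynomial.aeval ![a, b]).toRingHom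
  have ha : ψ (MvPolynomial.X 0) = a := by simp [ψ]
  have hb : ψ (MvPolynomial.X 1) = b := by simp [ψ]
  have h1 := hom_map hF₀ ψ
  have h2 := hL₀.map ψ
  rw [ha, hb] at h2
  rwa [← hG0, R227.map_map, comp_ev2, ha, hb, h48_Ga_map, h2.unique hL] at h1

theorem FU_spec : FUSpec FU := by
  have h := exists_FU
  unfold FU
  rw [dif_pos h]
  exact h.choose_spec

theorem IsLog.hom [Algebra ℚ R] {a b : R} {L : R⟦X⟧} (h : IsLog a b L) :
    IsFGHom (Fab a b) FormalGroup.𝔾ₐ L := FU_spec.2 R a b L h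

theorem h79_ga {τ : Type} {f g : MvPowerSeries τ R} (hf : MvPowerSeries.constantCoeff f = 0)
    (hg : MvPowerSeries.constantCoeff g = 0) : fadd FormalGroup.𝔾ₐ f g = f + g := by
  have h := fg_hs2 hf hg
  change MvPowerSeries.subst ![f, g] (MvPowerSeries.X 0 + MvPowerSeries.X 1 :
    MvPowerSeries (Fin 2) R) = _
  rw [MvPowerSeries.subst_add h, MvPowerSeries.subst_X h, MvPowerSeries.subst_X h]
  rfl

theorem h79_subst_CX {τ : Type} (u : R) {z : MvPowerSeries τ R}
    (hz : MvPowerSeries.constantCoeff z = 0) :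
    PowerSeries.subst z (PowerSeries.C u * X : R⟦X⟧) = MvPowerSeries.C u * z := by
  rw [PowerSeries.subst_mul (fg_hs hz), PowerSeries.subst_C, PowerSeries.subst_X (fg_hs hz)]

theorem h79_hom_CX (u : R) : IsFGHom FormalGroup.𝔾ₐ FormalGroup.𝔾ₐ (PowerSeries.C u * X : R⟦X⟧) := by
  refine ⟨by simp, ?_⟩
  change _ = fadd _ _ _
  rw [h79_subst_CX u FormalGroup.𝔾ₐ.zero_constantCoeff, h79_subst_CX u (by simp),
    h79_subst_CX u (by simp), h79_ga (by simp) (by simp), ← mul_add]
  rfl

theorem h79_scale_Q [Algebra ℚ R] (u a b : R) :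
    IsFGHom (Fab (u * a) (u ^ 3 * b)) (Fab a b) (PowerSeries.C u * X) := by
  obtain ⟨L, h⟩ := exists_isLog a b
  obtain ⟨L', h'⟩ := exists_isLog (u * a) (u ^ 3 * b)
  have hu : IsUnit (coeff 1 L) := by rw [h.coeff_one]; exact isUnit_one
  have h0 : MvPowerSeries.constantCoeff (PowerSeries.C u * X : R⟦X⟧) = 0 := by
    change constantCoeff _ = 0
    simp
  have e : (PowerSeries.subst L' (PowerSeries.C u * X : R⟦X⟧) : R⟦X⟧) =
      PowerSeries.subst (PowerSeries.C u * X : R⟦X⟧) L := by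
    rw [h79_subst_CX u h'.1, ← smul_eq_C_mul, ← rescale_eq_subst]
    ext n
    change coeff n (PowerSeries.C u * L') = _
    rw [coeff_C_mul, coeff_rescale]
    rcases n with _ | n
    · rw [coeff_zero_eq_constantCoeff_apply, coeff_zero_eq_constantCoeff_apply, h.1, h'.1,
        mul_zero, mul_zero]
    · rw [h.scale u h' n]
      ring
  have h1 := hom_comp (hom_comp h'.hom (h79_hom_CX u)) (hom_inv h.hom hu)
  rwa [e, fg_inv_left h.1 hu h0] at h1

theorem h79_cube {a b : R} {P Y : R⟦X⟧} (Q : R⟦X⟧) (hP : P = X * Q) (h0 : constantCoeff Y = 0)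
    (hY : Y = P ^ 3 + PowerSeries.C a * P * Y + PowerSeries.C b * Y ^ 2) :
    ∃ K : R⟦X⟧, Y = X ^ 3 * Q ^ 3 + X ^ 4 * K := by
  obtain ⟨Y1, h1⟩ := PowerSeries.X_dvd_iff.2 h0
  obtain ⟨Y2, h2⟩ : ∃ Y2, Y = X ^ 2 * Y2 :=
    ⟨X * Q ^ 3 + PowerSeries.C a * Q * Y1 + PowerSeries.C b * Y1 ^ 2, by
      rw [hY]; nth_rw 1 2 [h1]; rw [hP]; ring⟩
  obtain ⟨Y3, h3⟩ : ∃ Y3, Y = X ^ 3 * Y3 :=
    ⟨Q ^ 3 + PowerSeries.C a * Q * Y2 + PowerSeries.C b * X * Y2 ^ 2, by
      rw [hY]; nth_rw 1 2 [h2]; rw [hP]; ring⟩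
  exact ⟨PowerSeries.C a * Q * Y3 + PowerSeries.C b * X ^ 2 * Y3 ^ 2, by
    rw [hY]; nth_rw 1 2 [h3]; rw [hP]; ring⟩

theorem h79_two_Q [Algebra ℚ R] (a b : R) :
    coeff 2 (mulSeries (Fab a b) 2) = -a ∧ coeff 4 (mulSeries (Fab a b) 2) = -7 * b := by
  obtain ⟨L, h⟩ := exists_isLog a b
  have e := hom_comm_mulSeries h.hom 2
  have hP0 := constantCoeff_mulSeries (Fab a b) 2
  have hP1 := coeff_one_mulSeries (Fab a b) 2
  generalize mulSeries (Fab a b) 2 = P at e hP0 hP1
  obtain ⟨hL0, W, ⟨hW0, hW⟩, hD⟩ := h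
  have hs : HasSubst P := fg_hs hP0
  have hsL : HasSubst L := fg_hs hL0
  have e2 : mulSeries (FormalGroup.𝔾ₐ : FormalGroup R) 2 = X + X := by
    rw [fg_mul_succ, mulSeries_one, h79_ga fg_ccX fg_ccX]
  rw [e2, PowerSeries.subst_add hsL, PowerSeries.subst_X hsL] at e
  have e3 := congrArg (PowerSeries.derivative R) e
  rw [derivative_subst hs, map_add] at e3
  set Y : R⟦X⟧ := PowerSeries.subst P W with hYdef
  have hY0 : constantCoeff Y = 0 := fg_cc hP0 hW0
  have hC : ∀ r : R, (PowerSeries.substAlgHom hs) (PowerSeries.C r : R⟦X⟧) = PowerSeries.C r :=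
    fun r => by rw [coe_substAlgHom, PowerSeries.subst_C]; rfl
  have hX : (PowerSeries.substAlgHom hs) (X : R⟦X⟧) = P := by
    rw [coe_substAlgHom, PowerSeries.subst_X hs]
  have hWY : (PowerSeries.substAlgHom hs) W = Y := by rw [coe_substAlgHom]
  have hY : Y = P ^ 3 + PowerSeries.C a * P * Y + PowerSeries.C b * Y ^ 2 := by
    have := congrArg (PowerSeries.substAlgHom hs) hW
    simpa only [map_add, map_mul, map_pow, hC, hX, hWY] using this
  have hDP : (PowerSeries.subst P (PowerSeries.derivative R L) : R⟦X⟧) *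
      (1 - PowerSeries.C a * P - 2 * PowerSeries.C b * Y) = 1 := by
    have := congrArg (PowerSeries.substAlgHom hs) hD
    simp only [map_sub, map_mul, map_one, map_ofNat, hC, hX, hWY] at this
    rwa [coe_substAlgHom] at this
  have key : PowerSeries.derivative R P * (1 - PowerSeries.C a * X - 2 * PowerSeries.C b * W) =
      2 * (1 - PowerSeries.C a * P - 2 * PowerSeries.C b * Y) := by
    linear_combination (1 - PowerSeries.C a * X - 2 * PowerSeries.C b * W) *
      (1 - PowerSeries.C a * P - 2 * PowerSeries.C b * Y) * e3 -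
      PowerSeries.derivative R P * (1 - PowerSeries.C a * X - 2 * PowerSeries.C b * W) * hDP +
      2 * (1 - PowerSeries.C a * P - 2 * PowerSeries.C b * Y) * hD
  obtain ⟨Q, hQ⟩ := PowerSeries.X_dvd_iff.2 hP0
  obtain ⟨K, hK⟩ := h79_cube (P := X) 1 (mul_one _).symm hW0 hW
  obtain ⟨K', hK'⟩ := h79_cube Q hQ hY0 hY
  have hQ0 : constantCoeff Q = 2 := by
    rw [hQ, show (1 : ℕ) = 0 + 1 from rfl, coeff_succ_X_mul, coeff_zero_eq_constantCoeff_apply] at hP1
    exact_mod_cast hP1
  have hD0 : constantCoeff (PowerSeries.derivative R P) = 2 := by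
    rw [← coeff_zero_eq_constantCoeff_apply, coeff_derivative, hP1]; simp
  have key2 : PowerSeries.derivative R P = PowerSeries.C 2 - PowerSeries.C (2 * a) * P +
      PowerSeries.C a * (X ^ 1 * PowerSeries.derivative R P) +
      PowerSeries.C (2 * b) * (X ^ 3 * PowerSeries.derivative R P) -
      PowerSeries.C (4 * b) * (X ^ 3 * Q ^ 3) +
      X ^ 4 * (2 * PowerSeries.C b * K * PowerSeries.derivative R P - 4 * PowerSeries.C b * K') := by
    rw [hK, hK'] at key
    simp only [map_mul, map_ofNat]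
    linear_combination key
  have c1 := congrArg (coeff 1) key2
  have c2 := congrArg (coeff 2) key2
  have c3 := congrArg (coeff 3) key2
  simp only [map_add, map_sub, coeff_C_mul, coeff_X_pow_mul', coeff_C, coeff_derivative] at c1 c2 c3
  norm_num [hP1, hQ0] at c1 c2 c3
  have hu : ∀ (n : ℕ) (x : R), n ≠ 0 → (n : R) * x = 0 → x = 0 := fun n x hn hx => by
    have : IsUnit (n : R) := by
      have := (IsUnit.mk0 (n : ℚ) (Nat.cast_ne_zero.2 hn)).map (algebraMap ℚ R)
      rwa [map_natCast] at this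
    exact (this.mul_right_eq_zero).1 hx
  have p2 : coeff 2 P = -a := by
    refine eq_neg_of_add_eq_zero_left (hu 2 _ two_ne_zero ?_)
    push_cast
    linear_combination c1
  have p3 : coeff 3 P = 0 := by
    refine hu 3 _ three_ne_zero ?_
    push_cast
    linear_combination c2
  refine ⟨p2, sub_eq_zero.1 (hu 4 _ four_ne_zero ?_)⟩
  push_cast
  linear_combination c3 + a * p3

theorem h79_lift2_inj : Function.Injective (lift2 ℚ) := by
  refine (IsLocalization.lift_injective_iff _).2 fun x y => ⟨fun h => ?_, fun h => ?_⟩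
  · have := congrArg (lift2 ℚ) h
    simpa using this
  · have : x = y := by simpa using h
    rw [this]

/-- scaling: `uT` is a homomorphism `F(ua, u³b) → F(a, b)` -/
theorem Fab_scale [OddU R] (u a b : R) :
    IsFGHom (Fab (u * a) (u ^ 3 * b)) (Fab a b) (PowerSeries.C u * X) := by
  let φ : MvPolynomial (Fin 3) Z2 →+* MvPolynomial (Fin 3) ℚ := MvPolynomial.map (lift2 ℚ)
  have hφ : Function.Injective φ := MvPolynomial.map_injective _ h79_lift2_inj
  have h1 : IsFGHom (Fab (MvPolynomial.X 0 * MvPolynomial.X 1)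
      (MvPolynomial.X 0 ^ 3 * MvPolynomial.X 2)) (Fab (MvPolynomial.X 1) (MvPolynomial.X 2))
      (PowerSeries.C (MvPolynomial.X 0) * X : (MvPolynomial (Fin 3) Z2)⟦X⟧) := by
    refine hom_of_map φ hφ ?_
    rw [Fab_map, Fab_map, map_mul, map_mul, map_pow, map_mul, PowerSeries.map_C, PowerSeries.map_X]
    exact h79_scale_Q _ _ _
  have h2 := hom_map h1 (MvPolynomial.eval₂Hom (lift2 R) ![u, a, b])
  rw [Fab_map, Fab_map, map_mul, map_mul, map_pow, map_mul, PowerSeries.map_C,
    PowerSeries.map_X] at h2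
  simpa using h2

/-- `[2] T = 2T - aT² - 7bT⁴ + …` -/
theorem Fab_two [OddU R] (a b : R) :
    coeff 2 (mulSeries (Fab a b) 2) = -a ∧ coeff 4 (mulSeries (Fab a b) 2) = -7 * b := by
  let φ : MvPolynomial (Fin 2) Z2 →+* MvPolynomial (Fin 2) ℚ := MvPolynomial.map (lift2 ℚ)
  have hφ : Function.Injective φ := MvPolynomial.map_injective _ h79_lift2_inj
  have hc : ∀ {A B : Type} [CommRing A] [CommRing B] [OddU A] [OddU B] (f : A →+* B) (x y : A)
      (n : ℕ), f (coeff n (mulSeries (Fab x y) 2)) = coeff n (mulSeries (Fab (f x) (f y)) 2) := by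
    intro A B _ _ _ _ f x y n
    rw [← Fab_map, ← map_mulSeries, coeff_map]
  obtain ⟨q1, q2⟩ := h79_two_Q (φ (MvPolynomial.X 0)) (φ (MvPolynomial.X 1))
  rw [← hc, ← map_neg] at q1
  rw [← hc] at q2
  have q3 : coeff 4 (mulSeries (Fab (MvPolynomial.X 0 : MvPolynomial (Fin 2) Z2)
      (MvPolynomial.X 1)) 2) = -7 * MvPolynomial.X 1 :=
    hφ (by rw [q2, map_mul, map_neg, map_ofNat])
  have r1 := congrArg (ev2 a b) (hφ q1)
  have r2 := congrArg (ev2 a b) q3
  have ea : ev2 a b (MvPolynomial.X 0) = a := by simp [ev2]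
  have eb : ev2 a b (MvPolynomial.X 1) = b := by simp [ev2]
  rw [hc, map_neg, ea, eb] at r1
  rw [hc, map_mul, map_neg, map_ofNat, ea, eb] at r2
  exact ⟨r1, r2⟩

end

end Crest.Agent.R007
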