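import Crest.Agent.R007.Defs

/-! # Row 7, block T: roots of unity, naturality of the series, transfer `ℂ → OO → FF`. -/

set_option autoImplicit false

noncomputable section
namespace Crest.Agent.R007

open PowerSeries UpperHalfPlane
open scoped ModularForm MatrixGroups TensorProduct

theorem h38_prim (n : ℕ) (hn : Odd n) : ∃ ζ : FF, IsPrimitiveRoot ζ n := by
  have : NeZero (n : FF) := ⟨fun h => by
    rw [CharP.cast_eq_zero_iff FF 2] at h
    exact hn.not_two_dvd_nat h⟩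
  exact HasEnoughRootsOfUnity.exists_primitiveRoot FF n

theorem h38_step {n m : ℕ} (hn : Odd n) (hm : Odd m) {ζ : FF} (hζ : IsPrimitiveRoot ζ n) :
    ∃ ξ : FF, IsPrimitiveRoot ξ (n * m) ∧ ξ ^ m = ζ := by
  obtain ⟨ξ, hξ⟩ := h38_prim (n * m) (hn.mul hm)
  have : NeZero n := ⟨hn.pos.ne'⟩
  have h1 : IsPrimitiveRoot (ξ ^ m) n := hξ.pow (hn.mul hm).pos (mul_comm _ _)
  obtain ⟨i, -, hi, he⟩ := h1.isPrimitiveRoot_iff.1 hζ
  obtain ⟨p, hp, hpp, hpi⟩ := Nat.forall_exists_prime_gt_and_modEq (n * m) hn.pos.ne' hi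
  refine ⟨ξ ^ p, hξ.pow_of_coprime p (Nat.Coprime.symm
    (Nat.coprime_of_lt_prime (hn.mul hm).pos.ne' hp hpp).symm), ?_⟩
  rw [← pow_mul, mul_comm, pow_mul, ← he, pow_eq_pow_mod p h1.pow_eq_one, hpi,
    ← pow_eq_pow_mod i h1.pow_eq_one]

theorem h38_exists : ∃ z, IsRootSys z := by
  let M : ℕ → ℕ := fun k => ∏ j ∈ Finset.range k, (2 * j + 1)
  have hMs : ∀ k, M (k + 1) = M k * (2 * k + 1) := fun k => Finset.prod_range_succ _ _
  have hMo : ∀ k, Odd (M k) := fun k => by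
    induction k with
    | zero => exact odd_one
    | succ k ih => rw [hMs]; exact ih.mul ⟨k, rfl⟩
  have hdiv : ∀ n, Odd n → n ∣ M n := by
    rintro n ⟨j, rfl⟩
    exact Finset.dvd_prod_of_mem (fun j => 2 * j + 1) (Finset.mem_range.2 (by omega))
  have hstep : ∀ k (ζ : {ζ : FF // IsPrimitiveRoot ζ (M k)}),
      ∃ ξ : {ζ : FF // IsPrimitiveRoot ζ (M (k + 1))}, ξ.1 ^ (2 * k + 1) = ζ.1 := fun k ζ => by
    obtain ⟨ξ, h1, h2⟩ := h38_step (hMo k) (m := 2 * k + 1) ⟨k, rfl⟩ ζ.2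
    exact ⟨⟨ξ, hMs k ▸ h1⟩, h2⟩
  choose f hf using hstep
  let y : ∀ k, {ζ : FF // IsPrimitiveRoot ζ (M k)} := fun k =>
    Nat.rec (motive := fun k => {ζ : FF // IsPrimitiveRoot ζ (M k)}) ⟨1, IsPrimitiveRoot.one⟩ f k
  have hy : ∀ k, (y (k + 1)).1 ^ (2 * k + 1) = (y k).1 := fun k => hf k (y k)
  have hle : ∀ k k', k ≤ k' → ∃ c, M k' = M k * c ∧ (y k').1 ^ c = (y k).1 := by
    intro k k' h
    induction h with
    | refl => exact ⟨1, (mul_one _).symm, pow_one _⟩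
    | @step l _ ih =>
      obtain ⟨c, h1, h2⟩ := ih
      exact ⟨(2 * l + 1) * c, by rw [Nat.succ_eq_add_one, hMs, h1]; ring, by
        rw [pow_mul, Nat.succ_eq_add_one, hy, h2]⟩
  refine ⟨fun n => (y n).1 ^ (M n / n), fun n hn =>
    (y n).2.pow (hMo n).pos (Nat.div_mul_cancel (hdiv n hn)).symm, fun m n hm hn => ?_⟩
  obtain ⟨c, h1, h2⟩ := hle n (m * n) (Nat.le_mul_of_pos_left n hm.pos)
  obtain ⟨a, ha⟩ := hdiv n hn
  obtain ⟨b, hb⟩ := hdiv (m * n) (hm.mul hn)
  have h3 : b * m = c * a := by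
    refine Nat.eq_of_mul_eq_mul_left hn.pos ?_
    rw [hb, ha] at h1
    calc n * (b * m) = m * n * b := by ring
      _ = n * a * c := h1
      _ = n * (c * a) := by ring
  simp only
  rw [← h2, ← pow_mul, ← pow_mul, Nat.div_eq_of_eq_mul_right (hm.mul hn).pos hb,
    Nat.div_eq_of_eq_mul_right hn.pos ha, h3]

theorem zz_spec : IsRootSys zz := by
  have h := h38_exists
  unfold zz
  rw [dif_pos h]
  exact h.choose_spec

theorem chr_nat {R : Type} [CommRing R] {h : ℕ} [NeZero h] {ζ : R} (hζ : ζ ^ h = 1) (n : ℕ) :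
    chr h ζ (n : ZMod h) = ζ ^ n := by
  unfold chr
  rw [dif_pos hζ, AddChar.zmodChar_apply']

theorem chr_map {R S : Type} [CommRing R] [CommRing S] (f : R →+* S) {h : ℕ} [NeZero h] {ζ : R}
    (hζ : ζ ^ h = 1) (x : ZMod h) : chr h (f ζ) x = f (chr h ζ x) := by
  have h2 : f ζ ^ h = 1 := by rw [← map_pow, hζ, map_one]
  unfold chr
  rw [dif_pos hζ, dif_pos h2, AddChar.zmodChar_apply, AddChar.zmodChar_apply, map_pow]

theorem zC_prim (h : ℕ) [NeZero h] : IsPrimitiveRoot (zC h) h := by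
  exact Complex.isPrimitiveRoot_exp h (NeZero.ne h)
theorem zC_mul (h m : ℕ) [NeZero h] [NeZero m] : zC (h * m) ^ m = zC h := by
  have h1 : (h : ℂ) ≠ 0 := Nat.cast_ne_zero.2 (NeZero.ne h)
  have h2 : (m : ℂ) ≠ 0 := Nat.cast_ne_zero.2 (NeZero.ne m)
  unfold zC
  rw [← Complex.exp_nat_mul]
  congr 1
  push_cast
  field_simp
theorem zK_pow (h : ℕ) [NeZero h] : zK h ^ h = 1 := by
  exact Subtype.ext (zC_prim h).pow_eq_one
theorem zO_pow (h : ℕ) (ho : Odd h) : zO h ^ h = 1 := by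
  unfold zO
  rw [← map_pow, (zz_spec.1 h ho).pow_eq_one, map_one]
theorem zz_pow (h : ℕ) (ho : Odd h) : zz h ^ h = 1 := by
  exact (zz_spec.1 h ho).pow_eq_one
theorem red_zO (h : ℕ) : red (zO h) = zz h := by
  exact WittVector.teichmuller_coeff_zero 2 (zz h)
theorem zz_mul (h m : ℕ) (ho : Odd h) (hm : Odd m) : zz (h * m) ^ m = zz h := by
  rw [mul_comm]
  exact zz_spec.2 m h hm ho
theorem zO_mul (h m : ℕ) (ho : Odd h) (hm : Odd m) : zO (h * m) ^ m = zO h := by
  unfold zO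
  rw [← map_pow, zz_mul h m ho hm]

theorem h31_prim_field {k : Type} [Field k] {h : ℕ} [NeZero h] {ζ : k}
    (hζ : IsPrimitiveRoot ζ h) : Prim (chr h ζ) := by
  intro b hb
  rw [← ZMod.natCast_zmod_val b, chr_nat hζ.pow_eq_one, isUnit_iff_ne_zero, sub_ne_zero]
  exact (hζ.pow_ne_one_of_pos_of_lt (by simpa using hb) (ZMod.val_lt b)).symm

theorem h31_zK_prim (h : ℕ) [NeZero h] : IsPrimitiveRoot (zK h) h :=
  IsPrimitiveRoot.of_map_of_injective (f := algebraMap (KC h) ℂ) (zC_prim h)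
    (algebraMap (KC h) ℂ).injective

theorem h31_zO_prim (h : ℕ) (ho : Odd h) : IsPrimitiveRoot (zO h) h := by
  refine ⟨zO_pow h ho, fun l hl => (zz_spec.1 h ho).dvd_of_pow_eq_one l ?_⟩
  rw [← red_zO, ← map_pow, hl, map_one]

theorem h31_charZero_OO : CharZero OO := by
  rcases CharP.exists' OO with h | ⟨p, hp, hc⟩
  · exact h
  · have h1 : (p : OO) = 0 := CharP.cast_eq_zero OO p
    have h2 : (p : FF) = 0 := by rw [← map_natCast red, h1, map_zero]
    rw [CharP.cast_eq_zero_iff FF 2] at h2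
    obtain rfl := (Nat.prime_dvd_prime_iff_eq Nat.prime_two hp.out).1 h2
    exact absurd h1 (WittVector.p_nonzero 2 FF)

theorem prim_eC (h : ℕ) [NeZero h] : Prim (eC h) := by
  exact h31_prim_field (zC_prim h)
theorem prim_eK (h : ℕ) [NeZero h] : Prim (eK h) := by
  exact h31_prim_field (h31_zK_prim h)
theorem prim_eO (h : ℕ) [NeZero h] (ho : Odd h) : Prim (eO h) := by
  intro b hb
  refine WittVector.isUnit_of_coeff_zero_ne_zero _ ?_
  have h1 := (h31_prim_field (zz_spec.1 h ho) b hb).ne_zero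
  rw [← red_zO, chr_map red (zO_pow h ho), ← map_one red, ← map_sub] at h1
  exact h1
theorem prim_eKK (h : ℕ) [NeZero h] (ho : Odd h) : Prim (eKK h) := by
  intro b hb
  have h1 := (prim_eO h ho b hb).map (algebraMap OO KK)
  rw [map_sub, map_one, eO, ← chr_map _ (zO_pow h ho)] at h1
  exact h1
theorem prim_eF (h : ℕ) [NeZero h] (ho : Odd h) : Prim (eF h) := by
  exact h31_prim_field (zz_spec.1 h ho)

theorem eC_eq (h : ℕ) [NeZero h] (x : ZMod h) : eC h x = algebraMap (KC h) ℂ (eK h x) := by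
  exact chr_map (algebraMap (KC h) ℂ) (zK_pow h) x
theorem eKK_eq (h : ℕ) [NeZero h] (ho : Odd h) (x : ZMod h) :
    eKK h x = algebraMap OO KK (eO h x) := by
  exact chr_map (algebraMap OO KK) (zO_pow h ho) x
theorem eF_eq (h : ℕ) [NeZero h] (ho : Odd h) (x : ZMod h) : eF h x = red (eO h x) := by
  rw [eF, ← red_zO]
  exact chr_map red (zO_pow h ho) x
theorem eKK_iota (h : ℕ) [NeZero h] {ι : KC h →+* KK} (hι : IsIota h ι) (x : ZMod h) :
    eKK h x = ι (eK h x) := by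
  rw [eKK, ← hι]
  exact chr_map ι (zK_pow h) x

theorem exists_iota (h : ℕ) [NeZero h] (ho : Odd h) : ∃ ι : KC h →+* KK, IsIota h ι := by
  haveI : CharZero OO := h31_charZero_OO
  have hp : 0 < h := Nat.pos_of_ne_zero (NeZero.ne h)
  have hζ : IsPrimitiveRoot (algebraMap OO KK (zO h)) h :=
    (h31_zO_prim h ho).map_of_injective (IsFractionRing.injective OO KK)
  have hi : IsIntegral ℚ (zC h) := ((zC_prim h).isIntegral hp).tower_top
  have hm : algebraMap OO KK (zO h) ∈ (minpoly ℚ (zC h)).aroots KK := by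
    rw [Polynomial.mem_aroots]
    refine ⟨minpoly.ne_zero hi, ?_⟩
    rw [← Polynomial.cyclotomic_eq_minpoly_rat (zC_prim h) hp,
      Polynomial.cyclotomic_eq_minpoly_rat hζ hp]
    exact minpoly.aeval _ _
  exact ⟨((IntermediateField.algHomAdjoinIntegralEquiv ℚ hi).symm ⟨_, hm⟩).toRingHom,
    IntermediateField.algHomAdjoinIntegralEquiv_symm_apply_gen ℚ hi ⟨_, hm⟩⟩

section nat
variable {R S : Type} [CommRing R] [CommRing S] {h : ℕ}

theorem map_lev [NeZero h] (f : R →+* S) (x : ℤ⟦X⟧) : PowerSeries.map f (lev R h x) = lev S h x := by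
  show PowerSeries.map f (PowerSeries.expand h (NeZero.ne h) (PowerSeries.map (Int.castRingHom R) x)) =
    PowerSeries.expand h (NeZero.ne h) (PowerSeries.map (Int.castRingHom S) x)
  rw [PowerSeries.map_expand]
  congr 1
  ext n
  simp
theorem h28_map_inv (f : R →+* S) {e : AddChar (ZMod h) R} (he : Prim e) (b : ZMod h) :
    f (Ring.inverse (1 - e b)) = Ring.inverse (1 - f (e b)) := by
  by_cases hb : b = 0
  · simp [hb]
  · have h1 : (1 - f (e b)) * f (Ring.inverse (1 - e b)) = 1 := by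
      rw [← map_one f, ← map_sub, ← map_mul, Ring.mul_inverse_cancel _ (he b hb)]
    have h2 : IsUnit (1 - f (e b)) := IsUnit.of_mul_eq_one _ h1
    exact h2.mul_left_cancel (by rw [h1, Ring.mul_inverse_cancel _ h2])
theorem map_Xser (f : R →+* S) {e : AddChar (ZMod h) R} {e' : AddChar (ZMod h) S} (he : Prim e)
    (hee : ∀ x, e' x = f (e x)) (P : ZMod h × ZMod h) :
    PowerSeries.map f (Xser e P) = Xser e' P := by
  ext n
  simp only [Xser, coeff_map, coeff_mk, apply_ite f, map_sum, map_mul, map_pow, map_add, map_sub,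
    map_zero, map_natCast, map_ofNat, h28_map_inv f he, hee]
theorem map_Yser (f : R →+* S) {e : AddChar (ZMod h) R} {e' : AddChar (ZMod h) S} (he : Prim e)
    (hee : ∀ x, e' x = f (e x)) (P : ZMod h × ZMod h) :
    PowerSeries.map f (Yser e P) = Yser e' P := by
  ext n
  simp only [Yser, coeff_map, coeff_mk, apply_ite f, map_sum, map_mul, map_pow, map_add, map_sub,
    map_zero, map_natCast, h28_map_inv f he, hee]
theorem map_DXser (f : R →+* S) {e : AddChar (ZMod h) R} {e' : AddChar (ZMod h) S} (he : Prim e)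
    (hee : ∀ x, e' x = f (e x)) (P : ZMod h × ZMod h) :
    PowerSeries.map f (DXser e P) = DXser e' P := by
  rw [DXser, DXser, map_add, map_mul, map_ofNat, map_Xser f he hee, map_Yser f he hee]
theorem map_Zser [NeZero h] (f : R →+* S) {e : AddChar (ZMod h) R} {e' : AddChar (ZMod h) S}
    (he : Prim e) (hee : ∀ x, e' x = f (e x)) (P : ZMod h × ZMod h) :
    PowerSeries.map f (Zser e P) = Zser e' P := by
  rw [Zser, Zser, map_mul, map_sub, map_mul, map_ofNat, map_Xser f he hee, map_lev, map_lev]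
theorem map_sB (f : R →+* S) (ζ : R) (A : ℕ) [NeZero A] (x : R⟦X⟧) :
    PowerSeries.map f (sB ζ A x) = sB (f ζ) A (PowerSeries.map f x) := by
  show PowerSeries.map f (PowerSeries.expand A (NeZero.ne A) (PowerSeries.rescale ζ x)) =
    PowerSeries.expand A (NeZero.ne A) (PowerSeries.rescale (f ζ) (PowerSeries.map f x))
  rw [PowerSeries.map_expand, PowerSeries.rescale_map]
theorem h28_inv_neg (e : AddChar (ZMod h) R) (he : Prim e) {b : ZMod h} (hb : b ≠ 0) :
    e b * e (-b) = 1 ∧ (1 - e b) * Ring.inverse (1 - e b) = 1 ∧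
      Ring.inverse (1 - e (-b)) = -(e b * Ring.inverse (1 - e b)) := by
  have h1 : e b * e (-b) = 1 := by rw [← AddChar.map_add_eq_mul, add_neg_cancel, AddChar.map_zero_eq_one]
  have h2 := Ring.mul_inverse_cancel _ (he b hb)
  have h3 := he (-b) (neg_ne_zero.2 hb)
  refine ⟨h1, h2, h3.mul_left_cancel ?_⟩
  rw [Ring.mul_inverse_cancel _ h3]
  linear_combination -h2 - Ring.inverse (1 - e b) * h1
theorem Xser_neg (e : AddChar (ZMod h) R) (he : Prim e) (P : ZMod h × ZMod h) :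
    Xser e (-P) = Xser e P := by
  ext n
  simp only [Xser, coeff_mk, Prod.fst_neg, Prod.snd_neg, neg_eq_zero, neg_mul, neg_neg]
  split_ifs with h0 h1
  · by_cases hb : P.2 = 0
    · rw [hb, neg_zero]
    · obtain ⟨a1, -, a3⟩ := h28_inv_neg e he hb
      rw [a3]
      linear_combination e P.2 * Ring.inverse (1 - e P.2) ^ 2 * a1
  · rfl
  · exact Finset.sum_congr rfl fun p _ => by ring
theorem h28_Yser_neg (e : AddChar (ZMod h) R) (he : Prim e) (P : ZMod h × ZMod h) :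
    Yser e (-P) = -Yser e P - Xser e P := by
  ext n
  simp only [Xser, Yser, coeff_mk, Prod.fst_neg, Prod.snd_neg, neg_eq_zero, neg_mul, neg_neg,
    map_sub, map_neg]
  split_ifs with h0 h1
  · by_cases hb : P.2 = 0
    · simp [hb]
    · obtain ⟨a1, a2, a3⟩ := h28_inv_neg e he hb
      rw [a3]
      linear_combination (-(e P.2 * Ring.inverse (1 - e P.2) ^ 3 * (e P.2 * e (-P.2) + 1))) * a1 -
        e P.2 * Ring.inverse (1 - e P.2) ^ 2 * a2
  · simp
  · rw [← Finset.sum_neg_distrib, ← Finset.sum_sub_distrib]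
    refine Finset.sum_congr rfl fun p _ => ?_
    have : ((p.1 + 1).choose 2 : R) = p.1 + p.1.choose 2 := by
      rw [Nat.choose_succ_succ' p.1 1, Nat.choose_one_right]; push_cast; rfl
    rw [this]
    split_ifs <;> ring
theorem DXser_neg (e : AddChar (ZMod h) R) (he : Prim e) (P : ZMod h × ZMod h) :
    DXser e (-P) = -DXser e P := by
  rw [DXser, DXser, Xser_neg e he, h28_Yser_neg e he]
  ring

/-- the injective additive map `ℤ/h → ℤ/hm`, `x ↦ x m` -/
def h75L (h m : ℕ) (x : ZMod h) : ZMod (h * m) := ((x.val * m : ℕ) : ZMod (h * m))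

theorem h75L_nat [NeZero h] (m e : ℕ) : h75L h m (e : ZMod h) = ((e * m : ℕ) : ZMod (h * m)) := by
  unfold h75L
  rw [ZMod.natCast_eq_natCast_iff, ZMod.val_natCast]
  exact (Nat.mod_modEq e h).mul_right' m

theorem h75L_add [NeZero h] (m : ℕ) (x y : ZMod h) :
    h75L h m (x + y) = h75L h m x + h75L h m y := by
  obtain ⟨a, rfl⟩ := ZMod.natCast_zmod_surjective x
  obtain ⟨b, rfl⟩ := ZMod.natCast_zmod_surjective y
  rw [← Nat.cast_add, h75L_nat, h75L_nat, h75L_nat, add_mul, Nat.cast_add]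

theorem h75L_zero [NeZero h] (m : ℕ) : h75L h m 0 = 0 := by simp [h75L]

theorem h75L_neg [NeZero h] (m : ℕ) (x : ZMod h) : h75L h m (-x) = -h75L h m x := by
  rw [eq_neg_iff_add_eq_zero, ← h75L_add, neg_add_cancel, h75L_zero]

theorem h75L_mul [NeZero h] (m : ℕ) (x : ZMod h) (d : ℕ) :
    h75L h m x * (d : ZMod (h * m)) = h75L h m (x * d) := by
  obtain ⟨a, rfl⟩ := ZMod.natCast_zmod_surjective x
  rw [← Nat.cast_mul, h75L_nat, h75L_nat]
  push_cast
  ring

theorem h75L_inj [NeZero h] (m : ℕ) [NeZero m] {x y : ZMod h} :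
    h75L h m x = h75L h m y ↔ x = y := by
  refine ⟨fun hxy => ?_, fun hxy => by rw [hxy]⟩
  obtain ⟨a, rfl⟩ := ZMod.natCast_zmod_surjective x
  obtain ⟨b, rfl⟩ := ZMod.natCast_zmod_surjective y
  rw [h75L_nat, h75L_nat, ZMod.natCast_eq_natCast_iff] at hxy
  exact (ZMod.natCast_eq_natCast_iff _ _ _).2 (Nat.ModEq.mul_right_cancel' (NeZero.ne m) hxy)

theorem h75L_dvd (m : ℕ) {e : ℕ} {x : ZMod h} (hx : (e : ZMod (h * m)) = h75L h m x) : m ∣ e := by
  unfold h75L at hx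
  rw [ZMod.natCast_eq_natCast_iff] at hx
  exact ((hx.of_mul_left h).dvd_iff dvd_rfl).2 (dvd_mul_left _ _)

theorem h75L_chr [NeZero h] (m : ℕ) [NeZero m] {ζ : R} (hζ : ζ ^ (h * m) = 1) (x : ZMod h) :
    chr (h * m) ζ (h75L h m x) = chr h (ζ ^ m) x := by
  obtain ⟨a, rfl⟩ := ZMod.natCast_zmod_surjective x
  have h2 : (ζ ^ m) ^ h = 1 := by rw [← pow_mul, mul_comm, hζ]
  rw [h75L_nat, chr_nat hζ, chr_nat h2, ← pow_mul, mul_comm]

theorem h75_sum_div {m : ℕ} (hm : m ≠ 0) (F : ℕ → ℕ → R) (hF : ∀ d e, ¬ m ∣ e → F d e = 0)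
    (n : ℕ) : ∑ p ∈ n.divisorsAntidiagonal, F p.1 p.2 =
      if m ∣ n then ∑ p ∈ (n / m).divisorsAntidiagonal, F p.1 (p.2 * m) else 0 := by
  split_ifs with hd
  · obtain ⟨k, rfl⟩ := hd
    rw [Nat.mul_div_cancel_left _ (Nat.pos_of_ne_zero hm)]
    symm
    refine Finset.sum_of_injOn (fun p : ℕ × ℕ => (p.1, p.2 * m)) ?_ ?_ ?_ fun _ _ => rfl
    · rintro ⟨a, b⟩ _ ⟨c, d⟩ _ hh
      simp only [Prod.mk.injEq] at hh ⊢
      exact ⟨hh.1, Nat.eq_of_mul_eq_mul_right (Nat.pos_of_ne_zero hm) hh.2⟩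
    · rintro ⟨a, b⟩ hp
      rw [Finset.mem_coe, Nat.mem_divisorsAntidiagonal] at hp ⊢
      refine ⟨?_, mul_ne_zero hm hp.2⟩
      rw [← hp.1]; ring
    · rintro ⟨a, b⟩ hp hn
      refine hF a b fun hb => hn ?_
      obtain ⟨c, rfl⟩ := hb
      rw [Nat.mem_divisorsAntidiagonal] at hp
      refine ⟨(a, c), ?_, by simp [mul_comm]⟩
      rw [Finset.mem_coe, Nat.mem_divisorsAntidiagonal]
      refine ⟨Nat.eq_of_mul_eq_mul_left (Nat.pos_of_ne_zero hm) ?_, fun hk => hp.2 (by simp [hk])⟩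
      rw [← hp.1]; ring
  · refine Finset.sum_eq_zero fun p hp => hF _ _ fun he => hd ?_
    rw [← (Nat.mem_divisorsAntidiagonal.1 hp).1]
    exact he.mul_left _

/-- level change -/
theorem expand_lev [NeZero h] (m : ℕ) [NeZero m] (x : ℤ⟦X⟧) :
    PowerSeries.expand m (NeZero.ne m) (lev R h x) = lev R (h * m) x := by
  ext n
  simp only [lev, RingHom.coe_comp, Function.comp_apply, AlgHom.toRingHom_eq_coe, RingHom.coe_coe,
    coeff_expand]
  by_cases h1 : m ∣ n
  · obtain ⟨k, rfl⟩ := h1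
    have hm : 0 < m := Nat.pos_of_ne_zero (NeZero.ne m)
    rw [if_pos (dvd_mul_right _ _), Nat.mul_div_cancel_left _ hm, mul_comm h m,
      Nat.mul_div_mul_left _ _ hm]
    simp only [Nat.mul_dvd_mul_iff_left hm]
  · rw [if_neg h1, if_neg fun h2 => h1 ((dvd_mul_left m h).trans h2)]
theorem expand_Xser [NeZero h] (m : ℕ) [NeZero m] {ζ : R} (hζ : ζ ^ (h * m) = 1)
    (P : ZMod h × ZMod h) :
    PowerSeries.expand m (NeZero.ne m) (Xser (chr h (ζ ^ m)) P) = Xser (chr (h * m) ζ) (liftP m P) := by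
  have hm : m ≠ 0 := NeZero.ne m
  have e : liftP m P = (h75L h m P.1, h75L h m P.2) := rfl
  ext n
  rw [coeff_expand, e]
  simp only [Xser, coeff_mk]
  by_cases hn : n = 0
  · subst hn
    simp only [dvd_zero, Nat.zero_div, if_true, h75L_chr m hζ]
    rw [← h75L_zero (h := h) m]
    simp only [h75L_inj]
  · rw [if_neg hn, h75_sum_div hm (fun d e => (d : R) *
        ((if (e : ZMod (h * m)) = h75L h m P.1 then chr (h * m) ζ (h75L h m P.2 * d) else 0)
          + (if (e : ZMod (h * m)) = -h75L h m P.1 then chr (h * m) ζ (-(h75L h m P.2 * d)) else 0)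
          - (if (e : ZMod (h * m)) = 0 then 2 else 0)))]
    · by_cases h1 : m ∣ n
      · rw [if_pos h1, if_pos h1, if_neg fun h2 => hn (Nat.eq_zero_of_dvd_of_div_eq_zero h1 h2)]
        refine Finset.sum_congr rfl fun p _ => ?_
        rw [← h75L_nat, ← h75L_neg, h75L_mul, ← h75L_neg, h75L_chr m hζ, h75L_chr m hζ,
          ← h75L_zero (h := h) m]
        simp only [h75L_inj]
      · rw [if_neg h1, if_neg h1]
    · intro d e he
      rw [← h75L_neg, ← h75L_zero (h := h) m, if_neg fun hh => he (h75L_dvd m hh),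
        if_neg fun hh => he (h75L_dvd m hh), if_neg fun hh => he (h75L_dvd m hh)]
      simp
theorem expand_Yser [NeZero h] (m : ℕ) [NeZero m] {ζ : R} (hζ : ζ ^ (h * m) = 1)
    (P : ZMod h × ZMod h) :
    PowerSeries.expand m (NeZero.ne m) (Yser (chr h (ζ ^ m)) P) = Yser (chr (h * m) ζ) (liftP m P) := by
  have hm : m ≠ 0 := NeZero.ne m
  have e : liftP m P = (h75L h m P.1, h75L h m P.2) := rfl
  ext n
  rw [coeff_expand, e]
  simp only [Yser, coeff_mk]
  by_cases hn : n = 0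
  · subst hn
    simp only [dvd_zero, Nat.zero_div, if_true, h75L_chr m hζ]
    rw [← h75L_zero (h := h) m]
    simp only [h75L_inj]
  · rw [if_neg hn, h75_sum_div hm (fun d e =>
        ((if (e : ZMod (h * m)) = h75L h m P.1 then
            (d.choose 2 : R) * chr (h * m) ζ (h75L h m P.2 * d) else 0)
          - (if (e : ZMod (h * m)) = -h75L h m P.1 then
            ((d + 1).choose 2 : R) * chr (h * m) ζ (-(h75L h m P.2 * d)) else 0)
          + (if (e : ZMod (h * m)) = 0 then (d : R) else 0)))]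
    · by_cases h1 : m ∣ n
      · rw [if_pos h1, if_pos h1, if_neg fun h2 => hn (Nat.eq_zero_of_dvd_of_div_eq_zero h1 h2)]
        refine Finset.sum_congr rfl fun p _ => ?_
        rw [← h75L_nat, ← h75L_neg, h75L_mul, ← h75L_neg, h75L_chr m hζ, h75L_chr m hζ,
          ← h75L_zero (h := h) m]
        simp only [h75L_inj]
      · rw [if_neg h1, if_neg h1]
    · intro d e he
      rw [← h75L_neg, ← h75L_zero (h := h) m, if_neg fun hh => he (h75L_dvd m hh),
        if_neg fun hh => he (h75L_dvd m hh), if_neg fun hh => he (h75L_dvd m hh)]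
      simp
theorem liftP_ne_zero [NeZero h] (m : ℕ) [NeZero m] {P : ZMod h × ZMod h} (hP : P ≠ 0) :
    liftP m P ≠ 0 := by
  intro h0
  have h1 : h75L h m P.1 = h75L h m 0 := (congrArg Prod.fst h0).trans (h75L_zero m).symm
  have h2 : h75L h m P.2 = h75L h m 0 := (congrArg Prod.snd h0).trans (h75L_zero m).symm
  exact hP (Prod.ext ((h75L_inj m).1 h1) ((h75L_inj m).1 h2))
theorem P3_ne_zero (h3 : 3 ∣ h) [NeZero h] : P3 h ≠ 0 := by
  intro h0
  have h1 : ((h / 3 : ℕ) : ZMod h) = 0 := congrArg Prod.snd h0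
  rw [ZMod.natCast_eq_zero_iff] at h1
  have hh := NeZero.ne h
  have := Nat.le_of_dvd (by omega) h1
  omega
theorem three_smul_P3 (h3 : 3 ∣ h) : 3 • P3 h = 0 := by
  refine Prod.ext (by simp [P3]) ?_
  change 3 • ((h / 3 : ℕ) : ZMod h) = 0
  rw [nsmul_eq_mul, ← Nat.cast_mul, Nat.mul_div_cancel' h3, ZMod.natCast_self]
theorem liftP_P3 (h3 : 3 ∣ h) [NeZero h] (m : ℕ) [NeZero m] : liftP m (P3 h) = P3 (h * m) := by
  refine Prod.ext (h75L_zero m) ?_
  change h75L h m ((h / 3 : ℕ) : ZMod h) = ((h * m / 3 : ℕ) : ZMod (h * m))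
  rw [h75L_nat, Nat.div_mul_right_comm h3]
theorem lev_eps_mul_inv [NeZero h] : lev R h eps * lev R h epsInv = 1 := by
  rw [← map_mul, epsInv, PowerSeries.mul_invOfUnit _ _ (by simp [eps, sigO]), map_one]
end nat

theorem h25_two_FF : (2 : FF⟦X⟧) = 0 := by
  have h : (2 : FF) = 0 := CharTwo.two_eq_zero
  rw [← map_ofNat (PowerSeries.C : FF →+* FF⟦X⟧) 2, h, map_zero]

theorem lev_FF_eps (h : ℕ) [NeZero h] : lev FF h eps = 1 := by
  rw [eps, map_add, map_one, map_mul, map_ofNat]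
  linear_combination 12 * lev FF h sigO * h25_two_FF
theorem lev_FF_epsInv (h : ℕ) [NeZero h] : lev FF h epsInv = 1 := by
  have := lev_eps_mul_inv (R := FF) (h := h)
  rwa [lev_FF_eps, one_mul] at this
theorem Zser_FF (h : ℕ) [NeZero h] (e : AddChar (ZMod h) FF) (P : ZMod h × ZMod h) :
    Zser e P = Xser e P := by
  rw [Zser, lev_FF_epsInv, h25_two_FF, zero_mul, sub_zero, mul_one]
theorem DXser_FF (h : ℕ) (e : AddChar (ZMod h) FF) (P : ZMod h × ZMod h) :
    DXser e P = Xser e P := by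
  rw [DXser, h25_two_FF, zero_mul, zero_add]
theorem Xser_FF_ne_zero (h : ℕ) [NeZero h] (ho : Odd h) {P : ZMod h × ZMod h} (hP : P ≠ 0) :
    Xser (eF h) P ≠ 0 := by
  obtain ⟨a, b⟩ := P
  have hu : ∀ x, eF h x ≠ 0 := fun x => ((eF h).val_isUnit x).ne_zero
  intro h0
  by_cases ha : a = 0
  · have hb : b ≠ 0 := fun hb => hP (by rw [ha, hb]; rfl)
    have := congrArg (coeff 0) h0
    simp only [Xser, coeff_mk, if_true, ha, map_zero] at this
    exact mul_ne_zero (hu b) (pow_ne_zero 2 (prim_eF h ho b hb).ringInverse.ne_zero) this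
  · have hna : -a ≠ 0 := neg_ne_zero.2 ha
    have hne : a ≠ -a := fun e => ha (by
      have h2 : IsUnit ((2 : ℕ) : ZMod h) :=
        (ZMod.isUnit_iff_coprime 2 h).2 (Nat.coprime_two_left.2 ho)
      refine h2.mul_right_eq_zero.1 ?_
      push_cast
      linear_combination e)
    set n := min a.val (-a).val with hn
    have hn0 : n ≠ 0 := by
      have h1 : a.val ≠ 0 := (ZMod.val_ne_zero a).2 ha
      have h2 : (-a).val ≠ 0 := (ZMod.val_ne_zero (-a)).2 hna
      omega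
    have hnh : n < h := (min_le_left _ _).trans_lt (ZMod.val_lt a)
    have := congrArg (coeff n) h0
    simp only [Xser, coeff_mk, if_neg hn0, map_zero] at this
    have hn00 : (n : ZMod h) ≠ 0 := fun e =>
      hn0 (by rw [← ZMod.val_cast_of_lt hnh, e, ZMod.val_zero])
    rw [Finset.sum_eq_single (1, n)] at this
    · simp only [Nat.cast_one, one_mul, mul_one, if_neg hn00, sub_zero] at this
      rcases min_choice a.val (-a).val with e | e
      · have e1 : (n : ZMod h) = a := by rw [hn, e, ZMod.natCast_zmod_val]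
        rw [if_pos e1, if_neg (e1 ▸ hne), add_zero] at this
        exact hu _ this
      · have e1 : (n : ZMod h) = -a := by rw [hn, e, ZMod.natCast_zmod_val]
        rw [if_pos e1, if_neg (e1 ▸ hne.symm), zero_add] at this
        exact hu _ this
    · rintro ⟨d, m⟩ hp hp'
      obtain ⟨e, -⟩ := Nat.mem_divisorsAntidiagonal.1 hp
      simp only at e ⊢
      have hm0 : m ≠ 0 := fun e' => hn0 (by rw [← e, e', mul_zero])
      have hd0 : d ≠ 0 := fun e' => hn0 (by rw [← e, e', zero_mul])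
      have hd1 : d ≠ 1 := fun e' => hp' (by rw [← e, e', one_mul])
      have hlt : m < n := by
        rw [← e]
        exact lt_mul_of_one_lt_left (Nat.pos_of_ne_zero hm0) (by omega)
      have hv : (m : ZMod h).val = m := ZMod.val_cast_of_lt (hlt.trans hnh)
      rw [if_neg, if_neg, if_neg, add_zero, sub_zero, mul_zero]
      · intro e'
        rw [e', ZMod.val_zero] at hv
        exact hm0 hv.symm
      · intro e'
        rw [e'] at hv
        omega
      · intro e'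
        rw [e'] at hv
        omega
    · intro hp
      exact absurd (Nat.mem_divisorsAntidiagonal.2 ⟨one_mul n, hn0⟩) hp
theorem h25_coeff_zero_num : coeff 0 (sig 3 - V2 (sig 3)) = 0 := by
  simp [sig, V2]
/-- `ρ = q + O(q²)` -/
theorem coeff_zero_rho : coeff 0 rho = 0 := by
  rw [rho, coeff_zero_eq_constantCoeff_apply, map_mul, ← coeff_zero_eq_constantCoeff_apply,
    h25_coeff_zero_num, zero_mul]
theorem coeff_one_rho : coeff 1 rho = 1 := by
  have h1 : coeff 1 (sig 3 - V2 (sig 3)) = 1 := by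
    simp [sig, V2, coeff_expand]
  have h2 : constantCoeff epsInv = 1 := by
    rw [epsInv, constantCoeff_invOfUnit]; rfl
  rw [rho, coeff_one_mul, h1, ← coeff_zero_eq_constantCoeff_apply (sig 3 - V2 (sig 3)),
    h25_coeff_zero_num, map_pow, h2]
  simp

section lifts
variable {h : ℕ} {ι : KC h →+* KK}
theorem Lifts.add {F G : ℂ⟦X⟧} {F' G' : OO⟦X⟧} (a : Lifts ι F F') (b : Lifts ι G G') :
    Lifts ι (F + G) (F' + G') := by
  obtain ⟨A, a1, a2⟩ := a
  obtain ⟨B, b1, b2⟩ := b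
  exact ⟨A + B, by rw [map_add, a1, b1], by rw [map_add, map_add, a2, b2]⟩
theorem Lifts.mul {F G : ℂ⟦X⟧} {F' G' : OO⟦X⟧} (a : Lifts ι F F') (b : Lifts ι G G') :
    Lifts ι (F * G) (F' * G') := by
  obtain ⟨A, a1, a2⟩ := a
  obtain ⟨B, b1, b2⟩ := b
  exact ⟨A * B, by rw [map_mul, a1, b1], by rw [map_mul, map_mul, a2, b2]⟩
theorem Lifts.neg {F : ℂ⟦X⟧} {F' : OO⟦X⟧} (a : Lifts ι F F') : Lifts ι (-F) (-F') := by
  obtain ⟨A, a1, a2⟩ := a
  exact ⟨-A, by rw [map_neg, a1], by rw [map_neg, map_neg, a2]⟩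
theorem Lifts.sub {F G : ℂ⟦X⟧} {F' G' : OO⟦X⟧} (a : Lifts ι F F') (b : Lifts ι G G') :
    Lifts ι (F - G) (F' - G') := by
  obtain ⟨A, a1, a2⟩ := a
  obtain ⟨B, b1, b2⟩ := b
  exact ⟨A - B, by rw [map_sub, a1, b1], by rw [map_sub, map_sub, a2, b2]⟩
theorem Lifts.pow {F : ℂ⟦X⟧} {F' : OO⟦X⟧} (a : Lifts ι F F') (n : ℕ) : Lifts ι (F ^ n) (F' ^ n) := by
  obtain ⟨A, a1, a2⟩ := a
  exact ⟨A ^ n, by rw [map_pow, a1], by rw [map_pow, map_pow, a2]⟩
theorem Lifts.intCast (n : ℤ) : Lifts ι (n : ℂ⟦X⟧) (n : OO⟦X⟧) := by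
  exact ⟨n, map_intCast _ n, by rw [map_intCast, map_intCast]⟩
theorem Lifts.natCast (n : ℕ) : Lifts ι (n : ℂ⟦X⟧) (n : OO⟦X⟧) := by
  exact ⟨n, map_natCast _ n, by rw [map_natCast, map_natCast]⟩
theorem Lifts.ofNat (n : ℕ) [n.AtLeastTwo] :
    Lifts ι (OfNat.ofNat n : ℂ⟦X⟧) (OfNat.ofNat n : OO⟦X⟧) := by
  exact Lifts.natCast n
theorem Lifts.one : Lifts ι 1 1 := by
  exact ⟨1, map_one _, by rw [map_one, map_one]⟩
theorem Lifts.zero : Lifts ι 0 0 := by
  exact ⟨0, map_zero _, by rw [map_zero, map_zero]⟩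
theorem Lifts.unique {F : ℂ⟦X⟧} {F' F'' : OO⟦X⟧} (a : Lifts ι F F') (b : Lifts ι F F'') : F' = F'' := by
  obtain ⟨A, a1, a2⟩ := a
  obtain ⟨B, b1, b2⟩ := b
  have e : A = B :=
    PowerSeries.map_injective _ (algebraMap (KC h) ℂ).injective (a1.trans b1.symm)
  exact PowerSeries.map_injective _ (IsFractionRing.injective OO KK)
    (a2.symm.trans (e ▸ b2))
theorem Lifts.unique' {F G : ℂ⟦X⟧} {F' : OO⟦X⟧} (a : Lifts ι F F') (b : Lifts ι G F') : F = G := by
  obtain ⟨A, a1, a2⟩ := a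
  obtain ⟨B, b1, b2⟩ := b
  have e : A = B := PowerSeries.map_injective _ ι.injective (a2.trans b2.symm)
  rw [← a1, ← b1, e]
theorem Lifts.lev (m : ℕ) [NeZero m] (x : ℤ⟦X⟧) : Lifts ι (lev ℂ m x) (lev OO m x) := by
  exact ⟨R007.lev (KC h) m x, map_lev _ x, by rw [map_lev, map_lev]⟩
theorem Lifts.expand (m : ℕ) (hm : m ≠ 0) {F : ℂ⟦X⟧} {F' : OO⟦X⟧} (a : Lifts ι F F') :
    Lifts ι (PowerSeries.expand m hm F) (PowerSeries.expand m hm F') := by
  obtain ⟨A, a1, a2⟩ := a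
  exact ⟨PowerSeries.expand m hm A, by rw [PowerSeries.map_expand, a1],
    by rw [PowerSeries.map_expand, PowerSeries.map_expand, a2]⟩
theorem Lifts.sB [NeZero h] (hι : IsIota h ι) (B A : ℕ) [NeZero A] {F : ℂ⟦X⟧} {F' : OO⟦X⟧}
    (a : Lifts ι F F') : Lifts ι (sB (zC h ^ B) A F) (sB (zO h ^ B) A F') := by
  obtain ⟨G, a1, a2⟩ := a
  refine ⟨R007.sB (zK h ^ B) A G, ?_, ?_⟩
  · rw [map_sB, a1, map_pow]
    rfl
  · rw [map_sB, map_sB, a2, map_pow, map_pow, hι]
private theorem h1_chr [NeZero h] (ho : Odd h) (hι : IsIota h ι) (h' : ℕ) [NeZero h']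
    (hd : h' ∣ h) : Odd h' ∧ ∃ e : AddChar (ZMod h') (KC h), Prim e ∧
      (∀ x, eC h' x = algebraMap (KC h) ℂ (e x)) ∧ ∀ x, eKK h' x = ι (e x) := by
  obtain ⟨m, rfl⟩ := hd
  have : NeZero m := ⟨fun hm => NeZero.ne (h' * m) (by rw [hm, mul_zero])⟩
  obtain ⟨o1, o2⟩ := Nat.odd_mul.1 ho
  have hz : (zK (h' * m) ^ m) ^ h' = 1 := by rw [← pow_mul, mul_comm m h', zK_pow]
  have e1 : ∀ x, eC h' x = algebraMap (KC (h' * m)) ℂ (chr h' (zK (h' * m) ^ m) x) := fun x => by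
    rw [← chr_map _ hz, map_pow, eC, ← zC_mul h' m]
    rfl
  refine ⟨o1, chr h' (zK (h' * m) ^ m), fun b hb => ?_, e1, fun x => ?_⟩
  · refine isUnit_iff_ne_zero.2 fun h0 => (prim_eC h' b hb).ne_zero ?_
    rw [e1, ← map_one (algebraMap (KC (h' * m)) ℂ), ← map_sub, h0, map_zero]
  · rw [← chr_map _ hz, map_pow, hι, ← map_pow, zO_mul h' m o1 o2, eKK]

/-- series of level `h'` with `h = h' * m` -/
theorem Lifts.Xser [NeZero h] (ho : Odd h) (hι : IsIota h ι) (h' : ℕ) [NeZero h'] (hd : h' ∣ h)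
    (P : ZMod h' × ZMod h') : Lifts ι (Xser (eC h') P) (Xser (eO h') P) := by
  obtain ⟨o1, e, he, e1, e2⟩ := h1_chr ho hι h' hd
  exact ⟨R007.Xser e P, map_Xser _ he e1 P,
    (map_Xser _ he e2 P).trans (map_Xser _ (prim_eO h' o1) (eKK_eq h' o1) P).symm⟩
theorem Lifts.Yser [NeZero h] (ho : Odd h) (hι : IsIota h ι) (h' : ℕ) [NeZero h'] (hd : h' ∣ h)
    (P : ZMod h' × ZMod h') : Lifts ι (Yser (eC h') P) (Yser (eO h') P) := by
  obtain ⟨o1, e, he, e1, e2⟩ := h1_chr ho hι h' hd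
  exact ⟨R007.Yser e P, map_Yser _ he e1 P,
    (map_Yser _ he e2 P).trans (map_Yser _ (prim_eO h' o1) (eKK_eq h' o1) P).symm⟩
/-- cancelling a power of 2 or an odd integer -/
theorem Lifts.of_mul {F G : ℂ⟦X⟧} {F' G' : OO⟦X⟧} (hF : F ≠ 0) (a : Lifts ι F F')
    (b : Lifts ι (F * G) (F' * G')) : Lifts ι G G' := by
  obtain ⟨A, a1, a2⟩ := a
  obtain ⟨B, b1, b2⟩ := b
  have hA : A ≠ 0 := by
    rintro rfl
    exact hF (by rw [← a1, map_zero])
  obtain ⟨u, hu⟩ := PowerSeries.isUnit_divided_by_X_pow_order hA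
  have hAe : X ^ A.order.toNat * (u : (KC h)⟦X⟧) = A := by
    rw [hu]; exact PowerSeries.X_pow_order_mul_divXPowOrder
  obtain ⟨n, hn⟩ : ∃ n, n = A.order.toNat := ⟨_, rfl⟩
  rw [← hn] at hAe
  obtain ⟨B', hB'⟩ : (X : (KC h)⟦X⟧) ^ n ∣ B := by
    have h1 : (X : ℂ⟦X⟧) ^ n ∣ PowerSeries.map (algebraMap (KC h) ℂ) B := by
      rw [b1, ← a1, ← hAe, map_mul, map_pow, PowerSeries.map_X, mul_assoc]
      exact dvd_mul_right _ _
    rw [PowerSeries.X_pow_dvd_iff] at h1 ⊢
    intro k hk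
    have h2 := h1 k hk
    rw [PowerSeries.coeff_map] at h2
    exact (_root_.map_eq_zero _).1 h2
  have hAB : A * ((u⁻¹ : (KC h)⟦X⟧ˣ) * B') = B := by
    rw [← hAe, mul_assoc, Units.mul_inv_cancel_left, hB']
  refine ⟨(u⁻¹ : (KC h)⟦X⟧ˣ) * B', mul_left_cancel₀ hF ?_, ?_⟩
  · rw [← b1, ← hAB, map_mul _ A, a1]
  · have h0 : PowerSeries.map ι A ≠ 0 := fun h0 =>
      hA (PowerSeries.map_injective _ ι.injective (h0.trans (map_zero _).symm))
    refine mul_left_cancel₀ h0 ?_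
    rw [← map_mul, hAB, b2, map_mul, a2]
end lifts

theorem h28_adjoin_map {k k' : Type} [Field k] [Field k'] (f : k →+* k') {s : Set k⟦X⟧}
    {s' : Set k'⟦X⟧} (hs : ∀ x ∈ s, PowerSeries.map f x ∈ s') {y : k⟦X⟧}
    (hy : y ∈ Algebra.adjoin k s) : PowerSeries.map f y ∈ Algebra.adjoin k' s' := by
  induction hy using Algebra.adjoin_induction with
  | mem x hx => exact Algebra.subset_adjoin (hs x hx)
  | algebraMap c =>
    have : PowerSeries.map f (algebraMap k k⟦X⟧ c) = algebraMap k' k'⟦X⟧ (f c) :=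
      PowerSeries.map_C f c
    rw [this]
    exact Subalgebra.algebraMap_mem _ _
  | add x y _ _ hx hy => rw [map_add]; exact add_mem hx hy
  | mul x y _ _ hx hy => rw [map_mul]; exact mul_mem hx hy

theorem Good.map {k k' : Type} [Field k] [Field k'] {h : ℕ} [NeZero h] (f : k →+* k')
    {e : AddChar (ZMod h) k} {e' : AddChar (ZMod h) k'} (he : Prim e) (hee : ∀ x, e' x = f (e x))
    {x : k⟦X⟧} (hx : Good e x) : Good e' (PowerSeries.map f x) := by
  obtain ⟨h1, D, hD, hD0, hDx⟩ := hx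
  have hA : ∀ y ∈ ringA e, PowerSeries.map f y ∈ ringA e' := fun y hy => by
    refine h28_adjoin_map f ?_ hy
    rintro _ ((rfl | rfl) | ⟨P, hP, rfl⟩)
    · exact Or.inl (Or.inl (map_lev f _))
    · exact Or.inl (Or.inr (map_lev f _))
    · exact Or.inr ⟨P, hP, map_Zser f he hee P⟩
  refine ⟨?_, _, hA D hD, fun h0 => hD0 (PowerSeries.map_injective f f.injective
    (by rw [h0, map_zero])), by rw [← map_mul]; exact hA _ hDx⟩
  refine h1.map_of_comp_eq (RingHom.codRestrict ((PowerSeries.map f).comp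
    (algebraMap (Algebra.adjoin k ({lev k h rho} : Set k⟦X⟧)) k⟦X⟧))
    (Algebra.adjoin k' ({lev k' h rho} : Set k'⟦X⟧)) fun y => h28_adjoin_map f ?_ y.2)
    (PowerSeries.map f) rfl
  rintro _ rfl
  exact map_lev f _

end Crest.Agent.R007
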