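import Crest.Agent.R007.BRig
import Crest.Agent.R007.GHen
import Crest.Agent.R007.Cyc

/-! # Row 7, GEO team B: the group acting on `FF((a))` (G3-G5; owner helper41). -/

set_option autoImplicit false

noncomputable section
namespace Crest.Agent.R007

open PowerSeries Crest.LubinTate Crest.Agent.R227

theorem cc_sigma (σ : FF⟦X⟧ ≃ₐ[FF] FF⟦X⟧) (f : FF⟦X⟧) : constantCoeff (σ f) = constantCoeff f := by
  have hC : σ (C (constantCoeff f)) = C (constantCoeff f) := σ.commutes _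
  have h1 : ¬ IsUnit (σ (f - C (constantCoeff f))) := by
    intro h
    have := h.map σ.symm
    rw [AlgEquiv.symm_apply_apply, isUnit_iff_constantCoeff] at this
    simp at this
  rw [isUnit_iff_constantCoeff, isUnit_iff_ne_zero, not_not, map_sub, hC, map_sub,
    constantCoeff_C, sub_eq_zero] at h1
  exact h1

theorem map_cc_sigma (σ : FF⟦X⟧ ≃ₐ[FF] FF⟦X⟧) (f : FF⟦X⟧⟦X⟧) :
    PowerSeries.map (constantCoeff (R := FF)) (PowerSeries.map (σ : FF⟦X⟧ →+* FF⟦X⟧) f) =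
      PowerSeries.map (constantCoeff (R := FF)) f := by
  ext n
  simp [cc_sigma]

theorem hom_sigma (σ : FF⟦X⟧ ≃ₐ[FF] FF⟦X⟧) {b b' : FF⟦X⟧} {φ : FF⟦X⟧⟦X⟧}
    (h : IsFGHom (Fab b 1) (Fab b' 1) φ) :
    IsFGHom (Fab (σ b) 1) (Fab (σ b') 1) (PowerSeries.map (σ : FF⟦X⟧ →+* FF⟦X⟧) φ) := by
  have := hom_map h (σ : FF⟦X⟧ →+* FF⟦X⟧)
  rw [Fab_map, Fab_map, map_one] at this
  exact this

theorem hom_red {b b' : FF⟦X⟧} (hb : constantCoeff b = 0) (hb' : constantCoeff b' = 0)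
    {φ : FF⟦X⟧⟦X⟧} (h : IsFGHom (Fab b 1) (Fab b' 1) φ) :
    IsFGHom F0 F0 (PowerSeries.map (constantCoeff (R := FF)) φ) := by
  have := hom_map h (constantCoeff (R := FF))
  rw [Fab_map, Fab_map, map_one, hb, hb'] at this
  exact this

theorem unit_of_red {φ : FF⟦X⟧⟦X⟧} {α : E0ˣ}
    (h : PowerSeries.map (constantCoeff (R := FF)) φ = (α : E0).1) : IsUnit (coeff 1 φ) := by
  have := (Units.isUnit α).map EndF.lin
  rw [EndF.lin_apply, ← h, coeff_map] at this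
  exact isUnit_iff_constantCoeff.2 this

/-- automorphisms of the deformation space with the endomorphism they lift -/
def GB : Subgroup ((FF⟦X⟧ ≃ₐ[FF] FF⟦X⟧) × E0ˣ) where
  carrier := {p | ∃ φ : FF⟦X⟧⟦X⟧, IsFGHom (Fab (p.1 X) 1) (Fab X 1) φ ∧
    PowerSeries.map (constantCoeff (R := FF)) φ = (p.2 : E0).1}
  one_mem' := ⟨X, hom_X _, by simp [EndF.one_val]⟩
  mul_mem' := by
    rintro ⟨σ, α⟩ ⟨τ, β⟩ ⟨φ, hφ, eφ⟩ ⟨χ, hχ, eχ⟩
    have h1 := hom_sigma σ hχ
    refine ⟨_, hom_comp h1 hφ, ?_⟩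
    rw [rig_map_subst _ _ _ h1.1, map_cc_sigma, eφ, eχ]
    rfl
  inv_mem' := by
    rintro ⟨σ, α⟩ ⟨φ, hφ, eφ⟩
    have hu := unit_of_red eφ
    have h1 := hom_inv hφ hu
    have h2 := hom_sigma σ.symm h1
    simp only [AlgEquiv.symm_apply_apply] at h2
    refine ⟨_, h2, ?_⟩
    rw [map_cc_sigma]
    let γ : E0 := ⟨_, hom_red (by simp) (by simp [cc_sigma]) h1⟩
    have e : (α : E0) * γ = 1 := by
      apply EndF.ext
      rw [EndF.mul_val, ← eφ]
      show PowerSeries.subst (PowerSeries.map _ _) _ = _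
      rw [← rig_map_subst _ _ _ h1.1, PowerSeries.subst_substInvOfIsUnit_right φ hφ.1 hu, map_X]
      rfl
    have : γ = ((α⁻¹ : E0ˣ) : E0) := (Units.inv_eq_of_mul_eq_one_right e).symm
    exact congrArg Subtype.val this

def phiB : GB →* E0ˣ := (MonoidHom.snd _ _).comp GB.subtype

def sigB : GB →* (Om ≃ₐ[FF] Om) :=
  (IsFractionRing.fieldEquivOfAlgEquivHom FF Om).comp ((MonoidHom.fst _ _).comp GB.subtype)

theorem sigB_alg (g : GB) (f : FF⟦X⟧) :
    sigB g (algebraMap FF⟦X⟧ Om f) = algebraMap FF⟦X⟧ Om (g.1.1 f) :=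
  IsFractionRing.fieldEquivOfAlgEquiv_algebraMap FF Om Om g.1.1 f

theorem sigB_NW (g : GB) {x : Om} (hx : x ∈ NW) : sigB g x ∈ NW := by
  obtain ⟨f, rfl⟩ := mem_NW.1 hx
  obtain ⟨r, hr⟩ : X ∣ g.1.1 X := X_dvd_iff.2 (by simp [cc_sigma])
  exact mem_NW.2 ⟨r * g.1.1 f, by rw [sigB_alg, map_mul g.1.1, hr, mul_assoc]⟩

def actB (g : GB) : WB →+ WB :=
  QuotientAddGroup.map NW NW (sigB g : Om →+* Om).toAddMonoidHom fun _ hx => sigB_NW g hx

theorem actB_mk (g : GB) (x : Om) :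
    actB g (QuotientAddGroup.mk x) = QuotientAddGroup.mk (sigB g x) := rfl

instance actWB : DistribMulAction GB WB where
  smul g w := actB g w
  one_smul w := by
    induction w using QuotientAddGroup.induction_on with
    | H x => show actB 1 _ = _; rw [actB_mk, map_one]; rfl
  mul_smul g h w := by
    induction w using QuotientAddGroup.induction_on with
    | H x => show actB (g * h) _ = actB g (actB h _); rw [actB_mk, actB_mk, actB_mk, map_mul]; rfl
  smul_zero g := map_zero (actB g)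
  smul_add g := map_add (actB g)

theorem smul_mk (g : GB) (x : Om) :
    g • (QuotientAddGroup.mk x : WB) = QuotientAddGroup.mk (sigB g x) := rfl

theorem sigma_cong (σ : FF⟦X⟧ ≃ₐ[FF] FF⟦X⟧) (n : ℕ) (h : X ^ n ∣ σ X - X) (f : FF⟦X⟧) :
    X ^ n ∣ σ f - f := by
  induction n generalizing f with
  | zero => simp
  | succ n ih =>
    have e2 : f = X * (PowerSeries.mk fun i => coeff (i + 1) f) + C (constantCoeff f) :=
      eq_X_mul_shift_add_const f
    set g : FF⟦X⟧ := PowerSeries.mk fun i => coeff (i + 1) f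
    have hC : σ (C (constantCoeff f)) = C (constantCoeff f) := σ.commutes _
    have : σ f - f = (σ X - X) * σ g + X * (σ g - g) := by
      conv_lhs => rw [e2]
      rw [map_add, map_mul, hC]; ring
    rw [this]
    refine (h.mul_right _).add ?_
    rw [pow_succ']
    exact mul_dvd_mul_left _ (ih ((pow_dvd_pow _ (Nat.le_succ n)).trans h) g)

theorem aO_ne : aO ≠ 0 :=
  (map_ne_zero_iff _ (IsFractionRing.injective FF⟦X⟧ Om)).2 X_ne_zero

theorem exists_denB (x : Om) : ∃ (k : ℕ) (f : FF⟦X⟧), aO ^ k * x = algebraMap FF⟦X⟧ Om f := by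
  obtain ⟨f, g, hg, rfl⟩ := IsFractionRing.div_surjective (A := FF⟦X⟧) x
  have hg0 : g ≠ 0 := nonZeroDivisors.ne_zero hg
  have e := X_pow_order_mul_divXPowOrder (f := g)
  have hu : IsUnit (divXPowOrder g) := by
    rw [isUnit_iff_constantCoeff, isUnit_iff_ne_zero, Ne, constantCoeff_divXPowOrder_eq_zero_iff]
    exact hg0
  obtain ⟨u, hu⟩ := hu
  refine ⟨g.order.toNat, f * ↑u⁻¹, ?_⟩
  have h1 : algebraMap FF⟦X⟧ Om g ≠ 0 :=
    (map_ne_zero_iff _ (IsFractionRing.injective FF⟦X⟧ Om)).2 hg0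
  rw [← mul_div_assoc, div_eq_iff h1, aO, ← map_pow, ← map_mul, ← map_mul]
  congr 1
  conv_rhs => rw [← e, ← hu]
  rw [mul_assoc, mul_left_comm (↑u⁻¹ : FF⟦X⟧), Units.inv_mul, mul_one, mul_comm]

theorem two_pow_dvdB (j : ℕ) (y : E0) : X ^ (2 ^ j) ∣ (2 ^ j * y : E0).1 := by
  induction j with
  | zero => rw [pow_zero, pow_zero, pow_one, one_mul]; exact X_dvd_iff.2 y.cc'
  | succ j ih =>
    obtain ⟨w, -, e⟩ := P0_eq
    set z : E0 := 2 ^ j * y with hz
    have e1 : (2 ^ (j + 1) * y : E0) = ((2 : ℕ) : E0) * z := by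
      rw [hz, pow_succ', mul_assoc]; norm_num
    rw [e1, EndF.mul_val, EndF.natCast_val, e, subst_mul z.hs, subst_pow z.hs, subst_X z.hs]
    refine Dvd.dvd.mul_right ?_ _
    have := pow_dvd_pow_of_dvd ih 2
    rw [← pow_mul] at this
    rw [pow_succ]
    exact this.trans (pow_dvd_pow _ (by norm_num))

theorem GB_rigid (n : ℕ) (g : GB) (m : ℤ) (y : E0) (hm : Odd m)
    (h : ((phiB g : E0ˣ) : E0) = m + 2 ^ (n + 1) * y) : X ^ (n + 2) ∣ g.1.1 X - X := by
  obtain ⟨φ, hφ, eφ⟩ := g.2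
  obtain ⟨m', hm'⟩ : ∃ m' : ℕ, (m' : ℤ) = m + 2 ^ (n + 1) * (m.natAbs : ℤ) := by
    refine Int.eq_ofNat_of_zero_le ?_ |>.imp fun _ h => h.symm
    have h1 : (1 : ℤ) ≤ 2 ^ (n + 1) := one_le_pow₀ (by norm_num)
    have h2 : -m ≤ (m.natAbs : ℤ) := by omega
    nlinarith [Int.natCast_nonneg m.natAbs]
  have ho : Odd m' := by
    rw [← Int.odd_coe_nat, hm']
    exact hm.add_even ((even_two.pow_of_ne_zero (by omega)).mul_right _)
  have e1 : ((phiB g : E0ˣ) : E0) = (m' : E0) + 2 ^ (n + 1) * (y - (m.natAbs : E0)) := by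
    have : (m' : E0) = ((m' : ℤ) : E0) := (Int.cast_natCast m').symm
    rw [h, this, hm', Int.cast_add, Int.cast_mul, Int.cast_pow, Int.cast_ofNat, Int.cast_natCast,
      mul_sub]
    abel
  have hl : coeff 1 (mulSeries (Fab (X : FF⟦X⟧) 1) m') = 1 := by
    obtain ⟨k, hk⟩ := ho
    rw [coeff_one_mulSeries, hk]
    push_cast
    rw [two_of_alg, zero_mul, zero_add]
  refine rigidB hφ (hom_mulSeries _ m') (src_eq hφ (unit_of_red eφ)) (by rw [hl, mul_one]) n ?_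
  rw [eφ, map_mulSeries, Fab_map, constantCoeff_X, map_one]
  change _ ∣ ((phiB g : E0ˣ) : E0).1 - _
  rw [e1, EndF.add_val, EndF.natCast_val]
  set z : E0 := 2 ^ (n + 1) * (y - (m.natAbs : E0)) with hz
  have := fg_congr F0.toPowerSeries (constantCoeff_mulSeries F0 m') z.cc' (b' := 0) (by simp)
    (n := 2 ^ (n + 1)) (by rw [sub_zero]; exact two_pow_dvdB _ _)
  rwa [F0.add_zero (rig_hs (constantCoeff_mulSeries F0 m'))] at this

theorem GB_cont (w : WB) : ∃ j : ℕ, ∀ u : GB,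
    (∃ (m : ℤ) (y : E0), Odd m ∧ ((phiB u : E0ˣ) : E0) = m + 2 ^ j * y) → u • w = w := by
  induction w using QuotientAddGroup.induction_on with
  | H x =>
  obtain ⟨k, f, hf⟩ := exists_denB x
  refine ⟨k + 1, fun u ⟨m, y, hm, h⟩ => ?_⟩
  have h1 := GB_rigid k u m y hm h
  obtain ⟨r, hr⟩ := h1
  have e1 : u.1.1 X = X * (1 + X ^ (k + 1) * r) := by linear_combination hr
  have hv : IsUnit (1 + X ^ (k + 1) * r : FF⟦X⟧) := by
    rw [isUnit_iff_constantCoeff]; simp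
  obtain ⟨v, hv⟩ := hv
  obtain ⟨r1, hr1⟩ := sigma_cong u.1.1 (k + 1) ((pow_dvd_pow _ (by omega)).trans ⟨r, hr⟩) f
  obtain ⟨r2, hr2⟩ : X ^ (k + 1) ∣ (v : FF⟦X⟧) ^ k - 1 := by
    have := sub_dvd_pow_sub_pow (v : FF⟦X⟧) 1 k
    rw [one_pow] at this
    exact Dvd.dvd.trans ⟨r, by rw [hv]; ring⟩ this
  rw [smul_mk, QuotientAddGroup.eq, mem_NW]
  refine ⟨(r2 * f - r1) * ↑(v⁻¹ ^ k), ?_⟩
  have e2 := congrArg (sigB u) hf
  rw [map_mul, map_pow, aO, sigB_alg, sigB_alg, e1, ← hv] at e2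
  have hv0 : algebraMap FF⟦X⟧ Om v ≠ 0 := ((Units.isUnit v).map _).ne_zero
  apply mul_left_cancel₀ (pow_ne_zero k (mul_ne_zero aO_ne hv0))
  have e3 : (aO * algebraMap FF⟦X⟧ Om v) ^ k * (-(sigB u x) + x) =
      algebraMap FF⟦X⟧ Om (-(u.1.1 f) + (v : FF⟦X⟧) ^ k * f) := by
    rw [map_add, map_neg, ← e2, map_mul, map_mul, map_pow, ← hf, aO]; ring
  rw [e3, aO, ← map_mul, ← map_pow, ← map_mul]
  congr 1
  have e4 : (v : FF⟦X⟧) ^ k * ↑(v⁻¹ ^ k) = 1 := by
    rw [← Units.val_pow_eq_pow_val, ← Units.val_mul, ← mul_pow, mul_inv_cancel, one_pow, Units.val_one]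
  linear_combination (X ^ (k + 1) * (r2 * f - r1)) * e4 - f * hr2 + hr1

theorem GB_data : GData E0 GB phiB WB where
  tf := E0_tf
  gens := E0_gens
  two w := by
    induction w using QuotientAddGroup.induction_on with
    | H x =>
      rw [← QuotientAddGroup.mk_add, ← two_mul, two_of_alg, zero_mul]; rfl
  cont := GB_cont

/-- the automorphism `a ↦ a'` -/
def substEquiv (a' : FF⟦X⟧) (h0 : constantCoeff a' = 0) (hu : IsUnit (coeff 1 a')) :
    FF⟦X⟧ ≃ₐ[FF] FF⟦X⟧ :=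
  AlgEquiv.ofAlgHom (substAlgHom (rig_hs h0)) (substAlgHom (HasSubst.substInvOfIsUnit a' hu))
    (by
      apply AlgHom.ext; intro f
      simp only [AlgHom.comp_apply, coe_substAlgHom, AlgHom.id_apply]
      rw [subst_comp_subst_apply (HasSubst.substInvOfIsUnit a' hu) (rig_hs h0),
        subst_substInvOfIsUnit_left a' h0 hu, X_subst])
    (by
      apply AlgHom.ext; intro f
      simp only [AlgHom.comp_apply, coe_substAlgHom, AlgHom.id_apply]
      rw [subst_comp_subst_apply (rig_hs h0) (HasSubst.substInvOfIsUnit a' hu),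
        subst_substInvOfIsUnit_right a' h0 hu, X_subst])

theorem substEquiv_X (a' : FF⟦X⟧) (h0 : constantCoeff a' = 0) (hu : IsUnit (coeff 1 a')) :
    substEquiv a' h0 hu X = a' := substAlgHom_X (rig_hs h0)

theorem exists_GB {b : FF⟦X⟧} {θ : FF⟦X⟧⟦X⟧} (h : IsFGHom (Fab b 1) (Fab X 1) θ)
    (hu : IsUnit (coeff 1 θ)) : ∃ g : GB, g.1.1 X = b := by
  have hb := src_eq h hu
  have h0 : constantCoeff b = 0 := by rw [hb]; simp
  have hc : IsUnit (constantCoeff (coeff 1 θ)) := isUnit_iff_constantCoeff.1 hu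
  have h1 : IsUnit (coeff 1 b) := by
    rw [hb, show 1 = 0 + 1 from rfl, coeff_succ_X_mul, coeff_zero_eq_constantCoeff_apply]
    exact hc
  let α : E0 := ⟨_, hom_red h0 (by simp) h⟩
  have hα : IsUnit α := EndF.isUnit_of_lin (by rw [EndF.lin_apply]; exact hc)
  refine ⟨⟨(substEquiv b h0 h1, hα.unit), θ, ?_, rfl⟩, substEquiv_X b h0 h1⟩
  show IsFGHom (Fab (substEquiv b h0 h1 X) 1) _ _
  rw [substEquiv_X]; exact h

theorem exists_GB' (c' : Om) (ψ : Om⟦X⟧) (hψ : IsFGHom (Fab 1 c') (Fab 1 (aO⁻¹ ^ 3)) ψ)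
    (h1 : coeff 1 ψ = 1)
    (hint : ∀ n, ∃ f : FF⟦X⟧, algebraMap FF⟦X⟧ Om f = aO ^ n * coeff (n + 1) ψ) :
    ∃ g : GB, sigB g (aO⁻¹ ^ 3) = c' := by
  have inj := IsFractionRing.injective FF⟦X⟧ Om
  have ha := aO_ne
  choose f hf using hint
  let φ : FF⟦X⟧⟦X⟧ := PowerSeries.mk fun n => match n with
    | 0 => 0
    | n + 1 => f n
  have φ0 : constantCoeff φ = 0 := by simp [φ]
  have φ1 : coeff 1 φ = 1 := by
    apply inj
    have := hf 0
    rw [pow_zero, one_mul, zero_add, h1] at this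
    simp [φ, this]
  have s1 := Fab_scale aO (1 : Om) c'
  have s2 := Fab_scale aO⁻¹ aO (1 : Om)
  rw [inv_mul_cancel₀ ha, mul_one] at s2
  rw [mul_one] at s1
  have s3 := hom_comp (hom_comp s1 hψ) s2
  have e : PowerSeries.map (algebraMap FF⟦X⟧ Om) φ =
      PowerSeries.subst (PowerSeries.subst (C aO * X : Om⟦X⟧) ψ : Om⟦X⟧) (C aO⁻¹ * X : Om⟦X⟧) := by
    have hc := (hom_comp s1 hψ).1
    rw [rig_subst_C_mul _ _ _ hc, subst_X (rig_hs hc), ← smul_eq_C_mul X aO, ← rescale_eq_subst]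
    ext n
    rw [coeff_map, coeff_C_mul, coeff_rescale]
    rcases n with _ | n
    · have := hψ.1
      simp [φ, this]
    · simp only [φ, coeff_mk]
      rw [hf, pow_succ', mul_assoc, ← mul_assoc, inv_mul_cancel₀ ha, one_mul]
  rw [← e] at s3
  have hu : IsUnit (coeff 1 φ) := by rw [φ1]; exact isUnit_one
  obtain ⟨G, hG, -⟩ := exists_conj (Fab (X : FF⟦X⟧) 1) φ φ0 hu
  have hG' := hom_map hG (algebraMap FF⟦X⟧ Om)
  rw [Fab_map, map_one] at hG'
  have eG : G.map (algebraMap FF⟦X⟧ Om) = Fab aO (aO ^ 3 * c') :=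
    eq_of_hom hG' s3 (by rw [coeff_map, φ1, map_one]; exact isUnit_one)
  set b0 : FF⟦X⟧ := coeff 4 (mulSeries G 2) with hb0
  have eb : algebraMap FF⟦X⟧ Om b0 = aO ^ 3 * c' := by
    rw [hb0, ← coeff_map, map_mulSeries, eG, (Fab_two _ _).2]
    have := two_of_alg Om
    linear_combination (-4 * (aO ^ 3 * c')) * this
  have s4 : IsFGHom (Fab X b0) (Fab X 1) φ := by
    apply hom_of_map (algebraMap FF⟦X⟧ Om) inj
    rw [Fab_map, Fab_map, map_one, eb]
    exact s3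
  have hc : constantCoeff b0 = 1 := by
    have s5 := hom_map s4 (constantCoeff (R := FF))
    rw [Fab_map, Fab_map, map_one, constantCoeff_X] at s5
    have := frob_lead 2 s5 2 (by
      intro l hl
      interval_cases l
      · rw [pow_zero, coeff_one_mulSeries]; exact two_FF
      · rw [pow_one, (Fab_two _ _).1, neg_zero]) F0_low
    rw [show 2 ^ 2 = 4 from rfl, F0_c4, (Fab_two _ _).2, coeff_map, φ1, map_one] at this
    have h2 := two_FF
    linear_combination this + 4 * constantCoeff b0 * h2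
  obtain ⟨u, hu3, hu1⟩ := hen_root' 3 (by
    have h2 := two_FF
    intro h
    exact one_ne_zero (α := FF) (by push_cast at h; linear_combination h - h2)) b0 1 one_ne_zero
    (by rw [hc, one_pow])
  have huu : IsUnit u := by rw [isUnit_iff_constantCoeff, hu1]; exact isUnit_one
  obtain ⟨u, rfl⟩ := huu
  have s6 := Fab_scale (↑u⁻¹ : FF⟦X⟧) X b0
  rw [← hu3, ← mul_pow, Units.inv_mul, one_pow, hu3] at s6
  obtain ⟨g, hg⟩ := exists_GB (hom_comp s6 s4) (by
    rw [coeff_one_subst s6.1, φ1, one_mul, coeff_C_mul, coeff_one_X, mul_one]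
    exact Units.isUnit _)
  refine ⟨g, ?_⟩
  have hu0 : algebraMap FF⟦X⟧ Om u ≠ 0 := ((Units.isUnit u).map _).ne_zero
  have e1 : sigB g aO = (algebraMap FF⟦X⟧ Om u)⁻¹ * aO := by
    rw [aO, sigB_alg, hg, map_mul, map_units_inv]
  rw [map_pow, map_inv₀, e1]
  rw [← hu3, map_pow] at eb
  field_simp
  linear_combination eb

theorem exists_group : ∃ (E : Type) (_ : Ring E) (G : Type) (_ : Group G) (φ : G →* Eˣ)
    (σ : G →* (Om ≃ₐ[FF] Om)) (_ : DistribMulAction G WB), GData E G φ WB ∧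
    (∀ (g : G) (x : Om), g • (QuotientAddGroup.mk x : WB) = QuotientAddGroup.mk (σ g x)) ∧
    ∀ (c' : Om) (ψ : Om⟦X⟧), IsFGHom (Fab 1 c') (Fab 1 (aO⁻¹ ^ 3)) ψ → coeff 1 ψ = 1 →
      (∀ n, ∃ f : FF⟦X⟧, algebraMap FF⟦X⟧ Om f = aO ^ n * coeff (n + 1) ψ) →
      ∃ g : G, σ g (aO⁻¹ ^ 3) = c' :=
  ⟨E0, inferInstance, GB, inferInstance, phiB, sigB, actWB, GB_data, smul_mk, exists_GB'⟩

end Crest.Agent.R007
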