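import Crest.Agent.R007.W
import Crest.Agent.R007.RAut

/-! # Row 7, block R: descent of `Good`, Galois conjugates. -/

set_option autoImplicit false
set_option linter.dupNamespace false
set_option maxHeartbeats 400000

noncomputable section
namespace Crest.Agent.R007

open PowerSeries UpperHalfPlane CongruenceSubgroup
open scoped ModularForm MatrixGroups

section desc

variable {k k' : Type} [Field k] [Field k'] [Algebra k k']

/-- coefficientwise application of a linear form -/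
def prS (π : k' →ₗ[k] k) : k'⟦X⟧ →+ k⟦X⟧ where
  toFun F := PowerSeries.mk fun n => π (coeff n F)
  map_zero' := by ext; simp
  map_add' F G := by ext; simp

@[simp] theorem coeff_prS (π : k' →ₗ[k] k) (F : k'⟦X⟧) (n : ℕ) :
    coeff n (prS π F) = π (coeff n F) := by
  show coeff n (PowerSeries.mk fun n => π (coeff n F)) = _
  rw [PowerSeries.coeff_mk]

theorem prS_mul_map (π : k' →ₗ[k] k) (F : k'⟦X⟧) (x : k⟦X⟧) :
    prS π (F * PowerSeries.map (algebraMap k k') x) = prS π F * x := by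
  ext n
  simp only [coeff_prS, PowerSeries.coeff_mul, map_sum, PowerSeries.coeff_map]
  refine Finset.sum_congr rfl fun p _ => ?_
  rw [mul_comm, ← Algebra.smul_def, map_smul, smul_eq_mul, mul_comm]

theorem h78_prS_one (π : k' →ₗ[k] k) : prS π 1 = algebraMap k k⟦X⟧ (π 1) := by
  ext n
  rw [coeff_prS, PowerSeries.algebraMap_apply, PowerSeries.coeff_one, PowerSeries.coeff_C]
  split_ifs <;> simp

theorem h78_prS_smul (π : k' →ₗ[k] k) (c : k') (F : k'⟦X⟧) :
    prS π (c • F) = prS (π.comp (LinearMap.mulLeft k c)) F := by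
  ext n
  simp

/-- every element of the bigger algebra is a `k'`-combination of images of elements of the smaller one
(`Algebra.adjoin_induction` with the predicate `∀ x ∈ adjoin k s, prS π (F * map x) ∈ adjoin k s`,
or `Algebra.adjoin_eq_span`) -/
theorem prS_mem_adjoin (π : k' →ₗ[k] k) (s : Set k⟦X⟧) {F : k'⟦X⟧}
    (hF : F ∈ Algebra.adjoin k' (PowerSeries.map (algebraMap k k') '' s)) :
    prS π F ∈ Algebra.adjoin k s := by
  have hF' : F ∈ Submodule.span k' (Submonoid.closure (PowerSeries.map (algebraMap k k') '' s) :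
      Set k'⟦X⟧) := by
    rw [← Algebra.adjoin_eq_span]; exact hF
  clear hF
  induction hF' using Submodule.span_induction generalizing π with
  | mem y hy =>
    have hy' : y ∈ (Submonoid.closure s).map
        (PowerSeries.map (algebraMap k k') : k⟦X⟧ →+* k'⟦X⟧).toMonoidHom := by
      rw [MonoidHom.map_mclosure]; exact hy
    obtain ⟨x, hx, rfl⟩ := hy'
    have hx' : x ∈ Algebra.adjoin k s :=
      (Submonoid.closure_le (S := (Algebra.adjoin k s).toSubsemiring.toSubmonoid)).2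
        Algebra.subset_adjoin hx
    have e := prS_mul_map π 1 x
    rw [one_mul, h78_prS_one] at e
    change prS π (PowerSeries.map (algebraMap k k') x) ∈ _
    rw [e]
    exact mul_mem (Subalgebra.algebraMap_mem _ _) hx'
  | zero => rw [map_zero]; exact zero_mem _
  | add a b _ _ ha hb => rw [map_add]; exact add_mem (ha π) (hb π)
  | smul c a _ ha => rw [h78_prS_smul]; exact ha _

/-- apply `prS π` with `π 1 = 1` to the monic equation -/
theorem isIntegral_descend (s : Set k⟦X⟧) {x : k⟦X⟧}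
    (hx : IsIntegral (Algebra.adjoin k' (PowerSeries.map (algebraMap k k') '' s))
      (PowerSeries.map (algebraMap k k') x)) : IsIntegral (Algebra.adjoin k s) x := by
  obtain ⟨p, hp, h0⟩ := hx
  obtain ⟨π, hπ⟩ := Module.Projective.exists_dual_eq_one k (one_ne_zero (α := k'))
  let b : Fin p.natDegree → Algebra.adjoin k s := fun i =>
    ⟨prS π (p.coeff i : k'⟦X⟧), prS_mem_adjoin π s (p.coeff i).2⟩
  refine ⟨Polynomial.X ^ p.natDegree + ∑ i, Polynomial.C (b i) * Polynomial.X ^ (i : ℕ),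
    Polynomial.monic_X_pow_add (Polynomial.degree_sum_fin_lt b), ?_⟩
  rw [hp.as_sum, Finset.sum_range] at h0
  simp only [Polynomial.eval₂_add, Polynomial.eval₂_finsetSum, Polynomial.eval₂_mul,
    Polynomial.eval₂_C, Polynomial.eval₂_X_pow] at h0 ⊢
  have h1 := congrArg (prS π) h0
  rw [map_add, map_sum, map_zero, ← map_pow, ← one_mul (PowerSeries.map _ _), prS_mul_map,
    h78_prS_one, hπ, map_one, one_mul] at h1
  rw [← h1]
  congr 1
  refine Finset.sum_congr rfl fun i _ => ?_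
  rw [← map_pow, prS_mul_map]
  rfl

/-- `isIntegral_descend`; for the fraction choose `π` with `prS π D ≠ 0`; `map_lev`, `map_Zser` -/
theorem Good.descend {h : ℕ} [NeZero h] {e : AddChar (ZMod h) k} {e' : AddChar (ZMod h) k'}
    (he : Prim e) (hee : ∀ x, e' x = algebraMap k k' (e x)) {x : k⟦X⟧}
    (hx : Good e' (PowerSeries.map (algebraMap k k') x)) : Good e x := by
  obtain ⟨h1, D, hD, hD0, hDx⟩ := hx
  have eA : ringA e' = Algebra.adjoin k' (PowerSeries.map (algebraMap k k') ''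
      ({lev k h rho, lev k h mu} ∪ {x | ∃ P : ZMod h × ZMod h, P ≠ 0 ∧ x = Zser e P})) := by
    rw [ringA, Set.image_union, Set.image_pair, map_lev, map_lev]
    congr 2
    ext y
    constructor
    · rintro ⟨P, hP, rfl⟩
      exact ⟨_, ⟨P, hP, rfl⟩, map_Zser _ he hee P⟩
    · rintro ⟨_, ⟨P, hP, rfl⟩, rfl⟩
      exact ⟨P, hP, map_Zser _ he hee P⟩
  refine ⟨isIntegral_descend (k' := k') _ ?_, ?_⟩
  · rw [Set.image_singleton, map_lev]; exact h1
  · obtain ⟨n, hn⟩ : ∃ n, coeff n D ≠ 0 := by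
      by_contra hc
      push Not at hc
      exact hD0 (PowerSeries.ext fun n => by simpa using hc n)
    obtain ⟨π, hπ⟩ := Module.Projective.exists_dual_eq_one k hn
    rw [eA] at hD hDx
    refine ⟨prS π D, prS_mem_adjoin π _ hD, fun h0 => ?_, ?_⟩
    · have := coeff_prS π D n
      rw [h0, hπ, map_zero] at this
      exact zero_ne_one this
    · rw [← prS_mul_map]
      exact prS_mem_adjoin π _ hDx

end desc

theorem Xser_twist {R : Type} [CommRing R] {h : ℕ} {e e' : AddChar (ZMod h) R} {a : ZMod h}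
    (hee : ∀ x, e' x = e (a * x)) (P : ZMod h × ZMod h) : Xser e' P = Xser e (P.1, a * P.2) := by
  ext n
  simp only [Xser, coeff_mk, hee, mul_assoc, mul_neg]

/-- `σ (zC h)` is again a primitive root (`IsPrimitiveRoot.isPrimitiveRoot_iff`, `chr_nat`) -/
theorem exists_twist (h : ℕ) [NeZero h] (σ : ℂ ≃+* ℂ) :
    ∃ a : ZMod h, IsUnit a ∧ ∀ x, σ (eC h x) = eC h (a * x) := by
  have h1 : IsPrimitiveRoot (σ (zC h)) h := (zC_prim h).map_of_injective σ.injective
  obtain ⟨i, -, hi, hiz⟩ := ((zC_prim h).isPrimitiveRoot_iff).mp h1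
  refine ⟨(i : ZMod h), (ZMod.isUnit_iff_coprime i h).mpr hi, fun x => ?_⟩
  have hx : x = ((x.val : ℕ) : ZMod h) := (ZMod.natCast_zmod_val x).symm
  rw [hx, ← Nat.cast_mul]
  unfold eC
  rw [chr_nat (zC_prim h).pow_eq_one, chr_nat (zC_prim h).pow_eq_one, map_pow, ← hiz, ← pow_mul]

/-- `Good.map` with `e' = (eC h).mulShift a`; `ringA e' = ringA (eC h)` by `Xser_twist` -/
theorem Good.conj {h : ℕ} [NeZero h] (σ : ℂ ≃+* ℂ) {x : ℂ⟦X⟧} (hx : Good (eC h) x) :
    Good (eC h) (PowerSeries.map (σ : ℂ →+* ℂ) x) := by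
  obtain ⟨a, ha, hσ⟩ := exists_twist h σ
  have hee : ∀ y, (eC h).mulShift a y = eC h (a * y) := fun y => AddChar.mulShift_apply
  have h1 : Good ((eC h).mulShift a) (PowerSeries.map (σ : ℂ →+* ℂ) x) :=
    Good.map (σ : ℂ →+* ℂ) (prim_eC h) (fun y => by rw [hee]; exact (hσ y).symm) hx
  have hZ : ∀ P : ZMod h × ZMod h, Zser ((eC h).mulShift a) P = Zser (eC h) (P.1, a * P.2) := by
    intro P
    unfold Zser
    rw [Xser_twist hee]
  have hA : ringA ((eC h).mulShift a) ≤ ringA (eC h) := by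
    unfold ringA
    refine Algebra.adjoin_mono ?_
    rintro y (hy | ⟨P, hP, rfl⟩)
    · exact Or.inl hy
    · refine Or.inr ⟨(P.1, a * P.2), fun h0 => hP ?_, hZ P⟩
      have h2 : P.1 = 0 := congrArg Prod.fst h0
      have h3 : a * P.2 = 0 := congrArg Prod.snd h0
      exact Prod.ext h2 ((ha.mul_right_eq_zero).mp h3)
  obtain ⟨hi, D, hD, hD0, hDx⟩ := h1
  exact ⟨hi, D, hA hD, hD0, hA hDx⟩

/-- `A ^ 2 = 1 + 12 X(P₃)`, `a • P₃ = ± P₃`, `Xser_neg` -/
theorem conj_A1 {h : ℕ} [NeZero h] (h3 : 3 ∣ h) (σ : ℂ ≃+* ℂ) {A : ℂ⟦X⟧}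
    (hA : IsA1 (eC h) (P3 h) A) :
    PowerSeries.map (σ : ℂ →+* ℂ) A = A ∨ PowerSeries.map (σ : ℂ →+* ℂ) A = -A := by
  obtain ⟨a, ha, hσ⟩ := exists_twist h σ
  have hee : ∀ y, (eC h).mulShift a y = eC h (a * y) := fun y => AddChar.mulShift_apply
  have hX : PowerSeries.map (σ : ℂ →+* ℂ) (Xser (eC h) (P3 h)) = Xser (eC h) (P3 h) := by
    rw [map_Xser (σ : ℂ →+* ℂ) (prim_eC h) (e' := (eC h).mulShift a)
      (fun y => by rw [hee]; exact (hσ y).symm), Xser_twist hee]
    have ht : (3 : ZMod h) * (P3 h).2 = 0 := by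
      have := congrArg Prod.snd (three_smul_P3 h3)
      simpa [nsmul_eq_mul] using this
    have h1 : (P3 h).1 = 0 := rfl
    have hav : a = ((a.val / 3 : ℕ) : ZMod h) * 3 + ((a.val % 3 : ℕ) : ZMod h) := by
      conv_lhs => rw [← ZMod.natCast_zmod_val a, ← Nat.div_add_mod' a.val 3]
      push_cast
      rfl
    have hat : a * (P3 h).2 = ((a.val % 3 : ℕ) : ZMod h) * (P3 h).2 := by
      conv_lhs => rw [hav]
      rw [add_mul, mul_assoc, ht, mul_zero, zero_add]
    have hm : a.val % 3 = 0 ∨ a.val % 3 = 1 ∨ a.val % 3 = 2 := by omega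
    rcases hm with hm | hm | hm
    · rw [hm, Nat.cast_zero, zero_mul] at hat
      exact absurd (Prod.ext h1 ((ha.mul_right_eq_zero).mp hat)) (P3_ne_zero h3)
    · rw [hm, Nat.cast_one, one_mul] at hat
      rw [hat]
    · rw [hm] at hat
      have h2 : a * (P3 h).2 = -(P3 h).2 := by
        rw [hat]
        push_cast
        linear_combination ht
      rw [h2, ← Xser_neg (eC h) (prim_eC h) (P3 h)]
      congr 1
      exact Prod.ext (by rw [Prod.fst_neg, h1, neg_zero]) rfl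
  have h2 : PowerSeries.map (σ : ℂ →+* ℂ) A ^ 2 = A ^ 2 := by
    rw [← map_pow, hA.2, map_add, map_mul, map_one, map_ofNat, hX]
  exact sq_eq_sq_iff_eq_or_eq_neg.mp h2

/-- cancel `DXser ≠ 0` (`DXser_C_ne_zero`) -/
theorem IsA1.unique {h : ℕ} [NeZero h] (h3 : 3 ∣ h) {A A' : ℂ⟦X⟧} (hA : IsA1 (eC h) (P3 h) A)
    (hA' : IsA1 (eC h) (P3 h) A') : A = A' := by
  exact mul_right_cancel₀ (DXser_C_ne_zero h (P3_ne_zero h3) (three_smul_P3 h3))
    (hA.1.trans hA'.1.symm)

theorem IsA1.map_K {h : ℕ} [NeZero h] {P : ZMod h × ZMod h} {A : (KC h)⟦X⟧}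
    (hA : IsA1 (eK h) P A) : IsA1 (eC h) P (PowerSeries.map (algebraMap (KC h) ℂ) A) := by
  have hX := map_Xser (algebraMap (KC h) ℂ) (prim_eK h) (eC_eq h) P
  have hD := map_DXser (algebraMap (KC h) ℂ) (prim_eK h) (eC_eq h) P
  constructor
  · have := congrArg (PowerSeries.map (algebraMap (KC h) ℂ)) hA.1
    simpa only [map_mul, map_sub, map_add, map_pow, map_ofNat, hX, hD, map_lev] using this
  · have := congrArg (PowerSeries.map (algebraMap (KC h) ℂ)) hA.2
    simpa only [map_mul, map_add, map_pow, map_ofNat, map_one, hX] using this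

/-- `descent` transported along `ℂ⟦X⟧ ≃ₗ (ℕ → ℂ)` -/
theorem descent_ps (K : Subfield ℂ) (W : Submodule ℂ ℂ⟦X⟧) [FiniteDimensional ℂ W]
    (hW : ∀ σ : ℂ ≃+* ℂ, (∀ y ∈ K, σ y = y) → ∀ F ∈ W, PowerSeries.map (σ : ℂ →+* ℂ) F ∈ W) :
    ∃ (n : ℕ) (j : Fin n → ℕ) (w : Fin n → ℂ⟦X⟧), (∀ a, w a ∈ W) ∧ (∀ a i, coeff i (w a) ∈ K) ∧
      ∀ F ∈ W, F = ∑ a, coeff (j a) F • w a := by
  let c : ℂ⟦X⟧ →ₗ[ℂ] (ℕ → ℂ) := LinearMap.pi fun i => coeff i
  have hc : ∀ F i, c F i = coeff i F := fun _ _ => rfl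
  obtain ⟨n, j, w, h1, h2, -, h3⟩ := descent K (W.map c) (by
    rintro σ hσ _ ⟨F, hF, rfl⟩
    exact ⟨_, hW σ hσ F hF, funext fun i => by rw [hc, hc, PowerSeries.coeff_map]; rfl⟩)
  choose v hv hvw using h1
  refine ⟨n, j, v, hv, fun a i => by rw [← hc, hvw]; exact h2 a i, fun F hF => ?_⟩
  ext i
  have := congrFun (h3 _ ⟨F, hF, rfl⟩) i
  rw [hc, Finset.sum_apply] at this
  rw [this, map_sum]
  refine Finset.sum_congr rfl fun a _ => ?_
  rw [map_smul, ← hc (v a), hvw, hc, Pi.smul_apply]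

/-- expand the coefficients in a `ℚ`-basis of `K` -/
theorem mem_span_rat (K : IntermediateField ℚ ℂ) [FiniteDimensional ℚ K] {w : ℂ⟦X⟧}
    (hw : ∀ i, coeff i w ∈ K) : ∃ s : Finset ℚ⟦X⟧,
      w ∈ Submodule.span ℂ (PowerSeries.map (algebraMap ℚ ℂ) '' (s : Set ℚ⟦X⟧)) := by
  classical
  let b := Module.finBasis ℚ K
  let u : Fin (Module.finrank ℚ K) → ℚ⟦X⟧ := fun i =>
    PowerSeries.mk fun n => b.repr ⟨coeff n w, hw n⟩ i
  have e : w = ∑ i, (b i : ℂ) • PowerSeries.map (algebraMap ℚ ℂ) (u i) := by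
    ext n
    have h := congrArg (fun x : K => (x : ℂ)) (b.sum_repr ⟨coeff n w, hw n⟩)
    simp only [IntermediateField.coe_sum, IntermediateField.coe_smul] at h
    rw [← h, map_sum]
    refine Finset.sum_congr rfl fun i _ => ?_
    rw [coeff_smul, coeff_map, coeff_mk, Algebra.smul_def, smul_eq_mul, mul_comm]
  refine ⟨Finset.univ.image u, ?_⟩
  rw [e]
  refine Submodule.sum_mem _ fun i _ => Submodule.smul_mem _ _ (Submodule.subset_span ?_)
  exact ⟨u i, by simp, rfl⟩

/-- `W = comap (mulLeft D) (span V)` is finite-dimensional and stable under `Aut(ℂ / K)`;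
`descent_ps`, `mem_span_rat` -/
theorem span_rat (K : IntermediateField ℚ ℂ) [FiniteDimensional ℚ K] {D : ℂ⟦X⟧} (hD0 : D ≠ 0)
    (hD : D ∈ psSub K.toSubring) {V : Set ℂ⟦X⟧} (hV : V.Finite)
    (hVK : ∀ v ∈ V, v ∈ psSub K.toSubring) : ∃ s : Finset ℚ⟦X⟧, ∀ G : ℂ⟦X⟧,
      D * G ∈ Submodule.span ℂ V →
        G ∈ Submodule.span ℂ (PowerSeries.map (algebraMap ℚ ℂ) '' (s : Set ℚ⟦X⟧)) := by
  classical
  let W : Submodule ℂ ℂ⟦X⟧ := (Submodule.span ℂ V).comap (LinearMap.mulLeft ℂ D)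
  haveI : FiniteDimensional ℂ (Submodule.span ℂ V) := FiniteDimensional.span_of_finite ℂ hV
  haveI : FiniteDimensional ℂ W := by
    refine FiniteDimensional.of_injective
      ((LinearMap.mulLeft ℂ D).restrict (p := W) (q := Submodule.span ℂ V) fun x hx => hx) ?_
    intro x y hxy
    exact Subtype.ext (mul_left_cancel₀ hD0 (congrArg Subtype.val hxy))
  obtain ⟨n, j, w, hw, hK, hF⟩ := descent_ps K.toSubfield W (fun σ hσ F hF => by
    have fix : ∀ v ∈ psSub K.toSubring, PowerSeries.map (σ : ℂ →+* ℂ) v = v := fun v hv => by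
      ext n
      rw [coeff_map]
      exact hσ _ (mem_psSub.1 hv n)
    have st : ∀ x ∈ Submodule.span ℂ V,
        PowerSeries.map (σ : ℂ →+* ℂ) x ∈ Submodule.span ℂ V := fun x hx => by
      induction hx using Submodule.span_induction with
      | mem v hv => rw [fix v (hVK v hv)]; exact Submodule.subset_span hv
      | zero => simp
      | add x y _ _ hx hy => rw [map_add]; exact Submodule.add_mem _ hx hy
      | smul a x _ hx =>
        have e : PowerSeries.map (σ : ℂ →+* ℂ) (a • x) =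
            σ a • PowerSeries.map (σ : ℂ →+* ℂ) x := by
          ext n
          simp [coeff_map]
        rw [e]
        exact Submodule.smul_mem _ _ hx
    have h := st _ hF
    rw [LinearMap.mulLeft_apply, map_mul, fix D hD] at h
    exact h)
  choose s hs using fun a => mem_span_rat K (w := w a) (hK a)
  refine ⟨Finset.univ.biUnion s, fun G hG => ?_⟩
  rw [hF G hG]
  refine Submodule.sum_mem _ fun a _ => Submodule.smul_mem _ _ ?_
  refine Submodule.span_mono (Set.image_mono fun x hx => ?_) (hs a)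
  simp only [Finset.coe_biUnion, Set.mem_iUnion]
  exact ⟨a, by simp, hx⟩

/-- `descent_ps` for `K = ⊥`: the rational components are rational combinations of rational
elements of `W` -/
theorem piSer_mem (W : Submodule ℂ ℂ⟦X⟧) [FiniteDimensional ℂ W]
    (hW : ∀ σ : ℂ ≃+* ℂ, ∀ F ∈ W, PowerSeries.map (σ : ℂ →+* ℂ) F ∈ W) (π : ℂ →ₗ[ℚ] ℚ)
    {F : ℂ⟦X⟧} (hF : F ∈ W) : PowerSeries.map (algebraMap ℚ ℂ) (piSer π F) ∈ W := by
  obtain ⟨n, j, w, h1, h2, h3⟩ := descent_ps ⊥ W fun σ _ => hW σ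
  have h4 : ∀ a i, ∃ q : ℚ, (q : ℂ) = coeff i (w a) := fun a i =>
    (show (⊥ : Subfield ℂ) ≤ (Rat.castHom ℂ).fieldRange from bot_le) (h2 a i)
  choose q hq using h4
  have : PowerSeries.map (algebraMap ℚ ℂ) (piSer π F) =
      ∑ a, ((π (coeff (j a) F) : ℚ) : ℂ) • w a := by
    ext i
    have e : coeff i F = ∑ a, q a i • coeff (j a) F := by
      conv_lhs => rw [h3 F hF, map_sum]
      refine Finset.sum_congr rfl fun a _ => ?_
      rw [map_smul, ← hq, smul_eq_mul, Rat.smul_def, mul_comm]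
    rw [PowerSeries.coeff_map, piSer, PowerSeries.coeff_mk, e, map_sum, map_sum, map_sum]
    refine Finset.sum_congr rfl fun a _ => ?_
    rw [π.map_smul, (coeff i).map_smul, ← hq, smul_eq_mul, smul_eq_mul, map_mul, mul_comm]
    rfl
  rw [this]
  exact Submodule.sum_mem _ fun a _ => Submodule.smul_mem _ _ (h1 a)

end Crest.Agent.R007
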