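import Crest.Agent.R007.W

/-! # Row 7, block R: forms of level one. -/

set_option autoImplicit false

noncomputable section
namespace Crest.Agent.R007

open PowerSeries UpperHalfPlane
open scoped ModularForm MatrixGroups TensorProduct

theorem h75_lev_one (x : ℤ⟦X⟧) : lev ℂ 1 x = PowerSeries.map (Int.castRingHom ℂ) x := by
  simp [lev]

theorem h75_Dels : ∃ u : ℤ⟦X⟧, constantCoeff u = 1 ∧ Dels = X * u := by
  obtain ⟨r, hr⟩ : (X : ℤ⟦X⟧) ∣ rho := X_dvd_iff.2 (by simpa using coeff_zero_rho)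
  have h1 : constantCoeff r = 1 := by
    have := coeff_one_rho
    rw [hr, coeff_succ_X_mul] at this
    simpa using this
  have h0 : constantCoeff rho = 0 := by simpa using coeff_zero_rho
  have he : constantCoeff eps = 1 := by
    simp [eps, sigO]
  refine ⟨eps ^ 6 * r * (1 - 64 * rho) ^ 2, by simp [h1, h0, he], ?_⟩
  rw [Dels]
  linear_combination (eps ^ 6 * (1 - 64 * rho) ^ 2) * hr

theorem h75_mono (i a b : ℕ) :
    ∃ u : ℤ⟦X⟧, constantCoeff u = 1 ∧ Dels ^ i * E4s ^ a * E6s ^ b = X ^ i * u := by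
  obtain ⟨u, hu, e⟩ := h75_Dels
  have h4 : constantCoeff E4s = 1 := by simp [E4s, sig]
  have h6 : constantCoeff E6s = 1 := by simp [E6s, sig]
  exact ⟨u ^ i * E4s ^ a * E6s ^ b, by simp [hu, h4, h6], by rw [e]; ring⟩

theorem h75_coeff_mono (i a b n : ℕ) (hn : n ≤ i) :
    coeff n (lev ℂ 1 (Dels ^ i * E4s ^ a * E6s ^ b)) = if n = i then 1 else 0 := by
  obtain ⟨u, hu, e⟩ := h75_mono i a b
  rw [h75_lev_one, coeff_map, e, coeff_X_pow_mul']
  split_ifs with h1 h2 h2
  · subst h2; simp [hu]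
  · omega
  · omega
  · simp

theorem h75_hasQ_mono (i a b : ℕ) :
    HasQ 1 (Delf ^ i * E4f ^ a * E6f ^ b) (lev ℂ 1 (Dels ^ i * E4s ^ a * E6s ^ b)) := by
  simp only [map_mul, map_pow]
  exact ((hasQ_Delf.pow i).mul (hasQ_E4f.pow a)).mul (hasQ_E6f.pow b)

theorem h75_isMF_mono {i a b k : ℕ} (h : 12 * i + 4 * a + 6 * b = k) :
    IsMF k ⊤ (Delf ^ i * E4f ^ a * E6f ^ b) := by
  have := ((isMF_Delf.pow i).mul (isMF_E4f.pow a)).mul (isMF_E6f.pow b)
  convert this using 1
  rw [← h]; push_cast; ring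

/-- removing the leading term of a form whose leading exponent is maximal -/
theorem h75_top {k j a b : ℕ} (h : 12 * j + 4 * a + 6 * b = k) (hk : k < 12 * (j + 1)) {f : ℍ → ℂ}
    (hf : IsMF k ⊤ f) {F : ℂ⟦X⟧} (hF : HasQ 1 f F) (hz : ∀ n < j, coeff n F = 0) :
    F = coeff j F • lev ℂ 1 (Dels ^ j * E4s ^ a * E6s ^ b) := by
  rw [← sub_eq_zero]
  refine (hf.sub ((h75_isMF_mono h).smul (coeff j F))).sturm
    (hF.sub ((h75_hasQ_mono j a b).smul _)) fun n hn => ?_
  rw [Subgroup.index_top] at hn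
  have hn' : n ≤ j := by omega
  rw [map_sub, coeff_smul, h75_coeff_mono j a b n hn']
  split_ifs with h1
  · subst h1; simp
  · simp [hz n (by omega)]

theorem h75_pow_coeff {F : ℂ⟦X⟧} {j : ℕ} (hz : ∀ n < j, coeff n F = 0) (m : ℕ) :
    (∀ n < m * j, coeff n (F ^ m) = 0) ∧ coeff (m * j) (F ^ m) = coeff j F ^ m := by
  obtain ⟨u, rfl⟩ : X ^ j ∣ F := X_pow_dvd_iff.2 hz
  rw [mul_pow, ← pow_mul, mul_comm j m]
  refine ⟨fun n hn => ?_, ?_⟩
  · rw [coeff_X_pow_mul', if_neg (by omega)]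
  · simp [coeff_X_pow_mul']

/-- the possible leading exponents -/
theorem h75_lead {k j : ℕ} {f : ℍ → ℂ} (hf : IsMF k ⊤ f) {F : ℂ⟦X⟧} (hF : HasQ 1 f F)
    (hz : ∀ n < j, coeff n F = 0) (hc : coeff j F ≠ 0) :
    12 * j ≤ k ∧ k % 2 = 0 ∧ k ≠ 12 * j + 2 := by
  have hF0 : F ≠ 0 := fun h => hc (by simp [h])
  refine ⟨?_, ?_, ?_⟩
  · by_contra h
    refine hF0 (hf.sturm hF fun n hn => hz n ?_)
    rw [Subgroup.index_top] at hn
    omega
  · by_contra h
    have hk : Odd (k : ℤ) := by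
      rw [Int.odd_coe_nat, Nat.odd_iff]; omega
    have h1 := hf.inv (-1) trivial
    have h2 : f = 0 := by
      funext τ
      have h3 := congrFun h1 τ
      rw [ModularForm.SL_slash_apply] at h3
      have h4 : denom ((-1 : SL(2, ℤ)) : GL (Fin 2) ℝ) τ = -1 := by simp [denom]
      rw [h4, hk.neg.neg_zpow, one_zpow, ModularGroup.SL_neg_smul, one_smul] at h3
      change f τ = 0
      linear_combination (-1 / 2 : ℂ) * h3
    subst h2
    exact hF0 (hF.unique (HasQ.zero 1))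
  · rintro rfl
    have m2 : IsMF (2 * (12 * j + 2) : ℕ) ⊤ (f ^ 2) := by
      convert hf.pow 2 using 1
      exact Nat.cast_mul _ _
    have m3 : IsMF (3 * (12 * j + 2) : ℕ) ⊤ (f ^ 3) := by
      convert hf.pow 3 using 1
      exact Nat.cast_mul _ _
    have e2 := h75_top (j := 2 * j) (a := 1) (b := 0) (by ring) (by omega) m2 (hF.pow 2)
      (h75_pow_coeff hz 2).1
    have e3 := h75_top (j := 3 * j) (a := 0) (b := 1) (by ring) (by omega) m3 (hF.pow 3)
      (h75_pow_coeff hz 3).1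
    rw [(h75_pow_coeff hz 2).2] at e2
    rw [(h75_pow_coeff hz 3).2] at e3
    have e4 := congrArg (lev ℂ 1) Dels_eq
    simp only [map_mul, map_pow, map_sub, map_ofNat, pow_zero, pow_one, mul_one,
      smul_eq_C_mul] at e2 e3 e4
    have e5 : PowerSeries.C (coeff j F) ^ 6 * (1728 * lev ℂ 1 Dels ^ (6 * j + 1)) = 0 := by
      have : (F ^ 2) ^ 3 = (F ^ 3) ^ 2 := by ring
      rw [e2, e3] at this
      linear_combination (PowerSeries.C (coeff j F) ^ 6 * lev ℂ 1 Dels ^ (6 * j)) * e4 + this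
    have hD : lev ℂ 1 Dels ≠ 0 := fun h0 => by
      have := h75_coeff_mono 1 0 0 1 le_rfl
      simp [h0] at this
    have h17 : (1728 : ℂ⟦X⟧) ≠ 0 := fun h0 => by
      have := congrArg constantCoeff h0
      rw [map_ofNat, map_zero] at this
      norm_num at this
    have hC : PowerSeries.C (coeff j F) ≠ 0 := fun h0 => hc (by simpa using congrArg constantCoeff h0)
    exact mul_ne_zero (pow_ne_zero _ hC) (mul_ne_zero h17 (pow_ne_zero _ hD)) e5

/-- level one: the coefficients of the expression in `Δ, E₄, E₆` lie in any subring containing the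
`q`-coefficients -/
theorem level_one_ {k : ℕ} {h : ℕ} [NeZero h] {f : ℍ → ℂ} (hf : IsMF k ⊤ f) {F : ℂ⟦X⟧}
    (hF : HasQ h f F) (S : Subring ℂ) (hS : ∀ n, coeff n F ∈ S) :
    ∃ (α : ℕ → ℂ) (a b : ℕ → ℕ), (∀ i, α i ∈ S) ∧
      (∀ i, α i ≠ 0 → 12 * i + 4 * a i + 6 * b i = k) ∧
      F = ∑ i ∈ Finset.range (k / 12 + 1),
        α i • lev ℂ h (Dels ^ i * E4s ^ a i * E6s ^ b i) := by
  obtain ⟨F₁, hF₁⟩ : ∃ F₁, HasQ 1 f F₁ := ⟨_, hf.hasQ 1 trivial⟩
  have hS₁ : ∀ n, coeff n F₁ ∈ S := fun n => by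
    have h1 : HasQ h f (PowerSeries.expand h (NeZero.ne h) F₁) := by
      simpa only [one_mul] using hF₁.expand h
    have h2 := hS (h * n)
    rwa [hF.unique h1, coeff_expand_mul] at h2
  let b : ℕ → ℕ := fun _ => k / 2 % 2
  let a : ℕ → ℕ := fun i => (k - 12 * i - 6 * b i) / 4
  let g : ℕ → ℍ → ℂ := fun i => Delf ^ i * E4f ^ a i * E6f ^ b i
  let G : ℕ → ℂ⟦X⟧ := fun i => lev ℂ 1 (Dels ^ i * E4s ^ a i * E6s ^ b i)
  have mf : ∀ (α : ℕ → ℂ) (j : ℕ), (∀ i, α i ≠ 0 → 12 * i + 4 * a i + 6 * b i = k) →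
      IsMF k ⊤ (f - ∑ i ∈ Finset.range j, α i • g i) := fun α j hα => by
    refine hf.sub (IsMF.sum _ fun i _ => ?_)
    by_cases h0 : α i = 0
    · rw [h0, zero_smul]; exact IsMF.zero _ _
    · exact (h75_isMF_mono (hα i h0)).smul _
  have hq : ∀ (α : ℕ → ℂ) (j : ℕ), HasQ 1 (f - ∑ i ∈ Finset.range j, α i • g i)
      (F₁ - ∑ i ∈ Finset.range j, α i • G i) := fun α j =>
    hF₁.sub (HasQ.sum _ fun i _ => (h75_hasQ_mono i (a i) (b i)).smul _)
  have key : ∀ j : ℕ, ∃ α : ℕ → ℂ, (∀ i, α i ∈ S) ∧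
      (∀ i, α i ≠ 0 → 12 * i + 4 * a i + 6 * b i = k) ∧
      ∀ n < j, coeff n (F₁ - ∑ i ∈ Finset.range j, α i • G i) = 0 := by
    intro j
    induction j with
    | zero => exact ⟨fun _ => 0, fun _ => S.zero_mem, fun _ h => absurd rfl h, fun _ h => by omega⟩
    | succ j ih =>
      obtain ⟨α, h1, h2, h3⟩ := ih
      set c := coeff j (F₁ - ∑ i ∈ Finset.range j, α i • G i) with hc
      have hcS : c ∈ S := by
        rw [hc, map_sub, map_sum]
        refine S.sub_mem (hS₁ j) (S.sum_mem fun i _ => ?_)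
        rw [coeff_smul, smul_eq_mul]
        refine S.mul_mem (h1 i) ?_
        simp only [G, h75_lev_one, coeff_map]
        exact intCast_mem S _
      refine ⟨Function.update α j c, fun i => ?_, fun i hi => ?_, fun n hn => ?_⟩
      · by_cases hij : i = j
        · subst hij; rwa [Function.update_self]
        · rw [Function.update_of_ne hij]; exact h1 i
      · by_cases hij : i = j
        · subst hij
          rw [Function.update_self] at hi
          obtain ⟨e1, e2, e3⟩ := h75_lead (mf α i h2) (hq α i) h3 hi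
          simp only [a, b]
          omega
        · rw [Function.update_of_ne hij] at hi; exact h2 i hi
      · have e : ∑ i ∈ Finset.range j, Function.update α j c i • G i =
            ∑ i ∈ Finset.range j, α i • G i :=
          Finset.sum_congr rfl fun i hi => by
            rw [Function.update_of_ne (Finset.mem_range.1 hi).ne]
        rw [Finset.sum_range_succ, e, Function.update_self, ← sub_sub, map_sub, coeff_smul,
          h75_coeff_mono j _ _ n (by omega)]
        split_ifs with hnj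
        · subst hnj; simp [hc]
        · simp only [smul_zero, sub_zero]
          exact h3 n (by omega)
  obtain ⟨α, h1, h2, h3⟩ := key (k / 12 + 1)
  refine ⟨α, a, b, h1, h2, ?_⟩
  have h4 := (mf α _ h2).sturm (hq α (k / 12 + 1)) fun n hn => h3 n (by
    rw [Subgroup.index_top] at hn; omega)
  have h5 := hq α (k / 12 + 1)
  rw [h4] at h5
  have h6 : f = ∑ i ∈ Finset.range (k / 12 + 1), α i • g i :=
    sub_eq_zero.1 (h5.fun_eq (HasQ.zero 1))
  refine hF.unique ?_
  rw [h6]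
  exact HasQ.sum _ fun i _ => ((h75_hasQ_mono i (a i) (b i)).lev h).smul _

end Crest.Agent.R007
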