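import Crest.Agent.R007.R1
import Crest.Agent.R007.RLev

/-! # Row 7, block R: the characteristic polynomial modulo 2. -/

set_option autoImplicit false

noncomputable section
namespace Crest.Agent.R007

open PowerSeries UpperHalfPlane
open scoped ModularForm MatrixGroups TensorProduct

theorem Lifts.h75_sum {h : ℕ} {ι : KC h →+* KK} {α : Type} (s : Finset α) {F : α → ℂ⟦X⟧}
    {F' : α → OO⟦X⟧} (a : ∀ i ∈ s, Lifts ι (F i) (F' i)) :
    Lifts ι (∑ i ∈ s, F i) (∑ i ∈ s, F' i) := by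
  classical
  induction s using Finset.induction_on with
  | empty => simpa using Lifts.zero
  | insert i s hi ih =>
    rw [Finset.sum_insert hi, Finset.sum_insert hi]
    exact (a i (Finset.mem_insert_self _ _)).add (ih fun j hj => a j (Finset.mem_insert_of_mem hj))

/-- the series which lift to `OO⟦X⟧` -/
def h75S {h : ℕ} (ι : KC h →+* KK) : Subring ℂ⟦X⟧ where
  carrier := {F | ∃ F', Lifts ι F F'}
  mul_mem' := fun ⟨_, a⟩ ⟨_, b⟩ => ⟨_, a.mul b⟩
  one_mem' := ⟨_, Lifts.one⟩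
  add_mem' := fun ⟨_, a⟩ ⟨_, b⟩ => ⟨_, a.add b⟩
  zero_mem' := ⟨_, Lifts.zero⟩
  neg_mem' := fun ⟨_, a⟩ => ⟨_, a.neg⟩

/-- the 2-integral elements of the cyclotomic field -/
def h75S₀ {h : ℕ} (ι : KC h →+* KK) : Subring ℂ :=
  ((algebraMap OO KK).range.comap ι).map (algebraMap (KC h) ℂ)

theorem h75_lev_FF (h : ℕ) [NeZero h] (i a b : ℕ) :
    lev FF h (Dels ^ i * E4s ^ a * E6s ^ b) = lev FF h rho ^ i := by
  have h4 : lev FF h E4s = 1 := by
    rw [E4s, map_add, map_one, map_mul, map_ofNat]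
    linear_combination 120 * lev FF h (sig 3) * h25_two_FF
  have h6 : lev FF h E6s = 1 := by
    rw [E6s, map_sub, map_one, map_mul, map_ofNat]
    linear_combination (-252) * lev FF h (sig 5) * h25_two_FF
  have hD : lev FF h Dels = lev FF h rho := by
    simp only [Dels, map_mul, map_pow, map_sub, map_one, map_ofNat, lev_FF_eps]
    linear_combination (2048 * lev FF h rho ^ 3 - 64 * lev FF h rho ^ 2) * h25_two_FF
  simp only [map_mul, map_pow, h4, h6, hD, one_pow, mul_one]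

/-- a 2-integral form of level one reduces to a polynomial in `ρ` -/
theorem h75_red_poly {h : ℕ} [NeZero h] {ι : KC h →+* KK} {w : ℕ} {s : ℍ → ℂ} (hs : IsMF w ⊤ s)
    {U : ℂ⟦X⟧} (hU : HasQ h s U) (hS : U ∈ h75S ι) : ∃ (U' : OO⟦X⟧) (p : Polynomial FF),
      Lifts ι U U' ∧ 12 * p.natDegree ≤ w ∧
        PowerSeries.map red U' = Polynomial.aeval (lev FF h rho) p := by
  obtain ⟨U₀, G, g1, g2⟩ := hS
  obtain ⟨α, a, b, h1, -, h3⟩ := level_one_ hs hU (h75S₀ ι) fun n =>
    ⟨coeff n G, ⟨coeff n U₀, by simpa using congrArg (coeff n) g2.symm⟩, by rw [← g1, coeff_map]⟩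
  choose y hy hy' using h1
  choose o ho using hy
  refine ⟨∑ i ∈ Finset.range (w / 12 + 1),
    PowerSeries.C (o i) * lev OO h (Dels ^ i * E4s ^ a i * E6s ^ b i),
    ∑ i ∈ Finset.range (w / 12 + 1), Polynomial.C (red (o i)) * Polynomial.X ^ i, ?_, ?_, ?_⟩
  · rw [h3]
    refine Lifts.h75_sum _ fun i _ => ?_
    rw [smul_eq_C_mul]
    refine Lifts.mul ⟨PowerSeries.C (y i), ?_, ?_⟩ (Lifts.lev h _)
    · rw [map_C, hy']
    · rw [map_C, map_C, ho]
  · have : (∑ i ∈ Finset.range (w / 12 + 1),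
        Polynomial.C (red (o i)) * Polynomial.X ^ i).natDegree ≤ w / 12 :=
      Polynomial.natDegree_sum_le_of_forall_le _ _ fun i hi =>
        (Polynomial.natDegree_C_mul_X_pow_le _ _).trans (Nat.lt_succ_iff.1 (Finset.mem_range.1 hi))
    omega
  · rw [map_sum, map_sum]
    refine Finset.sum_congr rfl fun i _ => ?_
    rw [map_mul, map_C, map_lev, h75_lev_FF, map_mul, map_pow, Polynomial.aeval_C,
      Polynomial.aeval_X]
    rfl

/-- pole order at the supersingular point: a form all of whose conjugates are 2-integral satisfies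
modulo 2 a monic equation over `𝔽[ρ]` with the expected degrees -/
theorem orbit_poly' (h : ℕ) [NeZero h] {ι : KC h →+* KK} (k : ℕ)
    {f : ℍ → ℂ} (hf : IsMF k (CongruenceSubgroup.Gamma h) f)
    (hint : ∀ γ : SL(2, ℤ), ∃ F F', HasQ h (f ∣[(k : ℤ)] γ) F ∧ Lifts ι F F')
    {F : ℂ⟦X⟧} {F' : OO⟦X⟧} (hF : HasQ h f F) (hF' : Lifts ι F F') :
    ∃ (n : ℕ) (p : ℕ → Polynomial FF), 0 < n ∧ (∀ j, 12 * (p j).natDegree ≤ (n - j) * k) ∧
      PowerSeries.map red F' ^ n +
        ∑ j ∈ Finset.range n, Polynomial.aeval (lev FF h rho) (p j) * PowerSeries.map red F' ^ j = 0 := by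
  obtain ⟨n, s, hn, hs, he, hS⟩ := orbit_eq hf
  choose U hU hq using hS (h75S ι) fun γ => by
    obtain ⟨T, T', a, b⟩ := hint γ
    exact ⟨T, ⟨T', b⟩, a⟩
  have key : ∀ j, ∃ (U' : OO⟦X⟧) (p : Polynomial FF), 12 * p.natDegree ≤ (n - j) * k ∧
      (j < n → Lifts ι (U j) U' ∧ PowerSeries.map red U' = Polynomial.aeval (lev FF h rho) p) := by
    intro j
    by_cases hj : j < n
    · obtain ⟨U', p, a, b, c⟩ := h75_red_poly (hs j hj) (hq j) (hU j)
      exact ⟨U', p, b, fun _ => ⟨a, c⟩⟩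
    · exact ⟨0, 0, by simp, fun h => absurd h hj⟩
  choose U' p hp hU' using key
  refine ⟨n, p, hn, hp, ?_⟩
  have e1 : F ^ n + ∑ j ∈ Finset.range n, U j * F ^ j = 0 := by
    have := (hF.pow n).add (HasQ.sum (Finset.range n) fun j _ => (hq j).mul (hF.pow j))
    rw [he] at this
    exact this.unique (HasQ.zero h)
  have e2 := (hF'.pow n).add (Lifts.h75_sum (Finset.range n) fun j hj =>
    (hU' j (Finset.mem_range.1 hj)).1.mul (hF'.pow j))
  rw [e1] at e2
  have e3 := congrArg (PowerSeries.map red) (e2.unique Lifts.zero)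
  rw [map_add, map_pow, map_sum, map_zero] at e3
  rw [← e3]
  congr 1
  refine Finset.sum_congr rfl fun j hj => ?_
  rw [map_mul, map_pow, (hU' j (Finset.mem_range.1 hj)).2]

end Crest.Agent.R007
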