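import Crest.Agent.R007.R3
import Crest.Agent.R007.R4
import Crest.Agent.R007.ROrbit

/-! # Row 7, block R: rationality and integrality of modular forms of level `Γ(M) ∩ Γ₀(4)`. -/

set_option autoImplicit false

noncomputable section
namespace Crest.Agent.R007

open PowerSeries UpperHalfPlane
open scoped ModularForm MatrixGroups TensorProduct

/-- level one: the coefficients of the expression in `Δ, E₄, E₆` lie in any subring containing the
`q`-coefficients -/
theorem level_one {k : ℕ} {h : ℕ} [NeZero h] {f : ℍ → ℂ} (hf : IsMF k ⊤ f) {F : ℂ⟦X⟧}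
    (hF : HasQ h f F) (S : Subring ℂ) (hS : ∀ n, coeff n F ∈ S) :
    ∃ (α : ℕ → ℂ) (a b : ℕ → ℕ), (∀ i, α i ∈ S) ∧
      (∀ i, α i ≠ 0 → 12 * i + 4 * a i + 6 * b i = k) ∧
      F = ∑ i ∈ Finset.range (k / 12 + 1),
        α i • lev ℂ h (Dels ^ i * E4s ^ a i * E6s ^ b i) :=
  level_one' hf hF S hS

/-- the expansions of forms of weight `k` lie in the `ℂ`-span of finitely many rational series -/
theorem finite_rat (M : ℕ) [NeZero M] (ho : Odd M) (h3 : 3 ∣ M) (k : ℕ) :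
    ∃ s : Finset ℚ⟦X⟧, ∀ (g : ℍ → ℂ) (G : ℂ⟦X⟧), IsMF k (GamS M) g → HasQ M g G →
      G ∈ Submodule.span ℂ (PowerSeries.map (algebraMap ℚ ℂ) '' (s : Set ℚ⟦X⟧)) := by
  have := K4_fd M
  rcases Nat.even_or_odd' k with ⟨m, rfl | rfl⟩
  · obtain ⟨D, V, hD0, hD, hV, hVK, h⟩ := exists_den h3 m
    obtain ⟨s, hs⟩ := span_rat (K4 M) hD0 hD hV hVK
    exact ⟨s, fun g G hg hG => hs G (h g G hg hG)⟩
  · obtain ⟨D, V, hD0, hD, hV, hVK, h⟩ := exists_den h3 (m + 2)
    have hz : zC M ∈ K4 M := IntermediateField.subset_adjoin ℚ _ (by simp)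
    obtain ⟨s, hs⟩ := span_rat (K4 M)
      (mul_ne_zero hD0 (DXser_C_ne_zero M (P3_ne_zero h3) (three_smul_P3 h3)))
      (mul_mem hD (DXser_mem_psSub hz (P3 M))) hV hVK
    refine ⟨s, fun g G hg hG => hs G ?_⟩
    have h1 : IsMF 3 (GamS M) (dxf M (P3 M)) := (isMF_dxf M (P3_ne_zero h3)).mono inf_le_left
    have h2 := h1.mul hg
    have h4 : (3 : ℤ) + ((2 * m + 1 : ℕ) : ℤ) = ((2 * (m + 2) : ℕ) : ℤ) := by push_cast; ring
    rw [h4] at h2
    rw [mul_assoc]
    exact h _ _ h2 ((hasQ_dxf M (P3 M)).mul hG)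

/-- rational components are good -/
theorem good_pi (M : ℕ) [NeZero M] (ho : Odd M) (h3 : 3 ∣ M) (k m : ℕ) {g : ℍ → ℂ} {G : ℂ⟦X⟧}
    (hg : IsMF k (GamS M) g) (hG : HasQ M g G) (π : ℂ →ₗ[ℚ] ℚ) {A : (KC M)⟦X⟧}
    (hA : IsA1 (eK M) (P3 M) A) (hm : k + k % 2 = 2 * m) :
    Good (eK M) (PowerSeries.map (algebraMap ℚ (KC M)) (piSer π G) * A ^ (k % 2) *
      lev (KC M) M epsInv ^ m) := by
  obtain ⟨s, hs⟩ := finite_rat M ho h3 k
  obtain ⟨A', hA'e⟩ : ∃ A' : ℂ⟦X⟧, A' = PowerSeries.map (algebraMap (KC M) ℂ) A := ⟨_, rfl⟩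
  have hA' : IsA1 (eC M) (P3 M) A' := hA'e ▸ hA.map_K
  let B : ℂ⟦X⟧ := A' ^ (k % 2) * lev ℂ M epsInv ^ m
  let V : Submodule ℂ ℂ⟦X⟧ :=
    Submodule.span ℂ (PowerSeries.map (algebraMap ℚ ℂ) '' (s : Set ℚ⟦X⟧))
  let W : Submodule ℂ ℂ⟦X⟧ :=
    V ⊓ (Subalgebra.toSubmodule (goodAlg (eC M))).comap (LinearMap.mulRight ℂ B)
  have hWm : ∀ F, F ∈ W ↔ F ∈ V ∧ Good (eC M) (F * B) := fun F => Iff.rfl
  have : FiniteDimensional ℂ V := FiniteDimensional.span_of_finite ℂ (s.finite_toSet.image _)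
  have : FiniteDimensional ℂ W := Submodule.finiteDimensional_inf_left _ _
  have hW : ∀ σ : ℂ ≃+* ℂ, ∀ F ∈ W, PowerSeries.map (σ : ℂ →+* ℂ) F ∈ W := by
    intro σ F hF
    obtain ⟨hF1, hF2⟩ := (hWm F).1 hF
    refine (hWm _).2 ⟨?_, ?_⟩
    · clear hF2 hF
      induction hF1 using Submodule.span_induction with
      | mem x hx =>
        obtain ⟨y, hy, rfl⟩ := hx
        have e : PowerSeries.map (σ : ℂ →+* ℂ) (PowerSeries.map (algebraMap ℚ ℂ) y) =
            PowerSeries.map (algebraMap ℚ ℂ) y := by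
          ext n; simp [PowerSeries.coeff_map]
        rw [e]
        exact Submodule.subset_span ⟨y, hy, rfl⟩
      | zero => rw [map_zero]; exact V.zero_mem
      | add x y _ _ hx hy => rw [map_add]; exact V.add_mem hx hy
      | smul c x _ hx =>
        have e : PowerSeries.map (σ : ℂ →+* ℂ) (c • x) =
            σ c • PowerSeries.map (σ : ℂ →+* ℂ) x := by
          ext n; simp [PowerSeries.coeff_map]
        rw [e]
        exact V.smul_mem _ hx
    · have h1 := hF2.conj σ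
      simp only [B, map_mul, map_pow, map_lev] at h1
      rcases conj_A1 h3 σ hA' with h2 | h2
      · rw [h2] at h1; exact h1
      · rw [h2] at h1
        have h4 : ((-1 : ℂ⟦X⟧) ^ (k % 2)) * (-1) ^ (k % 2) = 1 := by
          rw [← mul_pow]; simp
        have h5 : PowerSeries.map (σ : ℂ →+* ℂ) F * B = (-1) ^ (k % 2) *
            (PowerSeries.map (σ : ℂ →+* ℂ) F * ((-A') ^ (k % 2) * lev ℂ M epsInv ^ m)) := by
          rw [neg_pow A']
          simp only [B]
          linear_combination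
            (-(PowerSeries.map (σ : ℂ →+* ℂ) F * (A' ^ (k % 2) * lev ℂ M epsInv ^ m))) * h4
        rw [h5]
        exact (goodAlg (eC M)).mul_mem
          (pow_mem ((goodAlg (eC M)).neg_mem (goodAlg (eC M)).one_mem) _) h1
  have hGW : G ∈ W := by
    refine (hWm G).2 ⟨hs g G hg hG, ?_⟩
    rcases Nat.mod_two_eq_zero_or_one k with h0 | h0
    · have hk : k = 2 * m := by omega
      have h1 := good_C h3 (m := m) (g := g) (hk ▸ hg) hG
      simpa only [B, h0, pow_zero, one_mul] using h1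
    · obtain ⟨A₁, hq, h1⟩ := hasQ_a1f M (P3_ne_zero h3) (three_smul_P3 h3)
      rw [IsA1.unique h3 h1 hA'] at hq
      have h2 := hg.mul ((isMF_a1f M (P3_ne_zero h3) (three_smul_P3 h3)).mono
        (show GamS M ≤ CongruenceSubgroup.Gamma M from inf_le_left))
      have hk : (k : ℤ) + 1 = ((2 * m : ℕ) : ℤ) := by omega
      rw [hk] at h2
      have h4 := good_C h3 h2 (hG.mul hq)
      simpa only [B, h0, pow_one, mul_assoc] using h4
  have h6 := ((hWm _).1 (piSer_mem W hW π hGW)).2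
  refine Good.descend (prim_eK M) (eC_eq M) ?_
  have e : PowerSeries.map (algebraMap (KC M) ℂ)
      (PowerSeries.map (algebraMap ℚ (KC M)) (piSer π G)) =
      PowerSeries.map (algebraMap ℚ ℂ) (piSer π G) := by
    ext n
    simp only [PowerSeries.coeff_map]
    exact (IsScalarTower.algebraMap_apply ℚ (KC M) ℂ _).symm
  simp only [map_mul, map_pow, map_lev, e, ← hA'e, mul_assoc]
  exact h6

/-- forms of even weight with coefficients in `ℚ(ζ_M)` are good -/
theorem good_K (M : ℕ) [NeZero M] (ho : Odd M) (h3 : 3 ∣ M) (m : ℕ) {g : ℍ → ℂ} {G : (KC M)⟦X⟧}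
    (hg : IsMF (2 * m : ℕ) (GamS M) g) (hG : HasQ M g (PowerSeries.map (algebraMap (KC M) ℂ) G)) :
    Good (eK M) (G * lev (KC M) M epsInv ^ m) := by
  refine Good.descend (prim_eK M) (eC_eq M) ?_
  rw [map_mul, map_pow, map_lev]
  exact good_C h3 hg hG

/-- pole order at the supersingular point: a form all of whose conjugates are 2-integral satisfies
modulo 2 a monic equation over `𝔽[ρ]` with the expected degrees -/
theorem orbit_poly (h : ℕ) [NeZero h] (ho : Odd h) {ι : KC h →+* KK} (hι : IsIota h ι) (k : ℕ)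
    {f : ℍ → ℂ} (hf : IsMF k (CongruenceSubgroup.Gamma h) f)
    (hint : ∀ γ : SL(2, ℤ), ∃ F F', HasQ h (f ∣[(k : ℤ)] γ) F ∧ Lifts ι F F')
    {F : ℂ⟦X⟧} {F' : OO⟦X⟧} (hF : HasQ h f F) (hF' : Lifts ι F F') :
    ∃ (n : ℕ) (p : ℕ → Polynomial FF), 0 < n ∧ (∀ j, 12 * (p j).natDegree ≤ (n - j) * k) ∧
      PowerSeries.map red F' ^ n +
        ∑ j ∈ Finset.range n, Polynomial.aeval (lev FF h rho) (p j) * PowerSeries.map red F' ^ j = 0 :=
  orbit_poly' h k hf hint hF hF'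

end Crest.Agent.R007
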