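import Crest.Agent.R007.BDefs
import Crest.Agent.R007.R
import Crest.Agent.R007.I

/-! # Row 7, GEO team B: auxiliary lemmas for `sF_good` (helper49). -/

set_option autoImplicit false

noncomputable section
namespace Crest.Agent.R007

open PowerSeries UpperHalfPlane

theorem h49_step2 (M M' : ℕ) [NeZero M] [NeZero M'] (ho : Odd M) (h3 : 3 ∣ M)
    (s : FF⟦X⟧ →ₐ[FF] FF⟦X⟧) (hs : Function.Injective s)
    (hX : ∀ P : ZMod M × ZMod M, P ≠ 0 → s (Xser (eF M) P) ∈ goodAlg (eF M')) {f : FF⟦X⟧}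
    (hf : f ∈ goodAlg (eF M)) : s f ∈ goodAlg (eF M') := by
  have hρ : s (lev FF M rho) ∈ goodAlg (eF M') := by
    rw [rho_FF M ho (P3_ne_zero h3) (three_smul_P3 h3), map_add, map_pow, map_pow]
    exact add_mem (pow_mem (hX _ (P3_ne_zero h3)) _) (pow_mem (hX _ (P3_ne_zero h3)) _)
  have hA : ringA (eF M) ≤ (goodAlg (eF M')).comap s := by
    refine Algebra.adjoin_le ?_
    rintro x ((rfl | rfl) | ⟨P, hP, rfl⟩)
    · exact hρ
    · show s (lev FF M mu) ∈ goodAlg (eF M')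
      rw [lev_FF_mu]; exact hρ
    · show s (Zser (eF M) P) ∈ goodAlg (eF M')
      rw [Zser_FF]; exact hX P hP
  obtain ⟨hi, D, hD, hD0, hDf⟩ := hf
  refine ⟨?_, ?_⟩
  · let φ : Algebra.adjoin FF ({lev FF M rho} : Set FF⟦X⟧) →+*
        integralClosure (Algebra.adjoin FF ({lev FF M' rho} : Set FF⟦X⟧)) FF⟦X⟧ :=
      RingHom.codRestrict (s.toRingHom.comp (Algebra.adjoin FF ({lev FF M rho} : Set FF⟦X⟧)).val.toRingHom)
        (integralClosure (Algebra.adjoin FF ({lev FF M' rho} : Set FF⟦X⟧)) FF⟦X⟧)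
        (fun x => (hA (adjoin_le_ringA _ x.2)).1)
    have h1 : IsIntegral (integralClosure (Algebra.adjoin FF ({lev FF M' rho} : Set FF⟦X⟧)) FF⟦X⟧)
        (s.toRingHom f) := IsIntegral.map_of_comp_eq φ s.toRingHom (by ext x; rfl) hi
    exact isIntegral_trans _ h1
  · obtain ⟨-, D1, hD1, hD10, h1⟩ := hA hD
    obtain ⟨-, D2, hD2, hD20, h2⟩ := hA hDf
    have hsD : s D ≠ 0 := fun h => hD0 (hs (by rw [h, map_zero]))
    refine ⟨D2 * (D1 * s D), mul_mem hD2 h1, mul_ne_zero hD20 (mul_ne_zero hD10 hsD), ?_⟩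
    have : D2 * (D1 * s D) * s f = D1 * (D2 * s (D * f)) := by rw [map_mul]; ring
    rw [this]; exact mul_mem hD1 h2

theorem h49_sB_C {R : Type} [CommRing R] (ζ : R) (A : ℕ) [NeZero A] (a : R) :
    sB ζ A (C a) = C a := by
  have : PowerSeries.rescale ζ (C a) = C a := by
    ext n
    rw [coeff_rescale, coeff_C]
    split_ifs with h
    · simp [h]
    · simp
  show PowerSeries.expand A (NeZero.ne A) (PowerSeries.rescale ζ (C a)) = C a
  rw [this]
  exact (PowerSeries.expand A (NeZero.ne A)).commutes a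

theorem h49_sB_inj {R : Type} [Field R] {ζ : R} (hζ : ζ ≠ 0) (A : ℕ) [NeZero A] :
    Function.Injective (sB ζ A) := by
  intro x y h
  ext n
  have := congrArg (coeff (A * n)) h
  simp only [sB, RingHom.comp_apply, AlgHom.toRingHom_eq_coe, RingHom.coe_coe,
    coeff_expand_mul, coeff_rescale] at this
  exact mul_left_cancel₀ (pow_ne_zero _ hζ) this

theorem h49_expand_sB {R : Type} [CommRing R] (ζ : R) (A : ℕ) [NeZero A] (F : R⟦X⟧) :
    PowerSeries.expand A (NeZero.ne A) (sB ζ A F) = sB ζ (A ^ 2) F := by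
  have : ∀ (n : ℕ) (hn : n ≠ 0), n = A * A → PowerSeries.expand A (NeZero.ne A) (sB ζ A F) =
      PowerSeries.expand n hn (PowerSeries.rescale ζ F) := by
    rintro n hn rfl
    rw [PowerSeries.expand_mul A (NeZero.ne A) A (NeZero.ne A)]; rfl
  exact this _ (NeZero.ne _) (sq A)

theorem h49_step1 (M A B D : ℕ) [NeZero M] [NeZero A] [NeZero D] (ho : Odd M) (h3 : 3 ∣ M)
    (hl : Odd (A * D)) {P : ZMod M × ZMod M} (hP : P ≠ 0) :
    sF M (A * D) A B (Xser (eF M) P) ∈ goodAlg (eF (M * (A * D))) := by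
  have ho' : Odd (M * (A * D)) := ho.mul hl
  have h3' : 3 ∣ M * (A * D) := h3.mul_right _
  obtain ⟨ι, hι⟩ := exists_iota (M * (A * D)) ho'
  have hg : IsMF (2 * 1 : ℕ) (GamS (M * (A * D)))
      (((D : ℂ) ^ 2) • betaFun 2 A B D (xf M P) - (1 / 12 : ℂ) • epsf) := by
    refine IsMF.sub (IsMF.smul _ (((isMF_xf M hP).beta A B D).mono inf_le_left))
      (IsMF.smul _ (isMF_epsf.mono (inf_le_right.trans ?_)))
    intro γ hγ
    rw [CongruenceSubgroup.Gamma0_mem] at hγ ⊢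
    rw [ZMod.intCast_zmod_eq_zero_iff_dvd] at hγ ⊢
    exact dvd_trans (by norm_num) hγ
  have hq : HasQ (M * (A * D)) (((D : ℂ) ^ 2) • betaFun 2 A B D (xf M P) - (1 / 12 : ℂ) • epsf)
      (sB (zC (M * (A * D)) ^ (A * B)) (A ^ 2) (Xser (eC M) P) - 2 * lev ℂ (M * (A * D)) sigO) := by
    have h1 := ((hasQ_xf M P).beta 2 A B D).expand A
    have e : M * D * A = M * (A * D) := by ring
    have e2 : zC (M * D) ^ B = zC (M * (A * D)) ^ (A * B) := by
      rw [pow_mul, ← e, zC_mul]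
    rw [e2, e, map_smul, h49_expand_sB] at h1
    have h2 := (h1.smul ((D : ℂ) ^ 2)).sub ((hasQ_epsf.lev (M * (A * D))).smul (1 / 12 : ℂ))
    convert h2 using 1
    have hD : (D : ℂ) ≠ 0 := Nat.cast_ne_zero.mpr (NeZero.ne D)
    rw [smul_smul, show (D : ℂ) ^ 2 * (D : ℂ) ^ (-(2 : ℤ)) = 1 by field_simp, one_smul, map_add,
      h49_sB_C, eps, map_add, map_one, map_mul, map_ofNat, smul_eq_C_mul]
    have : (C (1 / 12 : ℂ) : ℂ⟦X⟧) * 24 = 2 := by
      rw [← map_ofNat (C (R := ℂ)) 24, ← map_mul, ← map_ofNat (C (R := ℂ)) 2]; norm_num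
    linear_combination (lev ℂ (M * (A * D)) sigO) * this
  have hL := (Lifts.sB hι (A * B) (A ^ 2) (Lifts.Xser ho' hι M (dvd_mul_right _ _) P)).sub
    ((Lifts.ofNat (ι := ι) 2).mul (Lifts.lev (ι := ι) (M * (A * D)) sigO))
  obtain ⟨G, hG, hG'⟩ := hL
  have h1 := good_K (M * (A * D)) ho' h3' 1 hg (G := G) (by rw [hG]; exact hq)
  have h2 := Good.map ι (prim_eK _) (eKK_iota _ hι) h1
  rw [map_mul, hG', pow_one, map_lev, ← map_lev (algebraMap OO KK), ← map_mul] at h2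
  have h4 := good_red _ ho' h2
  rw [map_mul, map_lev, lev_FF_epsInv, mul_one, map_sub, map_mul, map_ofNat, two_FFX, zero_mul,
    sub_zero, map_sB, map_Xser red (prim_eO M ho) (eF_eq M ho), map_pow, red_zO] at h4
  exact h4

theorem h49_sF_good (M l A B D : ℕ) [NeZero M] [NeZero l] [NeZero A] (ho : Odd M) (h3 : 3 ∣ M)
    (hl : Odd l) (hAD : A * D = l) {f : FF⟦X⟧} (hf : f ∈ goodAlg (eF M)) :
    sF M l A B f ∈ goodAlg (eF (M * l)) := by
  subst hAD
  have : NeZero D := ⟨fun h => NeZero.ne (A * D) (by rw [h, mul_zero])⟩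
  let s : FF⟦X⟧ →ₐ[FF] FF⟦X⟧ :=
    { toRingHom := sF M (A * D) A B
      commutes' := fun a => h49_sB_C _ _ a }
  have hz : zz (M * (A * D)) ≠ 0 := by
    intro h
    have := zz_pow (M * (A * D)) (ho.mul hl)
    rw [h, zero_pow (NeZero.ne _)] at this
    exact zero_ne_one this
  exact h49_step2 M (M * (A * D)) ho h3 s (h49_sB_inj (pow_ne_zero _ hz) _)
    (fun P hP => h49_step1 M A B D ho h3 hl hP) hf

end Crest.Agent.R007
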