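import Crest.Agent.R007.BFG
import Crest.Agent.R007.BEmb
import Crest.Agent.R007.R
import Crest.Agent.R007.I
import Crest.Agent.R007.Bh49

/-! # Row 7, GEO team B: the isogenies (G8; owner helper30). -/

set_option autoImplicit false

noncomputable section
namespace Crest.Agent.R007

open PowerSeries Crest.LubinTate Crest.Agent.R227

/-- `τ ↦ (Aτ + B)/D` maps good functions to good functions -/
theorem sF_good (M l A B D : ℕ) [NeZero M] [NeZero l] [NeZero A] (ho : Odd M) (h3 : 3 ∣ M)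
    (hl : Odd l) (hAD : A * D = l) {f : FF⟦X⟧} (hf : f ∈ goodAlg (eF M)) :
    sF M l A B f ∈ goodAlg (eF (M * l)) :=
  h49_sF_good M l A B D ho h3 hl hAD hf

/-- G8: the isogeny of formal groups `ψ = L_a⁻¹ ∘ L_{a'}` modulo 2 -/
theorem exists_psi (M l A B D : ℕ) [NeZero M] [NeZero l] [NeZero A] (ho : Odd M) (h3 : 3 ∣ M)
    (hl : Odd l) (hAD : A * D = l) (c c' : goodAlg (eF (M * l)))
    (hc : (c : FF⟦X⟧) = Xser (eF (M * l)) (P3 (M * l)))
    (hc' : (c' : FF⟦X⟧) = sF M l A B (Xser (eF M) (P3 M))) :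
    ∃ ψ : (goodAlg (eF (M * l)))⟦X⟧, IsFGHom (Fab 1 c') (Fab 1 c) ψ ∧ coeff 1 ψ = 1 ∧
      ∀ n, PoleEq (lev FF (M * l) rho) n ((coeff (n + 1) ψ : goodAlg (eF (M * l))) : FF⟦X⟧) := by
  sorry

/-- `U_l` in characteristic 2 -/
theorem sum_sF (M l : ℕ) [NeZero M] [NeZero l] (ho : Odd M) (hl : Odd l) (f : FF⟦X⟧) :
    ∑ j ∈ Finset.range l, sF M l 1 j (PowerSeries.expand M (NeZero.ne M) f) =
      PowerSeries.expand l (NeZero.ne l) (PowerSeries.expand M (NeZero.ne M) (Uop l f)) := by
  have hz : zz (M * l) ^ M = zz l := by rw [mul_comm]; exact zz_mul l M hl ho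
  have hp : IsPrimitiveRoot (zz l) l := zz_spec.1 l hl
  have h1 : ∀ j, sF M l 1 j (PowerSeries.expand M (NeZero.ne M) f) =
      PowerSeries.expand M (NeZero.ne M) (rescale (zz l ^ j) f) := by
    intro j
    ext n
    simp only [sF, sB, RingHom.coe_comp, Function.comp_apply, AlgHom.toRingHom_eq_coe,
      RingHom.coe_coe, coeff_expand, one_pow, one_mul, one_dvd, if_true, Nat.div_one,
      coeff_rescale]
    split_ifs with h
    · obtain ⟨m, rfl⟩ := h
      rw [Nat.mul_div_cancel_left _ (Nat.pos_of_ne_zero (NeZero.ne M)), ← hz, ← pow_mul,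
        ← pow_mul, ← pow_mul]
      congr 2
      ring
    · exact mul_zero _
  have h2 : ∑ j ∈ Finset.range l, rescale (zz l ^ j) f =
      PowerSeries.expand l (NeZero.ne l) (Uop l f) := by
    ext n
    simp only [map_sum, coeff_rescale, coeff_expand, Uop, coeff_mk, ← Finset.sum_mul]
    have e : ∀ j, (zz l ^ j) ^ n = (zz l ^ n) ^ j := fun j => by
      rw [← pow_mul, ← pow_mul, mul_comm]
    simp only [e]
    split_ifs with h
    · rw [(hp.pow_eq_one_iff_dvd n).2 h, Nat.div_mul_cancel h]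
      obtain ⟨k, hk⟩ := hl
      have h2 : (2 : FF) = 0 := CharTwo.two_eq_zero
      have h3 : (l : FF) = 1 := by
        rw [hk]
        push_cast
        rw [h2, zero_mul, zero_add]
      simp [h3]
    · have h3 := geom_sum_mul (zz l ^ n) l
      rw [← pow_mul, mul_comm n l, pow_mul, hp.pow_eq_one, one_pow, sub_self] at h3
      rw [(mul_eq_zero.1 h3).resolve_right
        (sub_ne_zero.2 fun h4 => h ((hp.pow_eq_one_iff_dvd n).1 h4)), zero_mul]
  simp only [h1]
  rw [← map_sum, h2, ← expand_mul, ← expand_mul]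
  congr 2
  exact mul_comm _ _

/-- `V_l` -/
theorem sF_V (M l : ℕ) [NeZero M] [NeZero l] (f : FF⟦X⟧) :
    sF M l l 0 (PowerSeries.expand M (NeZero.ne M) f) =
      PowerSeries.expand l (NeZero.ne l) (PowerSeries.expand M (NeZero.ne M) (Vop l f)) := by
  have h1 : Vop l f = PowerSeries.expand l (NeZero.ne l) f := by
    ext n
    rw [coeff_expand, Vop, coeff_mk]
  simp only [sF, sB, RingHom.coe_comp, Function.comp_apply, AlgHom.toRingHom_eq_coe,
    RingHom.coe_coe, mul_zero, pow_zero, rescale_one, RingHom.id_apply]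
  rw [h1, ← expand_mul, ← expand_mul, ← expand_mul]
  congr 2
  ring

end Crest.Agent.R007
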