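import Crest.Agent.R007.BEnd

/-! # Row 7, GEO team B: effective rigidity of isomorphisms `F(b,1) → F(a,1)` (G4). -/

set_option autoImplicit false

noncomputable section
namespace Crest.Agent.R007

open PowerSeries Crest.LubinTate Crest.Agent.R227

theorem charP_of_alg (R : Type) [CommRing R] [Nontrivial R] [Algebra FF R] : CharP R 2 :=
  CharTwo.of_one_ne_zero_of_two_eq_zero one_ne_zero (two_of_alg R)

/-- the `2`-series -/
abbrev Pb (b : FF⟦X⟧) : FF⟦X⟧⟦X⟧ := mulSeries (Fab b 1) 2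

theorem Pb_cc (b : FF⟦X⟧) : constantCoeff (Pb b) = 0 := constantCoeff_mulSeries _ _

theorem Pb_one (b : FF⟦X⟧) : coeff 1 (Pb b) = 0 := by
  rw [coeff_one_mulSeries]; exact two_of_alg _

theorem Pb_two (b : FF⟦X⟧) : coeff 2 (Pb b) = b := by
  rw [(Fab_two _ _).1]
  have := two_of_alg FF⟦X⟧
  linear_combination (-b) * this

theorem Pb_dvd (b : FF⟦X⟧) : X ^ 2 ∣ Pb b := by
  rw [X_pow_dvd_iff]
  intro m hm
  interval_cases m
  · simpa using Pb_cc b
  · exact Pb_one b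

theorem Pb_sq (b : FF⟦X⟧) : ∃ V : FF⟦X⟧⟦X⟧, ∀ φ : FF⟦X⟧⟦X⟧, constantCoeff φ = 0 →
    (PowerSeries.subst φ (Pb b) : FF⟦X⟧⟦X⟧) = PowerSeries.subst (φ ^ 2) V := by
  have := charP_of_alg FF⟦X⟧
  obtain ⟨V, -, e⟩ := exists_versch 2 (Fab b 1) 1 (by
    intro l hl
    interval_cases l
    exact Pb_one b)
  refine ⟨V, fun φ hφ => ?_⟩
  rw [Pb, e, PowerSeries.subst_comp_subst_apply (HasSubst.X_pow (by norm_num)) (rig_hs hφ),
    PowerSeries.subst_pow (rig_hs hφ), PowerSeries.subst_X (rig_hs hφ)]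
  rfl

theorem Pb_cong {t b b' : FF⟦X⟧} (h : t ∣ b - b') : C t ∣ Pb b - Pb b' := by
  have : OddU (FF⟦X⟧ ⧸ Ideal.span {t}) := OddU.of_hom (Ideal.Quotient.mk _)
  rw [rig_C_dvd_iff_map, map_mulSeries, map_mulSeries, Fab_map, Fab_map,
    Ideal.Quotient.eq.2 (Ideal.mem_span_singleton.2 h)]

theorem Pb_red {b : FF⟦X⟧} (hb : constantCoeff b = 0) :
    PowerSeries.map (constantCoeff (R := FF)) (Pb b) = mulSeries F0 2 := by
  rw [map_mulSeries, Fab_map, hb, map_one]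

theorem P0_eq : ∃ w : FF⟦X⟧, IsUnit w ∧ mulSeries F0 2 = X ^ 4 * w := by
  obtain ⟨V, hV, e⟩ := exists_versch 2 F0 2 F0_low
  have h4 : (X : FF⟦X⟧) ^ 4 ∣ mulSeries F0 2 := by
    rw [X_pow_dvd_iff]
    intro m hm
    rw [e, coeff_subst_X_pow (by norm_num)]
    split_ifs with h
    · have : m = 0 := by omega
      subst this
      simpa using hV.1
    · rfl
  obtain ⟨w, hw⟩ := h4
  refine ⟨w, ?_, hw⟩
  have := F0_c4
  rw [hw, show 4 = 0 + 4 from rfl, coeff_X_pow_mul] at this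
  rw [isUnit_iff_constantCoeff, ← coeff_zero_eq_constantCoeff_apply, this]
  exact isUnit_one

theorem dvd_of_subst_P0 (k : ℕ) : ∀ u : FF⟦X⟧,
    X ^ (4 * k) ∣ (PowerSeries.subst (mulSeries F0 2) u : FF⟦X⟧) → X ^ k ∣ u := by
  obtain ⟨w, hw, e⟩ := P0_eq
  have h0 : constantCoeff (mulSeries F0 2) = 0 := constantCoeff_mulSeries _ _
  induction k with
  | zero => intro u _; simp
  | succ k ih =>
    intro u h
    have e2 : u = X * (PowerSeries.mk fun i => coeff (i + 1) u) + C (constantCoeff u) :=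
      eq_X_mul_shift_add_const u
    set u1 : FF⟦X⟧ := PowerSeries.mk fun i => coeff (i + 1) u
    rw [e2, subst_add (rig_hs h0), subst_mul (rig_hs h0), subst_X (rig_hs h0), subst_C] at h
    have hc : constantCoeff u = 0 := by
      have := X_dvd_iff.1 ((dvd_pow_self _ (by omega)).trans h)
      rw [map_add, map_mul, h0, zero_mul, zero_add] at this
      exact this
    rw [hc, map_zero, add_zero] at h
    rw [e2, hc, map_zero, add_zero, pow_succ']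
    refine mul_dvd_mul_left _ (ih _ ?_)
    nth_rewrite 1 [e] at h
    rw [show 4 * (k + 1) = 4 + 4 * k by ring, pow_add, mul_assoc,
      mul_dvd_mul_iff_left (pow_ne_zero _ X_ne_zero)] at h
    exact (hw.dvd_mul_left).1 h

/-- congruence modulo `(a^s, T^K)` -/
def CgB (s K : ℕ) (f g : FF⟦X⟧⟦X⟧) : Prop := ∃ u v, f - g = C (X ^ s) * u + X ^ K * v

theorem CgB.lin {s K : ℕ} (hK : 2 ≤ K) {f g : FF⟦X⟧⟦X⟧} (h : CgB s K f g) :
    X ^ (s + 1) ∣ X * coeff 1 f - X * coeff 1 g := by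
  obtain ⟨u, v, e⟩ := h
  have := congrArg (coeff 1) e
  rw [map_sub, map_add, coeff_C_mul, X_pow_dvd_iff.1 (dvd_mul_right _ v) 1 (by omega), add_zero] at this
  rw [← mul_sub, this, pow_succ']
  exact mul_dvd_mul_left _ (dvd_mul_right _ _)

theorem CgB.step {b b' : FF⟦X⟧} {φ φ' : FF⟦X⟧⟦X⟧} (h : IsFGHom (Fab b 1) (Fab X 1) φ)
    (h' : IsFGHom (Fab b' 1) (Fab X 1) φ') (hb : b = X * coeff 1 φ) (hb' : b' = X * coeff 1 φ')
    {s k : ℕ} (hs : 1 ≤ s) (hk : 1 ≤ k) (c : CgB s (2 * k) φ φ') : CgB (s + 1) k φ φ' := by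
  have hbb : X ^ (s + 1) ∣ b - b' := by rw [hb, hb']; exact c.lin (by omega)
  obtain ⟨u, v, e⟩ := c
  obtain ⟨V, hV⟩ := Pb_sq X
  have two : (2 : FF⟦X⟧⟦X⟧) = 0 := two_of_alg _
  have e1 : (PowerSeries.subst (Pb b) φ : FF⟦X⟧⟦X⟧) = PowerSeries.subst (φ ^ 2) V := by
    rw [← hV φ h.1]; exact hom_comm_mulSeries h 2
  have e2 : (PowerSeries.subst (Pb b') φ' : FF⟦X⟧⟦X⟧) = PowerSeries.subst (φ' ^ 2) V := by
    rw [← hV φ' h'.1]; exact hom_comm_mulSeries h' 2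
  set z : FF⟦X⟧⟦X⟧ := φ' ^ 2 + X ^ (4 * k) * v ^ 2 with hz
  have c1 : constantCoeff (φ ^ 2) = 0 := by rw [map_pow, h.1]; simp
  have c2 : constantCoeff (φ' ^ 2) = 0 := by rw [map_pow, h'.1]; simp
  have c3 : constantCoeff z = 0 := by
    rw [hz, map_add, c2, map_mul, map_pow, constantCoeff_X, zero_pow (by omega)]; simp
  have d1 : C (X ^ (s + 1)) ∣ φ ^ 2 - z := by
    have : φ ^ 2 - z = C (X ^ s) ^ 2 * u ^ 2 := by
      have e' : φ = φ' + C (X ^ s) * u + X ^ (2 * k) * v := by linear_combination e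
      rw [hz, e', show 4 * k = 2 * k * 2 by ring, pow_mul]
      linear_combination (φ' * C (X ^ s) * u + φ' * X ^ (2 * k) * v +
        C (X ^ s) * u * X ^ (2 * k) * v) * two
    rw [this, ← map_pow, ← pow_mul]
    exact (map_dvd _ (pow_dvd_pow _ (by omega))).mul_right _
  obtain ⟨r1, hr1⟩ := rig_subst_cong (X ^ (s + 1)) (f := V) (g := V) c1 c3 (by simp) d1
  obtain ⟨r2, hr2⟩ := rig_lip (4 * k) V z (φ' ^ 2) c3 c2 (by rw [hz]; simp)
  obtain ⟨r3, hr3⟩ := rig_subst_cong (X ^ (s + 1)) (f := φ') (g := φ') (Pb_cc b) (Pb_cc b')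
    (by simp) (Pb_cong hbb)
  obtain ⟨r4, hr4⟩ : X ^ (4 * k) ∣ Pb b ^ (2 * k) := by
    have := pow_dvd_pow_of_dvd (Pb_dvd b) (2 * k)
    rwa [← pow_mul, show 2 * (2 * k) = 4 * k by ring] at this
  have sP := rig_hs (Pb_cc b)
  have e3 : (PowerSeries.subst (Pb b) (φ - φ') : FF⟦X⟧⟦X⟧) =
      PowerSeries.subst (Pb b) (C (X ^ s) * u + X ^ (2 * k) * v) := by rw [e]
  rw [subst_sub sP, subst_add sP, rig_subst_C_mul _ _ _ (Pb_cc b), subst_mul sP, subst_pow sP,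
    subst_X sP, hr4] at e3
  have e4 : C (X ^ s) * (PowerSeries.subst (Pb b) u : FF⟦X⟧⟦X⟧) = C (X ^ (s + 1)) * (r1 - r3) +
      X ^ (4 * k) * (r2 - r4 * PowerSeries.subst (Pb b) v) := by
    linear_combination -e3 + e1 - e2 + hr1 + hr2 - hr3
  have hb0 : constantCoeff b = 0 := by rw [hb]; simp
  have d2 : X ^ (4 * k) ∣ (PowerSeries.subst (mulSeries F0 2)
      (PowerSeries.map (constantCoeff (R := FF)) u) : FF⟦X⟧) := by
    rw [← Pb_red hb0, ← rig_map_subst _ _ _ (Pb_cc b), X_pow_dvd_iff]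
    intro m hm
    have := congrArg (coeff m) e4
    rw [map_add, coeff_C_mul, coeff_C_mul, X_pow_dvd_iff.1 (dvd_mul_right _ _) m hm, add_zero,
      pow_succ, mul_assoc] at this
    rw [coeff_map, mul_left_cancel₀ (pow_ne_zero _ X_ne_zero) this]
    simp
  obtain ⟨w, hw⟩ := dvd_of_subst_P0 k _ d2
  obtain ⟨u2, hu2⟩ : C (X : FF⟦X⟧) ∣ u - X ^ k * PowerSeries.map (C (R := FF)) w := by
    rw [rig_red_iff, hw, map_mul, map_pow, map_X]
    congr 1
  refine ⟨u2, C (X ^ s) * PowerSeries.map (C (R := FF)) w + X ^ k * v, ?_⟩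
  rw [e, pow_succ, map_mul, two_mul, pow_add]
  linear_combination C (X ^ s) * hu2

theorem CgB.iter {b b' : FF⟦X⟧} {φ φ' : FF⟦X⟧⟦X⟧} (h : IsFGHom (Fab b 1) (Fab X 1) φ)
    (h' : IsFGHom (Fab b' 1) (Fab X 1) φ') (hb : b = X * coeff 1 φ) (hb' : b' = X * coeff 1 φ')
    (n : ℕ) : ∀ {s k : ℕ}, 1 ≤ s → 1 ≤ k → CgB s (2 ^ n * k) φ φ' → CgB (s + n) k φ φ' := by
  induction n with
  | zero => intro s k _ _ c; simpa using c
  | succ n ih =>
    intro s k hs hk c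
    rw [pow_succ, mul_assoc] at c
    exact CgB.step h h' hb hb' (s := s + n) (by omega) hk (ih hs (by omega) c)

/-- effective rigidity -/
theorem rigidB {b b' : FF⟦X⟧} {φ φ' : FF⟦X⟧⟦X⟧} (h : IsFGHom (Fab b 1) (Fab X 1) φ)
    (h' : IsFGHom (Fab b' 1) (Fab X 1) φ') (hb : b = X * coeff 1 φ) (hb' : b' = X * coeff 1 φ')
    (n : ℕ) (c : X ^ (2 ^ (n + 1)) ∣ PowerSeries.map (constantCoeff (R := FF)) φ -
      PowerSeries.map (constantCoeff (R := FF)) φ') : X ^ (n + 2) ∣ b - b' := by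
  obtain ⟨w, hw⟩ := c
  have c1 : CgB 1 (2 ^ n * 2) φ φ' := by
    obtain ⟨u, hu⟩ : C (X : FF⟦X⟧) ∣ (φ - φ') - X ^ (2 ^ (n + 1)) * PowerSeries.map (C (R := FF)) w := by
      rw [rig_red_iff, map_sub, hw, map_mul, map_pow, map_X]
      congr 1
    exact ⟨u, PowerSeries.map (C (R := FF)) w, by rw [pow_one, ← pow_succ]; linear_combination hu⟩
  have := (CgB.iter h h' hb hb' n le_rfl (by norm_num) c1).lin le_rfl
  rw [hb, hb', show n + 2 = 1 + n + 1 by ring]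
  exact this

/-- the source of an isomorphism to `F(a,1)` -/
theorem src_eq {b : FF⟦X⟧} {φ : FF⟦X⟧⟦X⟧} (h : IsFGHom (Fab b 1) (Fab X 1) φ)
    (hu : IsUnit (coeff 1 φ)) : b = X * coeff 1 φ := by
  have e := congrArg (coeff 2) (hom_comm_mulSeries h 2)
  rw [rig_coeff_two_left _ _ h.1 (Pb_dvd b), rig_coeff_two_right _ _ h.1 (Pb_dvd X), Pb_two,
    Pb_two] at e
  apply hu.mul_left_cancel
  linear_combination e

end Crest.Agent.R007
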