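import Crest.Agent.R007.CW

/-! Row 7, block C: compactness lemmas, Artin–Rees, and the augmentation filtration. -/

set_option autoImplicit false
set_option linter.unusedSectionVars false

namespace Crest.Agent.R007

variable {B H : Type} [CommRing B] [AddCommGroup H] [Module B H] [TopologicalSpace H]
  [IsTopologicalAddGroup H] [CompactSpace H] [T2Space H]

/-- nested closed sets (`exists_subset_nhds_of_compactSpace`) -/
theorem exists_le_of_open {C : ℕ → Submodule B H} (hC : Antitone C)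
    (hc : ∀ n, IsClosed (C n : Set H)) {U : Submodule B H} (hU : IsOpen (U : Set H))
    (h : ∀ y, (∀ n, y ∈ C n) → y ∈ U) : ∃ n, C n ≤ U := by
  obtain ⟨n, hn⟩ := exists_subset_nhds_of_compactSpace (V := fun n => (C n : Set H))
    (U := (U : Set H))
    (fun n n' => ⟨max n n', hC (le_max_left _ _), hC (le_max_right _ _)⟩) hc
    (fun x hx => hU.mem_nhds (h x fun n => Set.mem_iInter.1 hx n))
  exact ⟨n, hn⟩

/-- the image of a compact set under addition -/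
theorem isClosed_sup {N N' : Submodule B H} (h : IsClosed (N : Set H))
    (h' : IsClosed (N' : Set H)) : IsClosed ((N ⊔ N' : Submodule B H) : Set H) := by
  rw [Submodule.coe_sup]
  exact (h.isCompact.add h'.isCompact).isClosed

/-- the nonempty closed sets `{f ∈ F k | y - f ∈ N}` form a directed family
(`IsCompact.nonempty_iInter_of_directed_nonempty_isCompact_isClosed`) -/
theorem mem_of_closed' {Λ : Type} [Nonempty Λ] {F : Λ → Submodule B H}
    (hF : ∀ n n', ∃ m, F m ≤ F n ∧ F m ≤ F n') (hc : ∀ k, IsClosed (F k : Set H))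
    (hs : ∀ y, (∀ k, y ∈ F k) → y = 0) {N : Submodule B H}
    (hN : IsClosed (N : Set H)) {y : H} (hy : ∀ k, y ∈ N ⊔ F k) : y ∈ N := by
  have hcl : ∀ k, IsClosed {f : H | f ∈ F k ∧ y - f ∈ N} := fun k =>
    (hc k).inter (hN.preimage (continuous_const.sub continuous_id))
  obtain ⟨f, hf⟩ := IsCompact.nonempty_iInter_of_directed_nonempty_isCompact_isClosed
    (fun k => {f : H | f ∈ F k ∧ y - f ∈ N})
    (fun n n' => by
      obtain ⟨m, h1, h2⟩ := hF n n'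
      exact ⟨m, fun f hf => ⟨h1 hf.1, hf.2⟩, fun f hf => ⟨h2 hf.1, hf.2⟩⟩)
    (fun k => by
      obtain ⟨a, ha, f, hf, e⟩ := Submodule.mem_sup.1 (hy k)
      refine ⟨f, hf, ?_⟩
      rw [← e, add_sub_cancel_right]
      exact ha)
    (fun k => (hcl k).isCompact) hcl
  have hf' := Set.mem_iInter.1 hf
  have h0 : f = 0 := hs f fun k => (hf' k).1
  simpa [h0] using (hf' (Classical.arbitrary Λ)).2

theorem isClosed_of_open {N : Submodule B H} (h : IsOpen (N : Set H)) : IsClosed (N : Set H) :=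
  AddSubgroup.isClosed_of_isOpen N.toAddSubgroup h

theorem mem_of_closed {F : ℕ → Submodule B H} (hF : Antitone F)
    (ho : ∀ k, IsOpen (F k : Set H)) (hs : ∀ y, (∀ k, y ∈ F k) → y = 0) {N : Submodule B H}
    (hN : IsClosed (N : Set H)) {y : H} (hy : ∀ k, y ∈ N ⊔ F k) : y ∈ N :=
  mem_of_closed' (fun n n' => ⟨max n n', hF (le_max_left _ _), hF (le_max_right _ _)⟩)
    (fun k => isClosed_of_open (ho k)) hs hN hy

theorem isClosed_mulTop [ContinuousConstSMul B H] (b : B) : IsClosed (mulTop H b : Set H) :=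
  (isCompact_range (continuous_const_smul b : Continuous fun y : H => b • y)).isClosed

/-- **Artin–Rees**: `FX.ar_step`; the closed sets `{f ∈ F k | b • (m - f) ∈ N ⊔ F (c + l')}` are
nested; `mem_of_closed` -/
theorem FX.ar [ContinuousConstSMul B H] {d : ℕ} {X : Fin d → Module.End B H}
    {F : ℕ → Submodule B H} (h : FX X F) (ho : ∀ k, IsOpen (F k : Set H))
    (hs : ∀ y, (∀ k, y ∈ F k) → y = 0) {N : Submodule B H} (hN : Stb X N)
    (hc : IsClosed (N : Set H)) {b : B} (hb : InjMod N b) :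
    ∃ c, ∀ k m, b • m ∈ N ⊔ F (c + k) → m ∈ N ⊔ F k := by
  obtain ⟨c, hstep⟩ := h.ar_step hN b
  refine ⟨c, fun k m hm => ?_⟩
  have hcl : ∀ j, IsClosed {f : H | f ∈ F k ∧ b • (m - f) ∈ N ⊔ F (c + (k + j))} := fun j =>
    (isClosed_of_open (ho k)).inter ((isClosed_sup hc (isClosed_of_open (ho _))).preimage
      ((continuous_const.sub continuous_id).const_smul b))
  obtain ⟨f, hf⟩ := IsCompact.nonempty_iInter_of_directed_nonempty_isCompact_isClosed
    (fun j => {f : H | f ∈ F k ∧ b • (m - f) ∈ N ⊔ F (c + (k + j))})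
    (fun n n' => ⟨max n n',
      fun f hf => ⟨hf.1, sup_le_sup_left (h.anti (by omega)) N hf.2⟩,
      fun f hf => ⟨hf.1, sup_le_sup_left (h.anti (by omega)) N hf.2⟩⟩)
    (fun j => hstep k m hm (k + j) (by omega))
    (fun j => (hcl j).isCompact) hcl
  have hf' := Set.mem_iInter.1 hf
  have h1 : b • (m - f) ∈ N := mem_of_closed h.anti ho hs hc fun j =>
    sup_le_sup_left (h.anti (by omega)) N (hf' j).2
  exact Submodule.mem_sup.2 ⟨m - f, hb _ h1, f, (hf' 0).1, sub_add_cancel m f⟩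

variable {G : Type} [Group G] {ρ : G →* Module.End B H} {Γ : ℕ → Subgroup G}
  {Λ : Type} {U : Λ → Submodule B H} {d : ℕ} {g : Fin d → G}

/-- Frobenius: `(A - 1) ^ 2 = A ^ 2 - 1` in characteristic `2` -/
theorem sub_one_pow_two (two : ∀ y : H, y + y = 0) (A : Module.End B H) (e : ℕ) :
    (A - 1) ^ 2 ^ e = A ^ 2 ^ e - 1 := by
  have h2 : ∀ T : Module.End B H, T + T = 0 := fun T => LinearMap.ext fun y => two _
  induction e with
  | zero => simp
  | succ e ih =>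
    rw [pow_succ, pow_mul, pow_mul, ih]
    calc (A ^ 2 ^ e - 1) ^ 2 = (A ^ 2 ^ e) ^ 2 - 1 - (A ^ 2 ^ e + A ^ 2 ^ e) + (1 + 1) := by
          noncomm_ring
      _ = _ := by rw [h2, h2, sub_zero, add_zero]

theorem GD.pow_mem (hΓ : GD Γ g) {e : ℕ} {γ : G} (h : γ ∈ Γ e) (k : ℕ) :
    γ ^ 2 ^ k ∈ Γ (e + k) := by
  induction k with
  | zero => simpa using h
  | succ k ih =>
    rw [pow_succ, pow_mul]
    exact hΓ.sq _ _ ih

/-- a subgroup containing all `g i ^ 2 ^ f`, `f ≥ e`, is dense in `Γ e` (induction on `f`) -/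
theorem GD.le_sup (hΓ : GD Γ g) {e : ℕ} {S : Subgroup G} (hS : ∀ i, ∀ f ≥ e, g i ^ 2 ^ f ∈ S)
    {f : ℕ} (hf : e ≤ f) : Γ e ≤ S ⊔ Γ f := by
  induction f, hf using Nat.le_induction with
  | base => exact le_sup_right
  | succ f hf ih =>
    refine ih.trans (sup_le le_sup_left ((hΓ.gen f).trans (sup_le_sup_right ?_ _)))
    rw [Subgroup.closure_le]
    rintro _ ⟨i, rfl⟩
    exact hS i f hf

variable [ContinuousConstSMul B H]

/-- the closures of the powers of the augmentation ideal of `Γ₀` applied to `H` -/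
noncomputable def augF (ρ : G →* Module.End B H) (Γ₀ : Subgroup G) : ℕ → Submodule B H
  | 0 => ⊤
  | k + 1 => (⨆ γ : Γ₀, (augF ρ Γ₀ k).map (ρ γ - 1)).topologicalClosure

theorem augF_closed (Γ₀ : Subgroup G) (k : ℕ) : IsClosed (augF ρ Γ₀ k : Set H) := by
  cases k with
  | zero => exact isClosed_univ
  | succ k => exact Submodule.isClosed_topologicalClosure _

theorem augF_step {Γ₀ : Subgroup G} {γ : G} (hγ : γ ∈ Γ₀) {k : ℕ} {y : H}
    (hy : y ∈ augF ρ Γ₀ k) : ρ γ y - y ∈ augF ρ Γ₀ (k + 1) :=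
  Submodule.le_topologicalClosure _ (Submodule.mem_iSup_of_mem ⟨γ, hγ⟩ ⟨y, hy, rfl⟩)

theorem augF_le {Γ₀ : Subgroup G} {k : ℕ} {N : Submodule B H} (hN : IsClosed (N : Set H))
    (h : ∀ γ ∈ Γ₀, ∀ y ∈ augF ρ Γ₀ k, ρ γ y - y ∈ N) : augF ρ Γ₀ (k + 1) ≤ N := by
  refine Submodule.topologicalClosure_minimal _ (iSup_le fun γ => ?_) hN
  rintro _ ⟨y, hy, rfl⟩
  exact h γ γ.2 y hy

theorem augF_anti (Γ₀ : Subgroup G) : Antitone (augF ρ Γ₀) := by
  refine antitone_nat_of_succ_le fun k => ?_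
  induction k with
  | zero => exact le_top
  | succ k ih => exact augF_le (augF_closed _ _) fun γ hγ y hy => augF_step hγ (ih hy)

/-- `S = {γ ∈ Γ 0 | ∀ k, (ρ γ - 1) F k ⊆ F (k + 2 ^ e)}` is a subgroup containing the
`g i ^ 2 ^ f`, `f ≥ e` (`sub_one_pow_two`); `GD.le_sup`; for `γ = γ' s`, `γ' ∈ Γ f`:
`ρ γ y - y = (ρ γ' (ρ s y) - ρ s y) + (ρ s y - y) ∈ U n ⊔ F`; `mem_of_closed'` -/
theorem augF_raise (h : GM ρ Γ U) (hΓ : GD Γ g) (e : ℕ) {γ : G} (hγ : γ ∈ Γ e) {k : ℕ} {y : H}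
    (hy : y ∈ augF ρ (Γ 0) k) : ρ γ y - y ∈ augF ρ (Γ 0) (k + 2 ^ e) := by
  have hst : ∀ a ∈ Γ 0, ∀ k, ∀ y ∈ augF ρ (Γ 0) k, ρ a y ∈ augF ρ (Γ 0) k := fun a ha k y hy => by
    simpa using add_mem (augF_anti _ (Nat.le_succ k) (augF_step ha hy)) hy
  have hpow : ∀ a ∈ Γ 0, ∀ m k, ∀ y ∈ augF ρ (Γ 0) k,
      ((ρ a - 1) ^ m) y ∈ augF ρ (Γ 0) (k + m) := fun a ha m k y hy => by
    induction m with
    | zero => simpa using hy
    | succ m ih =>
      rw [pow_succ']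
      exact augF_step ha ih
  let S : Subgroup G :=
    { carrier := {a | a ∈ Γ 0 ∧ ∀ k, ∀ y ∈ augF ρ (Γ 0) k, ρ a y - y ∈ augF ρ (Γ 0) (k + 2 ^ e)}
      one_mem' := ⟨one_mem _, fun k y _ => by simp⟩
      mul_mem' := fun {a b} ha hb => ⟨mul_mem ha.1 hb.1, fun k y hy => by
        simpa using add_mem (ha.2 k _ (hst b hb.1 k y hy)) (hb.2 k y hy)⟩
      inv_mem' := fun {a} ha => ⟨inv_mem ha.1, fun k y hy => by
        have h1 := neg_mem (ha.2 k _ (hst a⁻¹ (inv_mem ha.1) k y hy))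
        rwa [← Module.End.mul_apply, ← map_mul, mul_inv_cancel, map_one, Module.End.one_apply,
          neg_sub] at h1⟩ }
  have hS : ∀ i, ∀ f ≥ e, g i ^ 2 ^ f ∈ S := fun i f hf =>
    ⟨_root_.pow_mem (hΓ.mem i) _, fun k y hy => by
      have h1 := hpow _ (hΓ.mem i) (2 ^ f) k y hy
      rw [sub_one_pow_two h.two, ← map_pow] at h1
      exact augF_anti _ (Nat.add_le_add_left (Nat.pow_le_pow_right two_pos hf) k) h1⟩
  have := h.ne
  refine mem_of_closed' h.dir (fun n => isClosed_of_open (h.op n)) h.sep (augF_closed _ _)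
    fun n => ?_
  obtain ⟨e', he'⟩ := h.smooth n
  have := hΓ.normal (max e e')
  obtain ⟨s, hs, z, hz, rfl⟩ := Subgroup.mem_sup_of_normal_right.1
    (hΓ.le_sup hS (le_max_left e e') hγ)
  have h1 := Submodule.add_mem_sup (hs.2 k y hy)
    (h.stab n s _ (he' z (hΓ.anti (le_max_right e e') hz) y))
  simpa using h1

theorem h54_closed_iSup {ι : Type} [Finite ι] (N : ι → Submodule B H)
    (h : ∀ i, IsClosed (N i : Set H)) : IsClosed ((⨆ i, N i : Submodule B H) : Set H) := by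
  classical
  have := Fintype.ofFinite ι
  rw [← Finset.sup_univ_eq_iSup]
  induction (Finset.univ : Finset ι) using Finset.induction_on with
  | empty => simp
  | insert a s _ ih => rw [Finset.sup_insert]; exact isClosed_sup (h a) ih

theorem h54_augF_stab {Γ₀ : Subgroup G} {γ : G} (hγ : γ ∈ Γ₀) {k : ℕ} {y : H}
    (hy : y ∈ augF ρ Γ₀ k) : ρ γ y ∈ augF ρ Γ₀ k := by
  have h1 := add_mem (augF_anti Γ₀ (Nat.le_succ k) (augF_step hγ hy)) hy
  rwa [sub_add_cancel] at h1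

/-- the right side is closed (`isClosed_sup`, images of compact sets; `Finite` sup);
`{γ ∈ Γ 0 | (ρ γ - 1) F k ⊆ RHS}` is a subgroup containing the `g i` and `Γ 1` -/
theorem augF_gen (h : GM ρ Γ U) (hΓ : GD Γ g) (k : ℕ) : augF ρ (Γ 0) (k + 1) ≤
    (⨆ i, (augF ρ (Γ 0) k).map (ρ (g i) - 1)) ⊔ augF ρ (Γ 0) (k + 2) := by
  have hcl : IsClosed (((⨆ i, (augF ρ (Γ 0) k).map (ρ (g i) - 1)) ⊔ augF ρ (Γ 0) (k + 2) :
      Submodule B H) : Set H) := by
    refine isClosed_sup (h54_closed_iSup _ fun i => ?_) (augF_closed _ _)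
    rw [Submodule.map_coe]
    exact ((augF_closed (ρ := ρ) (Γ 0) k).isCompact.image ((h.cont (g i)).sub continuous_id)).isClosed
  obtain ⟨R, hR⟩ : ∃ R, R = (⨆ i, (augF ρ (Γ 0) k).map (ρ (g i) - 1)) ⊔ augF ρ (Γ 0) (k + 2) :=
    ⟨_, rfl⟩
  rw [← hR] at hcl ⊢
  let S : Subgroup G :=
    { carrier := {γ | γ ∈ Γ 0 ∧ ∀ y ∈ augF ρ (Γ 0) k, ρ γ y - y ∈ R}
      one_mem' := ⟨one_mem _, fun y _ => by simp⟩
      mul_mem' := by
        rintro a b ⟨ha, ha'⟩ ⟨hb, hb'⟩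
        refine ⟨mul_mem ha hb, fun y hy => ?_⟩
        have e : ρ (a * b) y - y = (ρ a (ρ b y) - ρ b y) + (ρ b y - y) := by
          rw [map_mul, Module.End.mul_apply]; abel
        rw [e]
        exact add_mem (ha' _ (h54_augF_stab hb hy)) (hb' y hy)
      inv_mem' := by
        rintro a ⟨ha, ha'⟩
        refine ⟨inv_mem ha, fun y hy => ?_⟩
        have e : ρ a⁻¹ y - y = -(ρ a (ρ a⁻¹ y) - ρ a⁻¹ y) := by
          rw [← Module.End.mul_apply, ← map_mul, mul_inv_cancel, map_one, Module.End.one_apply]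
          abel
        rw [e]
        exact neg_mem (ha' _ (h54_augF_stab (inv_mem ha) hy)) }
  have hle : Γ 0 ≤ S := by
    refine (hΓ.gen 0).trans (sup_le ((Subgroup.closure_le _).2 ?_) fun γ hγ => ?_)
    · rintro _ ⟨i, rfl⟩
      refine ⟨pow_mem (hΓ.mem i) _, fun y hy => ?_⟩
      rw [hR]
      refine Submodule.mem_sup_left (Submodule.mem_iSup_of_mem i ⟨y, hy, ?_⟩)
      simp
    · refine ⟨hΓ.anti (Nat.zero_le _) hγ, fun y hy => ?_⟩
      rw [hR]
      exact Submodule.mem_sup_right (augF_raise h hΓ (0 + 1) hγ hy)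
  exact augF_le hcl fun γ hγ y hy => (hle hγ).2 y hy

/-- `T` = finitely many representatives of the right cosets of `Γ 0`; the subgroup generated by
`ρ T S` is finite (`2 H = 0`), its sum with `F 1` is closed and dense -/
theorem augF_fin (h : GM ρ Γ U) (hΓ : GD Γ g) : Finite (H ⧸ augF ρ (Γ 0) 1) := by
  obtain ⟨S, hS, hd⟩ := h.gen
  have := hΓ.fin 0
  have hn := hΓ.normal 0
  have : Finite S := hS
  obtain ⟨Z, hZ⟩ : ∃ Z : Set H, Z = Set.range fun p : (G ⧸ Γ 0) × S => ρ p.1.out p.2 := ⟨_, rfl⟩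
  have hZf : Z.Finite := hZ ▸ Set.finite_range _
  have hA : Finite (AddSubgroup.closure Z) := by
    have : AddGroup.FG (AddSubgroup.closure Z) :=
      (AddGroup.fg_iff_addSubgroup_fg _).2 ⟨hZf.toFinset, by simp⟩
    refine AddCommGroup.finite_of_fg_isAddTorsion _ fun a =>
      isOfFinAddOrder_iff_nsmul_eq_zero.2 ⟨2, two_pos, Subtype.ext ?_⟩
    simpa [two_nsmul] using h.two a
  have hC : IsClosed (⋃ a : AddSubgroup.closure Z, {y : H | y - a ∈ augF ρ (Γ 0) 1}) :=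
    isClosed_iUnion_of_finite fun a =>
      (augF_closed (ρ := ρ) (Γ 0) 1).preimage (continuous_id.sub continuous_const)
  have hsub : (AddSubgroup.closure {y | ∃ γ, ∃ s ∈ S, y = ρ γ s} : Set H) ⊆
      ⋃ a : AddSubgroup.closure Z, {y : H | y - a ∈ augF ρ (Γ 0) 1} := by
    have h1 : AddSubgroup.closure {y | ∃ γ, ∃ s ∈ S, y = ρ γ s} ≤
        AddSubgroup.closure Z ⊔ (augF ρ (Γ 0) 1).toAddSubgroup := by
      refine (AddSubgroup.closure_le _).2 ?_
      rintro _ ⟨γ, s, hs, rfl⟩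
      obtain ⟨t, ht⟩ : ∃ t : G, t = (γ : G ⧸ Γ 0).out := ⟨_, rfl⟩
      have h2 : t⁻¹ * γ ∈ Γ 0 := by
        rw [← QuotientGroup.eq, ht, QuotientGroup.out_eq']
      have h3 : γ * t⁻¹ ∈ Γ 0 := by
        have := hn.conj_mem _ h2 t
        rwa [← mul_assoc, mul_inv_cancel, one_mul] at this
      have h4 : ρ (γ * t⁻¹) (ρ t s) - ρ t s ∈ augF ρ (Γ 0) (0 + 1) := augF_step h3 trivial
      rw [← Module.End.mul_apply, ← map_mul, inv_mul_cancel_right] at h4
      have h5 : ρ t s ∈ AddSubgroup.closure Z :=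
        AddSubgroup.subset_closure (hZ ▸ ⟨((γ : G ⧸ Γ 0), ⟨s, hs⟩), by rw [ht]⟩)
      have h6 := add_mem (AddSubgroup.mem_sup_left (T := (augF ρ (Γ 0) 1).toAddSubgroup) h5)
        (AddSubgroup.mem_sup_right (S := AddSubgroup.closure Z) h4)
      rwa [add_sub_cancel] at h6
    intro y hy
    obtain ⟨a, ha, b, hb, rfl⟩ := AddSubgroup.mem_sup.1 (h1 hy)
    exact Set.mem_iUnion.2 ⟨⟨a, ha⟩, by simpa using hb⟩
  refine Finite.of_surjective (fun a : AddSubgroup.closure Z => Submodule.Quotient.mk (a : H)) ?_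
  intro q
  obtain ⟨y, rfl⟩ := Submodule.Quotient.mk_surjective _ q
  obtain ⟨a, ha⟩ := Set.mem_iUnion.1 (hC.closure_subset_iff.2 hsub (hd y))
  exact ⟨a, ((Submodule.Quotient.eq _).2 ha).symm⟩

theorem h55_fix (two : ∀ y : H, y + y = 0) (Γ₀ : Subgroup G) (W : Submodule B H)
    [Finite (H ⧸ W)] (hst : ∀ γ ∈ Γ₀, ∀ y ∈ W, ρ γ y ∈ W) (e : ℕ)
    (he : ∀ γ ∈ Γ₀, ∀ y, ρ (γ ^ 2 ^ e) y - y ∈ W)
    (hfix : ∀ y, (∀ γ ∈ Γ₀, ρ γ y - y ∈ W) → y ∈ W) : W = ⊤ := by
  by_contra hW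
  let φ : Γ₀ →* Module.End B (H ⧸ W) :=
    { toFun := fun γ => W.mapQ W (ρ γ) (hst γ γ.2)
      map_one' := by
        refine LinearMap.ext fun x => ?_
        obtain ⟨y, rfl⟩ := W.mkQ_surjective x
        simp
      map_mul' := fun a b => by
        refine LinearMap.ext fun x => ?_
        obtain ⟨y, rfl⟩ := W.mkQ_surjective x
        simp }
  have hφ : ∀ (γ : Γ₀) (y : H), φ γ (W.mkQ y) = W.mkQ (ρ γ y) := fun _ _ => rfl
  let : MulAction Γ₀ (H ⧸ W) := MulAction.compHom _ φ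
  have hs : ∀ (γ : Γ₀) (x : H ⧸ W), MulAction.toPermHom Γ₀ (H ⧸ W) γ x = φ γ x := fun _ _ => rfl
  have hP : IsPGroup 2 (MulAction.toPermHom Γ₀ (H ⧸ W)).range := by
    rintro ⟨_, γ, rfl⟩
    refine ⟨e, Subtype.ext ?_⟩
    rw [SubmonoidClass.coe_pow, ← map_pow]
    refine Equiv.ext fun x => ?_
    obtain ⟨y, rfl⟩ := W.mkQ_surjective x
    rw [hs, hφ]
    exact (Submodule.Quotient.eq W).2 (he γ γ.2 y)
  obtain ⟨y₀, hy₀⟩ : ∃ y, y ∉ W := by
    by_contra hn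
    exact hW (eq_top_iff.2 fun y _ => by_contra fun hy => hn ⟨y, hy⟩)
  have h2 : 2 ∣ Nat.card (H ⧸ W) := by
    have : addOrderOf (W.mkQ y₀) = 2 := addOrderOf_eq_prime
      (by rw [two_nsmul, ← map_add, two, map_zero])
      fun h0 => hy₀ ((Submodule.Quotient.mk_eq_zero W).1 h0)
    rw [← this]
    exact addOrderOf_dvd_natCard _
  obtain ⟨b, hb, hne⟩ := hP.exists_fixed_point_of_prime_dvd_card_of_fixed_point (H ⧸ W) h2
    (a := 0) (by
      rintro ⟨_, γ, rfl⟩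
      exact map_zero (φ γ))
  obtain ⟨y, rfl⟩ := W.mkQ_surjective b
  refine hne ((Submodule.Quotient.mk_eq_zero W).2 (hfix y fun γ hγ => ?_)).symm
  exact (Submodule.Quotient.eq W).1 (hb ⟨_, ⟨γ, hγ⟩, rfl⟩)

/-- nilpotence: `Z 0 = U n`, `Z (k + 1) = {y | ∀ γ ∈ Γ 0, ρ γ y - y ∈ Z k}` is an increasing sequence
of open subgroups; it stabilises (`U n` has finite index) at some `Z k`; the image of `Γ 0` in
`Equiv.Perm (H ⧸ Z k)` is a `2`-group (`GD.pow_mem`, `smooth`) whose only fixed point is `0`, so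
`Z k = ⊤` (`IsPGroup.exists_fixed_point_of_prime_dvd_card_of_fixed_point`, `2 H = 0`); then
`F j ≤ Z (k - j)` by `augF_le` -/
theorem augF_le_U (h : GM ρ Γ U) (hΓ : GD Γ g) (n : Λ) : ∃ k, augF ρ (Γ 0) k ≤ U n := by
  obtain ⟨Z, hZ0, hZ⟩ : ∃ Z : ℕ → Submodule B H, Z 0 = U n ∧
      ∀ k y, y ∈ Z (k + 1) ↔ ∀ γ ∈ Γ 0, ρ γ y - y ∈ Z k :=
    ⟨fun k => Nat.rec (U n) (fun _ W => ⨅ γ : Γ 0, W.comap (ρ γ - 1)) k, rfl, fun k y =>
      (Submodule.mem_iInf _).trans ⟨fun a γ hγ => a ⟨γ, hγ⟩, fun a γ => a γ γ.2⟩⟩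
  have h0 : ∀ γ, ∀ y ∈ Z 0, ρ γ y - y ∈ Z 0 := fun γ y hy => by
    rw [hZ0] at hy ⊢
    exact (U n).sub_mem (h.stab n γ y hy) hy
  have hm : Monotone Z := monotone_nat_of_le_succ fun k => by
    induction k with
    | zero => exact fun y hy => (hZ 0 y).2 fun γ _ => h0 γ y hy
    | succ k ih => exact fun y hy => (hZ _ y).2 fun γ hγ => ih ((hZ k y).1 hy γ hγ)
  have hU : ∀ k, U n ≤ Z k := fun k => hZ0.ge.trans (hm (Nat.zero_le k))
  have ho : ∀ k, IsOpen (Z k : Set H) := fun k =>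
    AddSubgroup.isOpen_mono (H₁ := (U n).toAddSubgroup) (H₂ := (Z k).toAddSubgroup) (hU k) (h.op n)
  have hf : ∀ k, Finite (H ⧸ Z k) := fun k =>
    AddSubgroup.quotient_finite_of_isOpen (Z k).toAddSubgroup (ho k)
  have hst : ∀ k, ∀ γ ∈ Γ 0, ∀ y ∈ Z k, ρ γ y ∈ Z k := fun k γ hγ y hy => by
    have := (Z k).add_mem (x := ρ γ y - y) (by
      cases k with
      | zero => exact h0 γ y hy
      | succ k => exact hm (Nat.le_succ k) ((hZ k y).1 hy γ hγ)) hy
    rwa [sub_add_cancel] at this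
  have : Finite (H ⧸ U n) := hZ0 ▸ hf 0
  obtain ⟨k, hk⟩ := WellFoundedGT.monotone_chain_condition
    (⟨fun k => (Z k).map (U n).mkQ, fun _ _ a => Submodule.map_mono (hm a)⟩ :
      ℕ →o Submodule B (H ⧸ U n))
  have hk' : Z (k + 1) ≤ Z k := by
    have a := Submodule.map_le_iff_le_comap.1 (hk (k + 1) (Nat.le_succ k)).ge
    simp only [OrderHom.coe_mk, Submodule.comap_map_mkQ] at a
    exact a.trans (sup_le (hU k) le_rfl)
  obtain ⟨e, he⟩ := h.smooth n
  have := hf k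
  have ht : Z k = ⊤ := h55_fix h.two (Γ 0) (Z k) (hst k) e
    (fun γ hγ y => hU k (he _ (by simpa using hΓ.pow_mem hγ e) y))
    fun y hy => hk' ((hZ k y).2 hy)
  have key : ∀ j i, Z (i + j) = ⊤ → augF ρ (Γ 0) j ≤ Z i := fun j => by
    induction j with
    | zero => exact fun i hi => le_top.trans hi.ge
    | succ j ih =>
      exact fun i hi => augF_le (isClosed_of_open (ho i)) fun γ hγ y hy =>
        (hZ i y).1 (ih (i + 1) (by rwa [add_assoc, add_comm 1 j]) hy) γ hγ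
  exact ⟨k, (key k 0 (by rwa [zero_add])).trans hZ0.le⟩

/-- `X i X j - X j X i = (ρ ⁅g i, g j⁆ - 1) ρ (g j) ρ (g i)`, `⁅g i, g j⁆ ∈ Γ 2` -/
theorem augF_fx (h : GM ρ Γ U) (hΓ : GD Γ g) : FX (fun i => ρ (g i) - 1) (augF ρ (Γ 0)) := by
  refine ⟨rfl, augF_anti _, augF_fin h hΓ, fun i k y hy => augF_step (hΓ.mem i) hy,
    fun i j k y hy => ?_, augF_gen h hΓ⟩
  have hc : g i * g j * (g i)⁻¹ * (g j)⁻¹ ∈ Γ (0 + 0 + 2) :=
    hΓ.comm 0 0 (Subgroup.commutator_mem_commutator (hΓ.mem i) (hΓ.mem j))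
  have h1 := augF_raise h hΓ _ hc (h54_augF_stab (mul_mem (hΓ.mem j) (hΓ.mem i)) hy)
  have h2 : g i * g j * (g i)⁻¹ * (g j)⁻¹ * (g j * g i) = g i * g j := by group
  rw [← Module.End.mul_apply, ← map_mul, h2, map_mul, map_mul] at h1
  have h3 : (ρ (g i) - 1) ((ρ (g j) - 1) y) - (ρ (g j) - 1) ((ρ (g i) - 1) y) =
      (ρ (g i) * ρ (g j)) y - (ρ (g j) * ρ (g i)) y := by
    simp only [LinearMap.sub_apply, Module.End.one_apply, map_sub, Module.End.mul_apply]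
    abel
  rw [h3]
  exact augF_anti _ (by norm_num) h1

theorem GM.fm (h : GM ρ Γ U) (hΓ : GD Γ g) : FM ρ Γ g (augF ρ (Γ 0)) := by
  refine ⟨h.two, h.cont, augF_fx h hΓ, fun k => ?_, fun y hy => h.sep y fun n => ?_,
    fun e γ hγ k y hy => augF_raise h hΓ e hγ hy⟩
  · have := (augF_fx h hΓ).finiteIndex k
    exact AddSubgroup.isOpen_of_isClosed_of_finiteIndex (augF ρ (Γ 0) k).toAddSubgroup
      (augF_closed _ k)
  · obtain ⟨k, hk⟩ := augF_le_U h hΓ n
    exact hk (hy k)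

end Crest.Agent.R007
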