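import Mathlib

/-! Row 7, block C (abstract commutative algebra): the internal structures. -/

set_option autoImplicit false

namespace Crest.Agent.R007

/-- the `2`-adic quaternion order, axiomatically -/
structure QO (O : Type) [Ring O] where
  /-- cube root of unity -/
  ω : O
  /-- Frobenius -/
  π : O
  tf : ∀ x : O, 2 * x = 0 → x = 0
  hω : ω ^ 2 + ω + 1 = 0
  hπ : ∃ (m : ℤ) (y : O), Odd m ∧ π ^ 2 = 2 * (m + 4 * y)
  hc : π * ω = ω ^ 2 * π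
  span : ∀ x : O, ∃ (a b c d : ℤ) (y : O), x = a + b * ω + c * π + d * (ω * π) + 2 * y

/-- `φ g` is congruent to an odd integer modulo `2 ^ t` -/
def Cg {O G : Type} [Ring O] [Group G] (φ : G →* Oˣ) (t : ℕ) (g : G) : Prop :=
  ∃ (u : ℤ) (x : O), Odd u ∧ (φ g : O) = u + 2 ^ t * x

/-- a filtration of a group like that of a uniform pro-`2` group with `d` generators -/
structure GD {G : Type} [Group G] (Γ : ℕ → Subgroup G) {d : ℕ} (g : Fin d → G) : Prop where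
  anti : Antitone Γ
  normal : ∀ e, (Γ e).Normal
  fin : ∀ e, (Γ e).FiniteIndex
  mem : ∀ i, g i ∈ Γ 0
  sq : ∀ e, ∀ γ ∈ Γ e, γ ^ 2 ∈ Γ (e + 1)
  comm : ∀ e f, ⁅Γ e, Γ f⁆ ≤ Γ (e + f + 2)
  gen : ∀ e, Γ e ≤ Subgroup.closure (Set.range fun i => g i ^ 2 ^ e) ⊔ Γ (e + 1)

/-- the Lie algebra is perfect -/
def Perf {G : Type} [Group G] (Γ : ℕ → Subgroup G) : Prop :=
  ∀ J, ∃ t, Γ t ≤ ⁅Γ J, Γ J⁆ ⊔ Γ (t + 1)

section mod

variable {B H : Type} [CommRing B] [AddCommGroup H] [Module B H]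

/-- a filtration whose graded module is finitely generated over a polynomial ring in the `X i` -/
structure FX {d : ℕ} (X : Fin d → Module.End B H) (F : ℕ → Submodule B H) : Prop where
  zero : F 0 = ⊤
  anti : Antitone F
  fin : Finite (H ⧸ F 1)
  raise : ∀ i k, ∀ y ∈ F k, X i y ∈ F (k + 1)
  comm : ∀ i j k, ∀ y ∈ F k, X i (X j y) - X j (X i y) ∈ F (k + 3)
  gen : ∀ k, F (k + 1) ≤ (⨆ i, (F k).map (X i)) ⊔ F (k + 2)

/-- `N` is stable under the `X i` -/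
def Stb {d : ℕ} (X : Fin d → Module.End B H) (N : Submodule B H) : Prop :=
  ∀ i, ∀ y ∈ N, X i y ∈ N

/-- the word `X i₁ ∘ ⋯ ∘ X iₖ` -/
def word {d : ℕ} (X : Fin d → Module.End B H) (l : List (Fin d)) : Module.End B H :=
  (l.map X).prod

/-- growth of `H ⧸ N`: `|H ⧸ (N + F k)| ≤ C ^ k ^ r` -/
def Gr (F : ℕ → Submodule B H) (N : Submodule B H) (r : ℕ) : Prop :=
  ∃ C : ℕ, ∀ k, (N ⊔ F k).toAddSubgroup.index ≤ C ^ k ^ r

/-- `b` is injective on `H ⧸ N` -/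
def InjMod (N : Submodule B H) (b : B) : Prop := ∀ y, b • y ∈ N → y ∈ N

/-- the submodule `b H` -/
def mulTop (H : Type) [AddCommGroup H] [Module B H] (b : B) : Submodule B H :=
  LinearMap.range (LinearMap.lsmul B H b)

variable [TopologicalSpace H] {G : Type} [Group G]

/-- a profinite module with a smooth, topologically finitely generated action of `G` -/
structure GM (ρ : G →* Module.End B H) (Γ : ℕ → Subgroup G) {Λ : Type} (U : Λ → Submodule B H) :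
    Prop where
  two : ∀ y : H, y + y = 0
  cont : ∀ γ, Continuous (ρ γ)
  op : ∀ n, IsOpen (U n : Set H)
  ne : Nonempty Λ
  dir : ∀ n n', ∃ m, U m ≤ U n ∧ U m ≤ U n'
  sep : ∀ y, (∀ n, y ∈ U n) → y = 0
  stab : ∀ n γ, ∀ y ∈ U n, ρ γ y ∈ U n
  smooth : ∀ n, ∃ e, ∀ γ ∈ Γ e, ∀ y, ρ γ y - y ∈ U n
  gen : ∃ S : Set H, S.Finite ∧
    Dense (AddSubgroup.closure {y | ∃ γ, ∃ s ∈ S, y = ρ γ s} : Set H)

/-- the filtration by the powers of the augmentation ideal of `Γ 0` -/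
structure FM (ρ : G →* Module.End B H) (Γ : ℕ → Subgroup G) {d : ℕ} (g : Fin d → G)
    (F : ℕ → Submodule B H) : Prop where
  two : ∀ y : H, y + y = 0
  cont : ∀ γ, Continuous (ρ γ)
  fx : FX (fun i => ρ (g i) - 1) F
  op : ∀ k, IsOpen (F k : Set H)
  sep : ∀ y, (∀ k, y ∈ F k) → y = 0
  raise : ∀ e, ∀ γ ∈ Γ e, ∀ k, ∀ y ∈ F k, ρ γ y - y ∈ F (k + 2 ^ e)

/-- the submodules dual to the ideals of `B` -/
structure ND (ρ : G →* Module.End B H) (Nf : Ideal B → Submodule B H) : Prop where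
  closed : ∀ I, IsClosed (Nf I : Set H)
  stab : ∀ I γ, ∀ y ∈ Nf I, ρ γ y ∈ Nf I
  mono : Monotone Nf
  smul : ∀ I, ∀ b ∈ I, ∀ y, b • y ∈ Nf I
  ann : ∀ I : Ideal B, I.FG → ∀ b, (∀ y, b • y ∈ Nf I) → b ∈ I
  inj : ∀ P : Ideal B, P.FG → ∀ x, (∀ a, a * x ∈ P → a ∈ P) → InjMod (Nf P) x
  inf : ∀ (I : ℕ → Ideal B) (P : Ideal B), Antitone I → (∀ m, (I m).FG) →
    (∀ b, (∀ m, b ∈ I m) → b ∈ P) → ∀ y, (∀ m, y ∈ Nf (I m)) → y ∈ Nf P

end mod

end Crest.Agent.R007
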