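import Crest.Agent.R007.Defs

/-! # Row 7, block C (limit part), file 1: profinite rings without topology (owner helper40). -/

set_option autoImplicit false

noncomputable section
namespace Crest.Agent.R007

/-- a commutative ring which is the inverse limit of the finite rings `T ⧸ J n` -/
structure ProF {T : Type} [CommRing T] (J : ℕ → Ideal T) : Prop where
  anti : Antitone J
  fin : ∀ n, Finite (T ⧸ J n)
  sep : ∀ x : T, (∀ n, x ∈ J n) → x = 0
  cpl : ∀ f : ℕ → T, (∀ n, f (n + 1) - f n ∈ J n) → ∃ x, ∀ n, x - f n ∈ J n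

/-- topologically nilpotent -/
def TNil {T : Type} [CommRing T] (J : ℕ → Ideal T) (x : T) : Prop := ∀ n, ∃ m : ℕ, x ^ m ∈ J n

namespace ProF
variable {T : Type} [CommRing T] {J : ℕ → Ideal T}

theorem h70_pigeon (h : ProF J) (n : ℕ) (S : ℕ → Set T) (hS : Antitone S)
    (hne : ∀ n, (S n).Nonempty) : ∃ y, (∃ m, y ∈ S m) ∧ ∀ m, ∃ z ∈ S m, z - y ∈ J n := by
  choose z hz using hne
  haveI := h.fin n
  obtain ⟨c, hc⟩ := Finite.exists_infinite_fiber (fun m => Ideal.Quotient.mk (J n) (z m))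
  rw [Set.infinite_coe_iff] at hc
  obtain ⟨m₀, hm₀⟩ := hc.nonempty
  refine ⟨z m₀, ⟨m₀, hz m₀⟩, fun m => ?_⟩
  obtain ⟨m', hm', hlt⟩ := hc.exists_gt m
  refine ⟨z m', hS hlt.le (hz m'), Ideal.Quotient.eq.1 ?_⟩
  have e1 : Ideal.Quotient.mk (J n) (z m') = c := hm'
  have e2 : Ideal.Quotient.mk (J n) (z m₀) = c := hm₀
  rw [e1, e2]

/-- König's lemma: cluster points -/
theorem kon (h : ProF J) (S : ℕ → Set T) (hS : Antitone S) (hne : ∀ n, (S n).Nonempty) :
    ∃ x, ∀ n, ∃ y ∈ S n, x - y ∈ J n := by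
  have step : ∀ n y, (∀ m, ∃ z ∈ S m, z - y ∈ J n) →
      ∃ y', (∀ m, ∃ z ∈ S m, z - y' ∈ J (n + 1)) ∧ y' - y ∈ J n := by
    intro n y hy
    obtain ⟨y', ⟨m₀, hm₀⟩, hy'⟩ := h70_pigeon h (n + 1) (fun m => {z | z ∈ S m ∧ z - y ∈ J n})
      (fun a b hab z hz => ⟨hS hab hz.1, hz.2⟩) (fun m => hy m)
    refine ⟨y', fun m => ?_, hm₀.2⟩
    obtain ⟨z, hz, hz'⟩ := hy' m
    exact ⟨z, hz.1, hz'⟩
  choose g hg using step
  obtain ⟨y₀, -, hy₀⟩ := h70_pigeon h 0 S hS hne
  let f : ∀ n, {y // ∀ m, ∃ z ∈ S m, z - y ∈ J n} := fun n =>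
    Nat.rec ⟨y₀, hy₀⟩ (fun n p => ⟨g n p.1 p.2, (hg n p.1 p.2).1⟩) n
  obtain ⟨x, hx⟩ := h.cpl (fun n => (f n).1) (fun n => (hg n (f n).1 (f n).2).2)
  refine ⟨x, fun n => ?_⟩
  obtain ⟨z, hz, hz'⟩ := (f n).2 n
  refine ⟨z, hz, ?_⟩
  have := (J n).sub_mem (hx n) hz'
  rwa [sub_sub_sub_cancel_right] at this

theorem iInf_sup (h : ProF J) (N : ℕ → Ideal T) (hN : Antitone N) (hJ : ∀ n, J n ≤ N n) (y : T) :
    ⨅ n, (N n ⊔ Ideal.span {y}) = (⨅ n, N n) ⊔ Ideal.span {y} := by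
  refine le_antisymm (fun x hx => ?_) (le_iInf fun n => sup_le_sup_right (iInf_le N n) _)
  rw [Ideal.mem_iInf] at hx
  obtain ⟨c, hc⟩ := h.kon (fun n => {c | x - c * y ∈ N n}) (fun m n hmn c hc => hN hmn hc)
    fun n => by
      obtain ⟨a, ha, b, hb, e⟩ := Submodule.mem_sup.1 (hx n)
      obtain ⟨c, rfl⟩ := Ideal.mem_span_singleton'.1 hb
      exact ⟨c, by rw [Set.mem_ofPred_eq, ← e, add_sub_cancel_right]; exact ha⟩
  refine Submodule.mem_sup.2 ⟨x - c * y, Ideal.mem_iInf.2 fun n => ?_, c * y,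
    Ideal.mem_span_singleton'.2 ⟨c, rfl⟩, sub_add_cancel _ _⟩
  obtain ⟨d, hd, hcd⟩ := hc n
  have e : x - c * y = (x - d * y) - (c - d) * y := by ring
  rw [e]
  exact sub_mem hd (Ideal.mul_mem_right _ _ (hJ n hcd))

/-- finitely generated ideals are closed -/
theorem closed_of_fg (h : ProF J) {I : Ideal T} (hI : I.FG) {x : T} (hx : ∀ n, x ∈ I ⊔ J n) :
    x ∈ I := by
  classical
  obtain ⟨s, rfl⟩ := hI
  have key : ∀ s : Finset T, ⨅ n, (Ideal.span (s : Set T) ⊔ J n) = Ideal.span (s : Set T) := by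
    intro s
    induction s using Finset.induction_on with
    | empty =>
      simp only [Finset.coe_empty, Ideal.span_empty, bot_sup_eq]
      exact eq_bot_iff.2 fun x hx => h.sep x (Ideal.mem_iInf.1 hx)
    | insert a s _ ih =>
      have h1 := h.iInf_sup (fun n => Ideal.span (s : Set T) ⊔ J n)
        (fun m n hmn => sup_le_sup_left (h.anti hmn) _) (fun n => le_sup_right) a
      rw [ih] at h1
      rw [Finset.coe_insert, Ideal.span_insert]
      refine Eq.trans ?_ (h1.trans (sup_comm _ _))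
      refine iInf_congr fun n => ?_
      rw [sup_comm (Ideal.span {a}), sup_right_comm]
  rw [← key s]
  exact Ideal.mem_iInf.2 hx

theorem quot (h : ProF J) (N : ℕ → Ideal T) (hN : Antitone N) (hJ : ∀ n, J n ≤ N n) :
    ProF (fun n => (N n).map (Ideal.Quotient.mk (⨅ n, N n))) := by
  have hmem : ∀ n (t : T), Ideal.Quotient.mk (⨅ n, N n) t ∈
      (N n).map (Ideal.Quotient.mk (⨅ n, N n)) ↔ t ∈ N n :=
    fun n t => Ideal.mem_quotient_iff_mem (iInf_le N n)
  refine ⟨fun a b hab => Ideal.map_mono (hN hab), fun n => ?_, fun x hx => ?_, fun f hf => ?_⟩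
  · haveI := h.fin n
    refine Finite.of_surjective (Ideal.Quotient.lift (J n)
      ((Ideal.Quotient.mk ((N n).map (Ideal.Quotient.mk (⨅ n, N n)))).comp
        (Ideal.Quotient.mk (⨅ n, N n))) fun a ha => ?_) fun y => ?_
    · exact Ideal.Quotient.eq_zero_iff_mem.2 ((hmem n a).2 (hJ n ha))
    · obtain ⟨y, rfl⟩ := Ideal.Quotient.mk_surjective y
      obtain ⟨y, rfl⟩ := Ideal.Quotient.mk_surjective y
      exact ⟨Ideal.Quotient.mk _ y, rfl⟩
  · obtain ⟨t, rfl⟩ := Ideal.Quotient.mk_surjective x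
    exact Ideal.Quotient.eq_zero_iff_mem.2 (Ideal.mem_iInf.2 fun n => (hmem n t).1 (hx n))
  · choose g hg using fun n => Ideal.Quotient.mk_surjective (f n)
    have hg' : ∀ n, g (n + 1) - g n ∈ N n := by
      intro n
      rw [← hmem, map_sub, hg, hg]
      exact hf n
    obtain ⟨x, hx⟩ := h.kon (fun n => {t | t - g n ∈ N n})
      (antitone_nat_of_succ_le fun n t ht => by
        have := (N n).add_mem (hN (Nat.le_succ n) ht) (hg' n)
        rwa [sub_add_sub_cancel] at this)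
      (fun n => ⟨g n, by simp⟩)
    refine ⟨Ideal.Quotient.mk _ x, fun n => ?_⟩
    obtain ⟨y, hy, hxy⟩ := hx n
    rw [← hg n, ← map_sub, hmem]
    have := (N n).add_mem (hJ n hxy) hy
    rwa [sub_add_sub_cancel] at this

theorem noeth (h : ProF J) {x : T} (hx : TNil J x)
    (hq : IsNoetherianRing (T ⧸ Ideal.span {x})) : IsNoetherianRing T := by
  classical
  refine IsNoetherianRing.of_prime fun P hP => ?_
  obtain ⟨s, hsP, hs⟩ : ∃ s : Finset T, Ideal.span (s : Set T) ≤ P ∧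
      P ≤ Ideal.span (s : Set T) ⊔ Ideal.span {x} := by
    obtain ⟨t, ht⟩ := IsNoetherian.noetherian (P.map (Ideal.Quotient.mk (Ideal.span {x})))
    have h1 : ∀ a ∈ t, ∃ p ∈ P, Ideal.Quotient.mk (Ideal.span {x}) p = a := fun a ha =>
      (Ideal.mem_map_iff_of_surjective _ Ideal.Quotient.mk_surjective).1
        (ht ▸ Submodule.subset_span (Finset.mem_coe.2 ha))
    choose! g hg1 hg2 using h1
    refine ⟨t.image g, Ideal.span_le.2 fun a ha => ?_, ?_⟩
    · obtain ⟨b, hb, rfl⟩ := Finset.mem_image.1 (Finset.mem_coe.1 ha)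
      exact hg1 b hb
    · have h2 : P.map (Ideal.Quotient.mk (Ideal.span {x})) ≤
          (Ideal.span (t.image g : Set T)).map (Ideal.Quotient.mk (Ideal.span {x})) := by
        rw [← ht]
        refine Submodule.span_le.2 fun a ha => ?_
        rw [← hg2 a ha]
        exact Ideal.mem_map_of_mem _
          (Ideal.subset_span (Finset.mem_coe.2 (Finset.mem_image_of_mem g ha)))
      have h3 := Ideal.map_le_iff_le_comap.1 h2
      rwa [Ideal.comap_map_of_surjective _ Ideal.Quotient.mk_surjective,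
        ← RingHom.ker_eq_comap_bot, Ideal.mk_ker] at h3
  by_cases hxP : x ∈ P
  · have e : P = Ideal.span (s : Set T) ⊔ Ideal.span {x} :=
      le_antisymm hs (sup_le hsP ((Ideal.span_singleton_le_iff_mem _).2 hxP))
    rw [e]
    exact Submodule.FG.sup ⟨s, rfl⟩ (Submodule.fg_span_singleton x)
  · have key : ∀ m : ℕ, P ≤ Ideal.span (s : Set T) ⊔ Ideal.span {x ^ m} := by
      intro m
      induction m with
      | zero => simp
      | succ m ih =>
        intro p hp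
        obtain ⟨a, ha, b, hb, rfl⟩ := Submodule.mem_sup.1 (ih hp)
        obtain ⟨c, rfl⟩ := Ideal.mem_span_singleton'.1 hb
        have hc : c ∈ P := (hP.mem_or_mem ((Ideal.add_mem_iff_right _ (hsP ha)).1 hp)).resolve_right
          fun h' => hxP (hP.mem_of_pow_mem m h')
        obtain ⟨a', ha', b', hb', rfl⟩ := Submodule.mem_sup.1 (hs hc)
        obtain ⟨c', rfl⟩ := Ideal.mem_span_singleton'.1 hb'
        exact Submodule.mem_sup.2 ⟨a + a' * x ^ m, add_mem ha (Ideal.mul_mem_right _ _ ha'),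
          c' * x ^ (m + 1), Ideal.mem_span_singleton'.2 ⟨c', rfl⟩, by ring⟩
    refine ⟨s, le_antisymm hsP fun p hp => h.closed_of_fg ⟨s, rfl⟩ fun n => ?_⟩
    obtain ⟨m, hm⟩ := hx n
    exact sup_le_sup_left ((Ideal.span_singleton_le_iff_mem _).2 hm) _ (key m hp)

theorem mem_jacobson (h : ProF J) {x : T} (hx : TNil J x) : x ∈ Ring.jacobson T := by
  rw [← Ideal.jacobson_bot, Ideal.mem_jacobson_bot]
  intro y
  rw [← Ideal.span_singleton_eq_top, Ideal.eq_top_iff_one]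
  refine h.closed_of_fg (Submodule.fg_span_singleton _) fun n => ?_
  obtain ⟨m, hm⟩ := hx n
  refine Submodule.mem_sup.2 ⟨1 - (-(x * y)) ^ m, Ideal.mem_span_singleton.2 ?_, (-(x * y)) ^ m, ?_,
    sub_add_cancel _ _⟩
  · have h1 := one_sub_dvd_one_sub_pow (-(x * y)) m
    rwa [sub_neg_eq_add, add_comm] at h1
  · rw [← mul_neg, mul_pow]
    exact Ideal.mul_mem_right _ _ hm

/-- killing a topologically nilpotent element lowers the dimension by at most one -/
theorem step (h : ProF J) (N : ℕ → Ideal T) (hN : Antitone N) (hJ : ∀ n, J n ≤ N n) {x : T}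
    (hx : TNil J x) (d : ℕ) (hn : IsNoetherianRing (T ⧸ ⨅ n, (N n ⊔ Ideal.span {x})))
    (hd : ringKrullDim (T ⧸ ⨅ n, (N n ⊔ Ideal.span {x})) ≤ d) :
    IsNoetherianRing (T ⧸ ⨅ n, N n) ∧ ringKrullDim (T ⧸ ⨅ n, N n) ≤ (d + 1 : ℕ) := by
  have hq := h.quot N hN hJ
  have hx' : TNil (fun n => (N n).map (Ideal.Quotient.mk (⨅ n, N n)))
      (Ideal.Quotient.mk (⨅ n, N n) x) := fun n => (hx n).imp fun m hm => by
    rw [← map_pow]
    exact Ideal.mem_map_of_mem _ (hJ n hm)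
  have e : ((T ⧸ ⨅ n, N n) ⧸ Ideal.span {Ideal.Quotient.mk (⨅ n, N n) x}) ≃+*
      (T ⧸ ⨅ n, (N n ⊔ Ideal.span {x})) :=
    ((Ideal.quotEquivOfEq (by rw [Ideal.map_span, Set.image_singleton])).trans
      (DoubleQuot.quotQuotEquivQuotSup (⨅ n, N n) (Ideal.span {x}))).trans
      (Ideal.quotEquivOfEq (h.iInf_sup N hN hJ x).symm)
  have hno := hq.noeth hx' (isNoetherianRing_of_ringEquiv _ e.symm)
  refine ⟨hno, ?_⟩
  have h1 := ringKrullDim_le_ringKrullDim_quotient_add_card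
    ({Ideal.Quotient.mk (⨅ n, N n) x} : Finset (T ⧸ ⨅ n, N n))
    (by rw [Finset.coe_singleton, Set.singleton_subset_iff]; exact hq.mem_jacobson hx')
  rw [Finset.coe_singleton, Finset.card_singleton, ringKrullDim_eq_of_ringEquiv e] at h1
  refine h1.trans ?_
  rw [Nat.cast_add]
  exact add_le_add hd le_rfl

end ProF

/-! ### the continuous dual -/

section Dual
variable {B : Type} [CommRing B]

/-- functionals killing `J n` for large `n` -/
def CDs (J : ℕ → Ideal B) : AddSubgroup (B →+ ZMod 2) where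
  carrier := {l | ∃ n, ∀ m, n ≤ m → ∀ x ∈ J m, l x = 0}
  add_mem' := by
    rintro a b ⟨n, ha⟩ ⟨n', hb⟩
    refine ⟨max n n', fun m hm x hx => ?_⟩
    simp [ha m (le_trans (le_max_left _ _) hm) x hx, hb m (le_trans (le_max_right _ _) hm) x hx]
  zero_mem' := ⟨0, fun _ _ _ _ => rfl⟩
  neg_mem' := by
    rintro a ⟨n, ha⟩
    exact ⟨n, fun m hm x hx => by simp [ha m hm x hx]⟩

/-- the continuous dual as a type -/
def CD (J : ℕ → Ideal B) : Type := CDs J

instance (J : ℕ → Ideal B) : AddCommGroup (CD J) := inferInstanceAs (AddCommGroup (CDs J))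

/-- the underlying functional -/
def CD.fn {J : ℕ → Ideal B} (l : CD J) : B →+ ZMod 2 := (show CDs J from l).1

def CD.mk {J : ℕ → Ideal B} (l : B →+ ZMod 2) (h : ∃ n, ∀ m, n ≤ m → ∀ x ∈ J m, l x = 0) : CD J :=
  (⟨l, h⟩ : CDs J)

@[simp] theorem CD.fn_mk {J : ℕ → Ideal B} (l : B →+ ZMod 2) (h) : (CD.mk (J := J) l h).fn = l := rfl
theorem CD.prop {J : ℕ → Ideal B} (l : CD J) : ∃ n, ∀ m, n ≤ m → ∀ x ∈ J m, l.fn x = 0 :=
  (show CDs J from l).2
@[ext] theorem CD.ext {J : ℕ → Ideal B} {l l' : CD J} (h : ∀ x, l.fn x = l'.fn x) : l = l' :=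
  Subtype.ext (AddMonoidHom.ext h)
@[simp] theorem CD.fn_zero {J : ℕ → Ideal B} (x : B) : (0 : CD J).fn x = 0 := rfl
@[simp] theorem CD.fn_add {J : ℕ → Ideal B} (l l' : CD J) (x : B) :
    (l + l').fn x = l.fn x + l'.fn x := rfl

instance (J : ℕ → Ideal B) : SMul B (CD J) :=
  ⟨fun b l => CD.mk (l.fn.comp (AddMonoidHom.mulLeft b)) (by
    obtain ⟨n, hn⟩ := l.prop
    exact ⟨n, fun m hm x hx => hn m hm _ (Ideal.mul_mem_left _ b hx)⟩)⟩

@[simp] theorem CD.fn_smul {J : ℕ → Ideal B} (b : B) (l : CD J) (x : B) :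
    (b • l).fn x = l.fn (b * x) := rfl

instance (J : ℕ → Ideal B) : Module B (CD J) where
  one_smul l := by ext x; simp
  mul_smul a b l := by ext x; simp [mul_left_comm, mul_assoc]
  smul_zero a := by ext x; simp
  smul_add a l l' := by ext x; simp
  add_smul a b l := by ext x; simp [add_mul]
  zero_smul l := by ext x; simp

theorem h78_two (h2 : (2 : B) = 0) (x : B) : 2 • x = 0 := by
  rw [two_nsmul, ← two_mul, h2, zero_mul]

theorem h78_zmod2 (c : ZMod 2) : c = 0 ∨ c = 1 := by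
  revert c; decide

theorem dual_alpha {J : ℕ → Ideal B} (h : ProF J) (h2 : (2 : B) = 0) (I : Ideal B) (hI : I.FG)
    (b : B) (hb : ∀ x : CD J, (∀ i ∈ I, i • x = 0) → b • x = 0) : b ∈ I := by
  by_contra hbI
  obtain ⟨n, hn⟩ : ∃ n, b ∉ I ⊔ J n := by
    by_contra hc
    push Not at hc
    exact hbI (h.closed_of_fg hI hc)
  let _ : Module (ZMod 2) B := AddCommGroup.zmodModule (h78_two h2)
  obtain ⟨f, hf, hf0⟩ := Submodule.exists_dual_map_eq_bot_of_notMem
    (p := AddSubgroup.toZModSubmodule 2 (I ⊔ J n).toAddSubgroup) (x := b) hn inferInstance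
  have hk : ∀ t ∈ I ⊔ J n, f t = 0 := fun t ht => by
    have : f t ∈ (AddSubgroup.toZModSubmodule 2 (I ⊔ J n).toAddSubgroup).map f :=
      Submodule.mem_map_of_mem ht
    rwa [hf0, Submodule.mem_bot] at this
  let l : CD J := CD.mk f.toAddMonoidHom
    ⟨n, fun m hm t ht => hk t (Ideal.mem_sup_right (h.anti hm ht))⟩
  have h1 := hb l fun i hi => CD.ext fun t =>
    hk _ (Ideal.mem_sup_left (Ideal.mul_mem_right t _ hi))
  have h3 := congrArg (fun y : CD J => y.fn 1) h1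
  simp only [CD.fn_smul, mul_one, CD.fn_zero] at h3
  exact hf h3

theorem dual_beta {J : ℕ → Ideal B} (h : ProF J) (h2 : (2 : B) = 0) (Y : Submodule B (CD J))
    (x : CD J) (hx : ∀ b : B, (∀ y ∈ Y, b • y = 0) → b • x = 0) : x ∈ Y := by
  by_contra hxY
  let _ : Module (ZMod 2) B := AddCommGroup.zmodModule (h78_two h2)
  have hne : ∀ m, ∃ b : B, (∀ y ∈ Y, (∀ t ∈ J m, y.fn t = 0) → y.fn b = 0) ∧ x.fn b ≠ 0 := by
    intro m
    by_contra hc
    push Not at hc
    have := h.fin m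
    have : Finite {y : CD J // y ∈ Y ∧ ∀ t ∈ J m, y.fn t = 0} := by
      refine Finite.of_injective (β := (B ⧸ J m) → ZMod 2)
        (fun y q => y.1.fn (Quotient.out q)) fun y y' e => Subtype.ext (CD.ext fun t => ?_)
      have ht : t - Quotient.out (Ideal.Quotient.mk (J m) t) ∈ J m := by
        rw [← Ideal.Quotient.eq, Ideal.Quotient.mk_out]
      have e1 := y.2.2 _ ht
      have e2 := y'.2.2 _ ht
      have e3 := congrFun e (Ideal.Quotient.mk (J m) t)
      rw [map_sub, sub_eq_zero] at e1 e2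
      rw [e1, e2]
      exact e3
    have hs := mem_span_of_iInf_ker_le_ker (𝕜 := ZMod 2)
      (L := fun y : {y : CD J // y ∈ Y ∧ ∀ t ∈ J m, y.fn t = 0} => y.1.fn.toZModLinearMap 2)
      (K := x.fn.toZModLinearMap 2) fun b hb => by
        rw [Submodule.mem_iInf] at hb
        exact hc b fun y hy hy' => hb ⟨y, hy, hy'⟩
    have key : ∀ K ∈ Submodule.span (ZMod 2) (Set.range
        fun y : {y : CD J // y ∈ Y ∧ ∀ t ∈ J m, y.fn t = 0} => y.1.fn.toZModLinearMap 2),
        ∃ y ∈ Y, ∀ t, K t = y.fn t := by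
      intro K hK
      induction hK using Submodule.span_induction with
      | mem K hK =>
        obtain ⟨y, rfl⟩ := hK
        exact ⟨y.1, y.2.1, fun _ => rfl⟩
      | zero => exact ⟨0, zero_mem _, fun _ => rfl⟩
      | add K K' _ _ a a' =>
        obtain ⟨y, hy, e⟩ := a
        obtain ⟨y', hy', e'⟩ := a'
        exact ⟨y + y', add_mem hy hy', fun t => by rw [LinearMap.add_apply, e, e', CD.fn_add]⟩
      | smul c K _ a =>
        rcases h78_zmod2 c with rfl | rfl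
        · exact ⟨0, zero_mem _, fun t => by rw [zero_smul]; rfl⟩
        · rwa [one_smul]
    obtain ⟨y, hy, e⟩ := key _ hs
    exact hxY (by rwa [show x = y from CD.ext e])
  obtain ⟨b, hb⟩ := h.kon
    (fun m => {b | (∀ y ∈ Y, (∀ t ∈ J m, y.fn t = 0) → y.fn b = 0) ∧ x.fn b ≠ 0})
    (fun m m' hm b hb => ⟨fun y hy hy' => hb.1 y hy fun t ht => hy' t (h.anti hm ht), hb.2⟩) hne
  have h1 : ∀ y ∈ Y, y.fn b = 0 := fun y hy => by
    obtain ⟨n, hn⟩ := y.prop
    obtain ⟨b', hb', hd⟩ := hb n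
    have e := hn n le_rfl _ hd
    rwa [map_sub, hb'.1 y hy (hn n le_rfl), sub_zero] at e
  have h3 := hx b fun y hy => CD.ext fun t => by
    have e := h1 _ (Y.smul_mem t hy)
    rw [CD.fn_smul, mul_comm] at e
    exact e
  obtain ⟨n, hn⟩ := x.prop
  obtain ⟨b', hb', hd⟩ := hb n
  have e := hn n le_rfl _ hd
  have h4 := congrArg (fun y : CD J => y.fn 1) h3
  simp only [CD.fn_smul, mul_one, CD.fn_zero] at h4
  rw [map_sub, h4, zero_sub, neg_eq_zero] at e
  exact hb'.2 e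

end Dual

/-- the statement of `dim_le_two` -/
def Dim2 : Prop :=
  ∀ (B : Type) [CommRing B] (K : Type) [AddCommGroup K] [Module B K],
    (∀ I : Ideal B, I.FG → ∀ b : B, (∀ x : K, (∀ i ∈ I, i • x = 0) → b • x = 0) → b ∈ I) →
    (∀ (Y : Submodule B K) (x : K), (∀ b : B, (∀ y ∈ Y, b • y = 0) → b • x = 0) → x ∈ Y) →
    ∀ (E : Type) [Ring E] (G : Type) [Group G] (φ : G →* Eˣ) (W : Type) [AddCommGroup W]
      [DistribMulAction G W], GData E G φ W → ∀ (ι : Type) [Finite ι] (ev : ι → (K →+ W)),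
      (∀ x, (∀ i, ev i x = 0) → x = 0) →
      (∀ (b : B) (i : ι) (S : Finset K), ∃ l : List (G × ι), ∀ x ∈ S,
        ev i (b • x) = (l.map fun p => p.1 • ev p.2 x).sum) →
      IsNoetherianRing B ∧ ringKrullDim B ≤ 2

/-- the finite stages seen through set-theoretic sections `σ k : A k → B` -/
structure Sect {B : Type} [CommRing B] (J : ℕ → Ideal B) (A : ℕ → Type) [∀ k, CommRing (A k)]
    (r : ∀ k, A (k + 1) →+* A k) (I : ∀ k, Ideal (A k)) (w : ∀ k, A k) (σ : ∀ k, A k → B) :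
    Prop where
  add : ∀ k x y, σ k (x + y) - (σ k x + σ k y) ∈ J k
  mul : ∀ k x y, σ k (x * y) - σ k x * σ k y ∈ J k
  surj : ∀ k b, ∃ x, b - σ k x ∈ J k
  res : ∀ k x, σ (k + 1) x - σ k (r k x) ∈ J k
  ideal : ∀ k, ∀ x ∈ I k, σ k x ∈ J k
  wk : ∀ k x, σ k (w k * x) ∈ J k

/-- restriction of a functional killing `J k` to the stage `k` -/
def h11res {B : Type} [CommRing B] {J : ℕ → Ideal B} {A : ℕ → Type} [∀ k, CommRing (A k)]
    {r : ∀ k, A (k + 1) →+* A k} {I : ∀ k, Ideal (A k)} {w : ∀ k, A k} {σ : ∀ k, A k → B}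
    (hσ : Sect J A r I w σ) (k : ℕ) (l : CD J) (hl : ∀ x ∈ J k, l.fn x = 0) : Kk (I k) (w k) :=
  ⟨AddMonoidHom.mk' (fun x => l.fn (σ k x)) (fun x y => by
      have := hl _ (hσ.add k x y)
      rw [map_sub, map_add, sub_eq_zero] at this
      exact this),
    fun x hx => hl _ (hσ.ideal k x hx), fun x => hl _ (hσ.wk k x)⟩

theorem h11res_apply {B : Type} [CommRing B] {J : ℕ → Ideal B} {A : ℕ → Type}
    [∀ k, CommRing (A k)] {r : ∀ k, A (k + 1) →+* A k} {I : ∀ k, Ideal (A k)} {w : ∀ k, A k}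
    {σ : ∀ k, A k → B} (hσ : Sect J A r I w σ) (k : ℕ) (l : CD J) (hl : ∀ x ∈ J k, l.fn x = 0)
    (x : A k) : (h11res hσ k l hl).1 x = l.fn (σ k x) := rfl

/-- transport of the evaluation maps to the continuous dual -/
theorem dim_of_sect (hdim : Dim2) {B : Type} [CommRing B] {J : ℕ → Ideal B} (h : ProF J)
    (h2 : (2 : B) = 0) (A : ℕ → Type) [∀ k, CommRing (A k)] (r : ∀ k, A (k + 1) →+* A k)
    (I : ∀ k, Ideal (A k)) (w : ∀ k, A k) (σ : ∀ k, A k → B) (hσ : Sect J A r I w σ)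
    {E : Type} [Ring E] {G : Type} [Group G] {φ : G →* Eˣ} {W : Type} [AddCommGroup W]
    [DistribMulAction G W] (hG : GData E G φ W) {ι : Type} [Finite ι]
    (ev : ι → ∀ k, (Kk (I k) (w k) →+ W))
    (hcompat : ∀ i k (l : Kk (I k) (w k)) (l' : Kk (I (k + 1)) (w (k + 1))),
      (∀ x, l'.1 x = l.1 (r k x)) → ev i (k + 1) l' = ev i k l)
    (hinj : ∀ k (l : Kk (I k) (w k)), (∀ i, ev i k l = 0) → l = 0)
    (hhecke : ∀ k (t : A k) (i : ι), ∃ L : List (G × ι), ∀ l l' : Kk (I k) (w k),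
      (∀ x, l'.1 x = l.1 (t * x)) → ev i k l' = (L.map fun p => p.1 • ev p.2 k l).sum) :
    IsNoetherianRing B ∧ ringKrullDim B ≤ 2 := by
  classical
  have cong : ∀ (l : CD J) k, (∀ x ∈ J k, l.fn x = 0) → ∀ a b, a - b ∈ J k → l.fn a = l.fn b := by
    intro l k hl a b hab
    have := hl _ hab
    rwa [map_sub, sub_eq_zero] at this
  have up : ∀ i (l : CD J) k m, k ≤ m → ∀ (hk : ∀ x ∈ J k, l.fn x = 0)
      (hm : ∀ x ∈ J m, l.fn x = 0), ev i m (h11res hσ m l hm) = ev i k (h11res hσ k l hk) := by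
    intro i l k m hkm hk
    induction m, hkm using Nat.le_induction with
    | base => intro hm; rfl
    | succ m hkm ih =>
      intro hm
      have hm' : ∀ x ∈ J m, l.fn x = 0 := fun x hx => hk x (h.anti hkm hx)
      rw [← ih hm']
      refine hcompat i m _ _ fun x => ?_
      rw [h11res_apply, h11res_apply]
      exact cong l m hm' _ _ (hσ.res m x)
  have ex : ∀ l : CD J, ∃ k, ∀ x ∈ J k, l.fn x = 0 := fun l =>
    let ⟨n, hn⟩ := l.prop; ⟨n, hn n le_rfl⟩
  choose k0 hk0 using ex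
  have key : ∀ i (l : CD J) k (hk : ∀ x ∈ J k, l.fn x = 0),
      ev i (k0 l) (h11res hσ (k0 l) l (hk0 l)) = ev i k (h11res hσ k l hk) := by
    intro i l k hk
    rcases le_total k (k0 l) with hle | hle
    · exact up i l _ _ hle _ _
    · exact (up i l _ _ hle _ _).symm
  have com : ∀ S : Finset (CD J), ∃ k, ∀ l ∈ S, ∀ x ∈ J k, l.fn x = 0 := fun S =>
    ⟨S.sup k0, fun l hl x hx => hk0 l x (h.anti (Finset.le_sup (f := k0) hl) hx)⟩
  let ev' : ι → (CD J →+ W) := fun i => AddMonoidHom.mk'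
    (fun l => ev i (k0 l) (h11res hσ (k0 l) l (hk0 l))) (fun a b => by
      obtain ⟨k, hk⟩ := com {a, b}
      have ha := hk a (by simp)
      have hb := hk b (by simp)
      have hab : ∀ x ∈ J k, (a + b).fn x = 0 := fun x hx => by
        rw [CD.fn_add, ha x hx, hb x hx, add_zero]
      show ev i _ _ = ev i _ _ + ev i _ _
      rw [key i a k ha, key i b k hb, key i (a + b) k hab, ← map_add]
      congr 1)
  have ev'_eq : ∀ i (l : CD J) k (hk : ∀ x ∈ J k, l.fn x = 0),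
      ev' i l = ev i k (h11res hσ k l hk) := fun i l k hk => key i l k hk
  refine hdim B (CD J) (fun I hI b hb => dual_alpha h h2 I hI b hb)
    (fun Y x hx => dual_beta h h2 Y x hx) E G φ W hG ι ev' ?_ ?_
  · intro l hl
    have h0 := hinj (k0 l) (h11res hσ (k0 l) l (hk0 l)) fun i => hl i
    ext b
    obtain ⟨x, hx⟩ := hσ.surj (k0 l) b
    rw [cong l _ (hk0 l) _ _ hx, ← h11res_apply hσ _ l (hk0 l), h0]
    rfl
  · intro b i S
    obtain ⟨k, hk⟩ := com S
    obtain ⟨t, ht⟩ := hσ.surj k b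
    obtain ⟨L, hL⟩ := hhecke k t i
    refine ⟨L, fun l hl => ?_⟩
    have hb : ∀ x ∈ J k, (b • l).fn x = 0 := fun x hx => hk l hl _ (Ideal.mul_mem_left _ b hx)
    rw [ev'_eq i _ k hb, hL (h11res hσ k l (hk l hl)) _ fun x => ?_]
    · congr 1
      refine List.map_congr_left fun p _ => ?_
      rw [ev'_eq p.2 l k (hk l hl)]
    · rw [h11res_apply, h11res_apply, CD.fn_smul]
      refine cong l k (hk l hl) _ _ ?_
      have : b * σ k x - σ k (t * x) = (b - σ k t) * σ k x - (σ k (t * x) - σ k t * σ k x) := by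
        ring
      rw [this]
      exact sub_mem (Ideal.mul_mem_right _ _ ht) (hσ.mul k t x)

end Crest.Agent.R007
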