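import Crest.Agent.R007.CL1

/-! # Row 7, block C (limit part), file 2: the tower `ℤ₂ ⊗ A k` (owner helper40). -/

set_option autoImplicit false

noncomputable section
namespace Crest.Agent.R007

open scoped TensorProduct

/-! ### finite `ℤ₂`-modules -/

section Z2
variable {M : Type} [AddCommGroup M] [Module ℤ_[2] M] [Module.Finite ℤ_[2] M]

theorem h4_norm_two : ‖(2 : ℤ_[2])‖ = 2⁻¹ := by
  have := PadicInt.norm_p (p := 2)
  simpa using this

theorem z2_sep (x : M) (hx : ∀ n : ℕ, ∃ y : M, x = (2 : ℤ_[2]) ^ n • y) : x = 0 := by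
  have hI : Ideal.span {(2 : ℤ_[2])} ≠ ⊤ := by
    rw [Ne, Ideal.span_singleton_eq_top, PadicInt.isUnit_iff, h4_norm_two]
    norm_num
  have h := Ideal.iInf_pow_smul_eq_bot_of_isLocalRing (M := M) (Ideal.span {(2 : ℤ_[2])}) hI
  rw [← Submodule.mem_bot ℤ_[2], ← h, Submodule.mem_iInf]
  intro n
  obtain ⟨y, rfl⟩ := hx n
  exact Submodule.smul_mem_smul (Ideal.pow_mem_pow (Ideal.mem_span_singleton_self _) n)
    Submodule.mem_top

theorem h4_sum (e : ℕ → ℤ_[2]) : Summable fun j => (2 : ℤ_[2]) ^ j * e j := by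
  refine Summable.of_norm_bounded (summable_geometric_of_lt_one (r := 2⁻¹) (by norm_num)
    (by norm_num)) fun j => ?_
  rw [norm_mul, norm_pow, h4_norm_two]
  exact mul_le_of_le_one_right (by positivity) (PadicInt.norm_le_one _)

theorem h4_cpl (e : ℕ → ℤ_[2]) : ∃ c : ℤ_[2], ∀ n : ℕ, ∃ y : ℤ_[2],
    c - ∑ j ∈ Finset.range n, (2 : ℤ_[2]) ^ j * e j = (2 : ℤ_[2]) ^ n * y := by
  refine ⟨∑' j, (2 : ℤ_[2]) ^ j * e j, fun n => ⟨∑' j, (2 : ℤ_[2]) ^ j * e (j + n), ?_⟩⟩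
  rw [← (h4_sum e).sum_add_tsum_nat_add n, add_sub_cancel_left,
    ← (h4_sum fun j => e (j + n)).tsum_mul_left]
  exact tsum_congr fun j => by ring

theorem z2_cpl (d : ℕ → M) :
    ∃ x : M, ∀ n : ℕ, ∃ y : M,
      x - ∑ j ∈ Finset.range n, (2 : ℤ_[2]) ^ j • d j = (2 : ℤ_[2]) ^ n • y := by
  obtain ⟨r, π, hπ⟩ := Module.Finite.exists_fin' ℤ_[2] M
  choose e he using fun j => hπ (d j)
  choose c hc using fun i : Fin r => h4_cpl fun j => e j i
  refine ⟨π c, fun n => ?_⟩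
  choose y hy using fun i => hc i n
  refine ⟨π y, ?_⟩
  have h : c - ∑ j ∈ Finset.range n, (2 : ℤ_[2]) ^ j • e j = (2 : ℤ_[2]) ^ n • y := by
    funext i
    simpa only [Pi.sub_apply, Finset.sum_apply, Pi.smul_apply, smul_eq_mul] using hy i
  have h2 := congrArg π h
  simpa only [map_sub, map_sum, map_smul, he] using h2

theorem z2_fin (n : ℕ) : ∃ s : Finset M, ∀ x : M, ∃ c ∈ s, ∃ y : M, x = c + (2 : ℤ_[2]) ^ n • y := by
  classical
  obtain ⟨r, π, hπ⟩ := Module.Finite.exists_fin' ℤ_[2] M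
  refine ⟨Finset.univ.image fun a : Fin r → Fin (2 ^ n) => π fun i => ((a i : ℕ) : ℤ_[2]),
    fun x => ?_⟩
  obtain ⟨e, rfl⟩ := hπ x
  have h1 : ∀ i, ∃ y : ℤ_[2], y * (2 : ℤ_[2]) ^ n = e i - ((e i).appr n : ℕ) := fun i => by
    have := PadicInt.appr_spec n (e i)
    rw [Ideal.mem_span_singleton'] at this
    simpa using this
  choose y hy using h1
  refine ⟨_, Finset.mem_image_of_mem _ (Finset.mem_univ fun i => ⟨(e i).appr n, PadicInt.appr_lt _ n⟩),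
    π y, ?_⟩
  rw [← map_smul, ← map_add]
  congr 1
  funext i
  simp only [Pi.add_apply, Pi.smul_apply, smul_eq_mul]
  linear_combination -hy i

end Z2

section Stage
variable {A : Type} [CommRing A]

theorem h28_odd_inv {m : ℤ} (hm : Odd m) : ∃ c : ℤ_[2], c * m = 1 := by
  have : IsUnit (m : ℤ_[2]) := by
    rw [PadicInt.isUnit_iff]
    refine le_antisymm (PadicInt.norm_le_one _) (not_lt.1 fun h => ?_)
    rw [PadicInt.norm_int_lt_one_iff_dvd] at h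
    exact Int.not_even_iff_odd.2 hm (even_iff_two_dvd.2 h)
  exact this.exists_left_inv

theorem h28_tmul {m : ℤ} {c : ℤ_[2]} (hc : c * m = 1) (t : A) :
    (1 : ℤ_[2]) ⊗ₜ[ℤ] t = c ⊗ₜ[ℤ] (m • t) := by
  rw [TensorProduct.tmul_smul, TensorProduct.smul_tmul', zsmul_eq_mul, mul_comm, hc]

theorem tt_finite (h : FG2 A) : Module.Finite ℤ_[2] (ℤ_[2] ⊗[ℤ] A) := by
  classical
  obtain ⟨s, hs⟩ := h
  refine ⟨s.image fun x => (1 : ℤ_[2]) ⊗ₜ[ℤ] x, eq_top_iff.2 fun z _ => ?_⟩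
  have h1 : ∀ (c : ℤ_[2]) (t : A), c ⊗ₜ[ℤ] t = c • (1 : ℤ_[2]) ⊗ₜ[ℤ] t := fun c t => by
    rw [TensorProduct.smul_tmul', smul_eq_mul, mul_one]
  induction z using TensorProduct.induction_on with
  | zero => exact zero_mem _
  | add x y hx hy => exact add_mem (hx trivial) (hy trivial)
  | tmul c t =>
    obtain ⟨m, hm, ht⟩ := hs t
    obtain ⟨d, hd⟩ := h28_odd_inv hm
    rw [h1, h28_tmul hd, h1 d]
    refine Submodule.smul_mem _ _ (Submodule.smul_mem _ _ ?_)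
    generalize m • t = x at ht
    induction ht using Submodule.span_induction with
    | mem x hx => exact Submodule.subset_span (Finset.mem_image_of_mem _ hx)
    | zero => rw [TensorProduct.tmul_zero]; exact zero_mem _
    | add x y _ _ hx hy => rw [TensorProduct.tmul_add]; exact add_mem hx hy
    | smul a x _ hx => rw [TensorProduct.tmul_smul]; exact zsmul_mem hx a

theorem tt_mod_two (z : ℤ_[2] ⊗[ℤ] A) : ∃ (x : A) (u : ℤ_[2] ⊗[ℤ] A), z = 1 ⊗ₜ[ℤ] x + 2 * u := by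
  induction z using TensorProduct.induction_on with
  | zero => exact ⟨0, 0, by simp⟩
  | add x y hx hy =>
    obtain ⟨a, u, rfl⟩ := hx
    obtain ⟨b, v, rfl⟩ := hy
    exact ⟨a + b, u + v, by rw [TensorProduct.tmul_add]; ring⟩
  | tmul c t =>
    obtain ⟨d, hd⟩ := Ideal.mem_span_singleton'.1 (PadicInt.appr_spec 1 c)
    refine ⟨c.appr 1 • t, d ⊗ₜ t, ?_⟩
    rw [TensorProduct.tmul_smul, TensorProduct.smul_tmul', two_mul, ← TensorProduct.add_tmul,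
      ← TensorProduct.add_tmul]
    congr 1
    rw [nsmul_one]
    push_cast at hd
    linear_combination -hd

theorem tt_nil {w : A} (h : ∃ (n : ℕ) (m : ℤ) (y : A), Odd m ∧ m • w ^ n = 2 * y) :
    ∃ (n : ℕ) (u : ℤ_[2] ⊗[ℤ] A), ((1 : ℤ_[2]) ⊗ₜ[ℤ] w) ^ n = 2 * u := by
  obtain ⟨n, m, y, hm, hy⟩ := h
  obtain ⟨d, hd⟩ := h28_odd_inv hm
  refine ⟨n, d ⊗ₜ y, ?_⟩
  rw [Algebra.TensorProduct.tmul_pow, one_pow, h28_tmul hd, hy, two_mul, two_mul,
    TensorProduct.tmul_add]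

/-- the ideal of `ℤ₂ ⊗ A` generated by `I` -/
def ttI (I : Ideal A) : Ideal (ℤ_[2] ⊗[ℤ] A) :=
  I.map (Algebra.TensorProduct.includeRight (R := ℤ) (A := ℤ_[2]) (B := A)).toRingHom

theorem ttI_mul {I I' : Ideal A} (h : ∀ x ∈ I, x ∈ I' → x = 0) {u v : ℤ_[2] ⊗[ℤ] A}
    (hu : u ∈ ttI I) (hv : v ∈ ttI I') : u * v = 0 := by
  have h1 : I * I' = ⊥ := eq_bot_iff.2 fun x hx =>
    h x (Ideal.mul_le_inf hx).1 (Ideal.mul_le_inf hx).2
  have h2 := Ideal.mul_mem_mul hu hv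
  rwa [ttI, ttI, ← Ideal.map_mul, h1, Ideal.map_bot] at h2

theorem tmul_mem_ttI {I : Ideal A} {x : A} (hx : x ∈ I) : (1 : ℤ_[2]) ⊗ₜ[ℤ] x ∈ ttI I :=
  Ideal.mem_map_of_mem _ hx

end Stage

section Tower
variable (A : ℕ → Type) [∀ k, CommRing (A k)] (r : ∀ k, A (k + 1) →+* A k)

theorem limMap_tmul (k : ℕ) (c : ℤ_[2]) (x : A (k + 1)) :
    limMap A r k (c ⊗ₜ[ℤ] x) = c ⊗ₜ[ℤ] r k x := rfl

/-- the projection to the `k`-th stage -/
def prj (k : ℕ) : LimT A r →+* ℤ_[2] ⊗[ℤ] A k :=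
  (Pi.evalRingHom (fun k => ℤ_[2] ⊗[ℤ] A k) k).comp (LimT A r).subtype

theorem prj_apply (k : ℕ) (t : LimT A r) : prj A r k t = t.1 k := rfl

theorem limMap_prj (k : ℕ) (t : LimT A r) : limMap A r k (prj A r (k + 1) t) = prj A r k t := t.2 k

/-- every element of a stage of a surjective inverse system over `ℕ` lies on a thread -/
theorem h19_thread {S : ℕ → Type} (f : ∀ n, S (n + 1) → S n) (hf : ∀ n, Function.Surjective (f n))
    (k : ℕ) (z : S k) : ∃ t : ∀ n, S n, (∀ n, f n (t (n + 1)) = t n) ∧ t k = z := by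
  induction k generalizing S with
  | zero =>
    choose s hs using hf
    exact ⟨fun n => Nat.rec (motive := S) z (fun n x => s n x) n, fun n => hs n _, rfl⟩
  | succ k ih =>
    obtain ⟨t, ht, htk⟩ := ih (S := fun n => S (n + 1)) (fun n => f (n + 1)) (fun n => hf (n + 1)) z
    refine ⟨fun n => Nat.rec (motive := S) (f 0 (t 0)) (fun n _ => t n) n, fun n => ?_, htk⟩
    cases n with
    | zero => rfl
    | succ n => exact ht n

theorem h19_two_smul {B : Type} [CommRing B] (n : ℕ) (y : ℤ_[2] ⊗[ℤ] B) :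
    (2 : ℤ_[2]) ^ n • y = (2 : ℤ_[2] ⊗[ℤ] B) ^ n * y := by
  have h := Algebra.smul_def (R := ℤ_[2]) (A := ℤ_[2] ⊗[ℤ] B) ((2 : ℤ_[2]) ^ n) y
  rw [map_pow, map_ofNat] at h
  exact h

theorem prj_surj (hsurj : ∀ k, Function.Surjective (r k)) (k : ℕ) :
    Function.Surjective (prj A r k) := by
  have hs : ∀ n, Function.Surjective (limMap A r n) := by
    intro n z
    induction z using TensorProduct.induction_on with
    | zero => exact ⟨0, map_zero _⟩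
    | tmul c x =>
      obtain ⟨y, rfl⟩ := hsurj n x
      exact ⟨c ⊗ₜ[ℤ] y, limMap_tmul A r n c y⟩
    | add a b ha hb =>
      obtain ⟨a', rfl⟩ := ha
      obtain ⟨b', rfl⟩ := hb
      exact ⟨a' + b', map_add _ _ _⟩
  intro z
  obtain ⟨t, ht, htk⟩ := h19_thread (S := fun n => ℤ_[2] ⊗[ℤ] A n) (fun n => limMap A r n) hs k z
  exact ⟨⟨t, ht⟩, htk⟩

/-- the defining filtration -/
def Jt (k : ℕ) : Ideal (LimT A r) :=
  (Ideal.span {(2 : ℤ_[2] ⊗[ℤ] A k) ^ (k + 1)}).comap (prj A r k)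

theorem mem_Jt (k : ℕ) (t : LimT A r) :
    t ∈ Jt A r k ↔ ∃ u, prj A r k t = (2 : ℤ_[2] ⊗[ℤ] A k) ^ (k + 1) * u := by
  rw [Jt, Ideal.mem_comap, Ideal.mem_span_singleton]; rfl

theorem Jt_anti : Antitone (Jt A r) := by
  refine antitone_nat_of_succ_le fun k t ht => ?_
  obtain ⟨u, hu⟩ := (mem_Jt A r (k + 1) t).1 ht
  refine (mem_Jt A r k t).2 ⟨2 * limMap A r k u, ?_⟩
  rw [← limMap_prj, hu, map_mul, map_pow, map_ofNat]
  ring

theorem Jt_fin (hfg : ∀ k, FG2 (A k)) (k : ℕ) : Finite (LimT A r ⧸ Jt A r k) := by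
  haveI := tt_finite (hfg k)
  haveI : Finite ((ℤ_[2] ⊗[ℤ] A k) ⧸ Ideal.span {(2 : ℤ_[2] ⊗[ℤ] A k) ^ (k + 1)}) := by
    obtain ⟨s, hs⟩ := z2_fin (M := ℤ_[2] ⊗[ℤ] A k) (k + 1)
    refine Finite.of_surjective (fun c : s => Ideal.Quotient.mk _ c.1) fun q => ?_
    obtain ⟨x, rfl⟩ := Ideal.Quotient.mk_surjective q
    obtain ⟨c, hc, y, rfl⟩ := hs x
    refine ⟨⟨c, hc⟩, Ideal.Quotient.eq.2 ?_⟩
    rw [h19_two_smul, sub_add_cancel_left, neg_mem_iff]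
    exact Ideal.mul_mem_right _ _ (Ideal.mem_span_singleton_self _)
  exact Finite.of_injective _ (Ideal.quotientMap_injective
    (I := Ideal.span {(2 : ℤ_[2] ⊗[ℤ] A k) ^ (k + 1)}) (f := prj A r k))

theorem Jt_sep (hfg : ∀ k, FG2 (A k)) (x : LimT A r) (hx : ∀ n, x ∈ Jt A r n) : x = 0 := by
  have key : ∀ j k : ℕ, ∃ u, prj A r k x = (2 : ℤ_[2] ⊗[ℤ] A k) ^ (k + j) * u := by
    intro j
    induction j with
    | zero =>
      intro k
      obtain ⟨u, hu⟩ := (mem_Jt A r k x).1 (hx k)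
      exact ⟨2 * u, by rw [hu]; ring⟩
    | succ j ih =>
      intro k
      obtain ⟨u, hu⟩ := ih (k + 1)
      refine ⟨limMap A r k u, ?_⟩
      rw [← limMap_prj, hu, map_mul, map_pow, map_ofNat]
      ring
  refine Subtype.ext (funext fun k => ?_)
  haveI := tt_finite (hfg k)
  refine z2_sep (M := ℤ_[2] ⊗[ℤ] A k) (prj A r k x) fun n => ?_
  obtain ⟨u, hu⟩ := key n k
  refine ⟨2 ^ k * u, ?_⟩
  rw [h19_two_smul, hu]
  ring

theorem h31_push (m : ℕ) (t : LimT A r) {k n : ℕ} (hk : k ≤ n)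
    (h : ∃ u, prj A r n t = (2 : ℤ_[2] ⊗[ℤ] A n) ^ m * u) :
    ∃ u, prj A r k t = (2 : ℤ_[2] ⊗[ℤ] A k) ^ m * u := by
  induction n, hk using Nat.le_induction with
  | base => exact h
  | succ n _ ih =>
    obtain ⟨u, hu⟩ := h
    refine ih ⟨limMap A r n u, ?_⟩
    rw [← limMap_prj, hu, map_mul, map_pow, map_ofNat]

theorem h31_smul {B : Type} [CommRing B] (n : ℕ) (y : ℤ_[2] ⊗[ℤ] B) :
    (2 : ℤ_[2]) ^ n • y = (2 : ℤ_[2] ⊗[ℤ] B) ^ n * y := by
  have h : (2 : ℤ_[2]) ^ n = ((2 ^ n : ℕ) : ℤ_[2]) := by push_cast; rfl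
  rw [h, Nat.cast_smul_eq_nsmul, nsmul_eq_mul]
  push_cast; rfl

theorem h31_cauchy {B : Type} [CommRing B] (hB : FG2 B) (k : ℕ) (g : ℕ → ℤ_[2] ⊗[ℤ] B)
    (hg : ∀ n, k ≤ n → ∃ u, g (n + 1) - g n = 2 ^ (n + 1) * u) :
    ∃ x, ∀ n, k ≤ n → ∃ u, x - g n = 2 ^ (n + 1) * u := by
  haveI := tt_finite hB
  choose d hd using fun j => hg (k + j) (Nat.le_add_right k j)
  obtain ⟨x, hx⟩ := z2_cpl d
  have hs : ∀ n, g (k + n) =
      g k + 2 ^ (k + 1) * ∑ j ∈ Finset.range n, (2 : ℤ_[2]) ^ j • d j := by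
    intro n
    induction n with
    | zero => simp
    | succ n ih =>
      rw [Finset.sum_range_succ, h31_smul, ← add_assoc]
      linear_combination ih + hd n
  refine ⟨g k + 2 ^ (k + 1) * x, fun n hn => ?_⟩
  obtain ⟨j, rfl⟩ := Nat.exists_eq_add_of_le hn
  obtain ⟨y, hy⟩ := hx j
  refine ⟨y, ?_⟩
  rw [h31_smul] at hy
  rw [hs j]
  linear_combination (2 : ℤ_[2] ⊗[ℤ] B) ^ (k + 1) * hy

theorem Jt_cpl (hfg : ∀ k, FG2 (A k)) (f : ℕ → LimT A r) (hf : ∀ n, f (n + 1) - f n ∈ Jt A r n) :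
    ∃ x, ∀ n, x - f n ∈ Jt A r n := by
  have h1 : ∀ k, ∃ x, ∀ n, k ≤ n → ∃ u, x - prj A r k (f n) = 2 ^ (n + 1) * u := by
    intro k
    refine h31_cauchy (hfg k) k (fun n => prj A r k (f n)) fun n hn => ?_
    obtain ⟨u, hu⟩ := h31_push A r (n + 1) _ hn ((mem_Jt A r n _).1 (hf n))
    exact ⟨u, by rw [← hu, map_sub]⟩
  choose x hx using h1
  have hc : ∀ k, limMap A r k (x (k + 1)) = x k := by
    intro k
    haveI := tt_finite (hfg k)
    rw [← sub_eq_zero]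
    refine z2_sep _ fun n => ?_
    obtain ⟨u, hu⟩ := hx (k + 1) (k + 1 + n) (by omega)
    obtain ⟨u', hu'⟩ := hx k (k + 1 + n) (by omega)
    have h2 := congrArg (limMap A r k) hu
    rw [map_sub, limMap_prj, map_mul, map_pow, map_ofNat] at h2
    refine ⟨2 ^ (k + 2) * (limMap A r k u - u'), ?_⟩
    rw [h31_smul]
    linear_combination h2 - hu'
  refine ⟨⟨x, hc⟩, fun n => (mem_Jt A r n _).2 ?_⟩
  obtain ⟨u, hu⟩ := hx n n le_rfl
  exact ⟨u, by rw [map_sub, ← hu]; rfl⟩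

theorem proF_lim (hfg : ∀ k, FG2 (A k)) : ProF (Jt A r) :=
  ⟨Jt_anti A r, Jt_fin A r hfg, Jt_sep A r hfg, Jt_cpl A r hfg⟩

/-- a compatible family as an element of the limit -/
def wT (w : ∀ k, A k) (hw : ∀ k, r k (w (k + 1)) = w k) : LimT A r :=
  ⟨fun k => (1 : ℤ_[2]) ⊗ₜ[ℤ] w k, fun k => by rw [limMap_tmul, hw]⟩

theorem prj_wT (w : ∀ k, A k) (hw : ∀ k, r k (w (k + 1)) = w k) (k : ℕ) :
    prj A r k (wT A r w hw) = (1 : ℤ_[2]) ⊗ₜ[ℤ] w k := rfl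

theorem tnil_two : TNil (Jt A r) 2 := by
  refine fun k => ⟨k + 1, (mem_Jt A r k _).2 ⟨1, ?_⟩⟩
  rw [map_pow, map_ofNat, mul_one]

theorem tnil_w (w : ∀ k, A k) (hw : ∀ k, r k (w (k + 1)) = w k)
    (hnil : ∀ k, ∃ (n : ℕ) (m : ℤ) (y : A k), Odd m ∧ m • w k ^ n = 2 * y) :
    TNil (Jt A r) (wT A r w hw) := by
  intro k
  obtain ⟨n, u, hu⟩ := tt_nil (hnil k)
  refine ⟨n * (k + 1), (mem_Jt A r k _).2 ⟨u ^ (k + 1), ?_⟩⟩
  rw [map_pow, prj_wT, pow_mul, hu, mul_pow]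

/-- neighbourhoods of the limit of the ideals `I k` -/
def N0 (I : ∀ k, Ideal (A k)) (k : ℕ) : Ideal (LimT A r) :=
  (ttI (I k) ⊔ Ideal.span {(2 : ℤ_[2] ⊗[ℤ] A k) ^ (k + 1)}).comap (prj A r k)

theorem Jt_le_N0 (I : ∀ k, Ideal (A k)) (k : ℕ) : Jt A r k ≤ N0 A r I k :=
  Ideal.comap_mono le_sup_right

theorem N0_anti (I : ∀ k, Ideal (A k)) (hI : ∀ k, ∀ x ∈ I (k + 1), r k x ∈ I k) :
    Antitone (N0 A r I) := by
  refine antitone_nat_of_succ_le fun k t ht => ?_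
  rw [N0, Ideal.mem_comap] at ht ⊢
  rw [← limMap_prj, ← Ideal.mem_comap]
  refine (sup_le ?_ ?_ : _ ≤ Ideal.comap (limMap A r k) _) ht
  · rw [ttI, Ideal.map_le_iff_le_comap]
    intro x hx
    rw [Ideal.mem_comap, Ideal.mem_comap]
    exact Ideal.mem_sup_left (tmul_mem_ttI (hI k x hx))
  · rw [Ideal.span_singleton_le_iff_mem, Ideal.mem_comap, map_pow, map_ofNat, pow_succ]
    exact Ideal.mem_sup_right (Ideal.mul_mem_right _ _ (Ideal.mem_span_singleton_self _))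

theorem N0_mul (hfg : ∀ k, FG2 (A k)) (I I' : ∀ k, Ideal (A k))
    (hI0 : ∀ k, ∀ x ∈ I k, x ∈ I' k → x = 0) {s t : LimT A r} (hs : s ∈ ⨅ k, N0 A r I k)
    (ht : t ∈ ⨅ k, N0 A r I' k) : s * t = 0 := by
  refine Jt_sep A r hfg _ fun k => ?_
  have h1 := Ideal.mem_iInf.1 hs k
  have h2 := Ideal.mem_iInf.1 ht k
  rw [N0, Ideal.mem_comap] at h1 h2
  obtain ⟨a, ha, b, hb, e1⟩ := Submodule.mem_sup.1 h1
  obtain ⟨a', ha', b', hb', e2⟩ := Submodule.mem_sup.1 h2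
  rw [Jt, Ideal.mem_comap, map_mul, ← e1, ← e2]
  have h0 := ttI_mul (hI0 k) ha ha'
  have e : (a + b) * (a' + b') = a * b' + b * (a' + b') := by rw [add_mul, mul_add a, h0, zero_add]
  rw [e]
  exact Ideal.add_mem _ (Ideal.mul_mem_left _ _ hb') (Ideal.mul_mem_right _ _ hb)

/-- the filtration defining `B = T / (I, 2, w)` -/
def Lt (I : ∀ k, Ideal (A k)) (w : ∀ k, A k) (hw : ∀ k, r k (w (k + 1)) = w k) (k : ℕ) :
    Ideal (LimT A r) :=
  N0 A r I k ⊔ Ideal.span {2} ⊔ Ideal.span {wT A r w hw}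

theorem mem_Lt (hsurj : ∀ k, Function.Surjective (r k)) (I : ∀ k, Ideal (A k)) (w : ∀ k, A k)
    (hw : ∀ k, r k (w (k + 1)) = w k) (k : ℕ) {t : LimT A r} {i u v : ℤ_[2] ⊗[ℤ] A k}
    (hi : i ∈ ttI (I k)) (ht : prj A r k t = i + 2 * u + ((1 : ℤ_[2]) ⊗ₜ[ℤ] w k) * v) :
    t ∈ Lt A r I w hw k := by
  obtain ⟨u', hu⟩ := prj_surj A r hsurj k u
  obtain ⟨v', hv⟩ := prj_surj A r hsurj k v
  have h1 : t - 2 * u' - wT A r w hw * v' ∈ N0 A r I k := by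
    rw [N0, Ideal.mem_comap]
    refine Ideal.mem_sup_left ?_
    rw [map_sub, map_sub, map_mul, map_mul, ht, hu, hv, prj_wT, map_ofNat]
    convert hi using 1
    ring
  have h2 : t = (t - 2 * u' - wT A r w hw * v') + 2 * u' + wT A r w hw * v' := by ring
  rw [h2]
  exact add_mem (add_mem (Ideal.mem_sup_left (Ideal.mem_sup_left h1))
    (Ideal.mem_sup_left (Ideal.mem_sup_right
      (Ideal.mul_mem_right _ _ (Ideal.mem_span_singleton_self _)))))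
    (Ideal.mem_sup_right (Ideal.mul_mem_right _ _ (Ideal.mem_span_singleton_self _)))

theorem exists_sect (hsurj : ∀ k, Function.Surjective (r k)) (I : ∀ k, Ideal (A k)) (w : ∀ k, A k)
    (hw : ∀ k, r k (w (k + 1)) = w k) :
    ∃ σ : ∀ k, A k → LimT A r ⧸ ⨅ k, Lt A r I w hw k,
      Sect (fun n => (Lt A r I w hw n).map (Ideal.Quotient.mk (⨅ k, Lt A r I w hw k))) A r I w σ := by
  choose s hs using fun k (x : A k) => prj_surj A r hsurj k ((1 : ℤ_[2]) ⊗ₜ[ℤ] x)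
  have h0 : ∀ k (t : LimT A r), prj A r k t = 0 → t ∈ Lt A r I w hw k := fun k t ht =>
    mem_Lt A r hsurj I w hw k (u := 0) (v := 0) (zero_mem _) (by rw [ht]; ring)
  refine ⟨fun k x => Ideal.Quotient.mk _ (s k x), fun k x y => ?_, fun k x y => ?_, fun k b => ?_,
    fun k x => ?_, fun k x hx => ?_, fun k x => ?_⟩
  · rw [← map_add, ← map_sub]
    refine Ideal.mem_map_of_mem _ (h0 k _ ?_)
    rw [map_sub, map_add, hs, hs, hs, TensorProduct.tmul_add, sub_self]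
  · rw [← map_mul, ← map_sub]
    refine Ideal.mem_map_of_mem _ (h0 k _ ?_)
    rw [map_sub, map_mul, hs, hs, hs, Algebra.TensorProduct.tmul_mul_tmul, mul_one, sub_self]
  · obtain ⟨t, rfl⟩ := Ideal.Quotient.mk_surjective b
    obtain ⟨x, u, h⟩ := tt_mod_two (prj A r k t)
    refine ⟨x, ?_⟩
    rw [← map_sub]
    refine Ideal.mem_map_of_mem _ (mem_Lt A r hsurj I w hw k (u := u) (v := 0) (zero_mem _) ?_)
    rw [map_sub, hs, h]; ring
  · rw [← map_sub]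
    refine Ideal.mem_map_of_mem _ (h0 k _ ?_)
    rw [map_sub, hs, ← limMap_prj, hs, limMap_tmul, sub_self]
  · refine Ideal.mem_map_of_mem _
      (mem_Lt A r hsurj I w hw k (u := 0) (v := 0) (tmul_mem_ttI hx) ?_)
    rw [hs]; ring
  · refine Ideal.mem_map_of_mem _
      (mem_Lt A r hsurj I w hw k (u := 0) (v := (1 : ℤ_[2]) ⊗ₜ[ℤ] x) (zero_mem _) ?_)
    rw [hs, Algebra.TensorProduct.tmul_mul_tmul, mul_one]; ring

end Tower

end Crest.Agent.R007
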