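import Crest.Agent.R007.CDefs

/-! Row 7, block C: words, growth, and the Noetherian property of the graded module. -/

set_option autoImplicit false

namespace Crest.Agent.R007

variable {B H : Type} [CommRing B] [AddCommGroup H] [Module B H] {d : ℕ}
  {X : Fin d → Module.End B H} {F : ℕ → Submodule B H}

theorem word_nil : word X [] = 1 := rfl

theorem word_cons (i : Fin d) (l : List (Fin d)) : word X (i :: l) = X i * word X l := rfl

theorem FX.word_mem (h : FX X F) (l : List (Fin d)) {k : ℕ} {y : H} (hy : y ∈ F k) :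
    word X l y ∈ F (k + l.length) := by
  induction l with
  | nil => exact hy
  | cons i l ih => exact h.raise i _ _ ih

/-- induction on `List.Perm`; the swap is `FX.comm` -/
theorem FX.word_perm (h : FX X F) {l l' : List (Fin d)} (hl : l.Perm l') {k : ℕ} {y : H}
    (hy : y ∈ F k) : word X l y - word X l' y ∈ F (k + l.length + 1) := by
  induction hl with
  | nil => rw [sub_self]; exact zero_mem _
  | cons i _ ih =>
    rw [word_cons, word_cons, Module.End.mul_apply, Module.End.mul_apply, ← map_sub]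
    exact h.raise i _ _ ih
  | swap i j l => exact h.comm j i _ _ (h.word_mem l hy)
  | trans h1 _ ih1 ih2 =>
    rw [← h1.length_eq] at ih2
    have := add_mem ih1 ih2
    rwa [sub_add_sub_cancel] at this

/-- induction on `k` with `FX.gen` -/
theorem FX.span_word (h : FX X F) (k : ℕ) :
    F k ≤ (⨆ l : {l : List (Fin d) // l.length = k}, LinearMap.range (word X l.1)) ⊔ F (k + 1) := by
  induction k with
  | zero =>
    intro y _
    exact Submodule.mem_sup_left (Submodule.mem_iSup_of_mem ⟨[], rfl⟩ ⟨y, rfl⟩)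
  | succ k ih =>
    refine (h.gen k).trans (sup_le (iSup_le fun i => ?_) le_sup_right)
    refine (Submodule.map_mono ih).trans ?_
    rw [Submodule.map_sup, Submodule.map_iSup]
    refine sup_le_sup (iSup_le fun l => ?_) ?_
    · rintro _ ⟨_, ⟨y, rfl⟩, rfl⟩
      exact Submodule.mem_iSup_of_mem ⟨i :: l.1, by rw [List.length_cons, l.2]⟩ ⟨y, rfl⟩
    · rintro _ ⟨y, hy, rfl⟩
      exact h.raise i _ _ hy

/-- a word of length `> d n` is a permutation of `List.replicate n i ++ l'` -/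
theorem FX.kill (h : FX X F) {N : Submodule B H} {n : ℕ}
    (hn : ∀ i k, ∀ y ∈ F k, (X i ^ n) y ∈ N ⊔ F (k + n + 1)) {l : ℕ} (hl : d * n < l) :
    F l ≤ N ⊔ F (l + 1) := by
  refine (h.span_word l).trans (sup_le (iSup_le ?_) le_sup_right)
  rintro ⟨w, rfl⟩ _ ⟨y, rfl⟩
  obtain ⟨i, hi⟩ : ∃ i, n ≤ w.count i := by
    by_contra hc
    push Not at hc
    have h1 : ∑ i, w.count i = w.length := by
      simpa using Multiset.sum_count_eq_card (m := (w : Multiset (Fin d))) (s := Finset.univ)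
        fun a _ => Finset.mem_univ a
    have h2 : ∑ i, w.count i ≤ ∑ _i : Fin d, n := Finset.sum_le_sum fun i _ => (hc i).le
    simp only [Finset.sum_const, Finset.card_univ, Fintype.card_fin, smul_eq_mul] at h2
    omega
  obtain ⟨l', hp⟩ := (List.replicate_sublist_iff.2 hi).exists_perm_append
  have hy : y ∈ F 0 := by rw [h.zero]; trivial
  have h1 := h.word_perm hp hy
  have h2 := hn i _ _ (h.word_mem l' hy)
  have h3 : word X (List.replicate n i ++ l') = X i ^ n * word X l' := by simp [word]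
  have h4 := hp.length_eq
  rw [List.length_append, List.length_replicate] at h4
  rw [show 0 + l'.length + n = w.length by omega] at h2
  rw [zero_add, h3, Module.End.mul_apply] at h1
  have := add_mem (Submodule.mem_sup_right h1) h2
  rwa [sub_add_cancel] at this

theorem h93_deg (h : FX X F) {A : Type} [Fintype A] (w : A → List (Fin d)) {j : ℕ}
    (hw : ∀ l : List (Fin d), l.length = j → ∃ a, l.Perm (w a)) {y : H} (hy : y ∈ F j) :
    ∃ u : A → H, (∀ a, (w a).length ≠ j → u a = 0) ∧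
      y - ∑ a, word X (w a) (u a) ∈ F (j + 1) := by
  classical
  obtain ⟨p, hp, f, hf, rfl⟩ := Submodule.mem_sup.1 (h.span_word j hy)
  have key : ∃ u : A → H, (∀ a, (w a).length ≠ j → u a = 0) ∧
      p - ∑ a, word X (w a) (u a) ∈ F (j + 1) := by
    refine Submodule.iSup_induction _ (motive := fun p => ∃ u : A → H,
      (∀ a, (w a).length ≠ j → u a = 0) ∧ p - ∑ a, word X (w a) (u a) ∈ F (j + 1)) hp ?_ ?_ ?_
    · rintro ⟨l, hl⟩ _ ⟨x, rfl⟩
      obtain ⟨a, ha⟩ := hw l hl
      refine ⟨Pi.single a x, fun b hb => ?_, ?_⟩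
      · refine Pi.single_eq_of_ne (fun e => hb ?_) _
        rw [e, ← ha.length_eq, hl]
      · rw [Finset.sum_eq_single a (fun b _ hb => by rw [Pi.single_eq_of_ne hb, map_zero])
          (fun h => (h (Finset.mem_univ a)).elim), Pi.single_eq_same]
        have := h.word_perm ha (k := 0) (y := x) (by rw [h.zero]; trivial)
        rwa [zero_add, hl] at this
    · exact ⟨0, fun _ _ => rfl, by simp⟩
    · rintro p p' ⟨u, u1, u2⟩ ⟨v, v1, v2⟩
      refine ⟨u + v, fun a ha => by rw [Pi.add_apply, u1 a ha, v1 a ha, add_zero], ?_⟩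
      have := (F (j + 1)).add_mem u2 v2
      simp only [Pi.add_apply, map_add, Finset.sum_add_distrib]
      convert this using 1
      abel
  obtain ⟨u, u1, u2⟩ := key
  refine ⟨u, u1, ?_⟩
  have := (F (j + 1)).add_mem u2 hf
  convert this using 1
  abel

theorem h93_surj (h : FX X F) {A : Type} [Fintype A] (w : A → List (Fin d)) {k : ℕ}
    (hw : ∀ l : List (Fin d), l.length < k → ∃ a, l.Perm (w a)) (s : H ⧸ F 1 → H)
    (hs : ∀ z, Submodule.Quotient.mk (s z) = z) (hs0 : s 0 = 0) (y : H) (j : ℕ) (hj : j ≤ k) :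
    ∃ z : A → H ⧸ F 1, (∀ a, j ≤ (w a).length → z a = 0) ∧
      y - ∑ a, word X (w a) (s (z a)) ∈ F j := by
  induction j with
  | zero => exact ⟨0, fun _ _ => rfl, by rw [h.zero]; trivial⟩
  | succ j ih =>
    obtain ⟨z, z1, z2⟩ := ih (Nat.le_of_succ_le hj)
    obtain ⟨u, u1, u2⟩ := h93_deg h w (fun l hl => hw l (by omega)) z2
    refine ⟨fun a => if (w a).length = j then Submodule.Quotient.mk (u a) else z a,
      fun a ha => ?_, ?_⟩
    · simp only
      rw [if_neg (by omega), z1 a (by omega)]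
    · have b : ∑ a, (word X (w a) (s (z a)) + word X (w a) (u a) - word X (w a)
          (s (if (w a).length = j then Submodule.Quotient.mk (u a) else z a))) ∈ F (j + 1) := by
        refine Submodule.sum_mem _ fun a _ => ?_
        by_cases ha : (w a).length = j
        · rw [if_pos ha, z1 a ha.ge, hs0, map_zero, zero_add, ← map_sub]
          have m : u a - s (Submodule.Quotient.mk (u a)) ∈ F 1 :=
            (Submodule.Quotient.eq _).1 (hs _).symm
          have := h.word_mem (w a) m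
          rwa [ha, add_comm] at this
        · rw [if_neg ha, u1 a ha, map_zero, add_zero, sub_self]
          exact zero_mem _
      have := (F (j + 1)).add_mem u2 b
      simp only [Finset.sum_sub_distrib, Finset.sum_add_distrib] at this
      convert this using 1
      abel

/-- For `a : Fin d → Fin k` let `w a` be a word in which `i` occurs `a i` times, and let `s` be a
section of `H → H ⧸ F 1`.  By downward induction on `j ≤ k` (or upward, modulo `F j`), every `y` is
`∑ a, word X (w a) (z a)` modulo `F k` (`span_word`, `word_perm`; a word of length `< k` is a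
permutation of some `w a`; group equal `a`), but `z a` has to be taken in the range of `s`: do the
induction degree by degree, `F j ⧸ F (j + 1)` is the image of `({a | ∑ a i = j} → H ⧸ F 1)`. -/
theorem FX.index_le (h : FX X F) (k : ℕ) : (F k).toAddSubgroup.index ≠ 0 ∧
    (F k).toAddSubgroup.index ≤ Nat.card (H ⧸ F 1) ^ k ^ d := by
  classical
  haveI := h.fin
  let w : (Fin d → Fin k) → List (Fin d) := fun a =>
    Classical.epsilon fun l : List (Fin d) => ∀ i, l.count i = a i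
  have hw : ∀ l : List (Fin d), l.length < k → ∃ a, l.Perm (w a) := by
    intro l hl
    refine ⟨fun i => ⟨l.count i, lt_of_le_of_lt List.count_le_length hl⟩, ?_⟩
    refine List.perm_iff_count.2 fun i => ?_
    exact (Classical.epsilon_spec (p := fun l' : List (Fin d) => ∀ i, l'.count i = l.count i)
      ⟨l, fun _ => rfl⟩ i).symm
  obtain ⟨s, hs, hs0⟩ : ∃ s : H ⧸ F 1 → H, (∀ z, Submodule.Quotient.mk (s z) = z) ∧ s 0 = 0 := by
    choose s hs using Submodule.Quotient.mk_surjective (F 1)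
    refine ⟨fun z => if z = 0 then 0 else s z, fun z => ?_, if_pos rfl⟩
    by_cases hz : z = 0
    · simp [hz]
    · simp only [if_neg hz, hs]
  let Φ : ((Fin d → Fin k) → H ⧸ F 1) → H ⧸ (F k).toAddSubgroup := fun z =>
    QuotientAddGroup.mk (∑ a, word X (w a) (s (z a)))
  have hΦ : Function.Surjective Φ := by
    intro q
    obtain ⟨y, rfl⟩ := QuotientAddGroup.mk_surjective q
    obtain ⟨z, -, z2⟩ := h93_surj h w hw s hs hs0 y k le_rfl
    refine ⟨z, QuotientAddGroup.eq.2 ?_⟩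
    rw [neg_add_eq_sub]
    exact z2
  haveI : Finite (H ⧸ (F k).toAddSubgroup) := Finite.of_surjective Φ hΦ
  refine ⟨AddSubgroup.index_ne_zero_of_finite, ?_⟩
  refine (Nat.card_le_card_of_surjective Φ hΦ).trans (le_of_eq ?_)
  rw [Nat.card_fun, Nat.card_fun]
  simp

theorem FX.finiteIndex (h : FX X F) (k : ℕ) : (F k).toAddSubgroup.FiniteIndex :=
  ⟨(h.index_le k).1⟩

theorem FX.growth (h : FX X F) {r : ℕ} (hr : d ≤ r) : Gr F ⊥ r := by
  haveI := h.fin
  have hq : 0 < Nat.card (H ⧸ F 1) := Nat.card_pos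
  refine ⟨Nat.card (H ⧸ F 1), fun k => ?_⟩
  rw [bot_sup_eq]
  rcases Nat.eq_zero_or_pos k with rfl | hk
  · rw [h.zero, Submodule.top_toAddSubgroup, AddSubgroup.index_top]
    exact Nat.one_le_pow _ _ hq
  · exact (h.index_le k).2.trans (Nat.pow_le_pow_right hq (Nat.pow_le_pow_right hk hr))

theorem h38_fin (h : FX X F) (N : Submodule B H) (k : ℕ) : (N ⊔ F k).toAddSubgroup.FiniteIndex :=
  have := h.finiteIndex k
  AddSubgroup.finiteIndex_of_le (H := (F k).toAddSubgroup) fun _ hy => Submodule.mem_sup_right hy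

theorem h38_le (h : FX X F) {N N' : Submodule B H} (hN : N ≤ N') {k k' : ℕ} (hk : k' ≤ k) :
    (N' ⊔ F k').toAddSubgroup.index ≤ (N ⊔ F k).toAddSubgroup.index :=
  have := h38_fin h N k
  AddSubgroup.index_antitone fun _ hy => sup_le_sup hN (h.anti hk) hy

theorem h38_stepW (h : FX X F) {N : Submodule B H} {b : B} {k l : ℕ}
    (har : ∀ m, b • m ∈ N ⊔ F l → m ∈ N ⊔ F k) :
    (N ⊔ F k).toAddSubgroup.index * (N ⊔ mulTop H b ⊔ F l).toAddSubgroup.index ≤
      (N ⊔ F l).toAddSubgroup.index := by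
  let f : H →+ H := (LinearMap.lsmul B H b).toAddMonoidHom
  have e : (N ⊔ mulTop H b ⊔ F l).toAddSubgroup = f.range ⊔ (N ⊔ F l).toAddSubgroup := by
    rw [sup_right_comm, sup_comm, Submodule.sup_toAddSubgroup]
    rfl
  have h1 := AddSubgroup.relIndex_mul_index (H := (N ⊔ F l).toAddSubgroup)
    (K := f.range ⊔ (N ⊔ F l).toAddSubgroup) le_sup_right
  rw [AddSubgroup.relIndex_sup_right, ← AddSubgroup.index_comap, ← e] at h1
  have h2 : ((N ⊔ F l).toAddSubgroup.comap f).FiniteIndex :=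
    ⟨left_ne_zero_of_mul (h1.trans_ne (h38_fin h N l).index_ne_zero)⟩
  rw [← h1]
  exact Nat.mul_le_mul_right _ (AddSubgroup.index_antitone fun y hy => har y hy)

theorem Gr.mono (h : FX X F) {N N' : Submodule B H} (hN : N ≤ N') {r : ℕ} (H : Gr F N r) :
    Gr F N' r := by
  obtain ⟨C, hC⟩ := H
  exact ⟨C, fun k => (h38_le h hN le_rfl).trans (hC k)⟩

/-- `h' (k + c) * h k ≤ h (k + c)` (on the finite group `H ⧸ (N ⊔ F (c + k))` the cokernel and the
kernel of `b` have the same size), `h'` is monotone, so `h' k ^ k ≤ h (k + k c)` -/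
theorem Gr.drop (h : FX X F) {N : Submodule B H} {b : B} {c : ℕ}
    (har : ∀ k m, b • m ∈ N ⊔ F (c + k) → m ∈ N ⊔ F k) {r : ℕ} (hr : Gr F N (r + 1)) :
    Gr F (N ⊔ mulTop H b) r := by
  obtain ⟨C, hC⟩ := hr
  have hpos : ∀ k, 0 < (N ⊔ F k).toAddSubgroup.index := fun k =>
    Nat.pos_of_ne_zero (h38_fin h N k).index_ne_zero
  have hC0 : 0 < C := by simpa using (hpos 1).trans_le (hC 1)
  have key : ∀ k j, (N ⊔ mulTop H b ⊔ F k).toAddSubgroup.index ^ j ≤
      (N ⊔ F (j * c + k)).toAddSubgroup.index := fun k j => by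
    induction j with
    | zero => exact hpos _
    | succ j ih =>
      rw [pow_succ, show (j + 1) * c + k = c + (j * c + k) by ring]
      exact (Nat.mul_le_mul ih (h38_le h le_rfl (by omega))).trans (h38_stepW h (har _))
  refine ⟨C ^ (c + 1) ^ (r + 1), fun k => ?_⟩
  rcases k.eq_zero_or_pos with rfl | hk
  · rw [h.zero, sup_top_eq, Submodule.top_toAddSubgroup, AddSubgroup.index_top]
    exact Nat.succ_le_of_lt (by positivity)
  · refine (Nat.pow_le_pow_iff_left hk.ne').1 (((key k k).trans (hC _)).trans_eq ?_)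
    rw [← pow_mul, ← pow_mul, show k * c + k = (c + 1) * k by ring, mul_pow, pow_succ k]

/-- bounded indices: the decreasing sequence `N ⊔ F k` stabilises -/
theorem Gr.stab (h : FX X F) {N : Submodule B H} (hr : Gr F N 0) :
    ∃ k, ∀ l, F k ≤ N ⊔ F l := by
  obtain ⟨C, hC⟩ := hr
  have hb : BddAbove (Set.range fun k => (N ⊔ F k).toAddSubgroup.index) :=
    ⟨C, by rintro _ ⟨k, rfl⟩; simpa using hC k⟩
  obtain ⟨k, hk⟩ := Nat.sSup_mem (Set.range_nonempty _) hb
  refine ⟨k, fun l => ?_⟩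
  rcases le_total l k with hl | hl
  · exact (h.anti hl).trans le_sup_right
  have h1 : (N ⊔ F l).toAddSubgroup ≤ (N ⊔ F k).toAddSubgroup := fun _ hy =>
    sup_le_sup_left (h.anti hl) N hy
  have h2 : (N ⊔ F l).toAddSubgroup.index ≤ (N ⊔ F k).toAddSubgroup.index :=
    (le_csSup hb ⟨l, rfl⟩).trans_eq hk.symm
  have := h38_fin h N l
  have h3 := h1.eq_or_lt.resolve_right fun hlt => (AddSubgroup.index_strictAnti hlt).not_ge h2
  intro y hy
  have h4 : y ∈ (N ⊔ F k).toAddSubgroup := Submodule.mem_sup_right hy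
  rwa [← h3] at h4

theorem h36_noeth {M : Type} [AddCommGroup M] (Y : Fin d → Module.End ℤ M)
    (hc : ∀ i j, Y i * Y j = Y j * Y i) {S : Set M} (hS : S.Finite)
    (hg : ∀ N : AddSubgroup M, S ⊆ N → (∀ i, ∀ y ∈ N, Y i y ∈ N) → ∀ y, y ∈ N)
    (N : ℕ → AddSubgroup M) (hN : ∀ c i, ∀ y ∈ N c, Y i y ∈ N c) (hm : Monotone N) :
    ∃ c₀, ∀ c ≥ c₀, N c = N c₀ := by
  let A := Algebra.adjoin ℤ (Set.range Y)
  have hA := Algebra.isMulCommutative_adjoin ℤ (s := Set.range Y) (by
    rintro _ ⟨i, rfl⟩ _ ⟨j, rfl⟩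
    exact hc i j)
  let _ : CommRing A := { (inferInstance : Ring A) with mul_comm := hA.is_comm.comm }
  have : Algebra.FiniteType ℤ A :=
    ⟨(Subalgebra.fg_top A).2 (Subalgebra.fg_def.2 ⟨_, Set.finite_range Y, rfl⟩)⟩
  have : IsNoetherianRing A := Algebra.FiniteType.isNoetherianRing ℤ A
  have : Module.Finite A M := ⟨Submodule.fg_def.2 ⟨S, hS, eq_top_iff.2 fun y _ =>
    hg (Submodule.span A S).toAddSubgroup Submodule.subset_span (fun i y hy =>
      (Submodule.span A S).smul_mem (⟨Y i, Algebra.subset_adjoin ⟨i, rfl⟩⟩ : A) hy) y⟩⟩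
  have key : ∀ c, ∀ a ∈ A, ∀ y ∈ N c, a y ∈ N c := by
    intro c a ha
    induction ha using Algebra.adjoin_induction with
    | mem a ha =>
      obtain ⟨i, rfl⟩ := ha
      exact hN c i
    | algebraMap r => exact fun y hy => (N c).zsmul_mem hy r
    | add a b _ _ h1 h2 => exact fun y hy => (N c).add_mem (h1 y hy) (h2 y hy)
    | mul a b _ _ h1 h2 => exact fun y hy => h1 _ (h2 y hy)
  let N' : ℕ →o Submodule A M :=
    ⟨fun c => { (N c).toAddSubmonoid with smul_mem' := fun a y hy => key c a.1 a.2 y hy },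
      fun _ _ h _ hy => hm h hy⟩
  obtain ⟨c₀, h⟩ := monotone_stabilizes_iff_noetherian.2 inferInstance N'
  refine ⟨c₀, fun c hc => AddSubgroup.ext fun y => ?_⟩
  exact (SetLike.ext_iff.1 (h c hc) y).symm

theorem h36_noeth' {Ω : Type} [AddCommGroup Ω] (Y : Fin d → Ω →+ Ω) {A₁ A₂ : AddSubgroup Ω}
    (h1 : ∀ i, ∀ z ∈ A₁, Y i z ∈ A₁) (h2 : ∀ i, ∀ z ∈ A₂, Y i z ∈ A₂)
    (hc : ∀ i j, ∀ z ∈ A₁, Y i (Y j z) - Y j (Y i z) ∈ A₂) {S : Set Ω} (hS : S.Finite)
    (hg : ∀ N : AddSubgroup Ω, A₂ ⊓ A₁ ≤ N → S ∩ A₁ ⊆ N → (∀ i, ∀ y ∈ N, Y i y ∈ N) → A₁ ≤ N)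
    (N : ℕ → AddSubgroup Ω) (hN : ∀ c i, ∀ y ∈ N c, Y i y ∈ N c) (hm : Monotone N)
    (h3 : ∀ c, A₂ ≤ N c) (h4 : ∀ c, N c ≤ A₁) : ∃ c₀, ∀ c ≥ c₀, N c = N c₀ := by
  let K := A₂.addSubgroupOf A₁
  let Y₁ : Fin d → A₁ →+ A₁ := fun i =>
    ((Y i).comp A₁.subtype).codRestrict A₁ fun z => h1 i z z.2
  let Y₂ : Fin d → Module.End ℤ (A₁ ⧸ K) := fun i =>
    (QuotientAddGroup.map K K (Y₁ i) fun z hz => h2 i z hz).toIntLinearMap
  have hY : ∀ i (z : A₁), Y₂ i (z : A₁ ⧸ K) = (Y₁ i z : A₁) := fun _ _ => rfl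
  obtain ⟨c₀, h⟩ := h36_noeth Y₂ (fun i j => LinearMap.ext fun z => by
      obtain ⟨z, rfl⟩ := QuotientAddGroup.mk_surjective z
      rw [Module.End.mul_apply, Module.End.mul_apply, hY, hY, hY, hY, QuotientAddGroup.eq_iff_sub_mem]
      exact hc i j z z.2)
    (S := QuotientAddGroup.mk '' (Subtype.val ⁻¹' S))
    ((hS.preimage Subtype.val_injective.injOn).image _)
    (fun N a b y => by
      obtain ⟨y, rfl⟩ := QuotientAddGroup.mk_surjective y
      obtain ⟨z, hz, e⟩ := hg ((N.comap (QuotientAddGroup.mk' K)).map A₁.subtype)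
        (fun z hz => ⟨⟨z, hz.2⟩, by
          show ((⟨z, hz.2⟩ : A₁) : A₁ ⧸ K) ∈ N
          rw [(QuotientAddGroup.eq_zero_iff _).2 (show (⟨z, hz.2⟩ : A₁) ∈ K from hz.1)]
          exact N.zero_mem, rfl⟩)
        (fun z hz => ⟨⟨z, hz.2⟩, a ⟨⟨z, hz.2⟩, hz.1, rfl⟩, rfl⟩)
        (by
          rintro i _ ⟨z, hz, rfl⟩
          exact ⟨Y₁ i z, b i _ hz, rfl⟩) y.2
      obtain rfl : z = y := Subtype.ext e
      exact hz)
    (fun c => ((N c).addSubgroupOf A₁).map (QuotientAddGroup.mk' K))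
    (by
      rintro c i _ ⟨z, hz, rfl⟩
      exact ⟨Y₁ i z, hN c i _ hz, rfl⟩)
    fun _ _ h => AddSubgroup.map_mono fun _ hz => hm h hz
  refine ⟨c₀, fun c hc => le_antisymm (fun z hz => ?_) (hm hc)⟩
  obtain ⟨w, hw, e⟩ := (h c hc).le ⟨⟨z, h4 c hz⟩, hz, rfl⟩
  have h5 : w - ⟨z, h4 c hz⟩ ∈ K := QuotientAddGroup.eq_iff_sub_mem.1 e
  have h6 := (N c₀).sub_mem hw (h3 c₀ h5)
  simpa using h6

/-- **Hilbert basis theorem for `gr`**.  `gr = ⨁ k, F k ⧸ F (k + 1)` (or `A₁ ⧸ A₂` with
`A₁ = {z : ℕ →₀ H | ∀ k, z k ∈ F k}`, `A₂ = {z | ∀ k, z k ∈ F (k + 1)}`); the `X i` induce commuting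
additive endomorphisms; `A = Algebra.adjoin ℤ` of them is a commutative Noetherian ring,
`gr` is generated over `A` by the finite group `gr₀` (`FX.gen`); `V c` gives an `A`-submodule. -/
theorem FX.acc_gr (h : FX X F) (V : ℕ → ℕ → Submodule B H) (h1 : ∀ c k, F (k + 1) ≤ V c k)
    (h2 : ∀ c k, V c k ≤ F k) (h3 : ∀ c i k, ∀ y ∈ V c k, X i y ∈ V c (k + 1))
    (h4 : Monotone V) : ∃ c₀, ∀ c ≥ c₀, V c = V c₀ := by
  let T : (ℕ → Submodule B H) → AddSubgroup (ℕ →₀ H) := fun W =>
    { carrier := {z | ∀ k, z k ∈ W k}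
      zero_mem' := fun k => (W k).zero_mem
      add_mem' := fun a b k => (W k).add_mem (a k) (b k)
      neg_mem' := fun a k => (W k).neg_mem (a k) }
  have hT : ∀ W k y, Finsupp.single k y ∈ T W ↔ y ∈ W k := fun W k y =>
    ⟨fun a => by simpa using a k, fun a l => by
      rw [Finsupp.single_apply]
      split_ifs with e
      · exact e ▸ a
      · exact (W l).zero_mem⟩
  let Y : Fin d → (ℕ →₀ H) →+ (ℕ →₀ H) := fun i => (Finsupp.mapDomain.addMonoidHom Nat.succ).comp
    (Finsupp.mapRange.addMonoidHom (X i).toAddMonoidHom)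
  have y0 : ∀ i z, Y i z 0 = 0 := fun i z => Finsupp.mapDomain_of_notMem_range _ _ (by simp)
  have y1 : ∀ i z k, Y i z (k + 1) = X i (z k) := fun i z k =>
    Finsupp.mapDomain_apply Nat.succ_injective _ k
  have ys : ∀ i k y, Y i (Finsupp.single k y) = Finsupp.single (k + 1) (X i y) := fun i k y => by
    simp [Y]
  have hY : ∀ W : ℕ → Submodule B H, (∀ i k, ∀ y ∈ W k, X i y ∈ W (k + 1)) →
      ∀ i, ∀ z ∈ T W, Y i z ∈ T W := by
    rintro W hW i z hz (_ | k)
    · rw [y0]
      exact zero_mem _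
    · rw [y1]
      exact hW i k _ (hz k)
  have := h.fin
  obtain ⟨c₀, H⟩ := h36_noeth' Y (A₁ := T F) (A₂ := T fun k => F (k + 1)) (hY _ h.raise)
    (hY _ fun i k => h.raise i (k + 1))
    (by
      rintro i j z hz (_ | _ | k)
      · rw [Finsupp.sub_apply, y0, y0, sub_zero]
        exact zero_mem _
      · rw [Finsupp.sub_apply, y1, y1, y0, y0, map_zero, map_zero, sub_zero]
        exact zero_mem _
      · rw [Finsupp.sub_apply, y1, y1, y1, y1]
        exact h.comm i j k _ (hz k))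
    (S := Set.range fun q : H ⧸ F 1 => Finsupp.single 0 (Quotient.out q)) (Set.finite_range _)
    (fun N a b c => by
      have a' : ∀ k, ∀ y ∈ F (k + 1), Finsupp.single k y ∈ N := fun k y hy =>
        a ⟨(hT _ _ _).2 hy, (hT _ _ _).2 (h.anti k.le_succ hy)⟩
      have key : ∀ k, ∀ y ∈ F k, Finsupp.single k y ∈ N := by
        intro k
        induction k with
        | zero =>
          intro y _
          have e1 := b ⟨⟨Submodule.Quotient.mk y, rfl⟩, (hT _ _ _).2 (h.zero ▸ trivial)⟩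
          have e2 := a' 0 (y - Quotient.out (Submodule.Quotient.mk y : H ⧸ F 1))
            ((Submodule.Quotient.eq _).1 (Quotient.out_eq _).symm)
          simpa using N.add_mem e1 e2
        | succ k ih =>
          intro y hy
          obtain ⟨y₁, e1, y₂, e2, rfl⟩ := Submodule.mem_sup.1 (h.gen k hy)
          rw [Finsupp.single_add]
          refine N.add_mem ?_ (a' _ _ e2)
          clear hy
          induction e1 using Submodule.iSup_induction' with
          | mem i y hy =>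
            obtain ⟨w, hw, rfl⟩ := hy
            rw [← ys]
            exact c i _ (ih w hw)
          | zero => rw [Finsupp.single_zero]; exact N.zero_mem
          | add y y' _ _ e e' => rw [Finsupp.single_add]; exact N.add_mem e e'
      intro z hz
      rw [← z.sum_single]
      exact N.sum_mem fun k _ => key k _ (hz k))
    (fun c => T (V c)) (fun c => hY _ (h3 c)) (fun _ _ e _ hz k => h4 e k (hz k))
    (fun c _ hz k => h1 c k (hz k)) fun c _ hz k => h2 c k (hz k)
  refine ⟨c₀, fun c hc => funext fun k => Submodule.ext fun y => ?_⟩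
  rw [← hT, ← hT, H c hc]

theorem h2_W_step (h : FX X F) {N : Submodule B H} (hN : Stb X N) (i : Fin d) (k : ℕ) :
    (N ⊓ F k ⊔ F (k + 1)).map (X i) ≤ N ⊓ F (k + 1) ⊔ F (k + 2) := by
  rw [Submodule.map_sup]
  exact sup_le_sup
    (Submodule.map_le_iff_le_comap.2 fun y hy => ⟨hN i y hy.1, h.raise i _ y hy.2⟩)
    (Submodule.map_le_iff_le_comap.2 fun y hy => h.raise i _ y hy)

/-- the graded submodule generated in degrees `≤ c` -/
def h2_V (X : Fin d → Module.End B H) (F : ℕ → Submodule B H) (N : Submodule B H) (c : ℕ) :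
    ℕ → Submodule B H
  | 0 => N ⊓ F 0 ⊔ F 1
  | k + 1 => if k + 1 ≤ c then N ⊓ F (k + 1) ⊔ F (k + 2)
      else (⨆ i, (h2_V X F N c k).map (X i)) ⊔ F (k + 2)

/-- `acc_gr` for `V c k = N ⊓ F k ⊔ F (k + 1)` (`k ≤ c`),
`V c (k + 1) = (⨆ i, (V c k).map (X i)) ⊔ F (k + 2)` (`k ≥ c`) -/
theorem FX.gen_stb (h : FX X F) {N : Submodule B H} (hN : Stb X N) :
    ∃ c, ∀ k ≥ c, N ⊓ F (k + 1) ≤ (⨆ i, (N ⊓ F k).map (X i)) ⊔ F (k + 2) := by
  have hW := h2_W_step h hN
  have hle : ∀ c k, h2_V X F N c k ≤ N ⊓ F k ⊔ F (k + 1) := fun c k => by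
    induction k with
    | zero => exact le_rfl
    | succ k ih =>
      rw [h2_V]
      split_ifs
      · exact le_rfl
      · exact sup_le (iSup_le fun i => (Submodule.map_mono ih).trans (hW i k)) le_sup_right
  obtain ⟨c, hc⟩ := h.acc_gr (h2_V X F N) (fun c k => by
      cases k with
      | zero => exact le_sup_right
      | succ k => rw [h2_V]; split_ifs <;> exact le_sup_right)
    (fun c k => (hle c k).trans (sup_le inf_le_right (h.anti k.le_succ)))
    (fun c i k y hy => by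
      rw [h2_V]
      split_ifs
      · exact hW i k (Submodule.mem_map_of_mem (hle c k hy))
      · exact Submodule.mem_sup_left
          (Submodule.mem_iSup_of_mem i (Submodule.mem_map_of_mem hy)))
    (fun c c' hcc k => by
      induction k with
      | zero => exact le_rfl
      | succ k ih =>
        by_cases h' : k + 1 ≤ c'
        · refine (hle c (k + 1)).trans ?_
          rw [h2_V, if_pos h']
        · rw [h2_V, h2_V, if_neg h', if_neg (by omega)]
          exact sup_le_sup_right (iSup_mono fun i => Submodule.map_mono ih) _)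
  refine ⟨c, fun k hk => ?_⟩
  have e := congrFun (hc (k + 1) (by omega)) (k + 1)
  rw [h2_V, h2_V, if_pos le_rfl, if_neg (by omega)] at e
  refine (le_sup_left.trans e.le).trans (sup_le (iSup_le fun i => ?_) le_sup_right)
  refine (Submodule.map_mono (hle c k)).trans ?_
  rw [Submodule.map_sup]
  exact sup_le_sup (le_iSup (fun i => (N ⊓ F k).map (X i)) i)
    (Submodule.map_le_iff_le_comap.2 fun y hy => h.raise i _ y hy)

/-- `acc_gr` for `V c k = N c ⊓ F k ⊔ F (k + 1)`, then induction on `k` -/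
theorem FX.acc (h : FX X F) (N : ℕ → Submodule B H) (hN : ∀ c, Stb X (N c)) (hm : Monotone N) :
    ∃ c₀, ∀ c ≥ c₀, ∀ k, N c ≤ N c₀ ⊔ F k := by
  obtain ⟨c₀, hc⟩ := h.acc_gr (fun c k => N c ⊓ F k ⊔ F (k + 1)) (fun c k => le_sup_right)
    (fun c k => sup_le inf_le_right (h.anti k.le_succ))
    (fun c i k y hy => h2_W_step h (hN c) i k (Submodule.mem_map_of_mem hy))
    (fun c c' hcc k => sup_le_sup_right (inf_le_inf_right _ (hm hcc)) _)
  refine ⟨c₀, fun c hcc k => ?_⟩
  induction k with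
  | zero => rw [h.zero]; simp
  | succ k ih =>
    intro y hy
    obtain ⟨n, hn, f, hf, rfl⟩ := Submodule.mem_sup.1 (ih hy)
    have h1 : f ∈ N c := by simpa using (N c).sub_mem hy (hm hcc hn)
    have h2 : f ∈ N c₀ ⊓ F k ⊔ F (k + 1) :=
      (congrFun (hc c hcc) k).le (Submodule.mem_sup_left ⟨h1, hf⟩)
    have h3 : N c₀ ⊓ F k ⊔ F (k + 1) ≤ N c₀ ⊔ F (k + 1) := sup_le_sup_right inf_le_left _
    exact add_mem (Submodule.mem_sup_left hn) (h3 h2)

/-- Artin–Rees, approximate form.  `gen_stb` for `N' = N ⊔ mulTop H b`; by induction on `l`,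
`N' ⊓ F (c + l) ≤ N ⊔ b F l ⊔ F (c + l + 1)`; then induction on `l'`. -/
theorem FX.ar_step (h : FX X F) {N : Submodule B H} (hN : Stb X N) (b : B) :
    ∃ c, ∀ l m, b • m ∈ N ⊔ F (c + l) → ∀ l' ≥ l, ∃ f ∈ F l, b • (m - f) ∈ N ⊔ F (c + l') := by
  have hN' : Stb X (N ⊔ mulTop H b) := fun i y hy => by
    obtain ⟨n, hn, _, ⟨f, rfl⟩, rfl⟩ := Submodule.mem_sup.1 hy
    rw [map_add]
    exact add_mem (Submodule.mem_sup_left (hN i n hn))
      (Submodule.mem_sup_right ⟨X i f, by simp⟩)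
  obtain ⟨c, hc⟩ := h.gen_stb hN'
  have key : ∀ l, (N ⊔ mulTop H b) ⊓ F (c + l) ≤
      N ⊔ (F l).map (LinearMap.lsmul B H b) ⊔ F (c + l + 1) := fun l => by
    induction l with
    | zero =>
      rw [h.zero, Submodule.map_top]
      exact inf_le_left.trans le_sup_left
    | succ l ih =>
      refine (hc (c + l) (by omega)).trans (sup_le (iSup_le fun i => ?_) le_sup_right)
      refine (Submodule.map_mono ih).trans ?_
      rw [Submodule.map_sup, Submodule.map_sup]
      refine sup_le_sup (sup_le_sup (Submodule.map_le_iff_le_comap.2 fun y hy => hN i y hy) ?_)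
        (Submodule.map_le_iff_le_comap.2 fun y hy => h.raise i _ y hy)
      rintro _ ⟨_, ⟨f, hf, rfl⟩, rfl⟩
      exact ⟨X i f, h.raise i l f hf, by simp⟩
  refine ⟨c, fun l m hm l' hl => ?_⟩
  induction l', hl using Nat.le_induction with
  | base => exact ⟨0, zero_mem _, by rwa [sub_zero]⟩
  | succ l' hl ih =>
    obtain ⟨f, hf, hb⟩ := ih
    obtain ⟨n, hn, g, hg, e⟩ := Submodule.mem_sup.1 hb
    have h1 : g ∈ N ⊔ mulTop H b := by
      rw [eq_sub_of_add_eq' e]
      exact sub_mem (Submodule.mem_sup_right ⟨m - f, rfl⟩) (Submodule.mem_sup_left hn)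
    obtain ⟨u, hu, g', hg', e'⟩ := Submodule.mem_sup.1 (key l' ⟨h1, hg⟩)
    obtain ⟨n', hn', _, ⟨f', hf', rfl⟩, rfl⟩ := Submodule.mem_sup.1 hu
    refine ⟨f + f', add_mem hf (h.anti hl hf'), ?_⟩
    have : b • (m - (f + f')) = (n + n') + g' := by
      rw [← sub_sub, smul_sub, ← e, ← e', LinearMap.lsmul_apply]; abel
    rw [this]
    exact Submodule.add_mem_sup (add_mem hn hn') hg'

end Crest.Agent.R007
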