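import Mathlib
import Crest.Prelude.Def_HeckeTwo

/-! # Row 7: shared definitions (owner helper7).  See `files R007_plan` in the team database. -/

set_option autoImplicit false

noncomputable section
namespace Crest.Agent.R007

open PowerSeries UpperHalfPlane
open scoped ModularForm MatrixGroups TensorProduct

/-! ### integer `q`-series -/

/-- `∑ σ_k(n) q^n` -/
def sig (k : ℕ) : ℤ⟦X⟧ := PowerSeries.mk fun n => ((ArithmeticFunction.sigma k n : ℕ) : ℤ)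
/-- `∑_n (∑_{d ∣ n, d odd} d) q^n` -/
def sigO : ℤ⟦X⟧ := PowerSeries.mk fun n => ∑ d ∈ n.divisors with Odd d, (d : ℤ)
/-- `q ↦ q²` -/
def V2 : ℤ⟦X⟧ →ₐ[ℤ] ℤ⟦X⟧ := PowerSeries.expand 2 two_ne_zero
/-- `ε = 2 E₂(q²) - E₂(q)`, weight 2 on `Γ₀(2)` -/
def eps : ℤ⟦X⟧ := 1 + 24 * sigO
def epsInv : ℤ⟦X⟧ := PowerSeries.invOfUnit eps 1
def rho : ℤ⟦X⟧ := (sig 3 - V2 (sig 3)) * epsInv ^ 2
def mu : ℤ⟦X⟧ := (sigO - V2 sigO) * epsInv
/-- `λ = ε(q²) / ε(q)` -/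
def lam : ℤ⟦X⟧ := 1 - 24 * mu
def E4s : ℤ⟦X⟧ := 1 + 240 * sig 3
def E6s : ℤ⟦X⟧ := 1 - 504 * sig 5
/-- the discriminant, written through `ρ` -/
def Dels : ℤ⟦X⟧ := eps ^ 6 * rho * (1 - 64 * rho) ^ 2

/-- an integer series in `q`, read over `R` in the variable `q' = q^{1/h}` -/
def lev (R : Type) [CommRing R] (h : ℕ) [NeZero h] : ℤ⟦X⟧ →+* R⟦X⟧ :=
  (PowerSeries.expand (R := R) h (NeZero.ne h)).toRingHom.comp (PowerSeries.map (Int.castRingHom R))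

/-- `f(q') ↦ f(ζ q'^A)`: the effect of `τ ↦ (Aτ + B)/D` on expansions -/
def sB {R : Type} [CommRing R] (ζ : R) (A : ℕ) [NeZero A] : R⟦X⟧ →+* R⟦X⟧ :=
  (PowerSeries.expand (R := R) A (NeZero.ne A)).toRingHom.comp (PowerSeries.rescale ζ)

/-- `U_ℓ` on `q`-expansions -/
def Uop {R : Type} [CommRing R] (l : ℕ) (f : R⟦X⟧) : R⟦X⟧ :=
  PowerSeries.mk fun n => coeff (n * l) f
/-- `V_ℓ` on `q`-expansions -/
def Vop {R : Type} [CommRing R] (l : ℕ) (f : R⟦X⟧) : R⟦X⟧ :=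
  PowerSeries.mk fun n => if l ∣ n then coeff (n / l) f else 0

/-! ### torsion points of the Tate curve: `u = e(b) q'^a`, `q = q'^h`, `P = (a, b)` -/

section Tate
variable {R : Type} [CommRing R] {h : ℕ}

/-- `X(u) = u/(1-u)² + ∑_n ∑_{d ∣ n} d (u^d + u^{-d} - 2) q^n` -/
def Xser (e : AddChar (ZMod h) R) (P : ZMod h × ZMod h) : R⟦X⟧ :=
  PowerSeries.mk fun n =>
    if n = 0 then (if P.1 = 0 then e P.2 * Ring.inverse (1 - e P.2) ^ 2 else 0) else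
      ∑ p ∈ n.divisorsAntidiagonal, (p.1 : R) *
        ((if (p.2 : ZMod h) = P.1 then e (P.2 * p.1) else 0)
          + (if (p.2 : ZMod h) = -P.1 then e (-(P.2 * p.1)) else 0)
          - (if (p.2 : ZMod h) = 0 then 2 else 0))

/-- `Y(u) = u²/(1-u)³ + ∑_n ∑_{d ∣ n} (C(d,2) u^d - C(d+1,2) u^{-d} + d) q^n` -/
def Yser (e : AddChar (ZMod h) R) (P : ZMod h × ZMod h) : R⟦X⟧ :=
  PowerSeries.mk fun n =>
    if n = 0 then (if P.1 = 0 then e P.2 ^ 2 * Ring.inverse (1 - e P.2) ^ 3 else 0) else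
      ∑ p ∈ n.divisorsAntidiagonal,
        ((if (p.2 : ZMod h) = P.1 then (p.1.choose 2 : R) * e (P.2 * p.1) else 0)
          - (if (p.2 : ZMod h) = -P.1 then ((p.1 + 1).choose 2 : R) * e (-(P.2 * p.1)) else 0)
          + (if (p.2 : ZMod h) = 0 then (p.1 : R) else 0))

/-- `u dX/du = 2Y + X` (the series of `℘'`, which is `a₃` at a 3-torsion point) -/
def DXser (e : AddChar (ZMod h) R) (P : ZMod h × ZMod h) : R⟦X⟧ := 2 * Yser e P + Xser e P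

/-- `Z_P = ℘_P / ε - 1/12` -/
def Zser [NeZero h] (e : AddChar (ZMod h) R) (P : ZMod h × ZMod h) : R⟦X⟧ :=
  (Xser e P - 2 * lev R h sigO) * lev R h epsInv

/-- `A` is the series of `a₁ = ℘''/℘'` at the 3-torsion point `P` -/
def IsA1 [NeZero h] (e : AddChar (ZMod h) R) (P : ZMod h × ZMod h) (A : R⟦X⟧) : Prop :=
  A * DXser e P = 6 * Xser e P ^ 2 + Xser e P - 10 * lev R h (sig 3) ∧ A ^ 2 = 1 + 12 * Xser e P

/-- the characters used are primitive in the strong sense -/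
def Prim (e : AddChar (ZMod h) R) : Prop := ∀ b : ZMod h, b ≠ 0 → IsUnit (1 - e b)

/-- the 3-torsion point `(0, 1/3)` at level `h` (for `3 ∣ h`) -/
def P3 (h : ℕ) : ZMod h × ZMod h := (0, ((h / 3 : ℕ) : ZMod h))

end Tate

/-! ### the predicate `Good`: integral over `𝕜[ρ]`, and a fraction of `𝕜[ρ, μ, Z_P]` -/

section Good
variable {𝕜 : Type} [Field 𝕜] {h : ℕ} [NeZero h]

def ringA (e : AddChar (ZMod h) 𝕜) : Subalgebra 𝕜 𝕜⟦X⟧ :=
  Algebra.adjoin 𝕜 ({lev 𝕜 h rho, lev 𝕜 h mu} ∪ {x | ∃ P : ZMod h × ZMod h, P ≠ 0 ∧ x = Zser e P})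

def Good (e : AddChar (ZMod h) 𝕜) (f : 𝕜⟦X⟧) : Prop :=
  IsIntegral (Algebra.adjoin 𝕜 ({lev 𝕜 h rho} : Set 𝕜⟦X⟧)) f ∧
    ∃ D ∈ ringA e, D ≠ 0 ∧ D * f ∈ ringA e

/-- the good series form a subalgebra -/
def goodAlg (e : AddChar (ZMod h) 𝕜) : Subalgebra 𝕜 𝕜⟦X⟧ where
  carrier := {f | Good e f}
  mul_mem' := by
    rintro a b ⟨ha, D, hD, hD0, hDa⟩ ⟨hb, D', hD', hD0', hDb⟩
    refine ⟨ha.mul hb, D * D', mul_mem hD hD', mul_ne_zero hD0 hD0', ?_⟩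
    have : D * D' * (a * b) = (D * a) * (D' * b) := by ring
    rw [this]; exact mul_mem hDa hDb
  add_mem' := by
    rintro a b ⟨ha, D, hD, hD0, hDa⟩ ⟨hb, D', hD', hD0', hDb⟩
    refine ⟨ha.add hb, D * D', mul_mem hD hD', mul_ne_zero hD0 hD0', ?_⟩
    have : D * D' * (a + b) = D' * (D * a) + D * (D' * b) := by ring
    rw [this]; exact add_mem (mul_mem hD' hDa) (mul_mem hD hDb)
  algebraMap_mem' := by
    intro c
    refine ⟨?_, 1, one_mem _, one_ne_zero, by rw [one_mul]; exact Subalgebra.algebraMap_mem _ c⟩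
    exact (isIntegral_algebraMap (x := (⟨_, Subalgebra.algebraMap_mem _ c⟩ :
      Algebra.adjoin 𝕜 ({lev 𝕜 h rho} : Set 𝕜⟦X⟧))))

end Good

/-! ### coefficient rings -/

/-- algebraic closure of `𝔽₂` -/
abbrev FF : Type := AlgebraicClosure (ZMod 2)
/-- Witt vectors -/
abbrev OO : Type := WittVector 2 FF
abbrev KK : Type := FractionRing OO
/-- reduction modulo 2 -/
abbrev red : OO →+* FF := WittVector.constantCoeff

/-- a compatible system of primitive roots of unity of odd order in `FF` -/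
def IsRootSys (z : ℕ → FF) : Prop :=
  (∀ n, Odd n → IsPrimitiveRoot (z n) n) ∧ ∀ m n, Odd m → Odd n → z (m * n) ^ m = z n

open Classical in
/-- the chosen system (existence: `exists_rootSys` in `R007/Cyc.lean`) -/
def zz : ℕ → FF := if h : ∃ z, IsRootSys z then h.choose else fun _ => 1

open Classical in
/-- `x ↦ ζ^x` for `ζ^h = 1` (trivial otherwise) -/
def chr {R : Type} [CommRing R] (h : ℕ) [NeZero h] (ζ : R) : AddChar (ZMod h) R :=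
  if hζ : ζ ^ h = 1 then AddChar.zmodChar h hζ else 1

def zC (h : ℕ) : ℂ := Complex.exp (2 * Real.pi * Complex.I / h)
def zO (h : ℕ) : OO := WittVector.teichmuller 2 (zz h)
/-- the cyclotomic field `ℚ(ζ_h) ⊆ ℂ` -/
def KC (h : ℕ) : IntermediateField ℚ ℂ := IntermediateField.adjoin ℚ {zC h}
def zK (h : ℕ) : KC h := ⟨zC h, IntermediateField.mem_adjoin_simple_self ℚ (zC h)⟩

def eC (h : ℕ) [NeZero h] : AddChar (ZMod h) ℂ := chr h (zC h)
def eK (h : ℕ) [NeZero h] : AddChar (ZMod h) (KC h) := chr h (zK h)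
def eO (h : ℕ) [NeZero h] : AddChar (ZMod h) OO := chr h (zO h)
def eKK (h : ℕ) [NeZero h] : AddChar (ZMod h) KK := chr h (algebraMap OO KK (zO h))
def eF (h : ℕ) [NeZero h] : AddChar (ZMod h) FF := chr h (zz h)

/-- `F ∈ ℂ⟦q'⟧` has coefficients in `ℚ(ζ_h)` and corresponds under `ι` to `F' ∈ OO⟦q'⟧` -/
def Lifts {h : ℕ} (ι : KC h →+* KK) (F : ℂ⟦X⟧) (F' : OO⟦X⟧) : Prop :=
  ∃ G : (KC h)⟦X⟧, PowerSeries.map (algebraMap (KC h) ℂ) G = F ∧
    PowerSeries.map ι G = PowerSeries.map (algebraMap OO KK) F'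

/-- `ι : ℚ(ζ_h) → KK` sends `ζ_h` to the Teichmüller lift of `zz h` -/
def IsIota (h : ℕ) (ι : KC h →+* KK) : Prop := ι (zK h) = algebraMap OO KK (zO h)

/-! ### modular forms as functions -/

/-- `f(τ) = ∑ F_n e^{2πi nτ/h}` on the whole upper half plane -/
def HasQ (h : ℕ) (f : ℍ → ℂ) (F : ℂ⟦X⟧) : Prop :=
  ∀ τ : ℍ, HasSum (fun n : ℕ => coeff n F * Function.Periodic.qParam (h : ℝ) (τ : ℂ) ^ n) (f τ)

/-- `f` is a modular form of weight `k` for `Γ ≤ SL₂(ℤ)` -/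
structure IsMF (k : ℤ) (Γ : Subgroup SL(2, ℤ)) (f : ℍ → ℂ) : Prop where
  holo : MDifferentiable (modelWithCornersSelf ℂ ℂ) (modelWithCornersSelf ℂ ℂ) f
  inv : ∀ γ ∈ Γ, f ∣[k] γ = f
  bdd : ∀ γ : SL(2, ℤ), IsBoundedAtImInfty (f ∣[k] γ)

/-- `Γ(M) ∩ Γ₀(4)` -/
def GamS (M : ℕ) : Subgroup SL(2, ℤ) := CongruenceSubgroup.Gamma M ⊓ CongruenceSubgroup.Gamma0 4

/-- the right action `P ↦ P γ` of `SL₂(ℤ)` on torsion points `(aτ + b)/h` -/
def actP {h : ℕ} (P : ZMod h × ZMod h) (γ : SL(2, ℤ)) : ZMod h × ZMod h :=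
  (P.1 * (γ 0 0 : ℤ) + P.2 * (γ 1 0 : ℤ), P.1 * (γ 0 1 : ℤ) + P.2 * (γ 1 1 : ℤ))

/-- coefficientwise application of a `ℚ`-linear form -/
def piSer (π : ℂ →ₗ[ℚ] ℚ) (F : ℂ⟦X⟧) : ℚ⟦X⟧ := PowerSeries.mk fun n => π (coeff n F)

/-- the function with expansion `F` in `e^{2πiτ/h}` -/
def qfun (h : ℕ) (F : ℂ⟦X⟧) : ℍ → ℂ :=
  fun τ => ∑' n : ℕ, coeff n F * Function.Periodic.qParam (h : ℝ) (τ : ℂ) ^ n

/-- `(2πi)^{-2} ℘((aτ+b)/h; τ)` -/
def xf (h : ℕ) [NeZero h] (P : ZMod h × ZMod h) : ℍ → ℂ :=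
  qfun h (PowerSeries.C (1 / 12) + Xser (eC h) P)
/-- `(2πi)^{-3} ℘'((aτ+b)/h; τ)` -/
def dxf (h : ℕ) [NeZero h] (P : ZMod h × ZMod h) : ℍ → ℂ := qfun h (DXser (eC h) P)
def E4f : ℍ → ℂ := qfun 1 (lev ℂ 1 E4s)
def E6f : ℍ → ℂ := qfun 1 (lev ℂ 1 E6s)
def Delf : ℍ → ℂ := qfun 1 (lev ℂ 1 Dels)
def epsf : ℍ → ℂ := qfun 1 (lev ℂ 1 eps)
/-- `a₁ = ℘''/℘'` (weight one at a 3-torsion point) -/
def a1f (h : ℕ) [NeZero h] (P : ZMod h × ZMod h) : ℍ → ℂ :=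
  fun τ => (6 * xf h P τ ^ 2 - E4f τ / 24) / dxf h P τ

/-- the same torsion point at level `h * m` -/
def liftP {h : ℕ} (m : ℕ) (P : ZMod h × ZMod h) : ZMod (h * m) × ZMod (h * m) :=
  (((P.1.val * m : ℕ) : ZMod (h * m)), ((P.2.val * m : ℕ) : ZMod (h * m)))

/-- the point `(Aτ + B)/D` -/
def betaPt (A B D : ℕ) [NeZero A] [NeZero D] (τ : ℍ) : ℍ :=
  ⟨((A : ℂ) * τ + B) / D, by
    have hA : (0 : ℝ) < A := Nat.cast_pos.mpr (Nat.pos_of_ne_zero (NeZero.ne A))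
    have hD : (0 : ℝ) < D := Nat.cast_pos.mpr (Nat.pos_of_ne_zero (NeZero.ne D))
    have : (((A : ℂ) * τ + B) / D).im = A * τ.im / D := by
      rw [Complex.div_natCast_im]; simp
    rw [this]; exact div_pos (mul_pos hA τ.im_pos) hD⟩

/-- `D^{-k} f((Aτ+B)/D)`: the value of the lattice function `f` on `Dℤ + (Aτ+B)ℤ` -/
def betaFun (k : ℤ) (A B D : ℕ) [NeZero A] [NeZero D] (f : ℍ → ℂ) : ℍ → ℂ :=
  fun τ => (D : ℂ) ^ (-k) * f (betaPt A B D τ)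

/-- the Frobenius lift on `OO⟦q'⟧` -/
def phiL : OO⟦X⟧ →+* OO⟦X⟧ :=
  (PowerSeries.expand (R := OO) 2 two_ne_zero).toRingHom.comp (PowerSeries.map WittVector.frobenius)

/-! ### the abstract side -/

/-- the endomorphism ring `E` of the supersingular formal group, a group `G` mapping to its units,
and an action of `G` on an `𝔽₂`-vector space `W` which is smooth modulo the odd integers -/
structure GData (E : Type) [Ring E] (G : Type) [Group G] (φ : G →* Eˣ) (W : Type) [AddCommGroup W]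
    [DistribMulAction G W] : Prop where
  tf : ∀ x : E, 2 * x = 0 → x = 0
  gens : ∃ ω π : E, ω ^ 2 + ω + 1 = 0 ∧ π * ω = ω ^ 2 * π ∧
    (∃ (m : ℤ) (y : E), Odd m ∧ π ^ 2 = 2 * (m + 4 * y)) ∧
    ∀ x : E, ∃ a b c d : ℤ, ∃ y : E, x = a + b * ω + c * π + d * (ω * π) + 2 * y
  two : ∀ w : W, w + w = 0
  cont : ∀ w : W, ∃ j : ℕ, ∀ u : G,
    (∃ (m : ℤ) (y : E), Odd m ∧ ((φ u : Eˣ) : E) = m + 2 ^ j * y) → u • w = w

/-- functionals modulo 2 killing `I` and `w` -/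
def Kk {A : Type} [Ring A] (I : Ideal A) (w : A) : AddSubgroup (A →+ ZMod 2) where
  carrier := {l | (∀ x ∈ I, l x = 0) ∧ ∀ x, l (w * x) = 0}
  add_mem' := by
    rintro a b ⟨ha, ha'⟩ ⟨hb, hb'⟩
    exact ⟨fun x hx => by simp [ha x hx, hb x hx], fun x => by simp [ha' x, hb' x]⟩
  zero_mem' := ⟨fun _ _ => rfl, fun _ => rfl⟩
  neg_mem' := by
    rintro a ⟨ha, ha'⟩
    exact ⟨fun x hx => by simp [ha x hx], fun x => by simp [ha' x]⟩

/-- transition maps of the tower `ℤ₂ ⊗ A k` -/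
def limMap (A : ℕ → Type) [∀ k, Ring (A k)] (r : ∀ k, A (k + 1) →+* A k) (k : ℕ) :
    (ℤ_[2] ⊗[ℤ] A (k + 1)) →+* (ℤ_[2] ⊗[ℤ] A k) :=
  (Algebra.TensorProduct.map (AlgHom.id ℤ ℤ_[2]) (r k).toIntAlgHom).toRingHom

/-- the inverse limit of the tower `ℤ₂ ⊗ A k` (`HeckeTwo` is definitionally of this form) -/
def LimT (A : ℕ → Type) [∀ k, Ring (A k)] (r : ∀ k, A (k + 1) →+* A k) :
    Subring ((k : ℕ) → ℤ_[2] ⊗[ℤ] A k) where
  carrier := {a | ∀ k : ℕ, limMap A r k (a (k + 1)) = a k}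
  mul_mem' {a b} ha hb := fun k => by rw [Pi.mul_apply, map_mul, ha k, hb k, Pi.mul_apply]
  one_mem' := fun k => by rw [Pi.one_apply, map_one, Pi.one_apply]
  add_mem' {a b} ha hb := fun k => by rw [Pi.add_apply, map_add, ha k, hb k, Pi.add_apply]
  zero_mem' := fun k => by rw [Pi.zero_apply, map_zero, Pi.zero_apply]
  neg_mem' {a} ha := fun k => by rw [Pi.neg_apply, map_neg, ha k, Pi.neg_apply]

/-- finitely generated after localising at 2 -/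
def FG2 (A : Type) [AddCommGroup A] : Prop :=
  ∃ s : Finset A, ∀ t : A, ∃ m : ℤ, Odd m ∧ m • t ∈ Submodule.span ℤ (s : Set A)

/-! ### the Hecke side -/

open Crest.NumberTheoryR.HeckeTwoAdic in
/-- `n`-th coefficient of the `q`-expansion at `∞` -/
def aCo {N i : ℕ} (n : ℕ) (f : MF N i) : ℂ := coeff n (qExpansion 1 f)

/-- all prime factors of `n₀ ≥ 1` divide `2N` -/
def Smooth (N n₀ : ℕ) : Prop := n₀ ≠ 0 ∧ ∀ p : ℕ, p.Prime → p ∣ n₀ → p ∣ 2 * N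

open Crest.NumberTheoryR.HeckeTwoAdic in
/-- elements of the `k`-th stage acting as zero on the weights `i + 1` with `i % 2 = a` -/
def parI (N : ℕ) (T D : ℕ → (i : ℕ) → (MF N i →ₗ[ℂ] MF N i)) (a k : ℕ) : Ideal (stage N T D k) where
  carrier := {t | ∀ i : Fin k, (i : ℕ) % 2 = a → (t : EndProd N k) i = 0}
  add_mem' := fun {x y} hx hy i hi => by
    have h1 := hx i hi; have h2 := hy i hi
    simp only [Subring.coe_add, Pi.add_apply, h1, h2, add_zero]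
  zero_mem' := fun i _ => rfl
  smul_mem' := fun c x hx i hi => by
    have h1 := hx i hi
    simp only [smul_eq_mul, Subring.coe_mul, Pi.mul_apply, h1, mul_zero]

open Crest.NumberTheoryR.HeckeTwoAdic in
/-- what block H proves about the Hecke ring; `Tn k n` is `T_n`, `Sd k d` is `d S_d = d^i ⟨d⟩` on
weight `i + 1` (both only for arguments prime to `2N`) -/
structure HeckeFacts (N : ℕ) (T D : ℕ → (i : ℕ) → (MF N i →ₗ[ℂ] MF N i))
    (Tn Sd : (k : ℕ) → ℕ → stage N T D k) : Prop where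
  comm : ∀ k, ∀ a b : stage N T D k, a * b = b * a
  Tn_prime : ∀ k l, l.Prime → ¬ l ∣ 2 * N →
    (Tn k l : EndProd N k) = fun i : Fin k => T l ((i : ℕ) + 1)
  Sd_eq : ∀ k d, d.Coprime (2 * N) →
    (Sd k d : EndProd N k) = fun i : Fin k => ((d : ℂ) ^ (i : ℕ)) • D d ((i : ℕ) + 1)
  D_congr : ∀ d d' i, d.Coprime N → d ≡ d' [MOD N] → D d i = D d' i
  D_one : ∀ i, D 1 i = LinearMap.id
  Sd_mul : ∀ k d d', d.Coprime (2 * N) → d'.Coprime (2 * N) → Sd k (d * d') = Sd k d * Sd k d'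
  Tn_one : ∀ k, Tn k 1 = 1
  Tn_mul : ∀ k m l, m.Coprime (2 * N) → l.Prime → ¬ l ∣ 2 * N →
    Tn k m * Tn k l = Tn k (m * l) + if l ∣ m then Sd k l * Tn k (m / l) else 0
  Tn_res : ∀ k n, n.Coprime (2 * N) → restrictStageInt N T D k (Tn (k + 1) n) = Tn k n
  span : ∀ k, ∀ t : stage N T D k, t ∈ AddSubgroup.closure
    {x | ∃ d n : ℕ, d.Coprime (2 * N) ∧ n.Coprime (2 * N) ∧ x = Sd k d * Tn k n}
  aCo_Tn : ∀ k n n₀, n.Coprime (2 * N) → Smooth N n₀ → ∀ (i : Fin k) (f : MF N ((i : ℕ) + 1)),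
    aCo n₀ ((Tn k n : EndProd N k) i f) = aCo (n₀ * n) f
  deplete : ∀ (i n₀ : ℕ) (f : MF N i), Smooth N n₀ → ∃ g : ℍ → ℂ, IsMF i (GamS (3 * N ^ 2)) g ∧
    HasQ 1 g (PowerSeries.mk fun n => if n.Coprime (2 * N) then aCo (n₀ * n) f else 0)
  sep : ∀ (i : ℕ) (f : MF N (i + 1)), (∀ n, n ≠ 0 → aCo n f = 0) → f = 0
  toMF : ∀ (i : ℕ) (f : MF N i), IsMF i (CongruenceSubgroup.Gamma1 N) f
  nontriv : Nontrivial (stage N T D 4)

open Crest.NumberTheoryR.HeckeTwoAdic in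
/-- the `q`-expansion modulo 2 of a functional -/
def Gser {N : ℕ} {T D : ℕ → (i : ℕ) → (MF N i →ₗ[ℂ] MF N i)}
    (Tn Sd : (k : ℕ) → ℕ → stage N T D k) {k : ℕ} (l : stage N T D k →+ ZMod 2) (d : ℕ) : FF⟦X⟧ :=
  PowerSeries.mk fun n =>
    if n.Coprime (2 * N) then algebraMap (ZMod 2) FF (l (Sd k d * Tn k n)) else 0

end Crest.Agent.R007
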