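import Mathlib

/-! Row 7, block FG: the formal points `(t,w) = (x/y, 1/y)` of `y² + b x y + y = x³` in
characteristic two. -/

set_option autoImplicit false
set_option linter.unusedSectionVars false

namespace Crest.Agent.R007

/-- the curve `y² + b x y + y = x³`. -/
def Eb {K : Type*} [CommRing K] (b : K) : WeierstrassCurve K := ⟨b, 0, 1, 0, 0⟩

/-- characteristic two and `1 + m` consists of units. -/
class Lc {S : Type*} [CommRing S] (m : Ideal S) : Prop where
  two : (2 : S) = 0
  unit : ∀ x ∈ m, IsUnit (1 + x)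

/-- formal points. -/
@[ext] structure FPt {S : Type*} [CommRing S] (m : Ideal S) (b : S) where
  t : S
  w : S
  ht : t ∈ m
  hw : w ∈ m
  eq : w * (1 + b * t) + w ^ 2 = t ^ 3

theorem rinv_map {S S' : Type*} [CommRing S] [CommRing S'] (f : S →+* S') {u : S} (hu : IsUnit u) :
    f (Ring.inverse u) = Ring.inverse (f u) := by
  have h1 : f (Ring.inverse u) * f u = 1 := by rw [← map_mul, Ring.inverse_mul_cancel _ hu, map_one]
  have h2 := Ring.mul_inverse_cancel _ (hu.map f)
  calc f (Ring.inverse u) = f (Ring.inverse u) * (f u * Ring.inverse (f u)) := by rw [h2, mul_one]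
    _ = _ := by rw [← mul_assoc, h1, one_mul]

theorem Eb_line {K : Type*} [Field K] [DecidableEq K] (h2 : (2 : K) = 0) (b l n x₁ y₁ x₂ y₂ x₃ y₃ : K)
    (h₁ : (Eb b).toAffine.Nonsingular x₁ y₁) (h₂ : (Eb b).toAffine.Nonsingular x₂ y₂)
    (h₃ : (Eb b).toAffine.Nonsingular x₃ y₃)
    (e₁ : y₁ = l * x₁ + n) (e₂ : y₂ = l * x₂ + n) (e₃ : y₃ = l * x₃ + n)
    (es : x₁ + x₂ + x₃ = l ^ 2 + b * l)
    (ht : x₁ = x₂ → b * x₁ + 1 ≠ 0 ∧ l * (b * x₁ + 1) = x₁ ^ 2 + b * y₁) :
    WeierstrassCurve.Affine.Point.some _ _ h₁ + WeierstrassCurve.Affine.Point.some _ _ h₂ =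
      -WeierstrassCurve.Affine.Point.some _ _ h₃ := by
  have hxy : ¬(x₁ = x₂ ∧ y₁ = (Eb b).toAffine.negY x₂ y₂) := by
    rintro ⟨hx, hy⟩
    simp only [WeierstrassCurve.Affine.negY, Eb] at hy
    have := (ht hx).1
    grind
  have hs : (Eb b).toAffine.slope x₁ x₂ y₁ y₂ = l := by
    by_cases hx : x₁ = x₂
    · rw [WeierstrassCurve.Affine.slope_of_Y_ne hx (fun h => hxy ⟨hx, h⟩)]
      obtain ⟨a1, a2⟩ := ht hx
      simp only [WeierstrassCurve.Affine.negY, Eb]
      rw [div_eq_iff (by grind)]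
      grind
    · rw [WeierstrassCurve.Affine.slope_of_X_ne hx, div_eq_iff (sub_ne_zero.mpr hx)]
      grind
  rw [WeierstrassCurve.Affine.Point.add_some hxy, WeierstrassCurve.Affine.Point.neg_some]
  congr 1
  · rw [hs]; simp only [WeierstrassCurve.Affine.addX, Eb]; grind
  · rw [hs]
    simp only [WeierstrassCurve.Affine.addY, WeierstrassCurve.Affine.negAddY,
      WeierstrassCurve.Affine.addX, WeierstrassCurve.Affine.negY, Eb]
    grind

theorem Eb_col {K : Type*} [Field K] [DecidableEq K] (h2 : (2 : K) = 0) (B L N t1 w1 t2 w2 t3 w3 : K)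
    (h₁ : (Eb B).toAffine.Nonsingular (t1 / w1) (1 / w1))
    (h₂ : (Eb B).toAffine.Nonsingular (t2 / w2) (1 / w2))
    (h₃ : (Eb B).toAffine.Nonsingular (t3 / w3) (1 / w3))
    (hPw : w1 ≠ 0) (hQw : w2 ≠ 0) (hRw : w3 ≠ 0) (hn : N ≠ 0) (u1 : 1 + B * t1 ≠ 0)
    (p : w1 = L * t1 + N) (q : w2 = L * t2 + N) (r : w3 = L * t3 + N)
    (e1 : t1 + t2 + t3 = B * L + L ^ 2) (e2 : t1 * t2 + t1 * t3 + t2 * t3 = L + B * N)
    (e3 : t1 * t2 * t3 = N + N ^ 2) (eP : w1 * (1 + B * t1) + w1 ^ 2 = t1 ^ 3) :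
    WeierstrassCurve.Affine.Point.some _ _ h₁ + WeierstrassCurve.Affine.Point.some _ _ h₂ =
      -WeierstrassCurve.Affine.Point.some _ _ h₃ := by
  have hw : w1 * w2 * w3 = N ^ 3 := by
    rw [p, q, r]
    linear_combination L ^ 3 * e3 + L ^ 2 * N * e2 + L * N ^ 2 * e1 +
      (L ^ 3 * N + L ^ 3 * N ^ 2 + B * L ^ 2 * N ^ 2) * h2
  have hs : t1 * w2 * w3 + t2 * w1 * w3 + t3 * w1 * w2 = L ^ 2 * N + B * L * N ^ 2 := by
    rw [p, q, r]
    linear_combination 3 * L ^ 2 * e3 + 2 * L * N * e2 + N ^ 2 * e1 +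
      (2 * L ^ 2 * N + 2 * L ^ 2 * N ^ 2 + B * L * N ^ 2) * h2
  have ln : ∀ t w : K, w ≠ 0 → w = L * t + N → 1 / w = L / N * (t / w) + 1 / N := by
    intro t w hw0 e
    field_simp
    linear_combination (-1) * e - L * t * h2
  refine Eb_line h2 B (L / N) (1 / N) _ _ _ _ _ _ h₁ h₂ h₃ (ln _ _ hPw p) (ln _ _ hQw q)
    (ln _ _ hRw r) ?_ ?_
  · have : t1 / w1 + t2 / w2 + t3 / w3 =
        (t1 * w2 * w3 + t2 * w1 * w3 + t3 * w1 * w2) / (w1 * w2 * w3) := by field_simp
    rw [this, hw, hs]; field_simp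
  · intro hx
    have h12 : t1 = t2 := by
      field_simp at hx
      rw [p, q] at hx
      have : N * (t1 - t2) = 0 := by linear_combination hx
      exact sub_eq_zero.mp ((mul_eq_zero.mp this).resolve_left hn)
    subst h12
    have a1 : L * (1 + B * t1) = t1 ^ 2 + B * w1 := by
      linear_combination (-1) * e2 - B * p + t1 * t3 * h2 - B * N * h2
    have a2 : N * (1 + B * t1) = w1 * (B * t1 + w1) := by
      linear_combination (-(1 + B * t1)) * p - t1 * a1 + eP +
        (- w1 ^ 2 - B * t1 * w1) * h2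
    have a3 : B * t1 + w1 ≠ 0 := by
      intro h; rw [h, mul_zero] at a2; exact mul_ne_zero hn u1 a2
    constructor
    · intro h; field_simp at h; apply a3; linear_combination h
    · field_simp
      linear_combination (-L) * a2 + N * a1

namespace FPt

variable {S : Type*} [CommRing S] {m : Ideal S} {b : S}

instance : Zero (FPt m b) := ⟨⟨0, 0, m.zero_mem, m.zero_mem, by simp⟩⟩

@[simp] theorem zero_t : (0 : FPt m b).t = 0 := rfl
@[simp] theorem zero_w : (0 : FPt m b).w = 0 := rfl

variable [hL : Lc m]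
include hL

theorem unit_u (P : FPt m b) : IsUnit (1 + b * P.t + P.w) := by
  rw [add_assoc]; exact hL.unit _ (m.add_mem (m.mul_mem_left _ P.ht) P.hw)

theorem unit_d (P Q : FPt m b) : IsUnit (1 + b * Q.t + P.w + Q.w) := by
  rw [add_assoc, add_assoc]
  exact hL.unit _ (m.add_mem (m.mul_mem_left _ Q.ht) (m.add_mem P.hw Q.hw))

/-- `t` determines `w`. -/
theorem ext_t {P Q : FPt m b} (h : P.t = Q.t) : P = Q := by
  refine FPt.ext h ?_
  have h1 := P.eq
  have h2 := Q.eq
  rw [h] at h1
  have : (1 + b * Q.t + P.w + Q.w) * (P.w - Q.w) = 0 := by linear_combination h1 - h2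
  rw [(unit_d P Q).mul_right_eq_zero] at this
  exact sub_eq_zero.mp this

theorem eq_zero_of_t {P : FPt m b} (h : P.t = 0) : P = 0 := ext_t h

noncomputable instance : Neg (FPt m b) := ⟨fun P =>
  ⟨P.t * Ring.inverse (1 + b * P.t + P.w), P.w * Ring.inverse (1 + b * P.t + P.w),
    m.mul_mem_right _ P.ht, m.mul_mem_right _ P.hw, by
      have h := Ring.mul_inverse_cancel _ (unit_u P)
      have e := P.eq
      have h2 := hL.two
      set i := Ring.inverse (1 + b * P.t + P.w)
      linear_combination (i ^ 3) * e +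
        (-(P.w * i) - P.w * i ^ 2 * 0 - P.w * i * ((1 + b * P.t + P.w) * i) + P.w * i *
          ((1 + b * P.t + P.w) * i) + P.w * i ^ 2) * h * 0 +
        (-(P.w * i) + P.w * i ^ 2 * 0) * h + (- P.w * i ^ 2) * h +
        (b * P.t * P.w * i ^ 2 + P.w ^ 2 * i ^ 2) * h2⟩⟩

theorem neg_t (P : FPt m b) : (-P).t = P.t * Ring.inverse (1 + b * P.t + P.w) := rfl
theorem neg_w (P : FPt m b) : (-P).w = P.w * Ring.inverse (1 + b * P.t + P.w) := rfl

/-- slope of the chord in the `(t,w)`-plane. -/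
noncomputable def lam (P Q : FPt m b) : S :=
  (P.t ^ 2 + P.t * Q.t + Q.t ^ 2 + b * P.w) * Ring.inverse (1 + b * Q.t + P.w + Q.w)

theorem lam_mul (P Q : FPt m b) : lam P Q * (1 + b * Q.t + P.w + Q.w) =
    P.t ^ 2 + P.t * Q.t + Q.t ^ 2 + b * P.w := by
  rw [lam, mul_assoc, Ring.inverse_mul_cancel _ (unit_d P Q), mul_one]

theorem lam_mem (P Q : FPt m b) : lam P Q ∈ m := by
  refine m.mul_mem_right _ (m.add_mem (m.add_mem (m.add_mem ?_ ?_) ?_) ?_)
  · exact m.pow_mem_of_mem P.ht _ two_pos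
  · exact m.mul_mem_right _ P.ht
  · exact m.pow_mem_of_mem Q.ht _ two_pos
  · exact m.mul_mem_left _ P.hw

theorem lam_line (P Q : FPt m b) : Q.w = lam P Q * Q.t + (P.w + lam P Q * P.t) := by
  have h2 := hL.two
  have : (1 + b * Q.t + P.w + Q.w) * (Q.w - (lam P Q * Q.t + (P.w + lam P Q * P.t))) = 0 := by
    linear_combination (-(Q.t + P.t)) * lam_mul P Q + Q.eq - P.eq +
      (- b * P.w * Q.t - P.t ^ 3 - P.t ^ 2 * Q.t - P.t * Q.t ^ 2) * h2
  rw [(unit_d P Q).mul_right_eq_zero] at this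
  exact sub_eq_zero.mp this

omit hL in
/-- three points cut out by a line `w = l t + n`. -/
structure Col (P Q R : FPt m b) (l n : S) : Prop where
  hn : n ∈ m
  p : P.w = l * P.t + n
  q : Q.w = l * Q.t + n
  r : R.w = l * R.t + n
  e1 : P.t + Q.t + R.t = b * l + l ^ 2
  e2 : P.t * Q.t + P.t * R.t + Q.t * R.t = l + b * n
  e3 : P.t * Q.t * R.t = n + n ^ 2

theorem third_aux (P Q : FPt m b) (l n t : S) (hl : l = lam P Q) (hn : n = P.w + l * P.t)
    (ht : t = b * l + l ^ 2 + P.t + Q.t) :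
    P.t * Q.t + P.t * t + Q.t * t = l + b * n ∧ P.t * Q.t * t = n + n ^ 2 := by
  have h2 := hL.two
  have h1 := lam_mul P Q
  have h3 := lam_line P Q
  rw [← hl] at h1 h3
  have e2 : P.t * Q.t + P.t * t + Q.t * t = l + b * n := by
    rw [ht, hn]
    linear_combination (-1) * h1 + (l - b) * h3 * 0 + l * h3 +
      (P.t * Q.t + b * l * Q.t + l ^ 2 * P.t + l ^ 2 * Q.t + l * P.w - b * P.w) * h2
  refine ⟨e2, ?_⟩
  have e := P.eq
  have hw : P.w = n + l * P.t := by rw [hn]; linear_combination (- l * P.t) * h2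
  rw [hw] at e
  have ht' : t = b * l + l ^ 2 + P.t + Q.t := ht
  linear_combination (-1) * e + P.t * e2 * (-1) + P.t ^ 2 * ht' +
    (P.t * Q.t * t + P.t ^ 2 * Q.t + l * n * P.t + l ^ 2 * P.t ^ 2 + b * l * P.t ^ 2) * h2

/-- third intersection point. -/
noncomputable def third (P Q : FPt m b) : FPt m b where
  t := b * lam P Q + lam P Q ^ 2 + P.t + Q.t
  w := lam P Q * (b * lam P Q + lam P Q ^ 2 + P.t + Q.t) + (P.w + lam P Q * P.t)
  ht := m.add_mem (m.add_mem (m.add_mem (m.mul_mem_left _ (lam_mem P Q))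
    (m.pow_mem_of_mem (lam_mem P Q) _ two_pos)) P.ht) Q.ht
  hw := m.add_mem (m.mul_mem_right _ (lam_mem P Q)) (m.add_mem P.hw (m.mul_mem_left _ P.ht))
  eq := by
    have h2 := hL.two
    obtain ⟨e2, e3⟩ := third_aux P Q _ _ _ rfl rfl rfl
    set l := lam P Q
    set n := P.w + l * P.t
    set t := b * l + l ^ 2 + P.t + Q.t with ht
    linear_combination (-t) * e2 - e3 - t ^ 2 * ht +
      (l * n * t + P.t * Q.t * t) * h2

theorem col_third (P Q : FPt m b) : Col P Q (third P Q) (lam P Q) (P.w + lam P Q * P.t) := by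
  have h2 := hL.two
  obtain ⟨e2, e3⟩ := third_aux P Q _ _ _ rfl rfl rfl
  refine ⟨m.add_mem P.hw (m.mul_mem_left _ P.ht), ?_, lam_line P Q, rfl, ?_, e2, e3⟩
  · linear_combination (- lam P Q * P.t) * h2
  · show P.t + Q.t + (b * lam P Q + lam P Q ^ 2 + P.t + Q.t) = _
    linear_combination (P.t + Q.t) * h2

noncomputable instance : Add (FPt m b) := ⟨fun P Q => -third P Q⟩

theorem add_def (P Q : FPt m b) : P + Q = -third P Q := rfl

/-- valid over every ring. -/
theorem neg_neg' (P : FPt m b) : - -P = P := by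
  apply ext_t
  have h2 := hL.two
  have h := Ring.mul_inverse_cancel _ (unit_u P)
  have h' := Ring.mul_inverse_cancel _ (unit_u (-P))
  rw [neg_t]
  set j := Ring.inverse (1 + b * (-P).t + (-P).w)
  rw [neg_t, neg_w] at h'
  rw [neg_t]
  set i := Ring.inverse (1 + b * P.t + P.w)
  linear_combination P.t * h' + (P.t * j) * h - (P.t * j * i * (b * P.t + P.w)) * h2

theorem third_zero (P : FPt m b) : third P 0 = -P := by
  apply ext_t
  have h2 := hL.two
  have c := col_third P 0
  have hn : P.w + lam P 0 * P.t = 0 := by simpa using c.q.symm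
  have e1 := c.e1
  have hl := lam_mul P 0
  simp only [zero_t, zero_w, mul_zero, add_zero, ne_eq, OfNat.ofNat_ne_zero, not_false_eq_true,
    zero_pow] at e1 hl
  have hu := unit_u P
  have hu1 : IsUnit (1 + P.w) := hL.unit _ P.hw
  have h := Ring.mul_inverse_cancel _ hu
  rw [neg_t]
  set i := Ring.inverse (1 + b * P.t + P.w)
  set l := lam P 0
  set t := (third P 0).t
  have e := P.eq
  -- `l u = t²`
  have hlu : l * (1 + b * P.t + P.w) = P.t ^ 2 := by
    linear_combination hl + b * hn - (b * P.w) * h2 + b * P.w * h2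
  have : (1 + b * P.t + P.w) ^ 2 * (t * (1 + b * P.t + P.w) - P.t) = 0 := by
    linear_combination (1 + b * P.t + P.w) ^ 3 * e1 +
      (b * (1 + b * P.t + P.w) ^ 2 + (1 + b * P.t + P.w) * (l * (1 + b * P.t + P.w) + P.t ^ 2)) * hlu
      - (P.t * (1 + b * P.t + P.w)) * e - (P.t * (1 + b * P.t + P.w) ^ 2) * h2
  rw [(hu.pow 2).mul_right_eq_zero, sub_eq_zero] at this
  rw [← this, mul_assoc, h, mul_one]

/-- valid over every ring. -/
theorem add_zero' (P : FPt m b) : P + 0 = P := by rw [add_def, third_zero, neg_neg']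

section Map
variable {S' : Type*} [CommRing S'] {m' : Ideal S'} {b' : S'}

omit hL in
/-- functoriality. -/
def map0 (f : S →+* S') (hf : ∀ x ∈ m, f x ∈ m') (hb : f b = b') (P : FPt m b) : FPt m' b' :=
  ⟨f P.t, f P.w, hf _ P.ht, hf _ P.hw, by
    have := congrArg f P.eq
    simpa [hb] using this⟩

variable [hL' : Lc m'] (f : S →+* S') (hf : ∀ x ∈ m, f x ∈ m') (hb : f b = b')

theorem map0_neg (P : FPt m b) : map0 f hf hb (-P) = -map0 f hf hb P := by
  apply ext_t
  show f (P.t * _) = f P.t * Ring.inverse (1 + b' * f P.t + f P.w)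
  rw [map_mul, rinv_map f (unit_u P)]
  simp [hb]

theorem map0_lam (P Q : FPt m b) : f (lam P Q) = lam (map0 f hf hb P) (map0 f hf hb Q) := by
  rw [lam, map_mul, rinv_map f (unit_d P Q)]
  simp [hb, lam, map0]

theorem map0_add (P Q : FPt m b) : map0 f hf hb (P + Q) = map0 f hf hb P + map0 f hf hb Q := by
  rw [add_def, add_def, map0_neg]
  congr 1
  apply ext_t
  show f (b * lam P Q + lam P Q ^ 2 + P.t + Q.t) = b' * lam _ _ + lam _ _ ^ 2 + f P.t + f Q.t
  rw [← map0_lam f hf hb]
  simp [hb]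

end Map

/-- adding a point that vanishes modulo `s` does not change `t` modulo `s`. -/
theorem dvd_add_sub (s : S) (P N : FPt m b) (h : s ∣ N.t) : s ∣ (P + N).t - P.t := by
  let π := Ideal.Quotient.mk (Ideal.span {s})
  have : Lc (m.map π) := ⟨by rw [← map_ofNat π 2, hL.two, map_zero], by
    intro x hx
    obtain ⟨y, hy, rfl⟩ := (Ideal.mem_map_iff_of_surjective π Ideal.Quotient.mk_surjective).mp hx
    simpa using (hL.unit y hy).map π⟩
  have hf : ∀ x ∈ m, π x ∈ m.map π := fun x hx => Ideal.mem_map_of_mem _ hx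
  have h0 : map0 π hf rfl N = 0 := eq_zero_of_t (by
    show π N.t = 0
    rwa [Ideal.Quotient.eq_zero_iff_mem, Ideal.mem_span_singleton])
  have := map0_add π hf rfl P N
  rw [h0, add_zero'] at this
  have h1 : π (P + N).t = π P.t := congrArg FPt.t this
  rwa [Ideal.Quotient.eq, Ideal.mem_span_singleton] at h1

section Emb
variable {K : Type*} [Field K] (f : S →+* K)

include f in
theorem two_K : (2 : K) = 0 := by rw [← map_ofNat f 2, hL.two, map_zero]

theorem w_eq_zero_iff (P : FPt m b) : f P.w = 0 ↔ f P.t = 0 := by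
  have e := congrArg f P.eq
  have hu := ((unit_u P).map f).ne_zero
  simp only [map_add, map_mul, map_pow, map_one] at e hu
  constructor
  · intro h; rw [h] at e; simpa using e.symm
  · intro h
    have : f P.w * (1 + f b * f P.t + f P.w) = 0 := by rw [h] at e ⊢; linear_combination e
    exact (mul_eq_zero.mp this).resolve_right hu

theorem nonsing (P : FPt m b) (h : f P.w ≠ 0) :
    (Eb (f b)).toAffine.Nonsingular (f P.t / f P.w) (1 / f P.w) := by
  have e := congrArg f P.eq
  have h2 : (2 : K) = 0 := two_K (m := m) f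
  have ht : f P.t ≠ 0 := fun h' => h ((w_eq_zero_iff f P).mpr h')
  have hu := ((hL.unit _ (m.pow_mem_of_mem P.ht 3 (by norm_num))).map f).ne_zero
  simp only [map_add, map_mul, map_pow, map_one] at e hu
  rw [WeierstrassCurve.Affine.nonsingular_iff, WeierstrassCurve.Affine.equation_iff]
  simp only [Eb]
  set t := f P.t
  set w := f P.w
  set c := f b
  refine ⟨by field_simp; linear_combination e, ?_⟩
  by_contra hc
  push Not at hc
  obtain ⟨h1, h3⟩ := hc
  field_simp at h1 h3
  grind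

open Classical in
/-- the point of `E_b(K)` attached to a formal point. -/
noncomputable def toE0 (P : FPt m b) : (Eb (f b)).toAffine.Point :=
  if h : f P.w = 0 then 0 else .some _ _ (nonsing f P h)

theorem toE0_of_ne (P : FPt m b) (h : f P.w ≠ 0) : toE0 f P = .some _ _ (nonsing f P h) :=
  dif_neg h

theorem toE0_of_eq (P : FPt m b) (h : f P.w = 0) : toE0 f P = 0 := dif_pos h

theorem toE0_neg (P : FPt m b) : toE0 f (-P) = -toE0 f P := by
  have hu := ((unit_u P).map f).ne_zero
  have h2 : (2 : K) = 0 := two_K (m := m) f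
  have e := congrArg f P.eq
  have hi : f (Ring.inverse (1 + b * P.t + P.w)) = (f (1 + b * P.t + P.w))⁻¹ := by
    rw [rinv_map f (unit_u P), Ring.inverse_eq_inv]
  by_cases h : f P.w = 0
  · rw [toE0_of_eq f P h, toE0_of_eq f (-P) (by rw [neg_w, map_mul, h, zero_mul])]
    rfl
  · have h' : f (-P).w ≠ 0 := by
      rw [neg_w, map_mul, hi]; exact mul_ne_zero h (inv_ne_zero hu)
    rw [toE0_of_ne f P h, toE0_of_ne f _ h', WeierstrassCurve.Affine.Point.neg_some]
    simp only [map_add, map_mul, map_pow, map_one] at e hu hi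
    congr 1
    · rw [neg_t, neg_w, map_mul, map_mul, hi, mul_div_mul_right _ _ (inv_ne_zero hu)]
    · rw [neg_w, map_mul, hi]
      simp only [WeierstrassCurve.Affine.negY, Eb]
      field_simp
      grind

variable [DecidableEq K]

omit hL in
theorem Col.swap12 {P Q R : FPt m b} {l n : S} (c : Col P Q R l n) : Col Q P R l n :=
  ⟨c.hn, c.q, c.p, c.r, by linear_combination c.e1, by linear_combination c.e2,
    by linear_combination c.e3⟩

omit hL in
theorem Col.swap23 {P Q R : FPt m b} {l n : S} (c : Col P Q R l n) : Col P R Q l n :=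
  ⟨c.hn, c.p, c.r, c.q, by linear_combination c.e1, by linear_combination c.e2,
    by linear_combination c.e3⟩

theorem col_sum_zero {P Q R : FPt m b} {l n : S} (c : Col P Q R l n) (hR : f R.t = 0) :
    toE0 f P + toE0 f Q + toE0 f R = 0 := by
  have h2 : (2 : K) = 0 := two_K (m := m) f
  have hRw := (w_eq_zero_iff f R).mpr hR
  rw [toE0_of_eq f R hRw, add_zero]
  have p := congrArg f c.p
  have q := congrArg f c.q
  have r := congrArg f c.r
  have e1 := congrArg f c.e1
  have e2 := congrArg f c.e2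
  simp only [map_add, map_mul, map_pow, hR, hRw, mul_zero, zero_add, add_zero] at p q r e1 e2
  rw [← r] at p q e2
  by_cases hP : f P.w = 0
  · have hPt := (w_eq_zero_iff f P).mp hP
    have hQ : f Q.w = 0 := by grind
    rw [toE0_of_eq f P hP, toE0_of_eq f Q hQ, add_zero]
  · have hPt : f P.t ≠ 0 := fun h => hP ((w_eq_zero_iff f P).mpr h)
    have hl : f l ≠ 0 := by grind
    have hQt : f Q.t ≠ 0 := by grind
    have hQ : f Q.w ≠ 0 := fun h => hQt ((w_eq_zero_iff f Q).mp h)
    rw [toE0_of_ne f P hP, toE0_of_ne f Q hQ]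
    apply WeierstrassCurve.Affine.Point.add_of_Y_eq
    · field_simp; grind
    · simp only [WeierstrassCurve.Affine.negY, Eb]
      field_simp
      grind

theorem col_sum {P Q R : FPt m b} {l n : S} (c : Col P Q R l n) :
    toE0 f P + toE0 f Q + toE0 f R = 0 := by
  have h2 : (2 : K) = 0 := two_K (m := m) f
  by_cases hR : f R.t = 0
  · exact col_sum_zero f c hR
  by_cases hQ : f Q.t = 0
  · rw [add_right_comm]; exact col_sum_zero f c.swap23 hQ
  by_cases hP : f P.t = 0
  · rw [add_comm (toE0 f P), add_right_comm]; exact col_sum_zero f c.swap12.swap23 hP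
  have hPw : f P.w ≠ 0 := fun h => hP ((w_eq_zero_iff f P).mp h)
  have hQw : f Q.w ≠ 0 := fun h => hQ ((w_eq_zero_iff f Q).mp h)
  have hRw : f R.w ≠ 0 := fun h => hR ((w_eq_zero_iff f R).mp h)
  have p := congrArg f c.p
  have q := congrArg f c.q
  have r := congrArg f c.r
  have e1 := congrArg f c.e1
  have e2 := congrArg f c.e2
  have e3 := congrArg f c.e3
  have eP := congrArg f P.eq
  have u1 := ((hL.unit _ (m.mul_mem_left b P.ht)).map f).ne_zero
  simp only [map_add, map_mul, map_pow, map_one] at p q r e1 e2 e3 eP u1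
  have hn : f n ≠ 0 := by
    intro h
    rw [h] at e3
    simp [hP, hQ, hR] at e3
  rw [toE0_of_ne f P hPw, toE0_of_ne f Q hQw, toE0_of_ne f R hRw, add_eq_zero_iff_eq_neg]
  exact Eb_col h2 _ _ _ _ _ _ _ _ _ _ _ _ hPw hQw hRw hn u1 p q r e1 e2 e3 eP

theorem toE0_add (P Q : FPt m b) : toE0 f (P + Q) = toE0 f P + toE0 f Q := by
  rw [add_def, toE0_neg, eq_comm, ← add_eq_zero_iff_eq_neg]
  exact col_sum f (col_third P Q)

omit [DecidableEq K] in
theorem toE0_inj (hf : Function.Injective f) : Function.Injective (toE0 (m := m) (b := b) f) := by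
  intro P Q h
  apply ext_t
  apply hf
  by_cases hP : f P.w = 0
  · by_cases hQ : f Q.w = 0
    · rw [(w_eq_zero_iff f P).mp hP, (w_eq_zero_iff f Q).mp hQ]
    · rw [toE0_of_eq f P hP, toE0_of_ne f Q hQ] at h; cases h
  · by_cases hQ : f Q.w = 0
    · rw [toE0_of_ne f P hP, toE0_of_eq f Q hQ] at h; cases h
    · rw [toE0_of_ne f P hP, toE0_of_ne f Q hQ] at h
      injection h with h1 h3
      field_simp at h1 h3
      rw [h3] at h1
      exact mul_right_cancel₀ hP (h1.trans (mul_comm _ _))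

end Emb

noncomputable instance [IsDomain S] : AddCommGroup (FPt m b) := by
  classical
  have hf := FaithfulSMul.algebraMap_injective S (FractionRing S)
  have hi := toE0_inj (m := m) (b := b) _ hf
  have h0 : toE0 (algebraMap S (FractionRing S)) (0 : FPt m b) = 0 := toE0_of_eq _ _ (by simp)
  exact
    { add_assoc := fun P Q R => hi (by simp only [toE0_add, add_assoc])
      zero_add := fun P => hi (by rw [toE0_add, h0, zero_add])
      add_zero := add_zero'
      nsmul := nsmulRec
      zsmul := zsmulRec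
      neg_add_cancel := fun P => hi (by rw [toE0_add, toE0_neg, h0, neg_add_cancel])
      add_comm := fun P Q => hi (by rw [toE0_add, toE0_add, add_comm]) }

/-- the embedding of the formal points into `E_b(K)`. -/
noncomputable def toE [IsDomain S] {K : Type*} [Field K] [DecidableEq K] (f : S →+* K) :
    FPt m b →+ (Eb (f b)).toAffine.Point where
  toFun := toE0 f
  map_zero' := toE0_of_eq _ _ (by simp)
  map_add' := toE0_add f

theorem toE_apply [IsDomain S] {K : Type*} [Field K] [DecidableEq K] (f : S →+* K) (P : FPt m b) :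
    toE f P = toE0 f P := rfl

theorem toE_inj [IsDomain S] {K : Type*} [Field K] [DecidableEq K] (f : S →+* K)
    (hf : Function.Injective f) : Function.Injective (toE (m := m) (b := b) f) := toE0_inj f hf

/-- functoriality, as a group homomorphism. -/
noncomputable def map [IsDomain S] {S' : Type*} [CommRing S'] [IsDomain S'] {m' : Ideal S'} {b' : S'}
    [Lc m'] (f : S →+* S') (hf : ∀ x ∈ m, f x ∈ m') (hb : f b = b') : FPt m b →+ FPt m' b' where
  toFun := map0 f hf hb
  map_zero' := ext_t (map_zero f)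
  map_add' := map0_add f hf hb

@[simp] theorem map_t [IsDomain S] {S' : Type*} [CommRing S'] [IsDomain S'] {m' : Ideal S'} {b' : S'}
    [Lc m'] (f : S →+* S') (hf : ∀ x ∈ m, f x ∈ m') (hb : f b = b') (P : FPt m b) :
    (map f hf hb P).t = f P.t := rfl

@[simp] theorem map_w [IsDomain S] {S' : Type*} [CommRing S'] [IsDomain S'] {m' : Ideal S'} {b' : S'}
    [Lc m'] (f : S →+* S') (hf : ∀ x ∈ m, f x ∈ m') (hb : f b = b') (P : FPt m b) :
    (map f hf hb P).w = f P.w := rfl

end FPt

end Crest.Agent.R007
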