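import Crest.Agent.R007.GKL
import Crest.Agent.R007.GPt

/-! Row 7, block GEO: Kummer data of the curve `y² + b x y + y = x³`. -/

set_option autoImplicit false
set_option linter.unusedSectionVars false

noncomputable section
namespace Crest.Agent.R007

open WeierstrassCurve WeierstrassCurve.Affine

variable {K : Type} [Field K]

/-- `1 / j` -/
def rhoE (b : K) : K := (b ^ 3 + 1) / b ^ 12

theorem map_rhoE {K' : Type} [Field K'] (f : K →+* K') (b : K) : f (rhoE b) = rhoE (f b) := by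
  simp [rhoE]

/-- normalised `x`-coordinate -/
def xiE (b : K) : (Eb b).toAffine.Point → K
  | .zero => 0
  | .some x _ _ => (b * x + 1) / b ^ 3

/-- normalised tangent slope -/
def lamE (b : K) : (Eb b).toAffine.Point → K
  | .zero => 0
  | .some x y _ => (x ^ 2 + b * y) / (b * (b * x + 1))

@[simp] theorem xiE_zero (b : K) : xiE b 0 = 0 := rfl
@[simp] theorem xiE_some (b : K) {x y : K} (h : (Eb b).toAffine.Nonsingular x y) :
    xiE b (.some x y h) = (b * x + 1) / b ^ 3 := rfl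
@[simp] theorem lamE_zero (b : K) : lamE b 0 = 0 := rfl
@[simp] theorem lamE_some (b : K) {x y : K} (h : (Eb b).toAffine.Nonsingular x y) :
    lamE b (.some x y h) = (x ^ 2 + b * y) / (b * (b * x + 1)) := rfl

variable [CharP K 2]

theorem Eb_equation (b x y : K) :
    (Eb b).toAffine.Equation x y ↔ y ^ 2 + b * x * y + y = x ^ 3 := by
  rw [equation_iff]
  simp [Eb]

/-- a singular point has `b x = 1`, `x² = b y`, hence `b³ = 1` -/
theorem Eb_nonsing {b x y : K} (hΔ : b ^ 3 + 1 ≠ 0) (h : y ^ 2 + b * x * y + y = x ^ 3) :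
    (Eb b).toAffine.Nonsingular x y := by
  have h2 : (2 : K) = 0 := CharTwo.two_eq_zero
  rw [nonsingular_iff', Eb_equation]
  refine ⟨h, ?_⟩
  by_contra hc
  rw [not_or, not_not, not_not] at hc
  obtain ⟨c1, c2⟩ := hc
  simp only [Eb] at c1 c2
  have e1 : b * x = 1 := by linear_combination c2 - (y + 1) * h2
  have e2 : b * y = x ^ 2 := by linear_combination c1 + x ^ 2 * h2
  have e3 : y ^ 2 = x ^ 3 := by linear_combination h - y * e1 - y * h2
  have e4 : b ^ 2 * x ^ 3 = x ^ 4 := by linear_combination (b * y + x ^ 2) * e2 - b ^ 2 * e3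
  have e5 : b ^ 3 * (b * x) ^ 3 = (b * x) ^ 4 := by linear_combination b ^ 4 * e4
  rw [e1] at e5
  exact hΔ (by linear_combination e5 + h2)

variable [DecidableEq K]

theorem Eb_two_ne {b x y : K} (h : (Eb b).toAffine.Nonsingular x y) :
    (Point.some x y h + Point.some x y h ≠ 0) ↔ b * x + 1 ≠ 0 := by
  have h2 : (2 : K) = 0 := CharTwo.two_eq_zero
  rw [Ne, Ne, not_iff_not, add_eq_zero_iff_eq_neg, Point.neg_some, Point.some.injEq]
  simp only [negY, Eb, true_and]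
  constructor
  · intro e
    linear_combination e - y * h2
  · intro e
    linear_combination e + (y) * h2 - 0 * e

variable {b : K} (hb : b ≠ 0)
include hb

theorem xiE_neg (P : (Eb b).toAffine.Point) : xiE b (-P) = xiE b P := by
  rcases P with _ | ⟨x, y, h⟩ <;> rfl

theorem xiE_ne (P : (Eb b).toAffine.Point) (h : P + P ≠ 0) : xiE b P ≠ 0 := by
  rcases P with _ | ⟨x, y, hxy⟩
  · exact absurd (add_zero _) h
  · exact div_ne_zero ((Eb_two_ne hxy).1 h) (pow_ne_zero _ hb)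

/-- `Point.X_eq_iff` -/
theorem xiE_inj (P Q : (Eb b).toAffine.Point) (hP : P ≠ 0) (hQ : Q ≠ 0) (h₁ : P + Q ≠ 0)
    (h₂ : P - Q ≠ 0) : xiE b P ≠ xiE b Q := by
  rcases P with _ | ⟨x, y, hxy⟩
  · exact absurd rfl hP
  rcases Q with _ | ⟨x', y', hxy'⟩
  · exact absurd rfl hQ
  intro he
  rw [xiE_some, xiE_some, div_left_inj' (pow_ne_zero _ hb), add_left_inj] at he
  rcases (Point.X_eq_iff (h₁ := hxy) (h₂ := hxy')).1 (mul_left_cancel₀ hb he) with e | e
  · exact h₂ (sub_eq_zero.2 e)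
  · exact h₁ (add_eq_zero_iff_eq_neg.2 e)

theorem lamE_neg (P : (Eb b).toAffine.Point) (h : P + P ≠ 0) : lamE b (-P) = lamE b P + 1 := by
  have h2 : (2 : K) = 0 := CharTwo.two_eq_zero
  rcases P with _ | ⟨x, y, hxy⟩
  · exact absurd (add_zero _) h
  have h1 := (Eb_two_ne hxy).1 h
  rw [Point.neg_some, lamE_some, lamE_some, div_add_one (mul_ne_zero hb h1)]
  congr 1
  simp only [negY, Eb]
  linear_combination (-(b * y) - b * (b * x + 1)) * h2

omit hb in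
theorem h28_dbl {x y : K} (h : (Eb b).toAffine.Nonsingular x y)
    (hP : Point.some x y h + Point.some x y h ≠ 0) : ∃ m, m * (b * x + 1) = x ^ 2 + b * y ∧
      xiE b (Point.some x y h + Point.some x y h) = (b * (m ^ 2 + b * m) + 1) / b ^ 3 := by
  have h2 : (2 : K) = 0 := CharTwo.two_eq_zero
  have hy : y ≠ (Eb b).toAffine.negY x y := fun e => hP (Point.add_self_of_Y_eq e)
  have h1 := (Eb_two_ne h).1 hP
  refine ⟨(Eb b).toAffine.slope x x y y, ?_, ?_⟩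
  · have e : y - (Eb b).toAffine.negY x y = b * x + 1 := by
      simp only [negY, Eb]
      linear_combination y * h2
    rw [slope_of_Y_ne rfl hy, e, div_mul_cancel₀ _ h1]
    simp only [Eb]
    linear_combination (x ^ 2 - b * y) * h2
  · rw [Point.add_self_of_Y_ne hy, xiE_some]
    congr 3
    simp only [addX, Eb]
    linear_combination (-x) * h2

omit hb in
theorem h28_add {x₁ y₁ x₂ y₂ : K} (h₁ : (Eb b).toAffine.Nonsingular x₁ y₁)
    (h₂ : (Eb b).toAffine.Nonsingular x₂ y₂) (hx : x₁ ≠ x₂) : ∃ m, m * (x₁ + x₂) = y₁ + y₂ ∧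
      xiE b (Point.some x₁ y₁ h₁ + Point.some x₂ y₂ h₂) =
        (b * (m ^ 2 + b * m + x₁ + x₂) + 1) / b ^ 3 := by
  refine ⟨(Eb b).toAffine.slope x₁ x₂ y₁ y₂, ?_, ?_⟩
  · rw [slope_of_X_ne hx, ← CharTwo.sub_eq_add, ← CharTwo.sub_eq_add,
      div_mul_cancel₀ _ (sub_ne_zero.2 hx)]
  · rw [Point.add_of_X_ne hx, xiE_some]
    congr 3
    simp only [addX, Eb, CharTwo.sub_eq_add, add_zero]

/-- the tangent slope is `m = b λ` and `x(2P) = m² + b m` -/
theorem lamE_sq (P : (Eb b).toAffine.Point) (h : P + P ≠ 0) :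
    lamE b P ^ 2 + lamE b P + (b ^ 3)⁻¹ = xiE b (P + P) := by
  rcases P with _ | ⟨x, y, hP⟩
  · exact absurd (add_zero _) h
  obtain ⟨m, hm, e⟩ := h28_dbl hP h
  have h1 := (Eb_two_ne hP).1 h
  rw [e, lamE_some, ← hm, mul_div_mul_right _ _ h1]
  field_simp

/-- `x(2P) (b x + 1)² = x⁴ + b x²` -/
theorem xiE_dbl (P : (Eb b).toAffine.Point) (h : P + P ≠ 0) :
    xiE b (P + P) * xiE b P ^ 2 = xiE b P ^ 4 + rhoE b := by
  rcases P with _ | ⟨x, y, hP⟩
  · exact absurd (add_zero _) h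
  obtain ⟨m, hm, e⟩ := h28_dbl hP h
  have h2 : (2 : K) = 0 := CharTwo.two_eq_zero
  have h3 := (Eb_equation _ _ _).1 hP.1
  have key : (b * (m ^ 2 + b * m) + 1) * (b * x + 1) ^ 2 = b * x ^ 4 + 1 := by
    linear_combination (b * (m * (b * x + 1) + x ^ 2 + b * y) + b ^ 2 * (b * x + 1)) * hm +
      b ^ 3 * h3 + (b ^ 2 * x ^ 2 * y + b ^ 3 * x ^ 3 + b ^ 2 * x ^ 2 + b * x) * h2
  rw [e, xiE_some, rhoE]
  field_simp
  linear_combination b ^ 3 * key -
    (2 * b ^ 3 * x ^ 3 + 3 * b ^ 2 * x ^ 2 + 2 * b * x + 1) * h2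

/-- the two slopes differ by `δ = (b x₂ + 1) / (x₁ + x₂)`; `x₃ + x₄ = δ (δ + b)` -/
theorem xiE_sum (P Q : (Eb b).toAffine.Point) (hP : P ≠ 0) (hQ : Q ≠ 0) (h₁ : P + Q ≠ 0)
    (h₂ : P - Q ≠ 0) :
    (xiE b (P + Q) + xiE b (P - Q)) * (xiE b P + xiE b Q) ^ 2 = xiE b P * xiE b Q := by
  have hx := xiE_inj hb P Q hP hQ h₁ h₂
  rcases P with _ | ⟨x₁, y₁, k₁⟩
  · exact absurd rfl hP
  rcases Q with _ | ⟨x₂, y₂, k₂⟩
  · exact absurd rfl hQ
  have hx' : x₁ ≠ x₂ := by rintro rfl; exact hx rfl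
  obtain ⟨m, hm, e⟩ := h28_add k₁ k₂ hx'
  obtain ⟨m', hm', e'⟩ := h28_add k₁ ((nonsingular_neg _ _).2 k₂) hx'
  have h2 : (2 : K) = 0 := CharTwo.two_eq_zero
  simp only [negY, Eb] at hm'
  have key : (m ^ 2 + b * m + (m' ^ 2 + b * m')) * (x₁ + x₂) ^ 2 = (b * x₁ + 1) * (b * x₂ + 1) := by
    grind
  rw [sub_eq_add_neg, Point.neg_some, e, e', xiE_some, xiE_some]
  field_simp
  grind

/-- `x₃ = m² + b m + x₁ + x₂`, `m = (y₁ + y₂) / (x₁ + x₂)`; clear denominators: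
`(b x₃ + 1) (x₁ + x₂)² = (x₁² + b y₁)(b x₂ + 1) + (x₂² + b y₂)(b x₁ + 1)` -/
theorem xiE_add (P Q : (Eb b).toAffine.Point) (hP : P + P ≠ 0) (hQ : Q + Q ≠ 0) (h₁ : P + Q ≠ 0)
    (h₂ : P - Q ≠ 0) :
    xiE b (P + Q) * (xiE b P + xiE b Q) ^ 2 = xiE b P * xiE b Q * (lamE b P + lamE b Q) := by
  rcases P with _ | ⟨x₁, y₁, k₁⟩
  · exact absurd (add_zero _) hP
  rcases Q with _ | ⟨x₂, y₂, k₂⟩
  · exact absurd (add_zero _) hQ
  have hx := xiE_inj hb _ _ (Point.some_ne_zero k₁) (Point.some_ne_zero k₂) h₁ h₂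
  have hx' : x₁ ≠ x₂ := by rintro rfl; exact hx rfl
  obtain ⟨m, hm, e⟩ := h28_add k₁ k₂ hx'
  have h2 : (2 : K) = 0 := CharTwo.two_eq_zero
  have a1 := (Eb_two_ne k₁).1 hP
  have a2 := (Eb_two_ne k₂).1 hQ
  have e1 := (Eb_equation _ _ _).1 k₁.1
  have e2 := (Eb_equation _ _ _).1 k₂.1
  have key : (b * (m ^ 2 + b * m + x₁ + x₂) + 1) * (x₁ + x₂) ^ 2 =
      (x₁ ^ 2 + b * y₁) * (b * x₂ + 1) + (x₂ ^ 2 + b * y₂) * (b * x₁ + 1) := by
    grind
  rw [e, xiE_some, xiE_some, lamE_some, lamE_some]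
  field_simp
  linear_combination b ^ 2 * key +
    (b * (m * (m + b) + x₁ + x₂) + 1) * (2 * b * (x₁ + x₂) + 2) * h2

/-- the Kummer data of `E_b` -/
def kumE (hΔ : b ^ 3 + 1 ≠ 0) : KumL (Eb b).toAffine.Point K where
  ξ := xiE b
  ρ := rhoE b
  ρ_ne := div_ne_zero hΔ (pow_ne_zero _ hb)
  ξ_zero := rfl
  ξ_neg := xiE_neg hb
  ne := xiE_ne hb
  inj := xiE_inj hb
  dbl := xiE_dbl hb
  sum := xiE_sum hb
  lam := lamE b
  c := (b ^ 3)⁻¹
  lam_neg := lamE_neg hb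
  lam_sq := lamE_sq hb
  add := xiE_add hb

/-- `x = (b³ z + 1) / b`, `y = (b (b x + 1) l + x²) / b` -/
theorem kumE_full (hΔ : b ^ 3 + 1 ≠ 0) : (kumE hb hΔ).Full := by
  have h2 : (2 : K) = 0 := CharTwo.two_eq_zero
  intro z l hz h
  change (l ^ 2 + l + (b ^ 3)⁻¹) * z ^ 2 = z ^ 4 + (b ^ 3 + 1) / b ^ 12 at h
  have h' : (l ^ 2 + l) * b ^ 12 * z ^ 2 + b ^ 9 * z ^ 2 = b ^ 12 * z ^ 4 + b ^ 3 + 1 := by
    field_simp at h
    linear_combination h
  obtain ⟨x, hx⟩ : ∃ x : K, b * x = b ^ 3 * z + 1 := ⟨(b ^ 3 * z + 1) / b, by field_simp⟩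
  obtain ⟨y, hy⟩ : ∃ y : K, b * y = b ^ 4 * z * l + x ^ 2 :=
    ⟨(b ^ 4 * z * l + x ^ 2) / b, by field_simp⟩
  have hu : b * x + 1 = b ^ 3 * z := by linear_combination hx + h2
  have he : y ^ 2 + b * x * y + y = x ^ 3 := by
    refine mul_left_cancel₀ (pow_ne_zero 6 hb) ?_
    have a1 : b ^ 6 * (y ^ 2 + b * x * y + y) =
        b ^ 4 * (b * y) ^ 2 + b ^ 5 * (b * y) * (b * x + 1) := by ring
    have a2 : b ^ 6 * x ^ 3 = b ^ 3 * (b * x) ^ 3 := by ring
    rw [a1, a2, hu, hy]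
    have a3 : b ^ 4 * (b ^ 4 * z * l + x ^ 2) ^ 2 + b ^ 5 * (b ^ 4 * z * l + x ^ 2) * (b ^ 3 * z) =
        b ^ 12 * z ^ 2 * l ^ 2 + 2 * b ^ 8 * z * l * x ^ 2 + (b * x) ^ 4 + b ^ 12 * z ^ 2 * l +
          b ^ 6 * z * (b * x) ^ 2 := by ring
    rw [a3, hx]
    linear_combination h' + (b ^ 8 * z * l * x ^ 2 + b ^ 12 * z ^ 4 + 2 * b ^ 9 * z ^ 3 +
      3 * b ^ 6 * z ^ 2 + 2 * b ^ 3 * z + 1 - b ^ 9 * z ^ 2 - b ^ 6 * z) * h2
  have hn := Eb_nonsing hΔ he
  have hu0 : b * x + 1 ≠ 0 := by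
    rw [hu]
    exact mul_ne_zero (pow_ne_zero _ hb) hz
  refine ⟨Point.some x y hn, (Eb_two_ne hn).2 hu0, ?_, ?_⟩
  · change (b * x + 1) / b ^ 3 = z
    rw [hu, mul_div_cancel_left₀ _ (pow_ne_zero _ hb)]
  · change (x ^ 2 + b * y) / (b * (b * x + 1)) = l
    rw [div_eq_iff (mul_ne_zero hb hu0), hu, hy]
    linear_combination x ^ 2 * h2

omit hb

section pmap
variable {K' : Type} [Field K'] [CharP K' 2] [DecidableEq K'] {b' : K'}

theorem h25_Eb_map (τ : K →+* K') (h : τ b = b') :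
    (Eb b').toAffine = (Eb b).toAffine.map τ := by
  subst h
  ext <;> simp [Eb]

theorem pmap_nonsing (τ : K →+* K') (h : τ b = b') {x y : K}
    (hxy : (Eb b).toAffine.Nonsingular x y) : (Eb b').toAffine.Nonsingular (τ x) (τ y) := by
  rw [h25_Eb_map τ h]
  exact (map_nonsingular _ τ.injective x y).2 hxy

/-- a field homomorphism acting on points -/
def pmap0 (τ : K →+* K') (h : τ b = b') : (Eb b).toAffine.Point → (Eb b').toAffine.Point
  | .zero => .zero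
  | .some x y hxy => .some (τ x) (τ y) (pmap_nonsing τ h hxy)

/-- as in `Point.map`: `subst h`, `Eb (τ b) = (Eb b).map τ`, `map_addX`, `map_addY`, `map_slope`,
`map_negY` -/
theorem pmap0_add (τ : K →+* K') (h : τ b = b') (P Q : (Eb b).toAffine.Point) :
    pmap0 τ h (P + Q) = pmap0 τ h P + pmap0 τ h Q := by
  have e := h25_Eb_map τ h
  rcases P with _ | ⟨x₁, y₁, h₁⟩ <;> rcases Q with _ | ⟨x₂, y₂, h₂⟩
  any_goals rfl
  by_cases hxy : x₁ = x₂ ∧ y₁ = (Eb b).toAffine.negY x₂ y₂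
  · rw [Point.add_of_Y_eq hxy.1 hxy.2]
    exact (Point.add_of_Y_eq (congrArg τ hxy.1) (by rw [hxy.2, e, map_negY])).symm
  · rw [Point.add_some hxy]
    refine Eq.trans ?_ (Point.add_some (h₁ := pmap_nonsing τ h h₁) (h₂ := pmap_nonsing τ h h₂)
      fun h' => hxy ⟨τ.injective h'.1, τ.injective (by rw [h'.2, e, map_negY])⟩).symm
    simp only [pmap0, Point.some.injEq]
    rw [e, map_slope, map_addX, map_addY]
    exact ⟨rfl, rfl⟩

/-- a field homomorphism acting on points, additively -/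
def pmap (τ : K →+* K') (h : τ b = b') : (Eb b).toAffine.Point →+ (Eb b').toAffine.Point where
  toFun := pmap0 τ h
  map_zero' := rfl
  map_add' := pmap0_add τ h

theorem pmap_some (τ : K →+* K') (h : τ b = b') {x y : K}
    (hxy : (Eb b).toAffine.Nonsingular x y) :
    pmap τ h (.some x y hxy) = .some (τ x) (τ y) (pmap_nonsing τ h hxy) := rfl

theorem xiE_pmap (τ : K →+* K') (h : τ b = b') (P : (Eb b).toAffine.Point) :
    xiE b' (pmap τ h P) = τ (xiE b P) := by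
  rcases P with _ | ⟨x, y, hxy⟩
  · exact (_root_.map_zero τ).symm
  · rw [pmap_some, xiE_some, xiE_some, ← h]
    simp

theorem lamE_pmap (τ : K →+* K') (h : τ b = b') (P : (Eb b).toAffine.Point) :
    lamE b' (pmap τ h P) = τ (lamE b P) := by
  rcases P with _ | ⟨x, y, hxy⟩
  · exact (_root_.map_zero τ).symm
  · rw [pmap_some, lamE_some, lamE_some, ← h]
    simp

theorem pmap_inj (τ : K →+* K') (h : τ b = b') : Function.Injective (pmap τ h) := by
  refine (injective_iff_map_eq_zero _).2 ?_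
  rintro (_ | ⟨x, y, hxy⟩) e
  · rfl
  · cases e

end pmap

/-- compatibility with formal points -/
theorem pmap_toE {S : Type} [CommRing S] [IsDomain S] {m : Ideal S} [Lc m] {β : S} (j : S →+* K)
    (s : S →+* S) (hs : ∀ x ∈ m, s x ∈ m) (hβ : s β = β) (τ : K →+* K)
    (hτ : ∀ x, τ (j x) = j (s x)) (h : τ (j β) = j β) (P : FPt m β) :
    pmap τ h (FPt.toE j P) = FPt.toE j (FPt.map s hs hβ P) := by
  rw [FPt.toE_apply, FPt.toE_apply]
  by_cases hw : j P.w = 0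
  · rw [FPt.toE0_of_eq j P hw, FPt.toE0_of_eq j _ (by rw [FPt.map_w, ← hτ, hw, _root_.map_zero]),
      _root_.map_zero]
  · rw [FPt.toE0_of_ne j P hw, FPt.toE0_of_ne j _ (by
      rw [FPt.map_w, ← hτ]; exact (map_ne_zero τ).2 hw), pmap_some]
    simp only [Point.some.injEq, FPt.map_w, FPt.map_t, ← hτ]
    simp

end Crest.Agent.R007
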