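import Crest.Agent.R007.GO
import Crest.Agent.R007.Defs

/-! Row 7, block FG: the group `GE F`, its action on `F((a)) / a F⟦a⟧`, smoothness. -/

set_option autoImplicit false
set_option linter.unusedSectionVars false

open PowerSeries

namespace Crest.Agent.R007

variable {F : Type} [Field F] [CharP F 2]

instance charP_ps : CharP F⟦X⟧ 2 := charP_of_injective_ringHom (C_injective (R := F)) 2

/-- reduction modulo `a` -/
noncomputable abbrev redA : F⟦X⟧⟦X⟧ →+* F⟦X⟧ := PowerSeries.map (constantCoeff (R := F))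

/-- `σ` is the substitution `a ↦ σ a` -/
def IsSub (σ : F⟦X⟧ ≃+* F⟦X⟧) : Prop :=
  constantCoeff (σ X) = 0 ∧ ∀ c : F⟦X⟧, σ c = c.subst (σ X)

omit [CharP F 2] in
theorem IsSub.cc {σ : F⟦X⟧ ≃+* F⟦X⟧} (h : IsSub σ) (c : F⟦X⟧) :
    constantCoeff (σ c) = constantCoeff c := by
  rw [h.2, ← spz_apply _ h.1, spz_cc]

omit [CharP F 2] in
theorem IsSub.red {σ : F⟦X⟧ ≃+* F⟦X⟧} (h : IsSub σ) (T : F⟦X⟧⟦X⟧) :
    redA (PowerSeries.map (σ : F⟦X⟧ →+* F⟦X⟧) T) = redA T := by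
  ext n; simp [coeff_map, h.cc]

omit [CharP F 2] in
theorem IsSub.symm {σ : F⟦X⟧ ≃+* F⟦X⟧} (h : IsSub σ) : IsSub σ.symm := by
  have h0 : constantCoeff (σ.symm X) = 0 := by
    rw [← h.cc, RingEquiv.apply_symm_apply]; simp
  refine ⟨h0, fun c => σ.injective ?_⟩
  rw [RingEquiv.apply_symm_apply, h.2, subst_comp_subst_apply (rig_hs h0) (rig_hs h.1), ← h.2,
    RingEquiv.apply_symm_apply, X_subst]

omit [CharP F 2] in
theorem cc_map {R S : Type*} [CommRing R] [CommRing S] (h : R →+* S) (T : R⟦X⟧)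
    (hT : constantCoeff T = 0) : constantCoeff (PowerSeries.map h T) = 0 := by
  rw [← coeff_zero_eq_constantCoeff_apply, coeff_map, coeff_zero_eq_constantCoeff_apply, hT, map_zero]

/-- `T` is an isomorphism from the formal group at `a` to that at `σ a`, lifting `α` -/
structure Lift (σ : F⟦X⟧ ≃+* F⟦X⟧) (α : OE F) (T : F⟦X⟧⟦X⟧) : Prop where
  cc : constantCoeff T = 0
  comm : (T.subst (P2 (X : F⟦X⟧)) : F⟦X⟧⟦X⟧) = (P2 (σ X)).subst T
  red : redA T = ser α

theorem unit_coeff_one {T : F⟦X⟧⟦X⟧} {α : (OE F)ˣ} (h : redA T = ser (α : OE F)) :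
    IsUnit (coeff 1 T) := by
  rw [isUnit_iff_constantCoeff, ← coeff_map, h]
  exact (α.isUnit.map tanO)

variable (F) in
/-- the group of liftable automorphisms -/
noncomputable def GE : Subgroup ((F⟦X⟧ ≃+* F⟦X⟧) × (OE F)ˣ) where
  carrier := {g | IsSub g.1 ∧ ∃ T, Lift g.1 ((g.2⁻¹ : (OE F)ˣ) : OE F) T}
  one_mem' := ⟨⟨by simp, fun c => by simp⟩, X, by simp, by
    simp [subst_X (rig_hs (P2_cc (X : F⟦X⟧)))], by simp [ser_one]⟩
  mul_mem' := by
    rintro ⟨σ₁, α₁⟩ ⟨σ₂, α₂⟩ ⟨h₁, T₁, l₁⟩ ⟨h₂, T₂, l₂⟩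
    dsimp only at h₁ h₂ l₁ l₂
    have hT2 := cc_map (σ₁ : F⟦X⟧ →+* F⟦X⟧) T₂ l₂.cc
    refine ⟨⟨?_, fun c => ?_⟩, (PowerSeries.map (σ₁ : F⟦X⟧ →+* F⟦X⟧) T₂).subst T₁, ?_, ?_, ?_⟩
    · show constantCoeff (σ₁ (σ₂ X)) = 0
      rw [h₁.cc, h₂.1]
    · show σ₁ (σ₂ c) = c.subst (σ₁ (σ₂ X))
      rw [h₁.2, h₂.2 c, subst_comp_subst_apply (rig_hs h₂.1) (rig_hs h₁.1), ← h₁.2]
    · exact rig_cc_subst _ _ l₁.cc hT2
    · show _ = PowerSeries.subst _ (P2 (σ₁ (σ₂ X)))
      have e := congrArg (PowerSeries.map (σ₁ : F⟦X⟧ →+* F⟦X⟧)) l₂.comm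
      rw [rig_map_subst _ _ _ (P2_cc _), rig_map_subst _ _ _ l₂.cc, P2_map, P2_map] at e
      rw [subst_comp_subst_apply (rig_hs l₁.cc) (rig_hs (P2_cc _)), l₁.comm,
        ← subst_comp_subst_apply (rig_hs (P2_cc _)) (rig_hs l₁.cc)]
      erw [e]
      rw [subst_comp_subst_apply (rig_hs hT2) (rig_hs l₁.cc)]
      rfl
    · show _ = ser (((α₁ * α₂)⁻¹ : (OE F)ˣ) : OE F)
      rw [rig_map_subst _ _ _ l₁.cc, h₁.red, mul_inv_rev, Units.val_mul, ser_mul]
      erw [l₁.red, l₂.red]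
  inv_mem' := by
    rintro ⟨σ, α⟩ ⟨h, T, l⟩
    dsimp only at h l
    have hu := unit_coeff_one l.red
    set r := T.substInvOfIsUnit hu
    have hr0 : constantCoeff r = 0 := constantCoeff_substInvOfIsUnit _ _
    have h1 : (T.subst r : F⟦X⟧⟦X⟧) = X := subst_substInvOfIsUnit_right _ l.cc hu
    have h2 : (r.subst T : F⟦X⟧⟦X⟧) = X := subst_substInvOfIsUnit_left _ l.cc hu
    refine ⟨h.symm, PowerSeries.map (σ.symm : F⟦X⟧ →+* F⟦X⟧) r, cc_map _ _ hr0, ?_, ?_⟩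
    · show _ = PowerSeries.subst _ (P2 (σ.symm X))
      have hPr : constantCoeff ((P2 (X : F⟦X⟧)).subst r : F⟦X⟧⟦X⟧) = 0 :=
        rig_cc_subst _ _ hr0 (P2_cc _)
      have e : (r.subst (P2 (σ X)) : F⟦X⟧⟦X⟧) = (P2 (X : F⟦X⟧)).subst r := by
        have e1 : (P2 (σ X) : F⟦X⟧⟦X⟧) = T.subst ((P2 (X : F⟦X⟧)).subst r : F⟦X⟧⟦X⟧) := by
          rw [← subst_comp_subst_apply (rig_hs (P2_cc _)) (rig_hs hr0), l.comm,
            subst_comp_subst_apply (rig_hs l.cc) (rig_hs hr0), h1, X_subst]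
        rw [e1, ← subst_comp_subst_apply (rig_hs l.cc) (rig_hs hPr), h2, subst_X (rig_hs hPr)]
      have e' := congrArg (PowerSeries.map (σ.symm : F⟦X⟧ →+* F⟦X⟧)) e
      rw [rig_map_subst _ _ _ (P2_cc _), rig_map_subst _ _ _ hr0, P2_map, P2_map] at e'
      simpa using e'
    · show _ = ser (((α⁻¹)⁻¹ : (OE F)ˣ) : OE F)
      rw [h.symm.red, inv_inv]
      have e := congrArg redA h2
      rw [rig_map_subst _ _ _ l.cc, map_X] at e
      erw [l.red] at e
      have e2 := congrArg (fun s : F⟦X⟧ => (s.subst (ser (α : OE F)) : F⟦X⟧)) e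
      rw [subst_comp_subst_apply (rig_hs (ser_cc _)) (rig_hs (ser_cc _)), ← ser_mul, Units.inv_mul,
        ser_one, X_subst, subst_X (rig_hs (ser_cc _))] at e2
      exact e2

variable (F) in
noncomputable def phiG : GE F →* (OE F)ˣ := (MonoidHom.snd _ _).comp (GE F).subtype

/-- reduction of points modulo `a` -/
noncomputable abbrev redP : Pt (X : F⟦X⟧) →+ Pt (0 : F) :=
  cmap (constantCoeff (R := F)) X 0 (by simp)

theorem exists_redP (U : Pt (0 : F)) : ∃ V : Pt (X : F⟦X⟧), redP V = U := by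
  refine ⟨ofT X (PowerSeries.map (C (R := F)) U.t) (cc_map _ _ U.cc), FPt.ext_t ?_⟩
  rw [cmap_t, ofT_t]
  ext n; simp [coeff_map]

theorem two_pow_dvd (N : Pt (X : F⟦X⟧)) (h : C (X : F⟦X⟧) ∣ N.t) (j : ℕ) :
    C (X ^ (2 ^ j) : F⟦X⟧) ∣ (((2 : ℤ) ^ j) • N).t := by
  induction j with
  | zero => simpa using h
  | succ j ih =>
    obtain ⟨e, he0, he⟩ := P2_sq (X : F⟦X⟧)
    rw [pow_succ' (2 : ℤ), mul_zsmul, two_smul_t, he]
    have := rig_sq_cong (X ^ (2 ^ j) : F⟦X⟧) e (Pt.cc (((2 : ℤ) ^ j) • N)) (v := 0) (by simp)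
      (by simpa using ih)
    rw [subst_zero_of_constantCoeff_zero (by rw [← he]; exact P2_cc _), sub_zero, ← pow_mul] at this
    exact this

/-- smoothness: a lift of `k + 2^j y` moves `a` only modulo `a^(2^j)`. -/
theorem lift_close {σ : F⟦X⟧ ≃+* F⟦X⟧} (h : IsSub σ) {α : (OE F)ˣ} {T : F⟦X⟧⟦X⟧}
    (l : Lift σ (α : OE F) T) (k : ℤ) (j : ℕ) (y : OE F) (hα : (α : OE F) = k + 2 ^ j * y) :
    X ^ (2 ^ j) ∣ X - σ X := by
  obtain ⟨Y, hY⟩ := exists_redP ((y : AddMonoid.End (Pt (0 : F))) (gen 0))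
  set τ : Pt (X : F⟦X⟧) := k • gen X + ((2 : ℤ) ^ j) • Y with hτ
  have hred : redA τ.t = ser (α : OE F) := by
    have : redP τ = ((α : OE F) : AddMonoid.End (Pt (0 : F))) (gen 0) := by
      rw [hτ, map_add, map_zsmul, map_zsmul, hY, cmap_gen, hα]
      have e : ((k : OE F) + 2 ^ j * y) = k • (1 : OE F) + ((2 : ℤ) ^ j) • y := by
        simp [zsmul_eq_mul]
      rw [e]; rfl
    exact congrArg FPt.t this
  set P : F⟦X⟧⟦X⟧ := P2 (X : F⟦X⟧) with hP
  have hP0 : constantCoeff P = 0 := P2_cc _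
  -- `τ` commutes with `P` modulo `a^(2^j)`
  have hcomm : C (X ^ (2 ^ j) : F⟦X⟧) ∣ (τ.t.subst P : F⟦X⟧⟦X⟧) - P.subst τ.t := by
    set N : Pt (X : F⟦X⟧) := sub X P hP0 Y - (2 : ℤ) • Y with hN
    have hN0 : redP N = 0 := by
      rw [hN, map_sub, map_zsmul, hY, sub_eq_zero, ← map_zsmul]
      apply FPt.ext_t
      rw [cmap_t, sub_t, rig_map_subst _ _ _ hP0, OE_apply_t, hP, P2_map]
      have : PowerSeries.map (constantCoeff (R := F)) Y.t = ser y := congrArg FPt.t hY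
      rw [this, constantCoeff_X, P2]
    have hN1 : C (X : F⟦X⟧) ∣ N.t := by
      have := (rig_red_iff N.t 0).mpr (by rw [map_zero]; exact congrArg FPt.t hN0)
      simpa using this
    have e1 : sub X P hP0 τ = (2 : ℤ) • τ + ((2 : ℤ) ^ j) • N := by
      have : sub X P hP0 (gen X) = (2 : ℤ) • gen X := sub_gen X ((2 : ℤ) • gen X)
      rw [hτ, map_add, map_zsmul, map_zsmul, this, hN]
      module
    have e2 := FPt.dvd_add_sub _ ((2 : ℤ) • τ) _ (two_pow_dvd N hN1 j)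
    rwa [← e1, sub_t, two_smul_t] at e2
  have hu := unit_coeff_one hred
  set r := τ.t.substInvOfIsUnit hu
  have hr0 : constantCoeff r = 0 := constantCoeff_substInvOfIsUnit _ _
  have h1 : (τ.t.subst r : F⟦X⟧⟦X⟧) = X := subst_substInvOfIsUnit_right _ τ.cc hu
  have h2 : (r.subst τ.t : F⟦X⟧⟦X⟧) = X := subst_substInvOfIsUnit_left _ τ.cc hu
  have hPr : constantCoeff (P.subst r : F⟦X⟧⟦X⟧) = 0 := rig_cc_subst _ _ hr0 hP0
  have hrP : constantCoeff (r.subst P : F⟦X⟧⟦X⟧) = 0 := rig_cc_subst _ _ hP0 hr0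
  have hr : C (X ^ (2 ^ j) : F⟦X⟧) ∣ (r.subst P : F⟦X⟧⟦X⟧) - P.subst r := by
    have a1 := rig_subst_cong _ hr0 hr0 hcomm (by simp)
    rw [subst_comp_subst_apply (rig_hs hP0) (rig_hs hr0),
      subst_comp_subst_apply (rig_hs τ.cc) (rig_hs hr0), h1, X_subst] at a1
    have a2 := rig_subst_cong (f := r) (g := r) _ (rig_cc_subst _ _ hPr τ.cc) hP0 (by simp) a1
    rw [← subst_comp_subst_apply (rig_hs τ.cc) (rig_hs hPr), h2, subst_X (rig_hs hPr)] at a2
    exact dvd_sub_comm.mp a2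
  set ψ : F⟦X⟧⟦X⟧ := T.subst r with hψ
  have hψ0 : constantCoeff ψ = 0 := rig_cc_subst _ _ hr0 l.cc
  have hψ1 : redA ψ = X := by
    have e := congrArg redA h1
    rw [rig_map_subst _ _ _ hr0, map_X] at e
    rw [hψ, rig_map_subst _ _ _ hr0]
    erw [l.red, ← hred]
    exact e
  have hmain : C (X ^ (2 ^ j) : F⟦X⟧) ∣ (ψ.subst P : F⟦X⟧⟦X⟧) - (P2 (σ X)).subst ψ := by
    have a1 := rig_subst_cong (f := T) (g := T) _ hrP hPr (by simp) hr
    rw [← subst_comp_subst_apply (rig_hs hP0) (rig_hs hr0), hP, l.comm,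
      subst_comp_subst_apply (rig_hs l.cc) (rig_hs hr0),
      ← subst_comp_subst_apply (rig_hs hr0) (rig_hs (P2_cc _))] at a1
    exact a1
  obtain ⟨e, he0, he⟩ := P2_sq (X : F⟦X⟧)
  have hX2 : constantCoeff (X ^ 2 : F⟦X⟧⟦X⟧) = 0 := by simp
  have hsp : ∀ (a : F⟦X⟧) (ha : constantCoeff a = 0),
      ((PowerSeries.map (spz a ha) e).subst (X ^ 2 : F⟦X⟧⟦X⟧) : F⟦X⟧⟦X⟧) = P2 a := by
    intro a ha
    have := congrArg (PowerSeries.map (spz a ha)) he
    rw [P2_map, spz_X, rig_map_subst _ _ _ hX2] at this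
    simpa using this.symm
  have he1 : coeff 1 e = X := by
    have := P2_coeff_two (X : F⟦X⟧)
    rw [he, coeff_subst_X_pow two_ne_zero] at this
    simpa using this
  have hne : PowerSeries.map (constantCoeff (R := F)) e ≠ 0 := by
    intro h0
    have e1 := congrArg redA he
    rw [rig_map_subst _ _ _ hX2, h0, P2_map] at e1
    have e2 : ser (2 * 1 : OE F) = 0 := by
      have : ser (2 * 1 : OE F) = P2 (0 : F) := by
        rw [two_mul, P2, two_zsmul]; rfl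
      rw [this]
      have h00 : (constantCoeff (X : F⟦X⟧)) = 0 := by simp
      rw [h00] at e1
      rw [e1, ← coe_substAlgHom (HasSubst.of_constantCoeff_zero' (by simp)), map_zero]
    have e3 := congrArg ser (OE_tf 1 (ser_inj e2))
    rw [ser_one, ser_zero] at e3
    exact X_ne_zero e3
  exact (rig_main e he0 he1 hne X (σ X) (by simp) h.1 ψ hψ0 hψ1 (2 ^ j) (by
    rw [hsp, hsp]; exact hmain)).2

section Act
variable (K : Type) [Field K] [Algebra F⟦X⟧ K] [IsFractionRing F⟦X⟧ K]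

/-- action on the fraction field -/
noncomputable def actK : GE F →* (K ≃+* K) :=
  (IsFractionRing.ringEquivOfRingEquivHom F⟦X⟧ K).comp ((MonoidHom.fst _ _).comp (GE F).subtype)

theorem actK_algebraMap (g : GE F) (c : F⟦X⟧) :
    actK K g (algebraMap F⟦X⟧ K c) = algebraMap F⟦X⟧ K (g.1.1 c) :=
  IsFractionRing.ringEquivOfRingEquiv_algebraMap _ _

variable (F) in
/-- `a F⟦a⟧` -/
noncomputable def mK : AddSubgroup K :=
  (mX F).toAddSubgroup.map (algebraMap F⟦X⟧ K).toAddMonoidHom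

omit [IsFractionRing F⟦X⟧ K] in
theorem mem_mK {x : K} : x ∈ mK F K ↔ ∃ c : F⟦X⟧, constantCoeff c = 0 ∧ algebraMap F⟦X⟧ K c = x := by
  simp [mK, mem_mX]

variable (F) in
/-- `F((a)) / a F⟦a⟧` -/
def WE : Type := K ⧸ mK F K

noncomputable instance : AddCommGroup (WE F K) := inferInstanceAs (AddCommGroup (K ⧸ mK F K))

variable (F) in
noncomputable def mkW : K →+ WE F K := QuotientAddGroup.mk' (mK F K)

omit [IsFractionRing F⟦X⟧ K] in
theorem mkW_eq_zero {x : K} : mkW F K x = 0 ↔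
    ∃ c : F⟦X⟧, constantCoeff c = 0 ∧ algebraMap F⟦X⟧ K c = x := by
  rw [← mem_mK]; exact QuotientAddGroup.eq_zero_iff x

omit [IsFractionRing F⟦X⟧ K] in
theorem mkW_surj : Function.Surjective (mkW F K) := QuotientAddGroup.mk'_surjective _

noncomputable def actW (g : GE F) : WE F K →+ WE F K :=
  QuotientAddGroup.map (mK F K) (mK F K) (actK K g).toAddMonoidHom (by
    intro x hx
    obtain ⟨c, hc, rfl⟩ := (mem_mK K).mp hx
    exact (mem_mK K).mpr ⟨g.1.1 c, by rw [g.2.1.cc, hc], (actK_algebraMap K g c).symm⟩)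

noncomputable instance : DistribMulAction (GE F) (WE F K) where
  smul g w := actW K g w
  one_smul w := by
    obtain ⟨x, rfl⟩ := mkW_surj K w
    show mkW F K (actK K 1 x) = _
    rw [map_one]; rfl
  mul_smul g h w := by
    obtain ⟨x, rfl⟩ := mkW_surj K w
    show mkW F K (actK K (g * h) x) = mkW F K (actK K g (actK K h x))
    rw [map_mul]; rfl
  smul_zero g := map_zero (actW K g)
  smul_add g := map_add (actW K g)

theorem smul_mkW (g : GE F) (x : K) : g • mkW F K x = mkW F K (actK K g x) := rfl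

theorem smul_close (x : K) : ∃ m : ℕ, ∀ g : GE F, X ^ m ∣ X - g.1.1 X → g • mkW F K x = mkW F K x := by
  obtain ⟨c, d, hd, rfl⟩ := IsFractionRing.div_surjective (A := F⟦X⟧) x
  have hd0 : d ≠ 0 := nonZeroDivisors.ne_zero hd
  have hinj := IsFractionRing.injective F⟦X⟧ K
  set e := d.order.toNat
  have hde : X ^ e * divXPowOrder d = d := X_pow_order_mul_divXPowOrder
  have hv : IsUnit (divXPowOrder d) := by
    rw [isUnit_iff_constantCoeff, isUnit_iff_ne_zero, Ne, constantCoeff_divXPowOrder_eq_zero_iff]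
    exact hd0
  set v := divXPowOrder d
  refine ⟨2 * e + 2, fun g hg => ?_⟩
  rw [smul_mkW, ← sub_eq_zero, ← map_sub, mkW_eq_zero, map_div₀, actK_algebraMap, actK_algebraMap]
  set σ := g.1.1
  have hσ : IsSub σ := g.2.1
  have lip : ∀ f : F⟦X⟧, X ^ (2 * e + 2) ∣ f - σ f := fun f => by
    have := rig_lip (2 * e + 2) f X (σ X) (by simp) hσ.1 hg
    rwa [X_subst, ← hσ.2] at this
  -- `σ d = X^e * v'` with `v'` a unit
  obtain ⟨u, hu⟩ : ∃ u : F⟦X⟧, σ X = X * u ∧ IsUnit u := by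
    obtain ⟨w, hw⟩ := hg
    refine ⟨1 - X ^ (2 * e + 1) * w, by linear_combination (-1) * hw, ?_⟩
    rw [isUnit_iff_constantCoeff]; simp
  have hσd : σ d = X ^ e * (u ^ e * σ v) := by
    rw [← hde, map_mul, map_pow, hu.1, mul_pow, mul_assoc]
  have hv' : IsUnit (u ^ e * σ v * v) := ((hu.2.pow e).mul (hv.map σ)).mul hv
  obtain ⟨n, hn⟩ : X ^ (2 * e + 2) ∣ σ c * d - c * σ d := by
    have : σ c * d - c * σ d = c * (d - σ d) - d * (c - σ c) := by ring
    rw [this]; exact ((lip d).mul_left _).sub ((lip c).mul_left _)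
  obtain ⟨i, hi⟩ := hv'.exists_right_inv
  refine ⟨X ^ 2 * n * i, by simp, ?_⟩
  have h1 : algebraMap F⟦X⟧ K d ≠ 0 := (map_ne_zero_iff _ hinj).mpr hd0
  have h2 : algebraMap F⟦X⟧ K (σ d) ≠ 0 :=
    (map_ne_zero_iff _ hinj).mpr ((map_ne_zero_iff _ σ.injective).mpr hd0)
  rw [div_sub_div _ _ h2 h1, eq_div_iff (mul_ne_zero h2 h1), ← map_mul, ← map_mul, ← map_mul,
    ← map_mul, ← map_sub]
  congr 1
  rw [mul_comm (σ d) c, hn, hσd, ← hde]
  linear_combination (X ^ (2 * e + 2) * n) * hi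

/-- **the data required by block C** -/
theorem gdata [IsAlgClosed F] : GData (OE F) (GE F) (phiG F) (WE F K) where
  tf := OE_tf
  gens := OE_gens
  two w := by
    obtain ⟨x, rfl⟩ := mkW_surj K w
    have : (2 : K) = 0 := by
      rw [← map_ofNat (algebraMap F⟦X⟧ K) 2, Lc.two (m := mX F), map_zero]
    rw [← map_add, ← two_mul, this, zero_mul, map_zero]
  cont w := by
    obtain ⟨x, rfl⟩ := mkW_surj K w
    obtain ⟨m, hm⟩ := smul_close (F := F) K x
    refine ⟨m, fun u ⟨k, y, _, hu⟩ => ?_⟩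
    obtain ⟨h, T, l⟩ := (u⁻¹).2
    have l' : Lift (u⁻¹).1.1 ((phiG F u : (OE F)ˣ) : OE F) T := by
      have : ((u⁻¹).1.2)⁻¹ = phiG F u := inv_inv _
      rwa [this] at l
    have := hm u⁻¹ ((pow_dvd_pow _ (Nat.lt_two_pow_self).le).trans (lift_close h l' k m y hu))
    rw [inv_smul_eq_iff] at this
    exact this.symm

/-- **constructor**: a homomorphism `τ` with invertible tangent map from the formal group at `a` to
the one at `b` gives a group element acting by `a ↦ b`. -/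
theorem exists_GE (b : F⟦X⟧) (hb : constantCoeff b = 0) (τ : Pt b) (hu : IsUnit (coeff 1 τ.t))
    (h : IsHom (X : F⟦X⟧) τ) : ∃ g : GE F, ∀ c : F⟦X⟧,
      actK K g (algebraMap F⟦X⟧ K c) = algebraMap F⟦X⟧ K (c.subst b) := by
  have hc := h.comm_P2
  have hd : ∀ a : F⟦X⟧, X ^ 2 ∣ P2 a := fun a => by
    obtain ⟨e, he0, he⟩ := P2_sq a
    obtain ⟨r, rfl⟩ := X_dvd_iff.mpr he0
    rw [he, subst_mul (HasSubst.X_pow two_ne_zero), subst_X (HasSubst.X_pow two_ne_zero)]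
    exact Dvd.intro _ rfl
  have h2 := congrArg (coeff 2) hc
  rw [rig_coeff_two_left _ _ τ.cc (hd _), rig_coeff_two_right _ _ τ.cc (hd _), P2_coeff_two,
    P2_coeff_two] at h2
  have h3 : X = b * coeff 1 τ.t := by
    apply hu.mul_left_cancel
    linear_combination h2
  have hb1 : IsUnit (coeff 1 b) := by
    rw [isUnit_iff_ne_zero]
    intro h0
    have : X ^ 2 ∣ b := by
      rw [X_pow_dvd_iff]
      intro n hn
      interval_cases n
      · simpa using hb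
      · exact h0
    have h6 := this.mul_right (coeff 1 τ.t)
    rw [← h3] at h6
    have := X_pow_dvd_iff.mp h6 1 (by norm_num)
    simp at this
  set r := b.substInvOfIsUnit hb1
  have hr0 : constantCoeff r = 0 := constantCoeff_substInvOfIsUnit _ _
  have h4 : (b.subst r : F⟦X⟧) = X := subst_substInvOfIsUnit_right _ hb hb1
  have h5 : (r.subst b : F⟦X⟧) = X := subst_substInvOfIsUnit_left _ hb hb1
  let σ : F⟦X⟧ ≃+* F⟦X⟧ := RingEquiv.ofRingHom (spz b hb) (spz r hr0)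
    (RingHom.ext fun c => by
      rw [RingHom.comp_apply, spz_apply, spz_apply, subst_comp_subst_apply (rig_hs hr0) (rig_hs hb),
        h5, X_subst]; rfl)
    (RingHom.ext fun c => by
      rw [RingHom.comp_apply, spz_apply, spz_apply, subst_comp_subst_apply (rig_hs hb) (rig_hs hr0),
        h4, X_subst]; rfl)
  have hσ : ∀ c, σ c = c.subst b := fun c => spz_apply b hb c
  have hσX : σ X = b := spz_X b hb
  let ρ : Pt b →+ Pt (0 : F) := cmap (constantCoeff (R := F)) b 0 hb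
  have hh : IsHom (0 : F) (ρ τ) := by
    intro U V
    obtain ⟨U', rfl⟩ := exists_redP U
    obtain ⟨V', rfl⟩ := exists_redP V
    have key : ∀ W : Pt (X : F⟦X⟧), sub 0 (redP W).t (redP W).cc (ρ τ) = ρ (sub b W.t W.cc τ) :=
      fun W => FPt.ext_t (by
        rw [sub_t, cmap_t, cmap_t, cmap_t, sub_t, rig_map_subst _ _ _ W.cc])
    have e := key (U' + V')
    rw [h U' V', map_add ρ, ← key, ← key] at e
    rw [← e]
    congr 2
    simp
  have hunit : IsUnit (ofHom (ρ τ) hh) := OE_isUnit _ (by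
    rw [tanO_apply, ser_ofHom, cmap_t, coeff_map, ← isUnit_iff_ne_zero, ← isUnit_iff_constantCoeff]
    exact hu)
  refine ⟨⟨(σ, hunit.unit⁻¹), ⟨by rw [hσX]; exact hb, fun c => by rw [hσX, hσ]⟩, τ.t, τ.cc, ?_, ?_⟩,
    fun c => ?_⟩
  · show _ = PowerSeries.subst _ (P2 (σ X))
    rw [hσX]; exact hc
  · show _ = ser ((hunit.unit⁻¹⁻¹ : (OE F)ˣ) : OE F)
    rw [inv_inv, IsUnit.unit_spec, ser_ofHom]; rfl
  · rw [actK_algebraMap, ← hσ]

end Act

end Crest.Agent.R007
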