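import Crest.Agent.R007.GP

/-! Row 7, block GEO: an isogeny of odd degree induces an isomorphism of formal groups over
`F⟦a⟧`. -/

set_option autoImplicit false
set_option linter.unusedSectionVars false

noncomputable section
namespace Crest.Agent.R007

open PowerSeries WeierstrassCurve WeierstrassCurve.Affine

variable {F : Type} [Field F] [CharP F 2]

/-- the field of the generic formal point -/
abbrev KS (F : Type) [Field F] : Type := FractionRing F⟦X⟧⟦X⟧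

/-- the inclusion of `F⟦a⟧⟦t⟧` -/
abbrev jS (F : Type) [Field F] : F⟦X⟧⟦X⟧ →+* KS F := algebraMap _ _

theorem jS_inj : Function.Injective (jS F) := IsFractionRing.injective _ _

instance ksCharP : CharP (KS F) 2 := charP_of_injective_ringHom (f := jS F) jS_inj 2

instance ksDec : DecidableEq (KS F) := Classical.decEq _

theorem jC_inj : Function.Injective ((jS F).comp C) := jS_inj.comp C_injective

/-- the inclusion of `F((a))` -/
def jL (F : Type) [Field F] [CharP F 2] : LaurentSeries F →+* KS F :=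
  IsFractionRing.lift (A := F⟦X⟧) (jC_inj (F := F))

theorem jL_coe (x : F⟦X⟧) : jL F (x : LaurentSeries F) = jS F (C x) :=
  IsFractionRing.lift_algebraMap (A := F⟦X⟧) (jC_inj (F := F)) x

theorem jC_ne {b : F⟦X⟧} (hb : b ≠ 0) : jS F (C b) ≠ 0 :=
  (map_ne_zero_iff _ (jC_inj (F := F))).mpr hb

theorem jC_disc {b : F⟦X⟧} (hb : constantCoeff b = 0) : jS F (C b) ^ 3 + 1 ≠ 0 := by
  have : jS F (C b) ^ 3 + 1 = jS F (C (b ^ 3 + 1)) := by simp
  rw [this]
  refine jC_ne fun h => ?_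
  simpa [hb] using congrArg constantCoeff h

/-- the Kummer data of `E_b` over `KS F` -/
def kS {b : F⟦X⟧} (hb : constantCoeff b = 0) (hb0 : b ≠ 0) :
    KumL (Eb (jS F (C b))).toAffine.Point (KS F) := kumE (jC_ne hb0) (jC_disc hb)

/-- the universal curve -/
abbrev kA (F : Type) [Field F] [CharP F 2] :
    KumL (Eb (jS F (C X))).toAffine.Point (KS F) := kS (F := F) constantCoeff_X X_ne_zero

/-- `Kum.per`, `Per.map (jL F)`, `Per.mem_ps` (with `j = (jS F).comp C`, `b = X`), `exists_y`,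
`Eb_nonsing`, `Eb_two_ne`, `Kum.recog` for `k₀.map (jL F)`; `ι 1 = ± Q` by `inj`, so `ι 1` and
`ι i = i.val • ι 1` are fixed by `pmap τ`.  The constant coefficient of `X x + 1` is `1`. -/
theorem tors_pts [IsAlgClosed F] {d : ℕ} (k₀ : Kum (ZMod (2 * d + 1)) (LaurentSeries F))
    (hρ : k₀.ρ = rhoE ((X : F⟦X⟧) : LaurentSeries F)) :
    ∃ ι : ZMod (2 * d + 1) →+ (Eb (jS F (C X))).toAffine.Point, Function.Injective ι ∧
      (∀ i, (kA F).ξ (ι i) = jL F (k₀.ξ i)) ∧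
      (∃ x : ℕ → F⟦X⟧, ∀ j < d,
        (kA F).toKum.xh ι j = jS F (C (X * x j + 1)) / jS F (C X) ^ 3) ∧
      ∀ (τ : KS F →+* KS F) (hτ : ∀ x, τ (jS F (C x)) = jS F (C x)) (i : ZMod (2 * d + 1)),
        pmap τ (hτ X) (ι i) = ι i := by
  have hρ' : jL F k₀.ρ = rhoE (jS F (C X)) := by rw [hρ, map_rhoE, jL_coe]
  have hx : ∀ i : ZMod (2 * d + 1), i ≠ 0 → ∃ x : F⟦X⟧,
      jL F (k₀.ξ i) = (jS F (C X) * jS F (C x) + 1) / jS F (C X) ^ 3 := fun i hi => by
    have h1 := (k₀.per hi (odd_two_mul_add_one d) (by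
      rw [nsmul_eq_mul, ZMod.natCast_self, zero_mul])).map (jL F)
    rw [hρ'] at h1
    exact Per.mem_ps ((jS F).comp C) jC_inj constantCoeff_X X_ne_zero h1
  have hQ : ∀ i : ZMod (2 * d + 1), i ≠ 0 → ∃ Q : (Eb (jS F (C X))).toAffine.Point,
      Q + Q ≠ 0 ∧ (kA F).ξ Q = jL F (k₀.ξ i) ∧
      ∀ (τ : KS F →+* KS F) (hτ : ∀ x, τ (jS F (C x)) = jS F (C x)), pmap τ (hτ X) Q = Q := by
    intro i hi
    obtain ⟨x, hx⟩ := hx i hi
    obtain ⟨y, hy⟩ := exists_y (F := F) constantCoeff_X x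
    have h1 : (Eb (jS F (C X))).toAffine.Nonsingular (jS F (C x)) (jS F (C y)) :=
      Eb_nonsing (jC_disc constantCoeff_X) (by simpa using congrArg ((jS F).comp C) hy)
    refine ⟨.some _ _ h1, (Eb_two_ne h1).2 ?_, hx.symm, fun τ hτ => ?_⟩
    · have : jS F (C X) * jS F (C x) + 1 = jS F (C (X * x + 1)) := by simp
      rw [this]
      refine jC_ne fun h => ?_
      simpa using congrArg constantCoeff h
    · rw [pmap_some]
      simp only [hτ]
  obtain ⟨ι, hι, hξ⟩ := (kA F).toKum.recog (k₀.map (jL F)) hρ' fun hd => by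
    obtain ⟨Q, h1, h2, -⟩ := hQ 1 (by simpa using (zmod_odd_ne hd hd).1)
    exact ⟨Q, h1, h2⟩
  refine ⟨ι, hι, hξ, ?_, fun τ hτ i => ?_⟩
  · have : ∀ j, ∃ x : F⟦X⟧, j < d →
        (kA F).toKum.xh ι j = jS F (C (X * x + 1)) / jS F (C X) ^ 3 := fun j => by
      by_cases hj : j < d
      · obtain ⟨x, hx⟩ := hx _ (zmod_odd_ne hj hj).1
        exact ⟨x, fun _ => (hξ _).trans (hx.trans (by simp))⟩
      · exact ⟨0, fun h => absurd h hj⟩
    choose x hx using this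
    exact ⟨x, hx⟩
  · by_cases hi : i = 0
    · rw [hi, map_zero, map_zero]
    obtain ⟨Q, h1, h2, h3⟩ := hQ i hi
    by_cases e1 : ι i + Q = 0
    · rw [eq_neg_of_add_eq_zero_left e1, map_neg, h3 τ hτ]
    by_cases e2 : ι i - Q = 0
    · rw [sub_eq_zero.1 e2, h3 τ hτ]
    exact absurd ((hξ i).trans h2.symm) ((kA F).inj _ _ ((map_ne_zero_iff ι hι).2 hi)
      (fun h => h1 (by rw [h, add_zero])) e1 e2)

/-- `y ≠ 0`; `T = x / y` is a root of `T² + (b s + s²) T + s` with `s = X² v`, so it lies in the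
normal ring `F⟦X⟧⟦X⟧` (`IsIntegrallyClosed.isIntegral_iff`); `T² = s (1 + b T + s T)` gives
`T = X T₁` with `T₁` a unit; the point is `(T, s T)` -/
theorem int_pt {b : F⟦X⟧} {x y : KS F} (h : (Eb (jS F (C b))).toAffine.Nonsingular x y)
    {v : F⟦X⟧⟦X⟧} (hv : IsUnit v) (hx : jS F (X ^ 2 * v) * x = 1) :
    ∃ τ : Pt b, FPt.toE (jS F) τ = Point.some x y h ∧ IsUnit (coeff 1 τ.t) := by
  have e := (Eb_equation _ x y).1 h.1
  have hx0 : x ≠ 0 := right_ne_zero_of_mul_eq_one hx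
  have hy0 : y ≠ 0 := fun h0 => hx0 (by
    rw [h0] at e
    exact pow_eq_zero_iff (n := 3) (by norm_num) |>.1 (by linear_combination -e))
  set s : F⟦X⟧⟦X⟧ := X ^ 2 * v with hs
  have hq : (x / y) ^ 2 - jS F (C b * s + s ^ 2) * (x / y) - jS F s = 0 := by
    have hs' : jS F s = x⁻¹ := eq_inv_of_mul_eq_one_left hx
    rw [map_add, map_mul, map_pow, hs']
    field_simp
    linear_combination -e
  have hint : IsIntegral F⟦X⟧⟦X⟧ (x / y) := by
    refine ⟨Polynomial.X ^ 2 + (Polynomial.C (-(C b * s + s ^ 2)) * Polynomial.X +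
      Polynomial.C (-s)), Polynomial.monic_X_pow_add
        (Polynomial.degree_linear_lt.trans_le (by norm_num)), ?_⟩
    rw [Polynomial.eval₂_add, Polynomial.eval₂_add, Polynomial.eval₂_mul, Polynomial.eval₂_C,
      Polynomial.eval₂_C, Polynomial.eval₂_X_pow, Polynomial.eval₂_X, map_neg, map_neg]
    linear_combination hq
  obtain ⟨T, hT⟩ := IsIntegrallyClosed.isIntegral_iff.1 hint
  have hT2 : T ^ 2 = s * (1 + C b * T + s * T) := jS_inj (by
    rw [← hT] at hq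
    simp only [map_add, map_mul, map_pow, map_one] at hq ⊢
    linear_combination hq)
  obtain ⟨T₁, rfl⟩ : X ∣ T := X_prime.dvd_of_dvd_pow (n := 2) (by
    rw [hT2, hs, pow_two, mul_assoc, mul_assoc]
    exact dvd_mul_right _ _)
  have h1 : T₁ ^ 2 = v * (1 + C b * (X * T₁) + s * (X * T₁)) :=
    mul_left_cancel₀ (pow_ne_zero 2 X_ne_zero) (by linear_combination hT2)
  have hu : IsUnit T₁ := by
    rw [← isUnit_pow_iff two_ne_zero, h1]
    refine hv.mul ?_
    rw [isUnit_iff_constantCoeff]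
    simp
  have hw : jS F (s * (X * T₁)) = y⁻¹ := by
    rw [map_mul, hT, ← mul_div_assoc, hx, one_div]
  refine ⟨⟨X * T₁, s * (X * T₁), mem_mX.2 (by simp), mem_mX.2 (by simp), ?_⟩, ?_, ?_⟩
  · linear_combination (-(X * T₁)) * hT2
  · refine (FPt.toE0_of_ne (jS F) _ (by rw [hw]; exact inv_ne_zero hy0)).trans ?_
    congr 1
    · rw [hw, hT]
      field_simp
    · rw [hw, one_div, inv_inv]
  · change IsUnit (coeff (0 + 1) (X * T₁))
    rw [coeff_succ_X_mul, coeff_zero_eq_constantCoeff_apply]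
    exact isUnit_iff_constantCoeff.1 hu

/-- the generic point is `(X, w)`, `w = X³ v₀` with `v₀` a unit, `x = 1 / s₀`, `s₀ = X² v₀`.
`sum_zmod_odd` and `sum` give `vx = a⁻³ + x'' / a²` with
`x'' = 1 / s₀ + ∑_j s₀ (a + s₀) (a x_j + 1) / (1 + s₀ x_j)²` -/
theorem vx_gen {d : ℕ} {ι : ZMod (2 * d + 1) →+ (Eb (jS F (C X))).toAffine.Point}
    (hι : Function.Injective ι) {x : ℕ → F⟦X⟧}
    (hx : ∀ j < d, (kA F).toKum.xh ι j = jS F (C (X * x j + 1)) / jS F (C X) ^ 3) :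
    ∃ v₀ n : F⟦X⟧⟦X⟧, IsUnit v₀ ∧
      (kA F).toKum.vx ι (FPt.toE (jS F) (gen (X : F⟦X⟧))) =
        (jS F (C X) ^ 3)⁻¹ + ((jS F (X ^ 2 * v₀))⁻¹ + jS F n) / jS F (C X) ^ 2 := by
  have h29_two : (2 : KS F) = 0 := CharTwo.two_eq_zero
  set g : Pt (X : F⟦X⟧) := gen (X : F⟦X⟧) with hg
  have hu := FPt.unit_u g
  have hgt : g.t = X := gen_t _
  obtain ⟨v₀, hv₀⟩ := hu.exists_right_inv
  have hw : g.w = X ^ 3 * v₀ := by
    have e := g.eq
    rw [hgt] at e hv₀
    linear_combination v₀ * e - g.w * hv₀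
  have hvu : IsUnit v₀ := IsUnit.of_mul_eq_one _ (by rw [mul_comm]; exact hv₀)
  have hX : jS F X ≠ 0 := (map_ne_zero_iff _ jS_inj).mpr X_ne_zero
  have hv : jS F v₀ ≠ 0 := (hvu.map (jS F)).ne_zero
  have ha : jS F (C X) ≠ 0 := jC_ne X_ne_zero
  have hwne : jS F g.w ≠ 0 := by
    rw [hw, map_mul, map_pow]; exact mul_ne_zero (pow_ne_zero _ hX) hv
  set s : F⟦X⟧⟦X⟧ := X ^ 2 * v₀ with hs
  have hs0 : jS F s ≠ 0 := by
    rw [hs, map_mul, map_pow]; exact mul_ne_zero (pow_ne_zero _ hX) hv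
  set P := FPt.toE (jS F) g with hP
  have hPs : P = Point.some _ _ (FPt.nonsing (jS F) g hwne) := by
    rw [hP, FPt.toE_apply, FPt.toE0_of_ne _ _ hwne]
  have hP0 : P ≠ 0 := by rw [hPs]; exact Point.some_ne_zero _
  have hξ : (kA F).ξ P = (jS F (C X) * (jS F s)⁻¹ + 1) / jS F (C X) ^ 3 := by
    have e1 : jS F g.t / jS F g.w = (jS F s)⁻¹ := by
      rw [hgt, hw, hs]
      simp only [map_mul, map_pow]
      field_simp
    rw [hPs, ← e1]
    rfl
  have hun : ∀ j, IsUnit (1 + s * C (x j)) := fun j => by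
    rw [isUnit_iff_constantCoeff]; simp [hs]
  choose r hr using fun j => (hun j).exists_right_inv
  refine ⟨v₀, ∑ j ∈ Finset.range d, s * (C X + s) * C (X * x j + 1) * r j ^ 2, hvu, ?_⟩
  have key : ∀ j ∈ Finset.range d,
      (kA F).ξ (P + ι ((j + 1 : ℕ) : ZMod (2 * d + 1))) +
        (kA F).ξ (P + ι (-((j + 1 : ℕ) : ZMod (2 * d + 1)))) =
      jS F (s * (C X + s) * C (X * x j + 1) * r j ^ 2) / jS F (C X) ^ 2 := by
    intro j hj
    have hj' := Finset.mem_range.1 hj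
    have hQ : (kA F).ξ (ι ((j + 1 : ℕ) : ZMod (2 * d + 1))) =
        jS F (C (X * x j + 1)) / jS F (C X) ^ 3 := hx j hj'
    set Q := ι ((j + 1 : ℕ) : ZMod (2 * d + 1)) with hQd
    have hQ0 : Q ≠ 0 := by
      rw [hQd, map_ne_zero_iff ι hι]; exact (zmod_odd_ne hj' hj').1
    have hr' : (1 + jS F s * jS F (C (x j))) * jS F (r j) = 1 := by
      have := congrArg (jS F) (hr j)
      simpa only [map_mul, map_add, map_one] using this
    have hd : 1 + jS F s * jS F (C (x j)) ≠ 0 := left_ne_zero_of_mul_eq_one hr'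
    have hQ' : (kA F).ξ Q = (jS F (C X) * jS F (C (x j)) + 1) / jS F (C X) ^ 3 := by
      rw [hQ]; simp only [map_mul, map_add, map_one]
    have hsum : (kA F).ξ P + (kA F).ξ Q =
        (1 + jS F s * jS F (C (x j))) / (jS F s * jS F (C X) ^ 2) := by
      rw [hξ, hQ']
      field_simp
      linear_combination jS F s * h29_two
    have hne : (kA F).ξ P + (kA F).ξ Q ≠ 0 := by
      rw [hsum]; exact div_ne_zero hd (mul_ne_zero hs0 (pow_ne_zero _ ha))
    have h1 : P + Q ≠ 0 := fun h => hne (by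
      rw [eq_neg_of_add_eq_zero_left h, (kA F).ξ_neg]; exact CharTwo.add_self_eq_zero _)
    have h2 : P - Q ≠ 0 := fun h => hne (by
      rw [sub_eq_zero.1 h]; exact CharTwo.add_self_eq_zero _)
    have h3 := (kA F).sum P Q hP0 hQ0 h1 h2
    rw [map_neg, ← hQd, ← sub_eq_add_neg]
    have h4 : (kA F).ξ (P + Q) + (kA F).ξ (P - Q) =
        (kA F).ξ P * (kA F).ξ Q / ((kA F).ξ P + (kA F).ξ Q) ^ 2 := by
      rw [eq_div_iff (pow_ne_zero _ hne)]; exact h3
    have h5 : jS F (r j) = (1 + jS F s * jS F (C (x j)))⁻¹ := eq_inv_of_mul_eq_one_right hr'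
    rw [h4, hsum, hξ, hQ']
    simp only [map_mul, map_add, map_one, map_pow, h5]
    field_simp
  show ∑ i, (kA F).ξ (P + ι i) = _
  rw [sum_zmod_odd, Finset.sum_congr rfl key, map_zero, add_zero, hξ, map_sum, ← Finset.sum_div]
  field_simp
  ring

/-- for `U ≠ 0` let `σ = IsFractionRing.lift` of `(jS F).comp (sbR U.t _)` (injective by
`rig_subst_eq_zero`); it fixes `jS F (C x)`; `pmap_toE`, `sub_gen`, `xiE_pmap`, `lamE_pmap`,
`pmap_inj`, `ext_pt` give `φ U = pmap σ (φ gen) = toE (sub b U.t τ)`; this also holds for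
`U = 0`; conclude by `toE_inj` -/
theorem isHom_of_velu {d : ℕ} {ι : ZMod (2 * d + 1) →+ (Eb (jS F (C X))).toAffine.Point}
    (hι : ∀ (τ : KS F →+* KS F) (hτ : ∀ x, τ (jS F (C x)) = jS F (C x)) (i : ZMod (2 * d + 1)),
      pmap τ (hτ X) (ι i) = ι i)
    {b : F⟦X⟧} (hb : constantCoeff b = 0) (hb0 : b ≠ 0) (κ : F⟦X⟧)
    (φ : Pt (X : F⟦X⟧) →+ (Eb (jS F (C b))).toAffine.Point)
    (hφ : ∀ γ, γ ≠ 0 → φ γ + φ γ ≠ 0 ∧
      (kS hb hb0).ξ (φ γ) = (kA F).toKum.vx ι (FPt.toE (jS F) γ) ∧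
      (kS hb hb0).lam (φ γ) = (kA F).vl ι (FPt.toE (jS F) γ) + jS F (C κ))
    {τ : Pt b} (hτ : FPt.toE (jS F) τ = φ (gen X)) : IsHom (X : F⟦X⟧) τ := by
  have key : ∀ U : Pt (X : F⟦X⟧), φ U = FPt.toE (jS F) (sub b U.t U.cc τ) := by
    intro U
    by_cases hU : U = 0
    · subst hU
      have h0 : sub b (0 : Pt (X : F⟦X⟧)).t (0 : Pt (X : F⟦X⟧)).cc τ = 0 := by
        apply FPt.eq_zero_of_t
        rw [sub_t, FPt.zero_t]
        obtain ⟨e, he⟩ := X_dvd_iff.2 τ.cc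
        have hs : HasSubst (0 : F⟦X⟧⟦X⟧) := rig_hs (by simp)
        rw [he, subst_mul hs, subst_X hs, zero_mul]
      rw [h0, map_zero, map_zero]
    · have hUt : U.t ≠ 0 := fun h => hU (FPt.eq_zero_of_t h)
      have hinj : Function.Injective ((jS F).comp (sbR U.t U.cc)) := by
        refine jS_inj.comp ((injective_iff_map_eq_zero (sbR U.t U.cc)).2 fun f hf => ?_)
        rw [sbR_apply] at hf
        exact rig_subst_eq_zero f _ U.cc hUt hf
      let σ : KS F →+* KS F := IsFractionRing.lift (A := F⟦X⟧⟦X⟧) hinj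
      have hσ : ∀ x, σ (jS F x) = jS F (sbR U.t U.cc x) := fun x =>
        IsFractionRing.lift_algebraMap (A := F⟦X⟧⟦X⟧) hinj x
      have hσC : ∀ x, σ (jS F (C x)) = jS F (C x) := fun x => by
        rw [hσ, sbR_apply, subst_C]; rfl
      have hg0 : gen (X : F⟦X⟧) ≠ 0 := fun h => by
        have := congrArg FPt.t h
        rw [gen_t, FPt.zero_t] at this
        exact X_ne_zero this
      obtain ⟨a1, a2, a3⟩ := hφ U hU
      obtain ⟨b1, b2, b3⟩ := hφ _ hg0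
      have hgen : pmap σ (hσC X) (FPt.toE (jS F) (gen (X : F⟦X⟧))) = FPt.toE (jS F) U :=
        (pmap_toE (jS F) (sbR U.t U.cc) _ _ σ hσ (hσC X) _).trans (congrArg _ (sub_gen X U))
      have hsum : ∀ i, pmap σ (hσC X) (FPt.toE (jS F) (gen (X : F⟦X⟧)) + ι i) =
          FPt.toE (jS F) U + ι i := fun i => by rw [map_add, hgen, hι σ hσC]
      have h1 : φ U = pmap σ (hσC b) (φ (gen X)) := by
        refine (kS hb hb0).ext_pt a1 ?_ ?_ ?_
        · rw [← map_add]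
          exact fun h => b1 (pmap_inj σ (hσC b) (h.trans (map_zero _).symm))
        · rw [a2]
          refine Eq.trans ?_ (xiE_pmap σ (hσC b) _).symm
          refine Eq.trans ?_ (congrArg σ b2).symm
          rw [Kum.vx, Kum.vx, map_sum]
          refine Finset.sum_congr rfl fun i _ => ?_
          rw [← hsum i]
          exact xiE_pmap σ (hσC X) _
        · rw [a3]
          refine Eq.trans ?_ (lamE_pmap σ (hσC b) _).symm
          refine Eq.trans ?_ (congrArg σ b3).symm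
          rw [map_add, hσC, KumL.vl, KumL.vl, map_sum]
          congr 1
          refine Finset.sum_congr rfl fun i _ => ?_
          rw [← hsum i]
          exact lamE_pmap σ (hσC X) _
      rw [h1, ← hτ]
      exact pmap_toE (jS F) (sbR U.t U.cc) _ _ σ hσ (hσC b) τ
  intro U V
  apply FPt.toE_inj (jS F) jS_inj
  rw [map_add, ← key, ← key, ← key, map_add]

theorem h95_rho {K : Type} [Field K] (d : ℕ) {a u v U b : K} (ha : a ≠ 0) (huv : u * v = 1)
    (hU : (u ^ 12 + a ^ 3 * u ^ 9) * U ^ 8 = (a ^ 3 + 1) ^ (2 * d + 1)) (hb : b = a * v) :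
    rhoE b * (U / (a ^ 3) ^ d) ^ 8 = rhoE a ^ (2 * d + 1) := by
  have hu : u ≠ 0 := left_ne_zero_of_mul_eq_one huv
  obtain rfl : v = u⁻¹ := eq_inv_of_mul_eq_one_right huv
  rw [hb, rhoE, rhoE, div_pow _ (a ^ 12), ← hU]
  field_simp
  ring

theorem h95_kap {K : Type} [Field K] (h2 : (2 : K) = 0) {a u v r : K} (ha : a ≠ 0)
    (huv : u * v = 1) (hu3 : u ^ 3 = 1 + a ^ 3 * r) : r = (a ^ 3)⁻¹ + ((a * v) ^ 3)⁻¹ := by
  have hu : u ≠ 0 := left_ne_zero_of_mul_eq_one huv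
  obtain rfl : v = u⁻¹ := eq_inv_of_mul_eq_one_right huv
  field_simp
  linear_combination -hu3 - h2

theorem h95_x {K : Type} [Field K] (h2 : (2 : K) = 0) {a u v r s n w x : K} (ha : a ≠ 0)
    (huv : u * v = 1) (hu3 : u ^ 3 = 1 + a ^ 3 * r) (hs : s ≠ 0)
    (hw : (1 + s * (n + a ^ 2 * r)) * w = 1)
    (h : (a * v * x + 1) / (a * v) ^ 3 = (a ^ 3)⁻¹ + (s⁻¹ + n) / a ^ 2) :
    s * u ^ 2 * w * x = 1 := by
  have hu : u ≠ 0 := left_ne_zero_of_mul_eq_one huv
  obtain rfl : v = u⁻¹ := eq_inv_of_mul_eq_one_right huv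
  have e : s * u ^ 2 * x = 1 + s * (n + a ^ 2 * r) := by
    field_simp at h
    apply mul_left_cancel₀ ha
    linear_combination h - s * hu3 - (s * a ^ 3 * r) * h2
  linear_combination w * e + hw

/-- `tors_pts`; `U = ∏ (X x_j + 1)`, `hen_target`, `b = X u⁻¹`; `velu_hom` with `Γ = Pt X`,
`e = toE` (`Pt.tf`); `vx_gen` gives `x' = (x'' + a² r) / u²`, `1 / x' = X² v₀ u² / (1 + s₀ (n + a² r))`;
`int_pt`, `isHom_of_velu` -/
theorem hecke_iso [IsAlgClosed F] {d : ℕ} (k₀ : Kum (ZMod (2 * d + 1)) (LaurentSeries F))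
    (hρ : k₀.ρ = rhoE ((X : F⟦X⟧) : LaurentSeries F)) :
    ∃ (b : F⟦X⟧) (τ : Pt b), constantCoeff b = 0 ∧ b ≠ 0 ∧ IsHom (X : F⟦X⟧) τ ∧
      IsUnit (coeff 1 τ.t) ∧
      rhoE (b : LaurentSeries F) * k₀.pr (AddMonoidHom.id _) ^ 8 = k₀.ρ ^ (2 * d + 1) := by
  obtain ⟨ι, hι, hξ, ⟨x, hx⟩, hfix⟩ := tors_pts k₀ hρ
  obtain ⟨r, κ, u, hκ, hu3, hu1, hU⟩ := hen_target (F := F) d
    (U := ∏ j ∈ Finset.range d, (X * x j + 1)) (by simp)
  obtain ⟨v, huv⟩ : ∃ v : F⟦X⟧, u * v = 1 :=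
    (isUnit_iff_constantCoeff.2 (hu1 ▸ isUnit_one)).exists_right_inv
  have hb : constantCoeff (X * v) = 0 := by simp
  have hb0 : X * v ≠ 0 := mul_ne_zero X_ne_zero (right_ne_zero_of_mul_eq_one huv)
  have h2 : (2 : KS F) = 0 := CharTwo.two_eq_zero
  have ha : jS F (C X) ≠ 0 := jC_ne X_ne_zero
  let J : F⟦X⟧ →+* KS F := (jS F).comp C
  have hJ : ∀ y, jS F (C y) = J y := fun _ => rfl
  have huv' : J u * J v = 1 := by rw [← map_mul, huv, map_one]
  have hu3' : J u ^ 3 = 1 + J X ^ 3 * J r := by simpa using congrArg J hu3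
  have hbJ : jS F (C (X * v)) = J X * J v := by rw [hJ, map_mul]
  have hρ' : (kS hb hb0).ρ = (kA F).toKum.vρ ι := by
    have hpr : (kA F).toKum.pr ι = J (∏ j ∈ Finset.range d, (X * x j + 1)) / (J X ^ 3) ^ d := by
      rw [Kum.pr, Finset.prod_congr rfl fun j hj => hx j (Finset.mem_range.1 hj),
        Finset.prod_div_distrib, Finset.prod_const, Finset.card_range, map_prod]
      rfl
    have hne := (kA F).toKum.pr_ne hι
    have hU' := congrArg J hU
    rw [map_mul, map_add, map_mul, map_pow, map_pow, map_pow, map_pow, map_pow, map_add, map_pow,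
      map_one] at hU'
    rw [Kum.vρ, eq_div_iff (pow_ne_zero _ hne), hpr]
    exact h95_rho d ha huv' hU' hbJ
  have hκ' : jS F (C κ) ^ 2 + jS F (C κ) = (kA F).c + (kS hb hb0).c := by
    have e : J κ ^ 2 + J κ = J r := by simpa using congrArg J hκ
    change J κ ^ 2 + J κ = (J X ^ 3)⁻¹ + (jS F (C (X * v)) ^ 3)⁻¹
    rw [e, hbJ]
    exact h95_kap h2 ha huv' hu3'
  have htf := Pt.tf (A := F⟦X⟧) (b := X) X_ne_zero
  have he : ∀ γ : Pt (X : F⟦X⟧), FPt.toE (jS F) γ ∈ ι.range → γ = 0 := by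
    rintro γ ⟨i, hi⟩
    refine htf (2 * d + 1) γ (by omega) (FPt.toE_inj (jS F) jS_inj ?_)
    rw [map_nsmul, ← hi, ← map_nsmul, nsmul_eq_mul, ZMod.natCast_self, zero_mul, map_zero,
      map_zero]
  obtain ⟨φ, hφ⟩ := (kA F).velu_hom hι (kS hb hb0) (kumE_full _ _) hρ' hκ' (FPt.toE (jS F)) he htf
  have hg : gen (X : F⟦X⟧) ≠ 0 := fun h => by
    have := gen_t (X : F⟦X⟧)
    rw [h] at this
    exact X_ne_zero this.symm
  obtain ⟨g1, g2, -⟩ := hφ _ hg
  obtain ⟨v₀, n, hv₀, hvx⟩ := vx_gen hι hx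
  rw [hvx] at g2
  have hex : ∃ τ : Pt (X * v), FPt.toE (jS F) τ = φ (gen X) ∧ IsUnit (coeff 1 τ.t) := by
    rcases hP : φ (gen X) with _ | ⟨x', y', h⟩
    · rw [hP] at g1
      exact absurd (add_zero _) g1
    · rw [hP] at g2
      change (jS F (C (X * v)) * x' + 1) / jS F (C (X * v)) ^ 3 = _ at g2
      obtain ⟨w, hw⟩ : ∃ w : F⟦X⟧⟦X⟧, (1 + X ^ 2 * v₀ * (n + C X ^ 2 * C r)) * w = 1 :=
        (isUnit_iff_constantCoeff.2 (by simp)).exists_right_inv
      refine int_pt h (v := v₀ * C u ^ 2 * w) ((hv₀.mul (((IsUnit.of_mul_eq_one _ huv).map C).pow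
        2)).mul (IsUnit.of_mul_eq_one_right _ hw)) ?_
      have hw' := congrArg (jS F) hw
      have hs : jS F (X ^ 2 * v₀) ≠ 0 :=
        (map_ne_zero_iff _ jS_inj).2 (mul_ne_zero (pow_ne_zero _ X_ne_zero) hv₀.ne_zero)
      rw [map_mul, map_add, map_mul, map_add, map_mul _ (C X ^ 2), map_pow, map_one] at hw'
      rw [← mul_assoc, ← mul_assoc, map_mul, map_mul, map_pow]
      rw [hbJ] at g2
      exact h95_x h2 ha huv' hu3' hs hw' g2
  obtain ⟨τ, hτ, hτ1⟩ := hex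
  refine ⟨X * v, τ, hb, hb0, isHom_of_velu hfix hb hb0 κ φ hφ hτ, hτ1, (jL F).injective ?_⟩
  have e1 : jL F (k₀.pr (AddMonoidHom.id _)) = (kA F).toKum.pr ι := by
    rw [Kum.pr, Kum.pr, map_prod]
    exact Finset.prod_congr rfl fun j _ => (hξ _).symm
  have e2 : jL F k₀.ρ = (kA F).ρ := by rw [hρ, map_rhoE, jL_coe]; rfl
  have e3 : jL F (rhoE ((X * v : F⟦X⟧) : LaurentSeries F)) = (kS hb hb0).ρ := by
    rw [map_rhoE, jL_coe]; rfl
  rw [map_mul, map_pow, map_pow, e1, e2, e3, hρ', Kum.vρ,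
    div_mul_cancel₀ _ (pow_ne_zero _ ((kA F).toKum.pr_ne hι))]

end Crest.Agent.R007
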