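import Mathlib

/-! Row 7, block GEO: abstract Kummer data in characteristic 2 and Vélu's formulas
(`x`-coordinate part). -/

set_option autoImplicit false

noncomputable section
namespace Crest.Agent.R007

open Polynomial

/-- the `x`-coordinate of `y² + x y = x³ + c x² + ρ` on an abelian group of points -/
structure Kum (E K : Type) [AddCommGroup E] [Field K] where
  /-- the coordinate -/
  ξ : E → K
  /-- the modulus `1 / j` -/
  ρ : K
  ρ_ne : ρ ≠ 0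
  ξ_zero : ξ 0 = 0
  ξ_neg : ∀ P, ξ (-P) = ξ P
  ne : ∀ P, P + P ≠ 0 → ξ P ≠ 0
  inj : ∀ P Q, P ≠ 0 → Q ≠ 0 → P + Q ≠ 0 → P - Q ≠ 0 → ξ P ≠ ξ Q
  dbl : ∀ P, P + P ≠ 0 → ξ (P + P) * ξ P ^ 2 = ξ P ^ 4 + ρ
  sum : ∀ P Q, P ≠ 0 → Q ≠ 0 → P + Q ≠ 0 → P - Q ≠ 0 →
    (ξ (P + Q) + ξ (P - Q)) * (ξ P + ξ Q) ^ 2 = ξ P * ξ Q

/-- `z` is a periodic point of the doubling map `x ↦ x² + ρ / x²` -/
def Per {K : Type} [Field K] (ρ z : K) : Prop :=
  ∃ r : ℕ, 0 < r ∧ ∃ s : ℕ → K, s 0 = z ∧ s r = z ∧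
    ∀ i, s i ≠ 0 ∧ s (i + 1) * s i ^ 2 = s i ^ 4 + ρ

theorem Per.map {K K' : Type} [Field K] [Field K'] (f : K →+* K') {ρ z : K} (h : Per ρ z) :
    Per (f ρ) (f z) := by
  obtain ⟨r, hr, s, h0, h1, h2⟩ := h
  refine ⟨r, hr, fun i => f (s i), by simp [h0], by simp [h1], fun i => ⟨?_, ?_⟩⟩
  · exact (map_ne_zero f).mpr (h2 i).1
  · simpa using congrArg f (h2 i).2

/-- `ZMod (2d+1) = {0} ∪ {±(j+1) : j < d}` -/
theorem sum_zmod_odd {M : Type} [AddCommMonoid M] (d : ℕ) (f : ZMod (2 * d + 1) → M) :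
    ∑ i, f i = f 0 + ∑ j ∈ Finset.range d,
      (f ((j + 1 : ℕ) : ZMod (2 * d + 1)) + f (-((j + 1 : ℕ) : ZMod (2 * d + 1)))) := by
  have h1 : ∑ i, f i = ∑ j ∈ Finset.range (d + d + 1), f (j : ZMod (2 * d + 1)) := by
    rw [← two_mul, Finset.sum_range]
    exact Finset.sum_congr rfl fun i _ => congrArg f (ZMod.natCast_zmod_val i).symm
  rw [h1, Finset.sum_range_succ', Finset.sum_range_add, Finset.sum_add_distrib, add_comm,
    Nat.cast_zero, ← Finset.sum_range_reflect (fun x => f ((d + x + 1 : ℕ) : ZMod (2 * d + 1)))]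
  congr 2
  refine Finset.sum_congr rfl fun j hj => congrArg f (eq_neg_of_add_eq_zero_left ?_)
  have := Finset.mem_range.1 hj
  rw [← Nat.cast_add, show d + (d - 1 - j) + 1 + (j + 1) = 2 * d + 1 by omega, ZMod.natCast_self]

theorem zmod_odd_ne {d i j : ℕ} (hi : i < d) (hj : j < d) :
    ((i + 1 : ℕ) : ZMod (2 * d + 1)) ≠ 0 ∧
    ((i + 1 : ℕ) : ZMod (2 * d + 1)) + ((j + 1 : ℕ) : ZMod (2 * d + 1)) ≠ 0 ∧
    (i ≠ j → ((i + 1 : ℕ) : ZMod (2 * d + 1)) - ((j + 1 : ℕ) : ZMod (2 * d + 1)) ≠ 0) := by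
  refine ⟨fun h => ?_, fun h => ?_, fun hij h => ?_⟩
  · have := Nat.le_of_dvd (by omega) ((ZMod.natCast_eq_zero_iff _ _).1 h)
    omega
  · rw [← Nat.cast_add] at h
    have := Nat.le_of_dvd (by omega) ((ZMod.natCast_eq_zero_iff _ _).1 h)
    omega
  · rw [sub_eq_zero, ZMod.natCast_eq_natCast_iff', Nat.mod_eq_of_lt (by omega),
      Nat.mod_eq_of_lt (by omega)] at h
    omega

/-- doubling is a bijection of `ZMod (2d+1)` -/
theorem zmod_odd_dbl {d : ℕ} : Function.Bijective fun i : ZMod (2 * d + 1) => i + i := by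
  refine Finite.injective_iff_bijective.1 fun a b h => ?_
  have h0 : (2 * d + 1 : ZMod (2 * d + 1)) = 0 := by exact_mod_cast ZMod.natCast_self (2 * d + 1)
  have h1 : a + a = b + b := h
  linear_combination (d + 1 : ZMod (2 * d + 1)) * h1 - (a - b) * h0

namespace Kum

variable {E K : Type} [AddCommGroup E] [Field K] (k : Kum E K)

/-- restriction to a subgroup -/
def comap {E' : Type} [AddCommGroup E'] (f : E' →+ E) (hf : Function.Injective f) : Kum E' K where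
  ξ P := k.ξ (f P)
  ρ := k.ρ
  ρ_ne := k.ρ_ne
  ξ_zero := by rw [map_zero, k.ξ_zero]
  ξ_neg P := by rw [map_neg, k.ξ_neg]
  ne P h := k.ne _ (by rwa [← map_add, map_ne_zero_iff f hf])
  inj P Q h1 h2 h3 h4 := k.inj _ _ (by rwa [map_ne_zero_iff f hf]) (by rwa [map_ne_zero_iff f hf])
    (by rwa [← map_add, map_ne_zero_iff f hf]) (by rwa [← map_sub, map_ne_zero_iff f hf])
  dbl P h := by
    rw [map_add]
    exact k.dbl _ (by rwa [← map_add, map_ne_zero_iff f hf])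
  sum P Q h1 h2 h3 h4 := by
    rw [map_add, map_sub]
    exact k.sum _ _ (by rwa [map_ne_zero_iff f hf]) (by rwa [map_ne_zero_iff f hf])
      (by rwa [← map_add, map_ne_zero_iff f hf]) (by rwa [← map_sub, map_ne_zero_iff f hf])

/-- extension of the field -/
def map {K' : Type} [Field K'] (f : K →+* K') : Kum E K' where
  ξ P := f (k.ξ P)
  ρ := f k.ρ
  ρ_ne := (map_ne_zero f).mpr k.ρ_ne
  ξ_zero := by rw [k.ξ_zero, map_zero]
  ξ_neg P := by rw [k.ξ_neg]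
  ne P h := (map_ne_zero f).mpr (k.ne P h)
  inj P Q h1 h2 h3 h4 := f.injective.ne (k.inj P Q h1 h2 h3 h4)
  dbl P h := by simpa using congrArg f (k.dbl P h)
  sum P Q h1 h2 h3 h4 := by simpa using congrArg f (k.sum P Q h1 h2 h3 h4)

/-- descent to a subfield containing all values -/
theorem descend {K' : Type} [Field K'] (f : K' →+* K) (hρ : k.ρ ∈ f.range)
    (hξ : ∀ P, k.ξ P ∈ f.range) : ∃ k' : Kum E K', f k'.ρ = k.ρ ∧ ∀ P, f (k'.ξ P) = k.ξ P := by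
  obtain ⟨ρ, hρ⟩ := hρ
  choose ξ hξ using hξ
  have hi := f.injective
  refine ⟨⟨ξ, ρ, ?_, ?_, fun P => ?_, fun P h => ?_, fun P Q h1 h2 h3 h4 => ?_, fun P h => ?_,
    fun P Q h1 h2 h3 h4 => ?_⟩, hρ, hξ⟩
  · rintro rfl
    exact k.ρ_ne (by rw [← hρ, map_zero])
  · exact hi (by rw [hξ, k.ξ_zero, map_zero])
  · exact hi (by rw [hξ, hξ, k.ξ_neg])
  · intro e
    exact k.ne P h (by rw [← hξ, e, map_zero])
  · intro e
    exact k.inj P Q h1 h2 h3 h4 (by rw [← hξ, e, hξ])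
  · exact hi (by simpa [hξ, hρ] using k.dbl P h)
  · exact hi (by simpa [hξ] using k.sum P Q h1 h2 h3 h4)

/-- points of odd order are periodic: `s i = ξ (2^i • P)`, `r = φ(n)` (`Nat.ModEq.pow_totient`) -/
theorem per {P : E} (hP : P ≠ 0) {n : ℕ} (hn : Odd n) (h : n • P = 0) : Per k.ρ (k.ξ P) := by
  have hc : Nat.Coprime 2 n := Nat.coprime_two_left.2 hn
  have h0 : ∀ i : ℕ, 2 ^ i • P + 2 ^ i • P ≠ 0 := fun i h1 => by
    rw [← two_nsmul, ← mul_nsmul', ← pow_succ'] at h1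
    exact hP (AddMonoid.addOrderOf_eq_one_iff.1 (Nat.eq_one_of_dvd_coprimes (hc.pow_left (i + 1))
      (addOrderOf_dvd_of_nsmul_eq_zero h1) (addOrderOf_dvd_of_nsmul_eq_zero h)))
  refine ⟨n.totient, Nat.totient_pos.2 hn.pos, fun i => k.ξ (2 ^ i • P), by simp, ?_,
    fun i => ⟨k.ne _ (h0 i), ?_⟩⟩
  · have h1 : 2 ^ n.totient % n = 1 % n := Nat.ModEq.pow_totient hc
    simp only
    rw [nsmul_eq_mod_nsmul _ h, h1, ← nsmul_eq_mod_nsmul _ h, one_nsmul]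
  · simp only
    rw [pow_succ', mul_nsmul', two_nsmul]
    exact k.dbl _ (h0 i)

variable [CharP K 2]

theorem h97_add_ne {P Q : E} (hP : P + P ≠ 0) (hQ : Q + Q ≠ 0) (h₁ : P + Q ≠ 0) (h₂ : P - Q ≠ 0) :
    k.ξ P + k.ξ Q ≠ 0 := fun h =>
  k.inj P Q (fun e => hP (by rw [e, add_zero])) (fun e => hQ (by rw [e, add_zero])) h₁ h₂
    (CharTwo.add_eq_zero.1 h)

/-- `sum` at `(P + Q, P - Q)`, `dbl` at `P`, `Q`, `sum` at `(P, Q)` -/
theorem prod {P Q : E} (hP : P + P ≠ 0) (hQ : Q + Q ≠ 0) (h₁ : P + Q ≠ 0) (h₂ : P - Q ≠ 0) :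
    k.ξ (P + Q) * k.ξ (P - Q) * (k.ξ P + k.ξ Q) ^ 2 = k.ξ P ^ 2 * k.ξ Q ^ 2 + k.ρ := by
  have h1 := k.sum (P + Q) (P - Q) h₁ h₂ (by rwa [show P + Q + (P - Q) = P + P by abel])
    (by rwa [show P + Q - (P - Q) = Q + Q by abel])
  rw [show P + Q + (P - Q) = P + P by abel, show P + Q - (P - Q) = Q + Q by abel] at h1
  have h2 := k.dbl P hP
  have h3 := k.dbl Q hQ
  have h4 := k.sum P Q (fun e => hP (by rw [e, add_zero])) (fun e => hQ (by rw [e, add_zero])) h₁ h₂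
  have h5 : (2 : K) = 0 := CharTwo.two_eq_zero
  refine mul_right_cancel₀ (pow_ne_zero 2 (k.h97_add_ne hP hQ h₁ h₂)) ?_
  linear_combination (-(k.ξ P + k.ξ Q) ^ 4) * h1 + (k.ξ (P + P) + k.ξ (Q + Q)) *
    ((k.ξ (P + Q) + k.ξ (P - Q)) * (k.ξ P + k.ξ Q) ^ 2 + k.ξ P * k.ξ Q) * h4 + k.ξ Q ^ 2 * h2 +
    k.ξ P ^ 2 * h3 - (k.ξ P ^ 2 * k.ξ Q ^ 2 + k.ρ) * (k.ξ P * k.ξ Q) * h5

/-- `sum / prod`; for `P = ± Q` this is `dbl` (`ξ 0 = 0`, `0⁻¹ = 0`) -/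
theorem recip {P Q : E} (hP : P + P ≠ 0) (hQ : Q + Q ≠ 0)
    (h₁ : P + Q = 0 ∨ P + Q + (P + Q) ≠ 0) (h₂ : P - Q = 0 ∨ P - Q + (P - Q) ≠ 0) :
    k.ξ P ^ 2 * k.ξ Q ^ 2 + k.ρ ≠ 0 ∧
      (k.ξ (P + Q))⁻¹ + (k.ξ (P - Q))⁻¹ = k.ξ P * k.ξ Q / (k.ξ P ^ 2 * k.ξ Q ^ 2 + k.ρ) := by
  have hx := k.ne P hP
  have key : P + P + (P + P) ≠ 0 → k.ξ P ^ 2 * k.ξ P ^ 2 + k.ρ ≠ 0 ∧
      (k.ξ (P + P))⁻¹ = k.ξ P * k.ξ P / (k.ξ P ^ 2 * k.ξ P ^ 2 + k.ρ) := fun h => by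
    have h1 := k.ne _ h
    have h2 : k.ξ P ^ 2 * k.ξ P ^ 2 + k.ρ = k.ξ (P + P) * k.ξ P ^ 2 := by
      rw [k.dbl P hP]
      ring
    rw [h2]
    exact ⟨mul_ne_zero h1 (pow_ne_zero 2 hx), by field_simp⟩
  by_cases e₁ : P + Q = 0
  · obtain rfl : Q = -P := (neg_eq_of_add_eq_zero_right e₁).symm
    rw [sub_neg_eq_add] at h₂ ⊢
    rw [e₁, k.ξ_zero, inv_zero, zero_add, k.ξ_neg]
    exact key (h₂.resolve_left hP)
  by_cases e₂ : P - Q = 0
  · obtain rfl : P = Q := sub_eq_zero.1 e₂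
    rw [e₂, k.ξ_zero, inv_zero, add_zero]
    exact key (h₁.resolve_left hP)
  have hu := k.ne _ (h₁.resolve_left e₁)
  have hv := k.ne _ (h₂.resolve_left e₂)
  have hs := k.h97_add_ne hP hQ e₁ e₂
  rw [← k.prod hP hQ e₁ e₂,
    ← k.sum P Q (fun e => hP (by rw [e, add_zero])) (fun e => hQ (by rw [e, add_zero])) e₁ e₂]
  refine ⟨mul_ne_zero (mul_ne_zero hu hv) (pow_ne_zero 2 hs), ?_⟩
  field_simp
  ring

/-- recognition of a cyclic subgroup from its `x`-coordinates: by strong induction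
`n • Q ≠ 0` and `k.ξ (n • Q) = k₀.ξ n` for `1 ≤ n ≤ 2d` (`dbl` for `n = 2`, `sum` at `(n • Q, Q)`,
`(n+1) • Q ≠ 0` by `k₀.inj`); then `k.inj` at `(2d • Q, Q)` gives `(2d+1) • Q = 0`; `ZMod.lift`.
For `d = 0` take `ι = 0`. -/
theorem recog {d : ℕ} (k₀ : Kum (ZMod (2 * d + 1)) K) (hρ : k₀.ρ = k.ρ)
    (hQ : 0 < d → ∃ Q : E, Q + Q ≠ 0 ∧ k.ξ Q = k₀.ξ 1) :
    ∃ ι : ZMod (2 * d + 1) →+ E, Function.Injective ι ∧ ∀ i, k.ξ (ι i) = k₀.ξ i := by
  rcases Nat.eq_zero_or_pos d with rfl | hd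
  · have : Subsingleton (ZMod (2 * 0 + 1)) := inferInstanceAs (Subsingleton (ZMod 1))
    refine ⟨0, Function.injective_of_subsingleton _, fun i => ?_⟩
    rw [Subsingleton.elim i 0, map_zero, k.ξ_zero, k₀.ξ_zero]
  obtain ⟨Q, hQ2, hQ1⟩ := hQ hd
  have hz : ∀ n : ℕ, 1 ≤ n → n ≤ 2 * d → ((n : ℕ) : ZMod (2 * d + 1)) ≠ 0 := by
    intro n h1 h2 h
    have := Nat.le_of_dvd h1 ((ZMod.natCast_eq_zero_iff _ _).1 h)
    omega
  have h1z : (1 : ZMod (2 * d + 1)) ≠ 0 := by simpa using hz 1 le_rfl (by omega)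
  have hQ0 : Q ≠ 0 := fun e => hQ2 (by rw [e, add_zero])
  have H : ∀ n : ℕ, n + 2 ≤ 2 * d →
      ((n + 1) • Q ≠ 0 ∧ k.ξ ((n + 1) • Q) = k₀.ξ ((n + 1 : ℕ) : ZMod (2 * d + 1))) ∧
      ((n + 2) • Q ≠ 0 ∧ k.ξ ((n + 2) • Q) = k₀.ξ ((n + 2 : ℕ) : ZMod (2 * d + 1))) := by
    intro n
    induction n with
    | zero =>
      intro h
      have h3 : ((2 : ℕ) : ZMod (2 * d + 1)) = 1 + 1 := by push_cast; ring
      have h2 : (1 + 1 : ZMod (2 * d + 1)) ≠ 0 := by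
        rw [← h3]; exact hz 2 (by omega) (by omega)
      refine ⟨⟨by simpa using hQ0, by simpa using hQ1⟩, by rwa [zero_add, two_nsmul], ?_⟩
      have e1 := k.dbl Q hQ2
      have e2 := k₀.dbl 1 h2
      rw [hρ, ← hQ1, ← e1] at e2
      rw [zero_add, two_nsmul, h3]
      exact (mul_right_cancel₀ (pow_ne_zero 2 (k.ne Q hQ2)) e2).symm
    | succ n ih =>
      intro h
      obtain ⟨⟨a1, a2⟩, b1, b2⟩ := ih (by omega)
      refine ⟨⟨b1, b2⟩, ?_⟩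
      have c1 : ((n + 2 : ℕ) : ZMod (2 * d + 1)) + 1 = ((n + 1 + 2 : ℕ) : ZMod (2 * d + 1)) := by
        push_cast; ring
      have c2 : ((n + 2 : ℕ) : ZMod (2 * d + 1)) - 1 = ((n + 1 : ℕ) : ZMod (2 * d + 1)) := by
        push_cast; ring
      have d1 : (n + 2) • Q + Q = (n + 1 + 2) • Q := (succ_nsmul Q (n + 2)).symm
      have d2 : (n + 2) • Q - Q = (n + 1) • Q := by
        rw [show n + 2 = n + 1 + 1 from rfl, succ_nsmul Q (n + 1), add_sub_cancel_right]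
      have z0 := hz (n + 2) (by omega) (by omega)
      have z1 := hz (n + 1 + 2) (by omega) h
      have z2 := hz (n + 1) (by omega) (by omega)
      rw [← c1] at z1
      rw [← c2] at z2
      have hne := k₀.inj _ _ z0 h1z z1 z2
      have e0 : (n + 1 + 2) • Q ≠ 0 := fun e => by
        rw [← d1] at e
        rw [eq_neg_of_add_eq_zero_left e, k.ξ_neg, hQ1] at b2
        exact hne b2.symm
      refine ⟨e0, ?_⟩
      have e1 := k.sum _ _ b1 hQ0 (by rwa [d1]) (by rwa [d2])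
      have e2 := k₀.sum _ _ z0 h1z z1 z2
      rw [d1, d2, a2, b2, hQ1, ← e2, c1, c2] at e1
      exact add_right_cancel (mul_right_cancel₀
        (pow_ne_zero 2 fun e => hne (CharTwo.add_eq_zero.1 e)) e1)
  have H' : ∀ n : ℕ, 1 ≤ n → n ≤ 2 * d →
      n • Q ≠ 0 ∧ k.ξ (n • Q) = k₀.ξ ((n : ℕ) : ZMod (2 * d + 1)) := by
    intro n h1 h2
    rcases Nat.lt_or_ge n 2 with h3 | h3
    · obtain rfl : n = 0 + 1 := by omega
      exact (H 0 (by omega)).1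
    · obtain ⟨m, rfl⟩ : ∃ m, n = m + 2 := ⟨n - 2, by omega⟩
      exact (H m h2).2
  have hN : (2 * d + 1) • Q = 0 := by
    by_contra hN
    have e1 := H' (2 * d) (by omega) le_rfl
    have e2 := (H' (2 * d - 1) (by omega) (by omega)).1
    have e3 : (2 * d) • Q - Q = (2 * d - 1) • Q := by
      rw [sub_eq_iff_eq_add, ← succ_nsmul, Nat.sub_add_cancel (by omega)]
    have e4 : ((2 * d : ℕ) : ZMod (2 * d + 1)) = -1 := by
      rw [eq_neg_iff_add_eq_zero, ← Nat.cast_succ, ZMod.natCast_self]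
    refine k.inj _ _ e1.1 hQ0 (by rwa [← succ_nsmul]) (by rwa [e3]) ?_
    rw [e1.2, e4, k₀.ξ_neg, hQ1]
  let ι : ZMod (2 * d + 1) →+ E := ZMod.lift (2 * d + 1) ⟨zmultiplesHom E Q, by
    rw [zmultiplesHom_apply, natCast_zsmul, hN]⟩
  have hι : ∀ i : ZMod (2 * d + 1), ι i = i.val • Q := fun i => by
    conv_lhs => rw [← ZMod.natCast_zmod_val i, ← Int.cast_natCast]
    rw [ZMod.lift_coe]
    exact natCast_zsmul Q i.val
  have hv : ∀ i : ZMod (2 * d + 1), i ≠ 0 → 1 ≤ i.val ∧ i.val ≤ 2 * d := fun i hi =>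
    ⟨Nat.pos_of_ne_zero ((ZMod.val_ne_zero i).2 hi), Nat.le_of_lt_succ (ZMod.val_lt i)⟩
  refine ⟨ι, (injective_iff_map_eq_zero ι).2 fun i hi => ?_, fun i => ?_⟩
  · by_contra h0
    exact (H' _ (hv i h0).1 (hv i h0).2).1 (by rwa [← hι])
  · by_cases h0 : i = 0
    · rw [h0, map_zero, k.ξ_zero, k₀.ξ_zero]
    · rw [hι, (H' _ (hv i h0).1 (hv i h0).2).2, ZMod.natCast_zmod_val]

section velu
variable {d : ℕ} (ι : ZMod (2 * d + 1) →+ E)

/-- the coordinates of half of the kernel -/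
def xh (j : ℕ) : K := k.ξ (ι ((j + 1 : ℕ) : ZMod (2 * d + 1)))
/-- their product -/
def pr : K := ∏ j ∈ Finset.range d, k.xh ι j
/-- Vélu's `x`-coordinate -/
def vx (P : E) : K := ∑ i, k.ξ (P + ι i)
/-- the modulus of the quotient -/
def vρ : K := k.ρ ^ (2 * d + 1) / k.pr ι ^ 8

variable {ι} (hι : Function.Injective ι)
include hι

theorem pr_ne : k.pr ι ≠ 0 := by
  refine Finset.prod_ne_zero_iff.2 fun j hj => k.ne _ ?_
  rw [← map_add, map_ne_zero_iff ι hι]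
  exact (zmod_odd_ne (Finset.mem_range.1 hj) (Finset.mem_range.1 hj)).2.1

theorem helper87_dbl_ne {u : ZMod (2 * d + 1)} (hu : u ≠ 0) : ι u + ι u ≠ 0 := by
  rw [← map_add, map_ne_zero_iff ι hι]
  intro h
  exact hu (zmod_odd_dbl.1 (show u + u = 0 + 0 by rw [h, add_zero]))

theorem helper87_or (u : ZMod (2 * d + 1)) : ι u = 0 ∨ ι u + ι u ≠ 0 := by
  by_cases hu : u = 0
  · left; rw [hu, map_zero]
  · right; exact helper87_dbl_ne hι hu

theorem helper87_xh_ne {j : ℕ} (hj : j < d) : k.xh ι j ≠ 0 :=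
  k.ne _ (helper87_dbl_ne hι (zmod_odd_ne hj hj).1)

theorem helper87_xh_inj {i j : ℕ} (hi : i < d) (hj : j < d) (h : k.xh ι i ^ 2 = k.xh ι j ^ 2) :
    i = j := by
  by_contra hne
  have h2 : k.xh ι i = k.xh ι j := by
    have : (k.xh ι i + k.xh ι j) ^ 2 = 0 := by
      rw [add_pow_char, h, CharTwo.add_self_eq_zero]
    have h3 := pow_eq_zero_iff (two_ne_zero) |>.1 this
    exact CharTwo.add_eq_zero.1 h3
  refine k.inj _ _ ?_ ?_ ?_ ?_ h2
  · rw [map_ne_zero_iff ι hι]; exact (zmod_odd_ne hi hj).1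
  · rw [map_ne_zero_iff ι hι]; exact (zmod_odd_ne hj hi).1
  · rw [← map_add, map_ne_zero_iff ι hι]; exact (zmod_odd_ne hi hj).2.1
  · rw [← map_sub, map_ne_zero_iff ι hι]; exact (zmod_odd_ne hi hj).2.2 hne

omit hι in
theorem helper87_sum_inv : ∑ i, (k.ξ (ι i))⁻¹ = 0 := by
  rw [sum_zmod_odd d (fun i => (k.ξ (ι i))⁻¹)]
  simp only [map_zero, k.ξ_zero, inv_zero, zero_add, map_neg, k.ξ_neg, CharTwo.add_self_eq_zero,
    Finset.sum_const_zero]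

theorem helper87_root {j₀ : ℕ} (h₀ : j₀ < d) :
    (∀ j < d, k.ρ / k.xh ι j₀ ^ 2 + k.xh ι j ^ 2 ≠ 0) ∧
    1 + ∑ j ∈ Finset.range d, k.xh ι j / (k.ρ / k.xh ι j₀ ^ 2 + k.xh ι j ^ 2) = 0 := by
  set a : ZMod (2 * d + 1) := ((j₀ + 1 : ℕ) : ZMod (2 * d + 1)) with ha
  have hx0 := k.helper87_xh_ne hι h₀
  have hrec : ∀ j < d, k.xh ι j₀ ^ 2 * k.xh ι j ^ 2 + k.ρ ≠ 0 ∧
      (k.ξ (ι (a + ((j + 1 : ℕ) : ZMod (2 * d + 1)))))⁻¹ +
        (k.ξ (ι (a + -((j + 1 : ℕ) : ZMod (2 * d + 1)))))⁻¹ =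
      k.xh ι j₀ * k.xh ι j / (k.xh ι j₀ ^ 2 * k.xh ι j ^ 2 + k.ρ) := by
    intro j hj
    have h := k.recip (P := ι a) (Q := ι ((j + 1 : ℕ) : ZMod (2 * d + 1)))
      (helper87_dbl_ne hι (zmod_odd_ne h₀ h₀).1) (helper87_dbl_ne hι (zmod_odd_ne hj hj).1)
      (by rw [← map_add]; exact helper87_or hι _) (by rw [← map_sub]; exact helper87_or hι _)
    rw [← map_add, ← map_sub, sub_eq_add_neg] at h
    exact h
  have hne : ∀ j < d, k.ρ / k.xh ι j₀ ^ 2 + k.xh ι j ^ 2 =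
      (k.xh ι j₀ ^ 2 * k.xh ι j ^ 2 + k.ρ) / k.xh ι j₀ ^ 2 := by
    intro j _
    field_simp
    ring
  refine ⟨fun j hj => ?_, ?_⟩
  · rw [hne j hj]
    exact div_ne_zero (hrec j hj).1 (pow_ne_zero _ hx0)
  · have hs : ∑ i, (k.ξ (ι (a + i)))⁻¹ = 0 := by
      rw [← k.helper87_sum_inv (ι := ι)]
      exact Fintype.sum_equiv (Equiv.addLeft a) _ _ (fun i => rfl)
    rw [sum_zmod_odd d (fun i => (k.ξ (ι (a + i)))⁻¹), add_zero,
      Finset.sum_congr rfl (fun j hj => (hrec j (Finset.mem_range.1 hj)).2)] at hs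
    have hs2 := congrArg (fun t => k.xh ι j₀ * t) hs
    simp only [mul_add, mul_zero, Finset.mul_sum] at hs2
    have h1 : k.xh ι j₀ * (k.ξ (ι a))⁻¹ = 1 := mul_inv_cancel₀ hx0
    rw [h1] at hs2
    rw [← hs2]
    congr 1
    refine Finset.sum_congr rfl fun j hj => ?_
    have hj' := Finset.mem_range.1 hj
    have := (hrec j hj').1
    rw [hne j hj']
    field_simp

omit hι in
theorem helper87_split {s : Finset ℕ} (x y : ℕ → K) (hy : ∀ j ∈ s, y j ≠ 0) :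
    ∏ j ∈ s, y j + ∑ j ∈ s, x j * ∏ i ∈ s.erase j, y i =
      (1 + ∑ j ∈ s, x j / y j) * ∏ j ∈ s, y j := by
  rw [add_mul, one_mul, Finset.sum_mul]
  congr 1
  refine Finset.sum_congr rfl fun j hj => ?_
  rw [← Finset.mul_prod_erase s y hj]
  have := hy j hj
  field_simp

/-- both sides are monic of degree `d`; the left side vanishes at the `d` distinct points
`ρ / xh j₀ ²` (sum `recip` at `(ι (j₀+1), ι (j+1))` over `j`, `sum_zmod_odd`, translation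
invariance and `∑ i, (ξ (ι i))⁻¹ = 0`) -/
theorem gid : ∏ j ∈ Finset.range d, (X + C (k.xh ι j ^ 2)) +
      ∑ j ∈ Finset.range d, C (k.xh ι j) *
        ∏ i ∈ (Finset.range d).erase j, (X + C (k.xh ι i ^ 2)) =
    ∏ j ∈ Finset.range d, (X + C (k.ρ / k.xh ι j ^ 2)) := by
  have hm : ∀ (s : Finset ℕ) (c : ℕ → K), (∏ j ∈ s, (X + C (c j))).Monic ∧
      (∏ j ∈ s, (X + C (c j))).degree = (s.card : WithBot ℕ) := by
    intro s c
    refine ⟨monic_prod_of_monic _ _ fun j _ => monic_X_add_C _, ?_⟩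
    rw [degree_prod]
    simp only [degree_X_add_C, Finset.sum_const, nsmul_eq_mul, mul_one]
  refine eq_of_degree_sub_lt_of_eval_index_eq (s := Finset.range d)
    (v := fun j => k.ρ / k.xh ι j ^ 2) ?_ ?_ ?_
  · intro i hi j hj h
    have hi' := Finset.mem_range.1 (Finset.mem_coe.1 hi)
    have hj' := Finset.mem_range.1 (Finset.mem_coe.1 hj)
    have h1 := k.helper87_xh_ne hι hi'
    have h2 := k.helper87_xh_ne hι hj'
    have h3 := k.ρ_ne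
    refine k.helper87_xh_inj hι hi' hj' ?_
    simp only at h
    rw [div_eq_div_iff (pow_ne_zero _ h1) (pow_ne_zero _ h2)] at h
    exact (mul_left_cancel₀ h3 h).symm
  · rw [add_sub_right_comm]
    refine (degree_add_le _ _).trans_lt (max_lt ?_ ?_)
    · have h1 := hm (Finset.range d) (fun j => k.xh ι j ^ 2)
      have h2 := hm (Finset.range d) (fun j => k.ρ / k.xh ι j ^ 2)
      have := degree_sub_lt_left (h1.2.trans h2.2.symm) h1.1.ne_zero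
        (h1.1.leadingCoeff.trans h2.1.leadingCoeff.symm)
      rwa [h1.2] at this
    · refine (degree_sum_le _ _).trans_lt ?_
      rw [Finset.sup_lt_iff (by exact WithBot.bot_lt_coe _)]
      intro j hj
      have h1 := hm ((Finset.range d).erase j) (fun i => k.xh ι i ^ 2)
      rw [← smul_eq_C_mul]
      refine (degree_smul_le _ _).trans_lt ?_
      rw [h1.2]
      exact_mod_cast Finset.card_erase_lt_of_mem hj
  · intro j₀ h₀
    have h₀' := Finset.mem_range.1 h₀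
    obtain ⟨h1, h2⟩ := k.helper87_root hι h₀'
    simp only [eval_add, eval_prod, eval_finsetSum, eval_mul, eval_X, eval_C]
    rw [helper87_split (fun j => k.xh ι j) (fun j => k.ρ / k.xh ι j₀ ^ 2 + k.xh ι j ^ 2)
      (fun j hj => h1 j (Finset.mem_range.1 hj)), h2, zero_mul]
    exact (Finset.prod_eq_zero h₀ (CharTwo.add_self_eq_zero (k.ρ / k.xh ι j₀ ^ 2))).symm

/-- `sum_zmod_odd`, `sum` at `(P, ι (j+1))`, `gid` evaluated at `ξ P ^ 2` -/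
theorem vx_eq {P : E} (hP : P ∉ ι.range) :
    (∀ j < d, k.ξ P ^ 2 + k.xh ι j ^ 2 ≠ 0) ∧
    k.vx ι P * ∏ j ∈ Finset.range d, (k.ξ P ^ 2 + k.xh ι j ^ 2) =
      k.ξ P * ∏ j ∈ Finset.range d, (k.ξ P ^ 2 + k.ρ / k.xh ι j ^ 2) := by
  have hP0 : P ≠ 0 := fun h => hP (h ▸ ι.range.zero_mem)
  have hadd : ∀ u, P + ι u ≠ 0 := fun u h =>
    hP ⟨-u, by rw [map_neg]; exact (eq_neg_of_add_eq_zero_left h).symm⟩
  have hsub : ∀ u, P - ι u ≠ 0 := fun u h => hP ⟨u, (sub_eq_zero.1 h).symm⟩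
  have hQ : ∀ j < d, ι ((j + 1 : ℕ) : ZMod (2 * d + 1)) ≠ 0 := fun j hj => by
    rw [map_ne_zero_iff ι hι]; exact (zmod_odd_ne hj hj).1
  have hne : ∀ j < d, k.ξ P ^ 2 + k.xh ι j ^ 2 ≠ 0 := by
    intro j hj
    rw [← add_pow_char]
    refine pow_ne_zero _ fun h => ?_
    exact k.inj P _ hP0 (hQ j hj) (hadd _) (hsub _) (CharTwo.add_eq_zero.1 h)
  refine ⟨hne, ?_⟩
  have hg := congrArg (eval (k.ξ P ^ 2)) (k.gid hι)
  simp only [eval_add, eval_prod, eval_finsetSum, eval_mul, eval_X, eval_C] at hg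
  rw [helper87_split (fun j => k.xh ι j) (fun j => k.ξ P ^ 2 + k.xh ι j ^ 2)
    (fun j hj => hne j (Finset.mem_range.1 hj))] at hg
  rw [← hg, ← mul_assoc]
  congr 1
  unfold vx
  rw [sum_zmod_odd d (fun i => k.ξ (P + ι i)), map_zero, add_zero, mul_add, mul_one,
    Finset.mul_sum]
  congr 1
  refine Finset.sum_congr rfl fun j hj => ?_
  have hj' := Finset.mem_range.1 hj
  have h1 := k.sum P _ hP0 (hQ j hj') (hadd _) (hsub _)
  rw [add_pow_char] at h1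
  have h2 := hne j hj'
  rw [map_neg, ← sub_eq_add_neg, ← mul_div_assoc, eq_div_iff h2]
  exact h1

theorem vx_add_ker (P : E) (i : ZMod (2 * d + 1)) : k.vx ι (P + ι i) = k.vx ι P := by
  have _ := hι
  refine Fintype.sum_equiv (Equiv.addLeft i) _ _ fun j => ?_
  rw [Equiv.coe_addLeft, map_add, add_assoc]

theorem vx_neg (P : E) : k.vx ι (-P) = k.vx ι P := by
  have _ := hι
  refine Fintype.sum_equiv (Equiv.neg _) _ _ fun j => ?_
  rw [Equiv.neg_apply, map_neg, ← k.ξ_neg, neg_add, neg_neg]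

/-- `J = ∑ i, (ξ (P + ι i))⁻¹` is computed by `recip` and `gid` at `ρ / ξ P ^ 2`:
`J * vx P = ∏ ρ / xh j ^ 4`; and `vx (P + P) = ∑ ξ (2 (P + ι i)) = vx P ^ 2 + ρ J ^ 2`
(`zmod_odd_dbl`, `dbl`, `sum_pow_char`) -/
theorem vx_dbl {P : E} (hP : P + P ∉ ι.range) :
    k.vx ι P ≠ 0 ∧ k.vx ι (P + P) * k.vx ι P ^ 2 = k.vx ι P ^ 4 + k.vρ ι := by
  have hP0 : P ∉ ι.range := fun h => hP (add_mem h h)
  have h2 : ∀ i, P + ι i + (P + ι i) ≠ 0 := fun i h => hP ⟨-(i + i), by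
    rw [map_neg, map_add, neg_eq_iff_add_eq_zero, ← h]; abel⟩
  have hPP : P + P ≠ 0 := by simpa using h2 0
  have hx : k.ξ P ≠ 0 := k.ne P hPP
  have hQ : ∀ j < d, ι ((j + 1 : ℕ) : ZMod (2 * d + 1)) + ι ((j + 1 : ℕ) : ZMod (2 * d + 1)) ≠ 0 :=
    fun j hj => by
      rw [← map_add, map_ne_zero_iff ι hι]
      exact (zmod_odd_ne hj hj).2.1
  have ha : ∀ j < d, k.xh ι j ≠ 0 := fun j hj => k.ne _ (hQ j hj)
  have hr : ∀ j < d, k.ξ P ^ 2 * k.xh ι j ^ 2 + k.ρ ≠ 0 ∧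
      (k.ξ (P + ι ((j + 1 : ℕ) : ZMod (2 * d + 1))))⁻¹ +
        (k.ξ (P + ι (-((j + 1 : ℕ) : ZMod (2 * d + 1)))))⁻¹ =
        k.ξ P * k.xh ι j / (k.ξ P ^ 2 * k.xh ι j ^ 2 + k.ρ) := fun j hj => by
    have h3 := h2 (-((j + 1 : ℕ) : ZMod (2 * d + 1)))
    rw [map_neg, ← sub_eq_add_neg] at h3 ⊢
    exact k.recip hPP (hQ j hj) (Or.inr (h2 _)) (Or.inr h3)
  obtain ⟨J, hJ⟩ : ∃ J : K, J = ∑ i, (k.ξ (P + ι i))⁻¹ := ⟨_, rfl⟩
  obtain ⟨s, hs⟩ : ∃ s : K, s = k.ρ / k.ξ P ^ 2 := ⟨_, rfl⟩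
  have hsa : ∀ j < d, s + k.xh ι j ^ 2 ≠ 0 := fun j hj h => (hr j hj).1 (by
    have : k.ξ P ^ 2 * k.xh ι j ^ 2 + k.ρ = k.ξ P ^ 2 * (s + k.xh ι j ^ 2) := by
      rw [hs]; field_simp; ring
    rw [this, h, mul_zero])
  have hJ1 : J * k.ξ P = 1 + ∑ j ∈ Finset.range d, k.xh ι j / (s + k.xh ι j ^ 2) := by
    rw [hJ, sum_zmod_odd, map_zero, add_zero, add_mul, inv_mul_cancel₀ hx, Finset.sum_mul]
    congr 1
    refine Finset.sum_congr rfl fun j hj => ?_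
    have hj' := Finset.mem_range.mp hj
    rw [(hr j hj').2, div_mul_eq_mul_div, div_eq_div_iff (hr j hj').1 (hsa j hj'), hs]
    field_simp
    ring
  have hg := congrArg (Polynomial.eval s) (k.gid hι)
  simp only [eval_add, eval_prod, eval_finsetSum, eval_mul, eval_X, eval_C] at hg
  have hJ2 : J * k.ξ P * ∏ j ∈ Finset.range d, (s + k.xh ι j ^ 2) =
      ∏ j ∈ Finset.range d, (s + k.ρ / k.xh ι j ^ 2) := by
    rw [hJ1, ← hg, add_mul, one_mul, Finset.sum_mul]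
    congr 1
    refine Finset.sum_congr rfl fun j hj => ?_
    rw [← Finset.mul_prod_erase _ _ hj, ← mul_assoc,
      div_mul_cancel₀ _ (hsa j (Finset.mem_range.mp hj))]
  obtain ⟨hA, hv⟩ := k.vx_eq hι hP0
  have hc : (∏ j ∈ Finset.range d, (s + k.ρ / k.xh ι j ^ 2)) *
      ∏ j ∈ Finset.range d, (k.ξ P ^ 2 + k.ρ / k.xh ι j ^ 2) =
      (k.ρ ^ d / k.pr ι ^ 4) * ((∏ j ∈ Finset.range d, (s + k.xh ι j ^ 2)) *
        ∏ j ∈ Finset.range d, (k.ξ P ^ 2 + k.xh ι j ^ 2)) := by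
    have e : k.ρ ^ d / k.pr ι ^ 4 = ∏ j ∈ Finset.range d, k.ρ / k.xh ι j ^ 4 := by
      rw [Finset.prod_div_distrib, Finset.prod_const, Finset.card_range, Finset.prod_pow, pr]
    rw [e, ← Finset.prod_mul_distrib, ← Finset.prod_mul_distrib, ← Finset.prod_mul_distrib]
    refine Finset.prod_congr rfl fun j hj => ?_
    have := ha j (Finset.mem_range.mp hj)
    rw [hs]
    field_simp
    ring
  have hne : k.ξ P * ((∏ j ∈ Finset.range d, (s + k.xh ι j ^ 2)) *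
      ∏ j ∈ Finset.range d, (k.ξ P ^ 2 + k.xh ι j ^ 2)) ≠ 0 :=
    mul_ne_zero hx (mul_ne_zero
      (Finset.prod_ne_zero_iff.mpr fun j hj => hsa j (Finset.mem_range.mp hj))
      (Finset.prod_ne_zero_iff.mpr fun j hj => hA j (Finset.mem_range.mp hj)))
  have hJv : J * k.vx ι P = k.ρ ^ d / k.pr ι ^ 4 := by
    apply mul_right_cancel₀ hne
    linear_combination (J * k.ξ P * ∏ j ∈ Finset.range d, (s + k.xh ι j ^ 2)) * hv +
      (k.ξ P * ∏ j ∈ Finset.range d, (k.ξ P ^ 2 + k.ρ / k.xh ι j ^ 2)) * hJ2 + k.ξ P * hc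
  have hd : k.vx ι (P + P) = k.vx ι P ^ 2 + k.ρ * J ^ 2 := by
    have : Fact (Nat.Prime 2) := Nat.fact_prime_two
    rw [hJ, vx, vx, sum_pow_char 2, sum_pow_char 2, Finset.mul_sum, ← Finset.sum_add_distrib,
      ← (zmod_odd_dbl (d := d)).sum_comp fun i => k.ξ (P + P + ι i)]
    refine Finset.sum_congr rfl fun i _ => ?_
    have e : P + P + ι (i + i) = P + ι i + (P + ι i) := by rw [map_add]; abel
    have h4 := k.dbl _ (h2 i)
    have h5 := k.ne _ (h2 i)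
    rw [e]
    field_simp
    linear_combination h4
  refine ⟨fun h => ?_, ?_⟩
  · rw [h, mul_zero] at hJv
    exact div_ne_zero (pow_ne_zero _ k.ρ_ne) (pow_ne_zero _ (k.pr_ne hι)) hJv.symm
  · have e : k.vρ ι = k.ρ * (k.ρ ^ d / k.pr ι ^ 4) ^ 2 := by rw [vρ]; ring
    rw [hd, e, ← hJv]
    ring

omit hι in
theorem h92_prod_sq (d : ℕ) (a : ℕ → K) :
    (∏ j ∈ Finset.range d, (X ^ 2 + C (a j) : K[X])).Monic ∧
    (∏ j ∈ Finset.range d, (X ^ 2 + C (a j) : K[X])).natDegree = 2 * d ∧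
    derivative (∏ j ∈ Finset.range d, (X ^ 2 + C (a j) : K[X])) = 0 := by
  have hm : ∀ j ∈ Finset.range d, (X ^ 2 + C (a j) : K[X]).Monic := fun j _ =>
    monic_X_pow_add_C _ two_ne_zero
  refine ⟨monic_prod_of_monic _ _ hm, ?_, ?_⟩
  · rw [natDegree_prod_of_monic _ _ hm]
    simp [mul_comm]
  · rw [derivative_prod_finset]
    refine Finset.sum_eq_zero fun j _ => ?_
    have h2 : ((2 : ℕ) : K) = 0 := CharP.cast_eq_zero K 2
    rw [derivative_add, derivative_C, derivative_X_pow, h2, C_0, zero_mul, add_zero, mul_zero]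

omit hι [CharP K 2] in
theorem h92_add_ne {P : E} (hP : P ∉ ι.range) (i : ZMod (2 * d + 1)) : P + ι i ∉ ι.range :=
  fun h => hP ((ι.range.add_mem_cancel_right ⟨i, rfl⟩).1 h)

omit hι [CharP K 2] in
theorem h92_four {P Q : E} (hP : P ∉ ι.range) (hQ : Q + Q ∉ ι.range) (h₁ : P + Q ∉ ι.range)
    (h₂ : P - Q ∉ ι.range) (i : ZMod (2 * d + 1)) :
    P ≠ 0 ∧ Q + ι i ≠ 0 ∧ P + (Q + ι i) ≠ 0 ∧ P - (Q + ι i) ≠ 0 := by
  have h0 : ∀ {R : E}, R ∉ ι.range → R ≠ 0 := fun h e => h (e ▸ ι.range.zero_mem)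
  refine ⟨h0 hP, h0 (h92_add_ne (fun h => hQ (ι.range.add_mem h h)) i), ?_, ?_⟩
  · rw [← add_assoc]
    exact h0 (h92_add_ne h₁ i)
  · rw [← sub_sub, sub_eq_add_neg, ← map_neg]
    exact h0 (h92_add_ne h₂ (-i))

/-- `N = X * G(X²) + vx Q * k(X²)` (`G`, `k` the two products of `vx_eq`) is monic of degree
`2d+1` with the distinct roots `ξ (Q + ι i)` (`vx_eq`, `vx_add_ker`, `inj`), so
`N = ∏ (X + ξ (Q + ι i))`; `N' = G(X²)`; evaluate `X N' / N` at `ξ P` -/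
theorem vx_M {P Q : E} (hP : P ∉ ι.range) (hQ : Q + Q ∉ ι.range) (h₁ : P + Q ∉ ι.range)
    (h₂ : P - Q ∉ ι.range) : k.vx ι P + k.vx ι Q ≠ 0 ∧
      k.vx ι P / (k.vx ι P + k.vx ι Q) = ∑ i, k.ξ P / (k.ξ P + k.ξ (Q + ι i)) := by
  classical
  have h2 : (2 : K) = 0 := CharTwo.two_eq_zero
  have hQ' : Q ∉ ι.range := fun h => hQ (ι.range.add_mem h h)
  have h0 : ∀ {R : E}, R ∉ ι.range → R ≠ 0 := fun h e => h (e ▸ ι.range.zero_mem)
  obtain ⟨g1, g2, g3⟩ := h92_prod_sq d fun j => k.ρ / k.xh ι j ^ 2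
  obtain ⟨k1, k2, k3⟩ := h92_prod_sq d fun j => k.xh ι j ^ 2
  have m1 : (X * ∏ j ∈ Finset.range d, (X ^ 2 + C (k.ρ / k.xh ι j ^ 2) : K[X])).Monic :=
    monic_X.mul g1
  have d1 : (X * ∏ j ∈ Finset.range d, (X ^ 2 + C (k.ρ / k.xh ι j ^ 2) : K[X])).degree =
      ((2 * d + 1 : ℕ) : WithBot ℕ) := by
    rw [degree_eq_natDegree m1.ne_zero, monic_X.natDegree_mul g1, g2, natDegree_X, add_comm]
  have d2 : (C (k.vx ι Q) * ∏ j ∈ Finset.range d, (X ^ 2 + C (k.xh ι j ^ 2) : K[X])).degree <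
      (X * ∏ j ∈ Finset.range d, (X ^ 2 + C (k.ρ / k.xh ι j ^ 2) : K[X])).degree := by
    rw [d1]
    refine degree_le_natDegree.trans_lt ?_
    exact_mod_cast ((natDegree_C_mul_le _ _).trans k2.le).trans_lt (Nat.lt_succ_self _)
  have m2 : (∏ i, (X - C (k.ξ (Q + ι i)) : K[X])).Monic := monic_prod_X_sub_C _ _
  have d3 : (∏ i, (X - C (k.ξ (Q + ι i)) : K[X])).degree = (2 * d + 1 : ℕ) := by
    rw [degree_eq_natDegree m2.ne_zero, natDegree_finsetProd_X_sub_C_eq_card, Finset.card_univ,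
      ZMod.card]
  have hinj : Set.InjOn (fun i => k.ξ (Q + ι i)) (Finset.univ : Finset (ZMod (2 * d + 1))) := by
    intro i _ j _ h
    by_contra hij
    refine k.inj _ _ (h0 (h92_add_ne hQ' i)) (h0 (h92_add_ne hQ' j)) ?_ ?_ h
    · rw [add_add_add_comm, ← map_add]
      exact h0 (h92_add_ne hQ _)
    · rw [add_sub_add_left_eq_sub, ← map_sub, map_ne_zero_iff ι hι]
      exact sub_ne_zero.2 hij
  have hN : X * ∏ j ∈ Finset.range d, (X ^ 2 + C (k.ρ / k.xh ι j ^ 2) : K[X]) +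
      C (k.vx ι Q) * ∏ j ∈ Finset.range d, (X ^ 2 + C (k.xh ι j ^ 2) : K[X]) =
      ∏ i, (X - C (k.ξ (Q + ι i))) := by
    refine eq_of_degree_sub_lt_of_eval_index_eq _ hinj ?_ fun i _ => ?_
    · have d4 := (degree_add_eq_left_of_degree_lt d2).trans d1
      have m3 := m1.add_of_left d2
      refine (degree_sub_lt_left (d4.trans d3.symm) m3.ne_zero (m3.trans m2.symm)).trans_eq ?_
      rw [d4, Finset.card_univ, ZMod.card]
    · have e := (k.vx_eq hι (h92_add_ne hQ' i)).2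
      rw [k.vx_add_ker hι] at e
      simp only [eval_add, eval_mul, eval_X, eval_C, eval_prod, eval_pow, eval_sub]
      rw [Finset.prod_eq_zero (f := fun x => k.ξ (Q + ι i) - k.ξ (Q + ι x)) (Finset.mem_univ i)
        (sub_self _), e]
      exact CharTwo.add_self_eq_zero _
  have hD := congrArg (fun p => eval (k.ξ P) (derivative p)) hN
  have hE := congrArg (eval (k.ξ P)) hN
  simp only [derivative_add, derivative_mul, g3, k3, derivative_X, derivative_C, mul_zero, zero_mul,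
    one_mul, add_zero] at hD
  simp only [derivative_prod_finset, derivative_X_sub_C, mul_one] at hD
  simp only [eval_finsetSum, eval_add, eval_X, eval_C, eval_prod, eval_pow, CharTwo.sub_eq_add] at hD
  simp only [eval_add, eval_mul, eval_X, eval_C, eval_prod, eval_pow, CharTwo.sub_eq_add] at hE
  obtain ⟨e1, e2⟩ := k.vx_eq hι hP
  have hx : ∀ i, k.ξ P + k.ξ (Q + ι i) ≠ 0 := fun i h => by
    obtain ⟨a1, a2, a3, a4⟩ := h92_four hP hQ h₁ h₂ i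
    exact k.inj _ _ a1 a2 a3 a4 (CharTwo.add_eq_zero.1 h)
  have hp : ∏ i, (k.ξ P + k.ξ (Q + ι i)) ≠ 0 := Finset.prod_ne_zero_iff.2 fun i _ => hx i
  have hK : ∏ j ∈ Finset.range d, (k.ξ P ^ 2 + k.xh ι j ^ 2) ≠ 0 :=
    Finset.prod_ne_zero_iff.2 fun j hj => e1 j (Finset.mem_range.1 hj)
  rw [← e2, ← add_mul] at hE
  refine ⟨left_ne_zero_of_mul (hE ▸ hp), ?_⟩
  rw [← mul_div_mul_right _ _ hK, hE, e2, hD, Finset.mul_sum, Finset.sum_div]
  refine Finset.sum_congr rfl fun i _ => ?_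
  rw [← Finset.mul_prod_erase _ _ (Finset.mem_univ i),
    mul_div_mul_right _ _ (Finset.prod_ne_zero_iff.2 fun j _ => hx j)]

/-- `m² + m` for `m` as in `vx_M`; `sum` at `(P, Q + ι i)` -/
theorem vx_sum {P Q : E} (hP : P ∉ ι.range) (hQ : Q + Q ∉ ι.range) (h₁ : P + Q ∉ ι.range)
    (h₂ : P - Q ∉ ι.range) :
    (k.vx ι (P + Q) + k.vx ι (P - Q)) * (k.vx ι P + k.vx ι Q) ^ 2 = k.vx ι P * k.vx ι Q := by
  have h2 : (2 : K) = 0 := CharTwo.two_eq_zero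
  obtain ⟨m1, m2⟩ := k.vx_M hι hP hQ h₁ h₂
  have e1 : k.vx ι (P - Q) = ∑ i, k.ξ (P - (Q + ι i)) := by
    rw [vx, ← Equiv.sum_comp (Equiv.neg _)]
    refine Finset.sum_congr rfl fun i _ => ?_
    rw [Equiv.neg_apply, map_neg, ← sub_eq_add_neg, sub_sub]
  have e2 : k.vx ι (P + Q) + k.vx ι (P - Q) =
      (k.vx ι P / (k.vx ι P + k.vx ι Q)) ^ 2 + k.vx ι P / (k.vx ι P + k.vx ι Q) := by
    rw [m2, sum_pow_char, e1, vx, ← Finset.sum_add_distrib, ← Finset.sum_add_distrib]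
    refine Finset.sum_congr rfl fun i _ => ?_
    obtain ⟨a1, a2, a3, a4⟩ := h92_four hP hQ h₁ h₂ i
    have hx : k.ξ P + k.ξ (Q + ι i) ≠ 0 := fun h =>
      k.inj _ _ a1 a2 a3 a4 (CharTwo.add_eq_zero.1 h)
    have h := k.sum _ _ a1 a2 a3 a4
    rw [add_assoc]
    field_simp
    linear_combination h - k.ξ P ^ 2 * h2
  rw [e2]
  field_simp
  linear_combination k.vx ι P ^ 2 * h2

end velu

end Kum

end Crest.Agent.R007
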