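import Crest.Agent.R007.GK

/-! Row 7, block GEO: Vélu's map is a homomorphism. -/

set_option autoImplicit false

noncomputable section
namespace Crest.Agent.R007

/-- Kummer data together with the tangent slope `λ = x + y / x` -/
structure KumL (E K : Type) [AddCommGroup E] [Field K] extends Kum E K where
  /-- the slope of the tangent -/
  lam : E → K
  /-- the coefficient of `x²` -/
  c : K
  lam_neg : ∀ P, P + P ≠ 0 → lam (-P) = lam P + 1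
  lam_sq : ∀ P, P + P ≠ 0 → lam P ^ 2 + lam P + c = ξ (P + P)
  add : ∀ P Q, P + P ≠ 0 → Q + Q ≠ 0 → P + Q ≠ 0 → P - Q ≠ 0 →
    ξ (P + Q) * (ξ P + ξ Q) ^ 2 = ξ P * ξ Q * (lam P + lam Q)

namespace KumL

variable {E K : Type} [AddCommGroup E] [Field K] [CharP K 2] (k : KumL E K)

/-- a point is determined by `ξ` and `λ` (`inj`, `lam_neg`) -/
theorem ext_pt {P Q : E} (hP : P + P ≠ 0) (hQ : Q + Q ≠ 0) (h₁ : k.ξ P = k.ξ Q)
    (h₂ : k.lam P = k.lam Q) : P = Q := by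
  by_contra hne
  have hP0 : P ≠ 0 := fun h => hP (by rw [h, add_zero])
  have hQ0 : Q ≠ 0 := fun h => hQ (by rw [h, add_zero])
  by_cases h : P + Q = 0
  · have e : P = -Q := eq_neg_of_add_eq_zero_left h
    rw [e, k.lam_neg Q hQ] at h₂
    exact one_ne_zero (add_eq_left.1 h₂)
  · exact k.inj P Q hP0 hQ0 h (sub_ne_zero.2 hne) h₁

/-- all solutions of the curve equation are points -/
def Full : Prop := ∀ z l : K, z ≠ 0 → (l ^ 2 + l + k.c) * z ^ 2 = z ^ 4 + k.ρ →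
  ∃ P : E, P + P ≠ 0 ∧ k.ξ P = z ∧ k.lam P = l

variable {d : ℕ} (ι : ZMod (2 * d + 1) →+ E)

/-- Vélu's slope -/
def vl (P : E) : K := ∑ i, k.lam (P + ι i)

variable {ι} (hι : Function.Injective ι)
include hι

omit hι in
theorem h49_ne {R S : E} (hR : R ∉ ι.range) (j : ZMod (2 * d + 1)) (h : S = R + ι j) : S ≠ 0 :=
  fun h0 => hR ⟨-j, by rw [map_neg, eq_comm, ← add_eq_zero_iff_eq_neg, ← h, h0]⟩

omit hι in
theorem h49_half {R : E} (hR : R + R ∉ ι.range) : R ∉ ι.range := fun h => hR (add_mem h h)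

omit hι in
theorem h49_const (x : K) : ∑ _i : ZMod (2 * d + 1), x = x := by
  rw [Finset.sum_const, Finset.card_univ, ZMod.card, nsmul_eq_mul]
  push_cast
  rw [CharTwo.two_eq_zero, zero_mul, zero_add, one_mul]

theorem vl_neg {P : E} (hP : P + P ∉ ι.range) : k.vl ι (-P) = k.vl ι P + 1 := by
  rw [vl, vl, ← Equiv.sum_comp (Equiv.neg (ZMod (2 * d + 1))), ← h49_const (d := d) (1 : K),
    ← Finset.sum_add_distrib]
  refine Finset.sum_congr rfl fun i _ => ?_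
  rw [Equiv.neg_apply, map_neg, ← neg_add]
  exact k.lam_neg _ (h49_ne hP (i + i) (by rw [map_add]; abel))

/-- `lam_sq` termwise, `zmod_odd_dbl` -/
theorem vl_sq {P : E} (hP : P + P ∉ ι.range) :
    k.vl ι P ^ 2 + k.vl ι P + k.c = k.toKum.vx ι (P + P) := by
  rw [vl, Kum.vx, CharTwo.sum_sq, ← h49_const (d := d) k.c, ← Finset.sum_add_distrib,
    ← Finset.sum_add_distrib, ← (zmod_odd_dbl (d := d)).sum_comp fun i => k.ξ (P + P + ι i)]
  refine Finset.sum_congr rfl fun i _ => ?_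
  rw [k.lam_sq _ (h49_ne hP (i + i) (by rw [map_add]; abel)), map_add]
  congr 1
  abel

/-- `vx_M` at `(P + Q, P - Q)`; each term `ξ(P+Q) / (ξ(P+Q) + ξ(P - Q + ι (i + i)))` equals
`λ(P + ι i) + λ(Q - ι i)` by `add` and `sum`; then `vx_sum` at `(P, Q)` -/
theorem vx_add {P Q : E} (hP : P + P ∉ ι.range) (hQ : Q + Q ∉ ι.range) (h₁ : P + Q ∉ ι.range)
    (h₂ : P - Q + (P - Q) ∉ ι.range) :
    k.toKum.vx ι (P + Q) * (k.toKum.vx ι P + k.toKum.vx ι Q) ^ 2 =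
      k.toKum.vx ι P * k.toKum.vx ι Q * (k.vl ι P + k.vl ι Q) := by
  obtain ⟨a1, a2⟩ := k.toKum.vx_M hι h₁ h₂ (by rwa [add_add_sub_cancel])
    (by rwa [add_sub_sub_cancel])
  have a3 := k.toKum.vx_sum hι (h49_half hP) hQ h₁ (h49_half h₂)
  have a4 : ∑ i, k.ξ (P + Q) / (k.ξ (P + Q) + k.ξ (P - Q + ι i)) = k.vl ι P + k.vl ι Q := by
    rw [vl, vl, ← (zmod_odd_dbl (d := d)).sum_comp
      fun i => k.ξ (P + Q) / (k.ξ (P + Q) + k.ξ (P - Q + ι i)),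
      ← Equiv.sum_comp (Equiv.neg (ZMod (2 * d + 1))) fun i => k.lam (Q + ι i),
      ← Finset.sum_add_distrib]
    refine Finset.sum_congr rfl fun i _ => ?_
    rw [Equiv.neg_apply]
    have e1 : P + ι i + (Q + ι (-i)) = P + Q := by rw [map_neg]; abel
    have e2 : P + ι i - (Q + ι (-i)) = P - Q + ι (i + i) := by rw [map_neg, map_add]; abel
    have n1 : P + ι i + (P + ι i) ≠ 0 := h49_ne hP (i + i) (by rw [map_add]; abel)
    have n2 : Q + ι (-i) + (Q + ι (-i)) ≠ 0 := h49_ne hQ (-i + -i) (by rw [map_add]; abel)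
    have n3 : P + ι i + (Q + ι (-i)) ≠ 0 := h49_ne h₁ 0 (by rw [e1, map_zero, add_zero])
    have n4 : P + ι i - (Q + ι (-i)) ≠ 0 := h49_ne (h49_half h₂) _ e2
    have b1 := k.add _ _ n1 n2 n3 n4
    have b2 := k.sum _ _ (h49_ne (h49_half hP) i rfl) (h49_ne (h49_half hQ) (-i) rfl) n3 n4
    rw [e1] at b1
    rw [e1, e2] at b2
    have b3 : (k.ξ (P + Q) + k.ξ (P - Q + ι (i + i))) * (k.ξ (P + ι i) + k.ξ (Q + ι (-i))) ^ 2 ≠ 0 := by
      rw [b2]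
      exact mul_ne_zero (k.ne _ n1) (k.ne _ n2)
    rw [div_eq_iff (left_ne_zero_of_mul b3)]
    refine mul_right_cancel₀ (right_ne_zero_of_mul b3) ?_
    linear_combination b1 - (k.lam (P + ι i) + k.lam (Q + ι (-i))) * b2
  rw [a4, div_eq_iff a1] at a2
  linear_combination (k.toKum.vx ι P + k.toKum.vx ι Q) ^ 2 * a2 + (k.vl ι P + k.vl ι Q) * a3

omit hι in
theorem h2_hom_of_pm {Γ E' : Type} [AddCommGroup Γ] [AddCommGroup E']
    (htf : ∀ (n : ℕ) (γ : Γ), n ≠ 0 → n • γ = 0 → γ = 0) (f : Γ → E') (f0 : f 0 = 0)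
    (hneg : ∀ γ, f (-γ) = - f γ) (h2 : ∀ γ, γ ≠ 0 → f γ + f γ ≠ 0)
    (hpm : ∀ γ γ', γ ≠ 0 → γ' ≠ 0 → γ + γ' ≠ 0 → γ - γ' ≠ 0 →
      f (γ + γ') = f γ + f γ' ∨ f (γ + γ') = - (f γ + f γ')) (γ γ' : Γ) :
    f (γ + γ') = f γ + f γ' := by
  have A : ∀ γ γ', γ ≠ 0 → γ' ≠ 0 → γ + γ' ≠ 0 → γ - γ' ≠ 0 → γ + γ' + γ' ≠ 0 →
      f (γ + γ') = f γ + f γ' := fun γ γ' h h' hs hd h3 => by
    rcases hpm γ γ' h h' hs hd with e | e
    · exact e
    · have := hpm (γ + γ') (-γ') hs (neg_ne_zero.2 h') (by simpa using h) (by rwa [sub_neg_eq_add])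
      rw [add_neg_cancel_right, hneg, e] at this
      rcases this with q | q
      · rw [e]; exact (add_eq_of_eq_add_neg q).symm
      · refine absurd ?_ (h2 γ' h')
        have t : f γ' + f γ' = -(-(f γ + f γ') + -f γ') - f γ := by abel
        rw [t, ← q, sub_self]
  have B : ∀ γ γ', γ ≠ 0 → γ' ≠ 0 → γ + γ' ≠ 0 → γ - γ' ≠ 0 →
      f (γ + γ') = f γ + f γ' := fun γ γ' h h' hs hd => by
    by_cases h3 : γ + γ' + γ' = 0
    · rw [add_comm γ, add_comm (f γ)]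
      refine A γ' γ h' h (by rwa [add_comm]) (by rwa [← neg_sub, neg_ne_zero]) fun q => h' ?_
      refine htf 3 γ' three_ne_zero ?_
      have e : (3 : ℕ) • γ' = (γ + γ' + γ') + (γ + γ' + γ') - (γ' + γ + γ) := by abel
      rw [e, h3, q]; simp
    · exact A γ γ' h h' hs hd h3
  by_cases h : γ = 0
  · rw [h, zero_add, f0, zero_add]
  by_cases h' : γ' = 0
  · rw [h', add_zero, f0, add_zero]
  by_cases hs : γ + γ' = 0
  · rw [hs, eq_neg_of_add_eq_zero_right hs, hneg, f0, add_neg_cancel]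
  by_cases hd : γ - γ' = 0
  · obtain rfl := sub_eq_zero.1 hd
    have nz : ∀ n : ℕ, n ≠ 0 → ∀ x, x = n • γ → x ≠ 0 := fun n hn x e q => h (htf n γ hn (e ▸ q))
    have e3 := B (γ + γ) γ hs h (nz 3 (by norm_num) _ (by abel)) (by simpa using h)
    have e4 := B (γ + γ + γ) γ (nz 3 (by norm_num) _ (by abel)) h (nz 4 (by norm_num) _ (by abel))
      (nz 2 (by norm_num) _ (by abel))
    have e2 := B (γ + γ + γ + γ) (-(γ + γ)) (nz 4 (by norm_num) _ (by abel)) (neg_ne_zero.2 hs)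
      (nz 2 (by norm_num) _ (by abel)) (nz 6 (by norm_num) _ (by abel))
    rw [show γ + γ + γ + γ + -(γ + γ) = γ + γ by abel, hneg, e4, e3] at e2
    rw [e2]; abel
  exact B γ γ' h h' hs hd

/-- Define `φ 0 = 0` and `φ γ` by `Full` (`vx_dbl`, `vl_sq`); `φ (-γ) = -φ γ` (`ext_pt`).  For
`γ, γ', γ ± γ' ≠ 0`: `φ γ ± φ γ' ≠ 0` (`vx_M`), `vx_add` and `k'.add` give equal `ξ`, so
`φ (γ + γ') = ± (φ γ + φ γ')`; the same for `(γ + γ', -γ')` when `γ + 2γ' ≠ 0` excludes the sign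
`-` (it would give `2 φ γ' = 0` or `2 (φ γ + φ γ') = 0`, the latter makes the sign irrelevant);
if `γ + 2 γ' = 0` swap the roles (`γ' + 2 γ = 3 γ/2..≠ 0`).  Doubling: `2γ = 4γ + (-2γ)`,
`4γ = γ + 3γ`, `-2γ = γ + (-3γ)`. -/
theorem velu_hom {E' : Type} [AddCommGroup E'] (k' : KumL E' K) (hF : k'.Full)
    (hρ : k'.ρ = k.toKum.vρ ι) {κ : K} (hκ : κ ^ 2 + κ = k.c + k'.c)
    {Γ : Type} [AddCommGroup Γ] (e : Γ →+ E) (he : ∀ γ, e γ ∈ ι.range → γ = 0)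
    (htf : ∀ (n : ℕ) (γ : Γ), n ≠ 0 → n • γ = 0 → γ = 0) :
    ∃ φ : Γ →+ E', ∀ γ, γ ≠ 0 → φ γ + φ γ ≠ 0 ∧ k'.ξ (φ γ) = k.toKum.vx ι (e γ) ∧
      k'.lam (φ γ) = k.vl ι (e γ) + κ := by
  classical
  have h2 : ∀ γ : Γ, γ ≠ 0 → γ + γ ≠ 0 := fun γ h e => h (htf 2 γ two_ne_zero (by rwa [two_nsmul]))
  have hn : ∀ γ : Γ, γ ≠ 0 → e γ ∉ ι.range := fun γ h h' => h (he γ h')
  have hn2 : ∀ γ : Γ, γ ≠ 0 → e γ + e γ ∉ ι.range := fun γ h => by
    rw [← map_add]; exact hn _ (h2 γ h)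
  have hex : ∀ γ : Γ, ∃ P : E', (γ = 0 → P = 0) ∧ (γ ≠ 0 → P + P ≠ 0 ∧
      k'.ξ P = k.toKum.vx ι (e γ) ∧ k'.lam P = k.vl ι (e γ) + κ) := fun γ => by
    by_cases h : γ = 0
    · exact ⟨0, fun _ => rfl, fun h' => absurd h h'⟩
    · obtain ⟨a1, a2⟩ := k.toKum.vx_dbl hι (hn2 γ h)
      have a3 := k.vl_sq hι (hn2 γ h)
      obtain ⟨P, hP⟩ := hF (k.toKum.vx ι (e γ)) (k.vl ι (e γ) + κ) a1 (by
        rw [hρ, ← a2, ← a3]
        have t : (2 : K) = 0 := CharTwo.two_eq_zero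
        linear_combination (k.toKum.vx ι (e γ)) ^ 2 * hκ +
          (k.toKum.vx ι (e γ)) ^ 2 * (k.vl ι (e γ) * κ + k'.c) * t)
      exact ⟨P, fun h' => absurd h' h, fun _ => hP⟩
  choose f f0 hf using hex
  have hneg : ∀ γ, f (-γ) = - f γ := fun γ => by
    by_cases h : γ = 0
    · rw [f0 γ h, f0 (-γ) (by rw [h, neg_zero]), neg_zero]
    · obtain ⟨a1, a2, a3⟩ := hf γ h
      obtain ⟨b1, b2, b3⟩ := hf (-γ) (neg_ne_zero.2 h)
      refine k'.ext_pt b1 (by rwa [← neg_add, neg_ne_zero]) ?_ ?_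
      · rw [b2, map_neg, k.toKum.vx_neg hι, k'.ξ_neg, a2]
      · rw [b3, map_neg, k.vl_neg hι (hn2 γ h), k'.lam_neg _ a1, a3]; ring
  have hpm : ∀ γ γ', γ ≠ 0 → γ' ≠ 0 → γ + γ' ≠ 0 → γ - γ' ≠ 0 →
      f (γ + γ') = f γ + f γ' ∨ f (γ + γ') = - (f γ + f γ') := fun γ γ' h h' hs hd => by
    obtain ⟨a1, a2, a3⟩ := hf γ h
    obtain ⟨b1, b2, b3⟩ := hf γ' h'
    obtain ⟨c1, c2, -⟩ := hf _ hs
    have s1 : e γ + e γ' ∉ ι.range := by rw [← map_add]; exact hn _ hs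
    have s2 : e γ - e γ' ∉ ι.range := by rw [← map_sub]; exact hn _ hd
    have s3 : e γ - e γ' + (e γ - e γ') ∉ ι.range := by rw [← map_sub]; exact hn2 _ hd
    have m := (k.toKum.vx_M hι (hn γ h) (hn2 γ' h') s1 s2).1
    have m' : k'.ξ (f γ) ≠ k'.ξ (f γ') := fun q => m (by
      rw [← a2, ← b2, q, CharTwo.add_self_eq_zero])
    have n1 : f γ + f γ' ≠ 0 := fun q => m' (by rw [eq_neg_of_add_eq_zero_left q, k'.ξ_neg])
    have n2 : f γ - f γ' ≠ 0 := fun q => m' (by rw [sub_eq_zero.1 q])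
    have u := k.vx_add hι (hn2 γ h) (hn2 γ' h') s1 s3
    have v := k'.add _ _ a1 b1 n1 n2
    rw [a2, b2, a3, b3, show k.vl ι (e γ) + κ + (k.vl ι (e γ') + κ) =
      k.vl ι (e γ) + k.vl ι (e γ') + (κ + κ) by ring, CharTwo.add_self_eq_zero, add_zero, ← u,
      ← map_add, ← c2] at v
    have w := mul_right_cancel₀ (pow_ne_zero 2 m) v
    by_contra hc
    rw [not_or] at hc
    exact k'.inj _ _ (fun q => c1 (by rw [q, add_zero])) n1
      (fun q => hc.2 (eq_neg_of_add_eq_zero_left q)) (fun q => hc.1 (sub_eq_zero.1 q)) w.symm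
  exact ⟨AddMonoidHom.mk' f (h2_hom_of_pm htf f (f0 0 rfl) hneg (fun γ h => (hf γ h).1) hpm), hf⟩

end KumL

end Crest.Agent.R007
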