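import Crest.Agent.R007.GEnd

/-! Row 7, block FG: the endomorphism ring `OE F` of the supersingular formal group. -/

set_option autoImplicit false
set_option linter.unusedSectionVars false

open PowerSeries

namespace Crest.Agent.R007

variable (F : Type) [Field F] [CharP F 2]

/-- natural endomorphisms of the formal group of `y² + y = x³` -/
noncomputable def OE : Subring (AddMonoid.End (Pt (0 : F))) :=
  Subring.centralizer {s | ∃ (u : F⟦X⟧) (hu : constantCoeff u = 0), s = sub (0 : F) u hu}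

variable {F}

theorem mem_OE {φ : AddMonoid.End (Pt (0 : F))} : φ ∈ OE F ↔
    ∀ (u : F⟦X⟧) (hu : constantCoeff u = 0) (U : Pt (0 : F)), sub 0 u hu (φ U) = φ (sub 0 u hu U) := by
  rw [OE, Subring.mem_centralizer_iff]
  constructor
  · intro h u hu U
    exact DFunLike.congr_fun (h _ ⟨u, hu, rfl⟩) U
  · rintro h _ ⟨u, hu, rfl⟩
    exact AddMonoidHom.ext fun U => h u hu U

/-- the power series of an endomorphism -/
noncomputable def ser (φ : OE F) : F⟦X⟧ := ((φ : AddMonoid.End (Pt (0 : F))) (gen 0)).t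

theorem ser_cc (φ : OE F) : constantCoeff (ser φ) = 0 := Pt.cc _

theorem OE_apply (φ : OE F) (U : Pt (0 : F)) :
    (φ : AddMonoid.End (Pt (0 : F))) U = sub 0 U.t U.cc ((φ : AddMonoid.End (Pt (0 : F))) (gen 0)) := by
  rw [mem_OE.mp φ.2, sub_gen]

theorem OE_apply_t (φ : OE F) (U : Pt (0 : F)) :
    ((φ : AddMonoid.End (Pt (0 : F))) U).t = (ser φ).subst U.t := by
  rw [OE_apply, sub_t]; rfl

theorem ser_inj {φ ψ : OE F} (h : ser φ = ser ψ) : φ = ψ := by
  apply Subtype.ext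
  refine AddMonoidHom.ext fun U => FPt.ext_t ?_
  exact (OE_apply_t φ U).trans (h ▸ (OE_apply_t ψ U).symm)

theorem ser_mul (φ ψ : OE F) : ser (φ * ψ) = (ser φ).subst (ser ψ) := OE_apply_t φ _

theorem ser_one : ser (1 : OE F) = X := gen_t _

theorem ser_zero : ser (0 : OE F) = 0 := rfl

theorem OE_isHom (φ : OE F) : IsHom (0 : F) ((φ : AddMonoid.End (Pt (0 : F))) (gen 0)) := by
  intro U V
  rw [← OE_apply, ← OE_apply, ← OE_apply, map_add]

/-- the endomorphism attached to a homomorphic series -/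
noncomputable def ofHom (τ : Pt (0 : F)) (h : IsHom (0 : F) τ) : OE F :=
  ⟨AddMonoidHom.mk' (fun U => sub 0 U.t U.cc τ) h, mem_OE.mpr fun u hu U => FPt.ext_t (by
    show (sub 0 u hu (sub 0 U.t U.cc τ)).t = (sub 0 (sub 0 u hu U).t _ τ).t
    rw [sub_t, sub_t, sub_t, sub_t, subst_comp_subst_apply (rig_hs U.cc) (rig_hs hu)])⟩

theorem ser_ofHom (τ : Pt (0 : F)) (h : IsHom (0 : F) τ) : ser (ofHom τ h) = τ.t := by
  show (sub 0 (gen 0).t _ τ).t = _
  rw [sub_t, gen_t, X_subst]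

theorem coeff_one_subst {R : Type*} [CommRing R] (f u : R⟦X⟧) (hu : constantCoeff u = 0) :
    coeff 1 (f.subst u : R⟦X⟧) = coeff 1 f * coeff 1 u := by
  have e := eq_X_pow_mul_shift_add_trunc 2 f
  set r : R⟦X⟧ := PowerSeries.mk fun i => coeff (i + 2) f
  have e2 : f = X ^ 2 * r + C (coeff 1 f) * X + C (constantCoeff f) := by
    conv_lhs => rw [e]
    rw [add_assoc]
    congr 1
    ext n
    rw [Polynomial.coeff_coe, coeff_trunc, map_add, coeff_C_mul, coeff_X, coeff_C]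
    rcases n with _ | _ | n <;> simp
  conv_lhs => rw [e2]
  rw [subst_add (rig_hs hu), subst_add (rig_hs hu), subst_mul (rig_hs hu), subst_pow (rig_hs hu),
    subst_X (rig_hs hu), rig_subst_C_mul _ _ _ hu, subst_X (rig_hs hu), map_add, map_add,
    coeff_C_mul, subst_C]
  have : X ^ 2 ∣ u ^ 2 * (r.subst u : R⟦X⟧) :=
    Dvd.dvd.mul_right (pow_dvd_pow_of_dvd (X_dvd_iff.mpr hu) 2) _
  rw [X_pow_dvd_iff.mp this 1 (by norm_num), zero_add]
  have : coeff 1 (MvPowerSeries.C (constantCoeff f) : R⟦X⟧) = 0 := coeff_C_of_ne_zero one_ne_zero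
  rw [this, add_zero]

/-- the tangent map -/
noncomputable def tanO : OE F →+* F where
  toFun φ := coeff 1 (ser φ)
  map_one' := by rw [ser_one]; simp
  map_mul' φ ψ := by rw [ser_mul, coeff_one_subst _ _ (ser_cc ψ)]
  map_zero' := by rw [ser_zero]; simp
  map_add' φ ψ := Pt.coeff_one_add _ _

theorem tanO_apply (φ : OE F) : tanO φ = coeff 1 (ser φ) := rfl

/-- Frobenius -/
noncomputable def piE : OE F :=
  haveI : CharP F⟦X⟧ 2 := charP_of_injective_ringHom (C_injective (R := F)) 2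
  ⟨FPt.map (frobenius F⟦X⟧ 2) (fun x hx => by
      rw [frobenius_def]; exact (mX F).pow_mem_of_mem hx _ two_pos) (by simp),
    mem_OE.mpr fun u hu U => FPt.ext_t (by
      show (sub 0 u hu _).t = (sub 0 u hu U).t ^ 2
      rw [sub_t, sub_t, ← subst_pow (rig_hs hu)]; rfl)⟩

theorem piE_t (U : Pt (0 : F)) : ((piE : OE F) : AddMonoid.End (Pt (0 : F))) U = 
    ((piE : OE F) : AddMonoid.End (Pt (0 : F))) U ∧
    (((piE : OE F) : AddMonoid.End (Pt (0 : F))) U).t = U.t ^ 2 := ⟨rfl, rfl⟩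

theorem ser_piE : ser (piE : OE F) = X ^ 2 := by
  rw [ser, (piE_t _).2, gen_t]

theorem piE_sq : (piE : OE F) ^ 2 = -2 := by
  have h2 : (2 : F⟦X⟧) = 0 := Lc.two (m := mX F)
  have h0 : (C (0 : F) : F⟦X⟧) = 0 := map_zero _
  apply ser_inj
  rw [pow_two, ser_mul, ser_piE, subst_pow (HasSubst.X_pow two_ne_zero),
    subst_X (HasSubst.X_pow two_ne_zero)]
  have e : ((-2 : OE F) : AddMonoid.End (Pt (0 : F))) (gen 0) = FPt.third (gen 0) (gen 0) := by
    have : (-2 : OE F) = -(1 + 1) := by norm_num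
    rw [this]
    show -(gen (0 : F) + gen (0 : F)) = _
    rw [FPt.add_def, neg_neg]
  rw [ser, e]
  have hl := FPt.lam_mul (gen (0 : F)) (gen 0)
  have hl' : FPt.lam (gen (0 : F)) (gen 0) = X ^ 2 := by
    rw [gen_t] at hl
    linear_combination hl + (X ^ 2 - FPt.lam (gen (0 : F)) (gen 0) * (gen (0 : F)).w) * h2 +
      ((gen (0 : F)).w - FPt.lam (gen (0 : F)) (gen 0) * X) * h0
  show _ = C 0 * FPt.lam (gen (0 : F)) (gen 0) + FPt.lam (gen (0 : F)) (gen 0) ^ 2 + (gen (0 : F)).t +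
    (gen (0 : F)).t
  rw [hl', gen_t]
  linear_combination (-X) * h2 - X ^ 2 * h0

/-- multiplication of `t` by a cube root of unity -/
noncomputable def rot (z : F) (hz : z ^ 3 = 1) (U : Pt (0 : F)) : Pt (0 : F) :=
  ⟨C z * U.t, U.w, (mX F).mul_mem_left _ U.ht, U.hw, by
    have e := U.eq
    have : (C z : F⟦X⟧) ^ 3 = 1 := by rw [← map_pow, hz, map_one]
    have h0 : (C (0 : F) : F⟦X⟧) = 0 := map_zero _
    linear_combination e - U.t ^ 3 * this + (U.w * C z * U.t - U.w * U.t) * h0⟩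

theorem rot_add (z : F) (hz : z ^ 3 = 1) (U V : Pt (0 : F)) :
    rot z hz (U + V) = rot z hz U + rot z hz V := by
  have h3 : (C z : F⟦X⟧) ^ 3 = 1 := by rw [← map_pow, hz, map_one]
  have hn : ∀ W : Pt (0 : F), rot z hz (-W) = -rot z hz W := fun W => FPt.ext_t (by
    show C z * (W.t * _) = C z * W.t * Ring.inverse (1 + C 0 * (C z * W.t) + W.w)
    simp [mul_assoc])
  rw [FPt.add_def, FPt.add_def, hn]
  congr 1
  apply FPt.ext_t
  have hl : FPt.lam (rot z hz U) (rot z hz V) = C z ^ 2 * FPt.lam U V := by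
    show ((C z * U.t) ^ 2 + C z * U.t * (C z * V.t) + (C z * V.t) ^ 2 + C 0 * U.w) *
      Ring.inverse (1 + C 0 * (C z * V.t) + U.w + V.w) = C z ^ 2 *
      ((U.t ^ 2 + U.t * V.t + V.t ^ 2 + C 0 * U.w) * Ring.inverse (1 + C 0 * V.t + U.w + V.w))
    simp only [map_zero, zero_mul, add_zero]
    ring
  show C z * (C 0 * FPt.lam U V + FPt.lam U V ^ 2 + U.t + V.t) =
    C 0 * FPt.lam (rot z hz U) (rot z hz V) + FPt.lam (rot z hz U) (rot z hz V) ^ 2 +
      C z * U.t + C z * V.t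
  have h0 : (C (0 : F) : F⟦X⟧) = 0 := map_zero _
  rw [hl]
  linear_combination (-(C z * FPt.lam U V ^ 2)) * h3 + (C z * FPt.lam U V - C z ^ 2 * FPt.lam U V) * h0

noncomputable def omE (z : F) (hz : z ^ 3 = 1) : OE F :=
  ⟨AddMonoidHom.mk' (rot z hz) (rot_add z hz), mem_OE.mpr fun u hu U => FPt.ext_t (by
    show (sub 0 u hu (rot z hz U)).t = C z * (sub 0 u hu U).t
    rw [sub_t, sub_t, ← rig_subst_C_mul _ _ _ hu]; rfl)⟩

theorem ser_omE (z : F) (hz : z ^ 3 = 1) : ser (omE z hz) = C z * X := by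
  show C z * (gen 0).t = _
  rw [gen_t]

theorem ser_omE_mul (z : F) (hz : z ^ 3 = 1) (φ : OE F) : ser (omE z hz * φ) = C z * ser φ := rfl

theorem ser_piE_mul (φ : OE F) : ser (piE * φ) = ser φ ^ 2 := rfl

theorem OE_tf (x : OE F) (h : 2 * x = 0) : x = 0 := by
  have : (piE : OE F) * (piE * x) = 0 := by rw [← mul_assoc, ← pow_two, piE_sq, neg_mul, h, neg_zero]
  have h1 := congrArg ser this
  rw [ser_piE_mul, ser_piE_mul, ser_zero] at h1
  apply ser_inj
  rw [ser_zero]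
  exact pow_eq_zero_iff two_ne_zero |>.mp (pow_eq_zero_iff two_ne_zero |>.mp h1)

theorem tanO_pow_four (φ : OE F) : tanO φ ^ 4 = tanO φ := by
  have hc : φ * piE ^ 2 = piE ^ 2 * φ := by
    rw [piE_sq]
    have : (-2 : OE F) = ((-2 : ℤ) : OE F) := by norm_num
    rw [this]; exact (Int.commute_cast φ _).eq
  have h1 := congrArg ser hc
  have h4 : ser ((piE : OE F) ^ 2) = X ^ 4 := by rw [pow_two, ser_piE_mul, ser_piE, ← pow_mul]
  rw [ser_mul φ, h4, pow_two, mul_assoc, ser_piE_mul, ser_piE_mul, ← pow_mul] at h1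
  have h2 := congrArg (coeff 4) h1
  rw [coeff_subst_X_pow (by norm_num)] at h2
  obtain ⟨r, hr⟩ := X_dvd_iff.mpr (ser_cc φ)
  have h3 : tanO φ = constantCoeff r := by rw [tanO_apply, hr]; simp
  have h5 : coeff 4 (ser φ ^ (2 * 2)) = constantCoeff r ^ 4 := by
    rw [hr, mul_pow, ← map_pow, ← coeff_zero_eq_constantCoeff_apply]
    exact coeff_X_pow_mul (r ^ 4) 4 0
  rw [h5, ← h3] at h2
  simpa [tanO_apply] using h2.symm

theorem exists_mul_piE [PerfectRing F 2] (φ : OE F) (h : tanO φ = 0) : ∃ ψ : OE F, φ = ψ * piE := by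
  obtain ⟨e, he0, he⟩ := (OE_isHom φ).exists_sq h
  have hX2 : HasSubst (X ^ 2 : F⟦X⟧) := HasSubst.X_pow two_ne_zero
  have hc2 : constantCoeff (X ^ 2 : F⟦X⟧) = 0 := by simp
  set τ : Pt (0 : F) := ofT 0 e he0
  have hτ : τ.t = e := ofT_t _ _ _
  -- every `U(X²)` is a Frobenius image
  have hroot : ∀ U : Pt (0 : F), ∃ U' : Pt (0 : F), U'.t ^ 2 = U.t.subst (X ^ 2 : F⟦X⟧) := by
    intro U
    refine ⟨cmap (frobeniusEquiv F 2).symm.toRingHom 0 0 (map_zero _) U, ?_⟩
    rw [cmap_t]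
    have : PowerSeries.map (frobenius F 2) (PowerSeries.expand 2 two_ne_zero
        (PowerSeries.map (frobeniusEquiv F 2).symm.toRingHom U.t)) =
        PowerSeries.map (frobeniusEquiv F 2).symm.toRingHom U.t ^ 2 :=
      MvPowerSeries.map_frobenius_expand 2 two_ne_zero
    rw [← this, ← expand_apply 2 two_ne_zero]
    ext n
    simp only [coeff_map, coeff_expand]
    split_ifs <;> simp
  have hφ : ∀ U' : Pt (0 : F), ((φ : AddMonoid.End (Pt (0 : F))) U').t = e.subst (U'.t ^ 2) := by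
    intro U'
    rw [OE_apply_t, ser, he, subst_comp_subst_apply hX2 (rig_hs U'.cc), subst_pow (rig_hs U'.cc),
      subst_X (rig_hs U'.cc)]
  have hinj : Function.Injective (sub (0 : F) (X ^ 2) hc2) := by
    rw [injective_iff_map_eq_zero]
    intro U hU
    have := congrArg FPt.t hU
    rw [sub_t] at this
    exact FPt.eq_zero_of_t (rig_subst_eq_zero _ _ hc2 (pow_ne_zero _ X_ne_zero) this)
  have key : ∀ U U' : Pt (0 : F), U'.t ^ 2 = U.t.subst (X ^ 2 : F⟦X⟧) →
      sub (0 : F) (X ^ 2) hc2 (sub 0 U.t U.cc τ) = (φ : AddMonoid.End (Pt (0 : F))) U' := by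
    intro U U' hU
    apply FPt.ext_t
    rw [hφ, hU, sub_t, sub_t, hτ, subst_comp_subst_apply (rig_hs U.cc) hX2]
  have hh : IsHom (0 : F) τ := by
    intro U V
    obtain ⟨U', hU⟩ := hroot U
    obtain ⟨V', hV⟩ := hroot V
    apply hinj
    rw [map_add, key U U' hU, key V V' hV, ← map_add]
    apply key
    have e1 : ((piE : OE F) : AddMonoid.End (Pt (0 : F))) U' = sub 0 (X ^ 2) hc2 U :=
      FPt.ext_t (by rw [sub_t, ← hU]; rfl)
    have e2 : ((piE : OE F) : AddMonoid.End (Pt (0 : F))) V' = sub 0 (X ^ 2) hc2 V :=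
      FPt.ext_t (by rw [sub_t, ← hV]; rfl)
    rw [← (piE_t _).2, map_add, e1, e2, ← map_add, sub_t]
  refine ⟨ofHom τ hh, ser_inj ?_⟩
  rw [ser_mul, ser_ofHom, ser_piE, hτ]
  exact he

theorem OE_gens [IsAlgClosed F] : ∃ ω π : OE F, ω ^ 2 + ω + 1 = 0 ∧ π * ω = ω ^ 2 * π ∧
    (∃ (m : ℤ) (y : OE F), Odd m ∧ π ^ 2 = 2 * ((m : OE F) + 4 * y)) ∧
    ∀ x : OE F, ∃ a b c d : ℤ, ∃ y : OE F, x = (a : OE F) + (b : OE F) * ω + (c : OE F) * π + (d : OE F) * (ω * π) + 2 * y := by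
  have h2 : (2 : F) = 0 := CharTwo.two_eq_zero
  obtain ⟨z, hz⟩ : ∃ z : F, z ^ 2 + z + 1 = 0 := by
    obtain ⟨z, hz⟩ := IsAlgClosed.exists_root (Polynomial.X ^ 2 + Polynomial.X + 1 : Polynomial F)
      (by
        have : (Polynomial.X ^ 2 + Polynomial.X + 1 : Polynomial F).degree = 2 := by
          compute_degree!
        rw [this]; norm_num)
    exact ⟨z, by simpa using hz⟩
  have hz3 : z ^ 3 = 1 := by linear_combination (z - 1) * hz
  have hz1 : z ≠ 1 := by rintro rfl; grind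
  set ω := omE z hz3
  have hω3 : ω * (ω * ω) = 1 := by
    apply ser_inj
    rw [ser_omE_mul, ser_omE_mul, ser_omE, ser_one, ← mul_assoc, ← mul_assoc, ← map_mul, ← map_mul,
      ← pow_two, ← pow_succ, hz3, map_one, one_mul]
  have hω : ω ^ 2 + ω + 1 = 0 := by
    have e : ω * (ω ^ 2 + ω + 1) = ω ^ 2 + ω + 1 := by
      rw [mul_add, mul_add, pow_two, hω3, mul_one]; abel
    have e1 := congrArg ser e
    rw [ser_omE_mul] at e1
    apply ser_inj
    rw [ser_zero]
    have : (C z - 1) * ser (ω ^ 2 + ω + 1) = 0 := by rw [sub_mul, e1, one_mul, sub_self]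
    refine (mul_eq_zero.mp this).resolve_left ?_
    rw [sub_eq_zero, ← map_one (C (R := F))]
    exact fun h => hz1 (C_injective h)
  have htan : tanO ω = z := by rw [tanO_apply, ser_omE]; simp
  have step : ∀ x : OE F, ∃ a b : ℤ, ∃ y : OE F, x = (a : OE F) + (b : OE F) * ω + y * piE := by
    intro x
    have h4 := tanO_pow_four x
    have : ∃ a b : ℤ, tanO x = a + b * z := by
      have : tanO x * (tanO x - 1) * (tanO x - z) * (tanO x - (1 + z)) = 0 := by grind
      rcases mul_eq_zero.mp this with h | h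
      · rcases mul_eq_zero.mp h with h | h
        · rcases mul_eq_zero.mp h with h | h
          · exact ⟨0, 0, by simpa using h⟩
          · exact ⟨1, 0, by simpa [sub_eq_zero] using h⟩
        · exact ⟨0, 1, by simpa [sub_eq_zero] using h⟩
      · exact ⟨1, 1, by simpa [sub_eq_zero] using h⟩
    obtain ⟨a, b, hab⟩ := this
    obtain ⟨y, hy⟩ := exists_mul_piE (x - ((a : OE F) + (b : OE F) * ω)) (by simp [hab, htan])
    exact ⟨a, b, y, by rw [← hy]; abel⟩
  refine ⟨ω, piE, hω, ?_, ⟨-1, 0, by norm_num, by rw [piE_sq]; simp⟩, ?_⟩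
  · apply ser_inj
    rw [ser_piE_mul, pow_two ω, mul_assoc, ser_omE_mul, ser_omE_mul, ser_omE, ser_piE]
    ring
  · intro x
    obtain ⟨a, b, y, hy⟩ := step x
    obtain ⟨c, d, y', hy'⟩ := step y
    refine ⟨a, b, c, d, -y', ?_⟩
    rw [hy, hy', add_mul, add_mul, mul_assoc y', ← pow_two, piE_sq, mul_assoc]
    have : y' * -2 = 2 * -y' := by
      have : (2 : OE F) = 1 + 1 := by norm_num
      rw [this]; noncomm_ring
    rw [this]; abel

/-- an endomorphism with non-zero tangent map is a unit -/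
theorem OE_isUnit (φ : OE F) (h : tanO φ ≠ 0) : IsUnit φ := by
  have hu : IsUnit (coeff 1 (ser φ)) := isUnit_iff_ne_zero.mpr h
  set r := (ser φ).substInvOfIsUnit hu
  have hr0 : constantCoeff r = 0 := constantCoeff_substInvOfIsUnit _ _
  have h1 : ((ser φ).subst r : F⟦X⟧) = X := subst_substInvOfIsUnit_right _ (ser_cc φ) hu
  have h2 : (r.subst (ser φ) : F⟦X⟧) = X := subst_substInvOfIsUnit_left _ (ser_cc φ) hu
  set τ : Pt (0 : F) := ofT 0 r hr0
  have hτ : τ.t = r := ofT_t _ _ _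
  have hinj : Function.Injective (φ : AddMonoid.End (Pt (0 : F))) := by
    intro U V hUV
    have := congrArg (fun W : Pt (0 : F) => (r.subst W.t : F⟦X⟧)) hUV
    simp only [OE_apply_t] at this
    rw [← subst_comp_subst_apply (rig_hs (ser_cc φ)) (rig_hs U.cc),
      ← subst_comp_subst_apply (rig_hs (ser_cc φ)) (rig_hs V.cc), h2, subst_X (rig_hs U.cc),
      subst_X (rig_hs V.cc)] at this
    exact FPt.ext_t this
  have key : ∀ U : Pt (0 : F), (φ : AddMonoid.End (Pt (0 : F))) (sub 0 U.t U.cc τ) = U := by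
    intro U
    apply FPt.ext_t
    rw [OE_apply_t, sub_t, hτ, ← subst_comp_subst_apply (rig_hs hr0) (rig_hs U.cc), h1,
      subst_X (rig_hs U.cc)]
  have hh : IsHom (0 : F) τ := fun U V => hinj (by rw [map_add, key, key, key])
  refine ⟨⟨φ, ofHom τ hh, ser_inj ?_, ser_inj ?_⟩, rfl⟩
  · rw [ser_mul, ser_ofHom, hτ, h1, ser_one]
  · rw [ser_mul, ser_ofHom, hτ, h2, ser_one]

end Crest.Agent.R007
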