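import Crest.Agent.R007.GT3
import Crest.Agent.R007.Cyc

/-! Row 7, block GEO (Tate side): Lambert series in `FF((X))`. -/

set_option autoImplicit false

noncomputable section
namespace Crest.Agent.R007

open PowerSeries

/-- the inclusion `FF⟦X⟧ → FF((X))` -/
abbrev cL : FF⟦X⟧ →+* LaurentSeries FF := HahnSeries.ofPowerSeries ℤ FF

theorem cL_inj : Function.Injective cL := HahnSeries.ofPowerSeries_injective

instance omChar : CharP (LaurentSeries FF) 2 :=
  charP_of_injective_algebraMap (algebraMap FF (LaurentSeries FF)).injective 2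

instance omDisc : (Valued.v : Valuation (LaurentSeries FF) (WithZero (Multiplicative ℤ))).IsRankOneDiscrete := by
  rw [LaurentSeries.valuation_def]
  infer_instance

/-- the `X`-adic valuation has rank one -/
@[reducible] def omRank :
    (Valued.v : Valuation (LaurentSeries FF) (WithZero (Multiplicative ℤ))).RankOne :=
  Valuation.IsRankOneDiscrete.rankOne _ (e := 2) one_lt_two

attribute [local instance] omRank

/-- the normed field `FF((X))` -/
@[reducible] def omNF : NormedField (LaurentSeries FF) :=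
  Valued.toNormedField (LaurentSeries FF) (WithZero (Multiplicative ℤ))

attribute [local instance] omNF

theorem omUltra : IsUltrametricDist (LaurentSeries FF) := 
  Valued.instIsUltrametricDist (LaurentSeries FF) (WithZero (Multiplicative ℤ))

attribute [local instance] omUltra

theorem norm_X_pow_lt {m : ℕ} (hm : m ≠ 0) (c : FF) : ‖cL (C c * X ^ m)‖ < 1 := by
  rw [Valued.toNormedField.norm_lt_one_iff]
  refine lt_of_le_of_lt ((LaurentSeries.intValuation_le_iff_coeff_lt_eq_zero FF (d := 1)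
    (C c * X ^ m)).2 fun n hn => ?_) ?_
  · obtain rfl : n = 0 := by omega
    rw [coeff_C_mul, coeff_X_pow, if_neg hm.symm, mul_zero]
  · rw [← WithZero.exp_zero, WithZero.exp_lt_exp]
    norm_num

/-- `v / (1 + v)²` in `FF` -/
def fT' (v : FF) : FF := v / (1 + v) ^ 2

/-- `∑_d d c^d X^{d m}` (zero for `m = 0`) -/
def lamb (c : FF) (m : ℕ) : FF⟦X⟧ :=
  PowerSeries.mk fun N => if m ∣ N then ((N / m : ℕ) : FF) * c ^ (N / m) else 0

/-- `∑_{m ∈ p} lamb c m` -/
def lambS (c : FF) (p : ℕ → Prop) [DecidablePred p] : FF⟦X⟧ :=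
  PowerSeries.mk fun N => ∑ x ∈ N.divisorsAntidiagonal, if p x.2 then (x.1 : FF) * c ^ x.1 else 0

theorem lamb_zero (c : FF) : lamb c 0 = 0 := by
  ext N
  simp [lamb]

/-- `lamb c m = sB c m (mk fun d => d)` and `(mk fun d => d) * (1 + X)^2 = X` in characteristic 2 -/
theorem lamb_mul (c : FF) {m : ℕ} (hm : m ≠ 0) :
    lamb c m * (1 + C c * X ^ m) ^ 2 = C c * X ^ m := by
  have : NeZero m := ⟨hm⟩
  have h1 : (PowerSeries.mk fun d => (d : FF)) * (1 - X) ^ 2 = X := by
    have h := PowerSeries.mk_add_choose_mul_one_sub_pow_eq_one FF 1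
    have e : (PowerSeries.mk fun d => (d : FF)) =
        X * PowerSeries.mk fun n => (Nat.choose (1 + n) 1 : FF) := by
      ext n
      cases n with
      | zero => simp
      | succ n => simp [coeff_succ_X_mul, add_comm]
    rw [e, mul_assoc, h, mul_one]
  have h2 : sB c m X = C c * X ^ m := by
    simp [sB, rescale_X, PowerSeries.expand_C]
  have h3 : sB c m (PowerSeries.mk fun d => (d : FF)) = lamb c m := by
    ext N
    simp [sB, lamb, coeff_expand, mul_comm]
  have h4 : -(C c * X ^ m : FF⟦X⟧) = C c * X ^ m := by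
    rw [← neg_mul, ← map_neg, CharTwo.neg_eq]
  have h5 := congrArg (sB c m) h1
  rwa [map_mul, map_pow, map_sub, map_one, h2, h3, sub_eq_add_neg, h4] at h5

theorem fT_lamb (c : FF) {m : ℕ} (hm : m ≠ 0) : fT (cL (C c * X ^ m)) = cL (lamb c m) := by
  have h1 : (1 + C c * X ^ m : FF⟦X⟧) ≠ 0 := fun h => by
    simpa [hm] using congrArg constantCoeff h
  have h2 : 1 + cL (C c * X ^ m) ≠ 0 := by
    rw [← map_one cL, ← map_add]
    exact (map_ne_zero_iff cL cL_inj).2 h1
  rw [fT, div_eq_iff (pow_ne_zero 2 h2), ← map_one cL, ← map_add, ← map_pow, ← map_mul,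
    lamb_mul c hm]

/-- a family of power series converges `X`-adically as soon as it does so coefficientwise with
finite sums: `Valued.hasBasis_nhds_zero`/`Valued.mem_nhds`,
`LaurentSeries.valuation_le_iff_coeff_lt_eq_zero` -/
theorem hasSum_cL (f : ℕ → FF⟦X⟧) (s : FF⟦X⟧) (hf : ∀ m N, N < m → coeff N (f m) = 0)
    (hs : ∀ N, coeff N s = ∑ m ∈ Finset.range (N + 1), coeff N (f m)) :
    HasSum (fun m => cL (f m)) (cL s) := by
  have hr : ‖cL X‖ < 1 := by simpa using norm_X_pow_lt one_ne_zero (1 : FF)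
  have h1 : ∀ g : FF⟦X⟧, ‖cL g‖ ≤ 1 := fun g =>
    Valued.toNormedField.norm_le_one_iff.2 ((LaurentSeries.val_le_one_iff_eq_coe FF _).2 ⟨g, rfl⟩)
  refine Metric.tendsto_atTop.2 fun ε hε => ?_
  obtain ⟨n, hn⟩ := exists_pow_lt_of_lt_one hε hr
  refine ⟨Finset.range n, fun S hS => ?_⟩
  have h2 : (X : FF⟦X⟧) ^ n ∣ ∑ m ∈ S, f m - s := by
    refine X_pow_dvd_iff.2 fun N hN => ?_
    rw [map_sub, map_sum, hs N, sub_eq_zero]
    symm
    refine Finset.sum_subset (fun m hm => hS ?_) fun m _ hm => hf m N ?_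
    · rw [Finset.mem_range] at hm ⊢; omega
    · rw [Finset.mem_range] at hm; omega
  obtain ⟨g, hg⟩ := h2
  rw [dist_eq_norm, ← map_sum, ← map_sub, hg, map_mul, map_pow, norm_mul, norm_pow]
  exact (mul_le_of_le_one_right (by positivity) (h1 g)).trans_lt hn

theorem hasSum_lamb (c : FF) (p : ℕ → Prop) [DecidablePred p] :
    HasSum (fun m : ℕ => cL (if p m then lamb c m else 0)) (cL (lambS c p)) := by
  refine hasSum_cL _ _ (fun m N hN => ?_) fun N => ?_
  · split_ifs
    · simp [lamb, Nat.div_eq_of_lt hN]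
    · simp
  · rw [lambS, coeff_mk, Nat.sum_divisorsAntidiagonal'
      (fun d m => if p m then (d : FF) * c ^ d else 0)]
    refine Eq.trans (Finset.sum_congr rfl fun m hm => ?_) (Finset.sum_subset
      (fun m hm => Finset.mem_range.2 (Nat.lt_succ_of_le (Nat.divisor_le hm))) fun m _ hm => ?_)
    · split_ifs
      · rw [lamb, coeff_mk, if_pos (Nat.dvd_of_mem_divisors hm)]
      · simp
    · split_ifs
      · rw [lamb, coeff_mk]
        split_ifs with hd
        · have : N = 0 := by_contra fun h0 => hm (Nat.mem_divisors.2 ⟨hd, h0⟩)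
          simp [this]
        · rfl
      · simp

/-- reindexing along an injection `g` whose range is `p` up to `0` (`Function.Injective.hasSum_iff`,
`lamb_zero`) -/
theorem hasSum_lamb_comp (c : FF) (p : ℕ → Prop) [DecidablePred p] (g : ℕ → ℕ)
    (hg : Function.Injective g) (h1 : ∀ n, p (g n)) (h2 : ∀ m, m ≠ 0 → p m → ∃ n, g n = m) :
    HasSum (fun n : ℕ => cL (lamb c (g n))) (cL (lambS c p)) := by
  have := (hg.hasSum_iff (f := fun m : ℕ => cL (if p m then lamb c m else 0)) fun m hm => ?_).2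
    (hasSum_lamb c p)
  · simpa only [Function.comp_def, if_pos (h1 _)] using this
  · split_ifs with hp
    · have : m = 0 := by_contra fun h0 => hm (h2 m h0 hp)
      rw [this, lamb_zero, map_zero]
    · exact map_zero _

/-- `Xser` in characteristic 2 -/
theorem Xser_FF_eq (h : ℕ) [NeZero h] (ho : Odd h) (P : ZMod h × ZMod h) :
    Xser (eF h) P = C (if P.1 = 0 then fT' (eF h P.2) else 0)
      + lambS (eF h P.2) (fun m => (m : ZMod h) = P.1)
      + lambS (eF h P.2)⁻¹ (fun m => (m : ZMod h) = -P.1) := by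
  ext n
  simp only [Xser, lambS, map_add, coeff_mk, coeff_C]
  split_ifs with hn hP
  · simp [hn, fT', Ring.inverse_eq_inv', CharTwo.sub_eq_add, div_eq_mul_inv]
  · simp [hn]
  · rw [zero_add, ← Finset.sum_add_distrib]
    refine Finset.sum_congr rfl fun x _ => ?_
    rw [AddChar.map_neg_eq_inv, ← nsmul_eq_mul', AddChar.map_nsmul_eq_pow, inv_pow,
      (CharTwo.two_eq_zero : (2 : FF) = 0), ite_self, sub_zero, mul_add, mul_ite, mul_ite, mul_zero]

/-- the point `e(b) X^z` -/
def ptT (h : ℕ) [NeZero h] (b : ZMod h) (z : ℤ) : LaurentSeries FF :=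
  cL (C (eF h b)) * cL X ^ z

theorem h19_X_zpow (z : ℤ) : cL X ^ z = HahnSeries.single z (1 : FF) := by
  rw [RatFunc.single_zpow, HahnSeries.ofPowerSeries_X]

theorem h19_ptT (h : ℕ) [NeZero h] (b : ZMod h) (z : ℤ) :
    ptT h b z = HahnSeries.single z (eF h b) := by
  rw [ptT, h19_X_zpow, HahnSeries.ofPowerSeries_C, HahnSeries.C_apply,
    HahnSeries.single_mul_single, zero_add, mul_one]

theorem h19_ptT_mul (h : ℕ) [NeZero h] (b b' : ZMod h) (z z' : ℤ) :
    ptT h b z * ptT h b' z' = ptT h (b + b') (z + z') := by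
  rw [h19_ptT, h19_ptT, h19_ptT, HahnSeries.single_mul_single, AddChar.map_add_eq_mul]

theorem h19_ptT_ne (h : ℕ) [NeZero h] (b : ZMod h) (z : ℤ) : ptT h b z ≠ 0 := by
  rw [h19_ptT]
  exact HahnSeries.single_ne_zero ((eF h).val_isUnit b).ne_zero

theorem offT_ptT (h : ℕ) [NeZero h] (ho : Odd h) {P : ZMod h × ZMod h} (hP : P ≠ 0) {z : ℤ}
    (hz : (z : ZMod h) = P.1) : OffT (cL X ^ h) (ptT h P.2 z) := by
  refine ⟨h19_ptT_ne h _ _, fun n hn => hP ?_⟩
  rw [← zpow_natCast, ← zpow_mul, h19_X_zpow, h19_ptT] at hn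
  have h1 : z = h * n := by
    by_contra hne
    have := congrArg (fun s : LaurentSeries FF => s.coeff z) hn
    simp only [HahnSeries.coeff_single_same, HahnSeries.coeff_single_of_ne hne] at this
    exact ((eF h).val_isUnit P.2).ne_zero this
  subst h1
  have h2 : eF h P.2 = 1 := HahnSeries.single_injective _ hn
  refine Prod.ext ?_ ?_
  · rw [← hz]
    simp
  · by_contra hb
    have := prim_eF h ho P.2 hb
    rw [h2, sub_self] at this
    exact not_isUnit_zero this

theorem h93_fT (c : FF) (m : ℕ) : fT (cL (C c * X ^ m)) =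
    (if m = 0 then cL (C (fT' c)) else 0) + cL (lamb c m) := by
  by_cases hm : m = 0
  · subst hm
    rw [if_pos rfl, lamb_zero, map_zero, add_zero, pow_zero, mul_one]
    show fT ((cL.comp C) c) = (cL.comp C) (fT' c)
    simp only [fT, fT', map_div₀, map_pow, map_add, map_one]
  · rw [if_neg hm, zero_add, fT_lamb c hm]

/-- first for `z = P.1.val` (`hasSum_lamb_comp` with `g n = h n + a`, `g n = h (n+1) - a`; the
term `n = 0`, `a = 0` is the constant), then `xiT_zpow` -/
theorem xiT_ptT (h : ℕ) [NeZero h] (ho : Odd h) (P : ZMod h × ZMod h) {z : ℤ}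
    (hz : (z : ZMod h) = P.1) : xiT (cL X ^ h) (ptT h P.2 z) = cL (Xser (eF h) P) := by
  have hh : h ≠ 0 := NeZero.ne h
  set c := eF h P.2 with hc
  have hc0 : c ≠ 0 := ((eF h).val_isUnit P.2).ne_zero
  have hx : cL X ≠ 0 := fun e => X_ne_zero (cL_inj (e.trans (map_zero cL).symm))
  have hq0 : cL X ^ h ≠ 0 := pow_ne_zero _ hx
  have hq : ‖cL X ^ h‖ < 1 := by
    have := norm_X_pow_lt hh 1
    rwa [map_one, one_mul, map_pow] at this
  set a := P.1.val with ha
  have hah : a < h := ZMod.val_lt _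
  have haP : (a : ZMod h) = P.1 := ZMod.natCast_zmod_val _
  obtain ⟨n, hn⟩ : (h : ℤ) ∣ z - a := by
    rw [← ZMod.intCast_zmod_eq_zero_iff_dvd]
    push_cast
    rw [hz, haP, sub_self]
  have hu0 : cL (C c * X ^ a) ≠ 0 := fun e =>
    mul_ne_zero (fun e' => hc0 (C_injective (e'.trans (map_zero C).symm)))
      (pow_ne_zero a X_ne_zero) (cL_inj (e.trans (map_zero cL).symm))
  have e0 : ptT h P.2 z = (cL X ^ h) ^ n * cL (C c * X ^ a) := by
    have : z = h * n + a := by linarith
    rw [ptT, ← hc, this, zpow_add₀ hx, zpow_mul, zpow_natCast, zpow_natCast, map_mul, map_pow]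
    ring
  rw [e0, xiT_zpow hq0 hq hu0, Xser_FF_eq h ho, ← hc, map_add, map_add, xiT]
  congr 1
  · refine HasSum.tsum_eq ?_
    have s1 := hasSum_lamb_comp c (fun m => (m : ZMod h) = P.1) (fun n => h * n + a)
      (fun n n' e => Nat.eq_of_mul_eq_mul_left (Nat.pos_of_ne_zero hh) (Nat.add_right_cancel e))
      (fun n => by simp [haP])
      (fun m _ hm => ⟨m / h, by
        have : a = m % h := by rw [ha, ← hm, ZMod.val_natCast]
        rw [this]; exact Nat.div_add_mod m h⟩)
    have s2 : HasSum (fun n : ℕ => if h * n + a = 0 then cL (C (fT' c)) else 0)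
        (cL (C (if P.1 = 0 then fT' c else 0))) := by
      by_cases h0 : P.1 = 0
      · have a0 : a = 0 := by rw [ha, h0, ZMod.val_zero]
        rw [if_pos h0]
        convert hasSum_ite_eq (0 : ℕ) (cL (C (fT' c))) using 3 with n
        simp [a0, hh]
      · have a0 : a ≠ 0 := fun e => h0 (by rw [← haP, e, Nat.cast_zero])
        rw [if_neg h0, map_zero, map_zero]
        convert hasSum_zero using 2 with n
        rw [if_neg (by omega)]
    have e1 : (fun n : ℕ => fT ((cL X ^ h) ^ n * cL (C c * X ^ a))) = fun n : ℕ =>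
        (if h * n + a = 0 then cL (C (fT' c)) else 0) + cL (lamb c (h * n + a)) := by
      funext n
      rw [← h93_fT]
      congr 1
      rw [← pow_mul, ← map_pow, ← map_mul, pow_add]
      congr 1
      ring
    rw [e1]
    exact s2.add s1
  · refine HasSum.tsum_eq ?_
    have hle : ∀ n : ℕ, a < h * (n + 1) := fun n => by nlinarith
    have s1 := hasSum_lamb_comp c⁻¹ (fun m => (m : ZMod h) = -P.1) (fun n => h * (n + 1) - a)
      (fun n n' e => by
        have e' : h * (n + 1) = h * (n' + 1) := by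
          have := hle n; have := hle n'; simp only at e; omega
        exact Nat.add_right_cancel (Nat.eq_of_mul_eq_mul_left (Nat.pos_of_ne_zero hh) e'))
      (fun n => by rw [Nat.cast_sub (hle n).le]; simp [haP])
      (fun m hm0 hm => by
        obtain ⟨k, hk⟩ : h ∣ m + a := by
          rw [← ZMod.natCast_eq_zero_iff]
          push_cast
          rw [hm, haP, neg_add_cancel]
        rcases k with _ | k
        · omega
        · exact ⟨k, by omega⟩)
    have e1 : (fun n : ℕ => fT ((cL X ^ h) ^ (n + 1) / cL (C c * X ^ a))) = fun n : ℕ =>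
        cL (lamb c⁻¹ (h * (n + 1) - a)) := by
      funext n
      rw [← fT_lamb c⁻¹ (Nat.sub_ne_zero_of_lt (hle n))]
      congr 1
      rw [div_eq_iff hu0, ← pow_mul, ← map_pow, ← map_mul, mul_mul_mul_comm, ← map_mul,
        inv_mul_cancel₀ hc0, map_one, one_mul, ← pow_add, Nat.sub_add_cancel (hle n).le]
    rw [e1]
    exact s1

/-- the sum formula for the torsion points of the Tate curve -/
theorem sum_FF (h : ℕ) [NeZero h] (ho : Odd h) {P Q : ZMod h × ZMod h} (hP : P ≠ 0) (hQ : Q ≠ 0)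
    (h1 : P + Q ≠ 0) (h2 : P - Q ≠ 0) :
    (Xser (eF h) (P + Q) + Xser (eF h) (P - Q)) * (Xser (eF h) P + Xser (eF h) Q) ^ 2 =
      Xser (eF h) P * Xser (eF h) Q := by
  have hq0 : (cL X ^ h : LaurentSeries FF) ≠ 0 := by
    rw [← zpow_natCast, h19_X_zpow]
    exact HahnSeries.single_ne_zero one_ne_zero
  have hq : ‖(cL X ^ h : LaurentSeries FF)‖ < 1 := by
    have := norm_X_pow_lt (NeZero.ne h) 1
    rwa [map_one, one_mul, map_pow] at this
  have zP : (((P.1.val : ℕ) : ℤ) : ZMod h) = P.1 := by simp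
  have zQ : (((Q.1.val : ℕ) : ℤ) : ZMod h) = Q.1 := by simp
  have zA : ((((P.1.val : ℕ) : ℤ) + ((Q.1.val : ℕ) : ℤ) : ℤ) : ZMod h) = (P + Q).1 := by simp
  have zS : ((((P.1.val : ℕ) : ℤ) - ((Q.1.val : ℕ) : ℤ) : ℤ) : ZMod h) = (P - Q).1 := by simp
  have eA : ptT h P.2 (P.1.val : ℕ) * ptT h Q.2 (Q.1.val : ℕ) =
      ptT h (P + Q).2 (((P.1.val : ℕ) : ℤ) + ((Q.1.val : ℕ) : ℤ)) := h19_ptT_mul h _ _ _ _
  have eS : ptT h P.2 (P.1.val : ℕ) / ptT h Q.2 (Q.1.val : ℕ) =
      ptT h (P - Q).2 (((P.1.val : ℕ) : ℤ) - ((Q.1.val : ℕ) : ℤ)) := by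
    rw [div_eq_iff (h19_ptT_ne h _ _), h19_ptT_mul, sub_add_cancel, Prod.snd_sub, sub_add_cancel]
  have key := xiT_sum hq0 hq (offT_ptT h ho hP zP) (offT_ptT h ho hQ zQ)
    (eA ▸ offT_ptT h ho h1 zA) (eS ▸ offT_ptT h ho h2 zS)
  rw [eA, eS, xiT_ptT h ho _ zP, xiT_ptT h ho _ zQ, xiT_ptT h ho _ zA, xiT_ptT h ho _ zS] at key
  apply cL_inj
  rw [map_mul, map_pow, map_add, map_add, map_mul]
  exact key

end Crest.Agent.R007
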