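import Crest.Agent.R007.Cyc

/-! Row 7, block GEO (Tate side): the isogenies of degree `l` on `q`-expansions. -/

set_option autoImplicit false

noncomputable section
namespace Crest.Agent.R007

open PowerSeries

/-- `i ↦ i M` -/
def upL (M l : ℕ) : ZMod l →+ ZMod (M * l) :=
  ZMod.lift l ⟨zmultiplesHom (ZMod (M * l)) (M : ZMod (M * l)), by
    simp only [zmultiplesHom_apply, natCast_zsmul, nsmul_eq_mul]
    rw [← Nat.cast_mul, mul_comm, ZMod.natCast_self]⟩

theorem upL_nat (M l n : ℕ) : upL M l (n : ZMod l) = ((n * M : ℕ) : ZMod (M * l)) := by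
  have := ZMod.lift_coe l ⟨zmultiplesHom (ZMod (M * l)) (M : ZMod (M * l)), by
    simp only [zmultiplesHom_apply, natCast_zsmul, nsmul_eq_mul]
    rw [← Nat.cast_mul, mul_comm, ZMod.natCast_self]⟩ (n : ℤ)
  rw [Int.cast_natCast] at this
  rw [upL, this]
  simp

theorem upL_val (M l : ℕ) [NeZero l] (i : ZMod l) :
    upL M l i = ((i.val * M : ℕ) : ZMod (M * l)) := by
  rw [← upL_nat, ZMod.natCast_zmod_val]

theorem upL_inj (M l : ℕ) [NeZero M] [NeZero l] : Function.Injective (upL M l) := by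
  rw [injective_iff_map_eq_zero]
  intro i hi
  rw [upL_val, ZMod.natCast_eq_zero_iff, mul_comm i.val M,
    Nat.mul_dvd_mul_iff_left (Nat.pos_of_ne_zero (NeZero.ne M))] at hi
  rw [← ZMod.natCast_zmod_val i, ZMod.natCast_eq_zero_iff]
  exact hi

/-- a natural number is of the form `i M` modulo `M l` iff it is divisible by `M` -/
theorem upL_eq_iff (M l : ℕ) [NeZero M] [NeZero l] (n : ℕ) (i : ZMod l) :
    (n : ZMod (M * l)) = upL M l i ↔ M ∣ n ∧ i = ((n / M : ℕ) : ZMod l) := by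
  constructor
  · intro h
    have hd : M ∣ n := by
      rw [upL_val, ZMod.natCast_eq_natCast_iff] at h
      exact ((h.of_mul_right l).dvd_iff dvd_rfl).2 (dvd_mul_left _ _)
    exact ⟨hd, upL_inj M l (by rw [← h, upL_nat, Nat.div_mul_cancel hd])⟩
  · rintro ⟨hd, rfl⟩
    rw [upL_nat, Nat.div_mul_cancel hd]

theorem h44_geom {l : ℕ} (hl : Odd l) (n : ℕ) :
    ∑ j ∈ Finset.range l, (zz l ^ n) ^ j = if l ∣ n then 1 else 0 := by
  have hp := zz_spec.1 l hl
  split_ifs with h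
  · rw [(hp.pow_eq_one_iff_dvd n).2 h]
    obtain ⟨k, rfl⟩ := hl
    simp [CharTwo.two_eq_zero]
  · have h1 := mul_geom_sum (zz l ^ n) l
    rw [← pow_mul, mul_comm n, pow_mul, hp.pow_eq_one, one_pow, sub_self] at h1
    exact (mul_eq_zero.1 h1).resolve_left
      (sub_ne_zero.2 fun h2 => h ((hp.pow_eq_one_iff_dvd n).1 h2))

/-- orthogonality: `∑_{i mod l} ζ^{i M n} = [l ∣ n]` (`l` is odd) -/
theorem sum_eF_upL (M l : ℕ) [NeZero M] [NeZero l] (hM : Odd M) (hl : Odd l) (n : ℕ) :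
    ∑ i : ZMod l, eF (M * l) (upL M l i * n) = if l ∣ n then 1 else 0 := by
  rw [← h44_geom hl]
  refine Finset.sum_nbij ZMod.val (fun i _ => Finset.mem_range.2 (ZMod.val_lt i))
    (ZMod.val_injective l).injOn (fun j hj => ⟨j, by simp,
      ZMod.val_cast_of_lt (Finset.mem_range.1 hj)⟩) fun i _ => ?_
  rw [upL_val, ← Nat.cast_mul, eF, chr_nat (zz_pow _ (hM.mul hl)), ← zz_spec.2 M l hM hl,
    ← pow_mul, ← pow_mul]
  congr 1
  ring

theorem h99_sum_upL (M l : ℕ) [NeZero M] [NeZero l] (m : ℕ) (f : ZMod (M * l) → FF) :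
    ∑ i : ZMod l, (if (m : ZMod (M * l)) = upL M l i then f (upL M l i) else 0) =
      if (m : ZMod M) = 0 then f m else 0 := by
  simp only [ZMod.natCast_eq_zero_iff]
  by_cases hm : M ∣ m
  · rw [if_pos hm, Finset.sum_eq_single ((m / M : ℕ) : ZMod l)]
    · have := (upL_eq_iff M l m _).2 ⟨hm, rfl⟩
      rw [if_pos this, ← this]
    · intro i _ hi
      rw [if_neg fun h => hi ((upL_eq_iff M l m i).1 h).2]
    · intro h
      exact absurd (Finset.mem_univ _) h
  · rw [if_neg hm]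
    exact Finset.sum_eq_zero fun i _ => if_neg fun h => hm ((upL_eq_iff M l m i).1 h).1

theorem h99_sum_upL_neg (M l : ℕ) [NeZero M] [NeZero l] (m : ℕ) (f : ZMod (M * l) → FF) :
    ∑ i : ZMod l, (if (m : ZMod (M * l)) = -upL M l i then f (upL M l i) else 0) =
      if (m : ZMod M) = 0 then f (-m) else 0 := by
  rw [← h99_sum_upL M l m (fun x => f (-x)), ← Equiv.sum_comp (Equiv.neg (ZMod l))]
  simp only [Equiv.neg_apply, map_neg, neg_neg]

theorem rescale_Xser (M l : ℕ) [NeZero M] [NeZero l] (hM : Odd M) (hl : Odd l) (j b : ℕ) :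
    rescale (zz (M * l) ^ j) (Xser (eF M) (0, (b : ZMod M))) =
      ∑ i : ZMod l, Xser (eF (M * l))
        (upL M l i, ((l * b : ℕ) : ZMod (M * l)) + upL M l i * (j : ZMod (M * l))) := by
  have e1 : ∀ n : ℕ, eF (M * l) (n : ZMod (M * l)) = zz (M * l) ^ n := fun n =>
    chr_nat (zz_pow _ (hM.mul hl)) n
  have e2 : ∀ n : ℕ, eF M (n : ZMod M) = eF (M * l) ((l * n : ℕ) : ZMod (M * l)) := fun n => by
    rw [e1, pow_mul, zz_mul M l hM hl]
    exact chr_nat (zz_pow _ hM) n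
  have h2 : (2 : FF) = 0 := CharTwo.two_eq_zero
  ext n
  rw [coeff_rescale, map_sum]
  simp only [Xser, coeff_mk, h2, ite_self, sub_zero]
  by_cases hn : n = 0
  · subst hn
    simp only [if_true, pow_zero, one_mul]
    have := h99_sum_upL M l 0 (fun x => eF (M * l) (((l * b : ℕ) : ZMod (M * l)) + x * j) *
      Ring.inverse (1 - eF (M * l) (((l * b : ℕ) : ZMod (M * l)) + x * j)) ^ 2)
    simp only [Nat.cast_zero, if_true, zero_mul, add_zero, eq_comm (a := (0 : ZMod (M * l)))] at this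
    rw [this, e2]
  · simp only [if_neg hn]
    rw [Finset.sum_comm, Finset.mul_sum]
    refine Finset.sum_congr rfl fun p hp => ?_
    have hpn : p.1 * p.2 = n := (Nat.mem_divisorsAntidiagonal.1 hp).1
    rw [← Finset.mul_sum, Finset.sum_add_distrib,
      h99_sum_upL M l p.2 (fun x => eF (M * l) ((((l * b : ℕ) : ZMod (M * l)) + x * j) * p.1)),
      h99_sum_upL_neg M l p.2
        (fun x => eF (M * l) (-((((l * b : ℕ) : ZMod (M * l)) + x * j) * p.1))), neg_zero]
    split_ifs with hm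
    · have a1 : (((l * b : ℕ) : ZMod (M * l)) + (p.2 : ZMod (M * l)) * j) * p.1 =
          ((l * (b * p.1) : ℕ) : ZMod (M * l)) + ((j * n : ℕ) : ZMod (M * l)) := by
        rw [← hpn]; push_cast; ring
      have a2 : -((((l * b : ℕ) : ZMod (M * l)) + -(p.2 : ZMod (M * l)) * j) * p.1) =
          -((l * (b * p.1) : ℕ) : ZMod (M * l)) + ((j * n : ℕ) : ZMod (M * l)) := by
        rw [← hpn]; push_cast; ring
      rw [a1, a2, AddChar.map_add_eq_mul, AddChar.map_add_eq_mul, AddChar.map_neg_eq_inv,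
        AddChar.map_neg_eq_inv, ← Nat.cast_mul, ← e2, e1, pow_mul]
      ring
    · simp

theorem h33_sum_inv {K : Type*} [Field K] {l : ℕ} (hl : 0 < l) {ζ : K} (hζ : IsPrimitiveRoot ζ l)
    {u : K} (hu : u ^ l ≠ 1) :
    ∑ i ∈ Finset.range l, (1 - ζ ^ i * u)⁻¹ = (l : K) * (1 - u ^ l)⁻¹ := by
  have hw : 1 - u ^ l ≠ 0 := sub_ne_zero.2 hu.symm
  have hx : ∀ i : ℕ, (ζ ^ i * u) ^ l = u ^ l := fun i => by
    rw [mul_pow, ← pow_mul, mul_comm i l, pow_mul, hζ.pow_eq_one, one_pow, one_mul]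
  have h1 : ∀ i : ℕ, (1 - ζ ^ i * u)⁻¹ =
      (∑ k ∈ Finset.range l, (ζ ^ k) ^ i * u ^ k) * (1 - u ^ l)⁻¹ := fun i => by
    have e := mul_neg_geom_sum (ζ ^ i * u) l
    rw [hx] at e
    have hne : 1 - ζ ^ i * u ≠ 0 := by
      intro h0
      rw [h0, zero_mul] at e
      exact hw e.symm
    have e2 : ∑ k ∈ Finset.range l, (ζ ^ k) ^ i * u ^ k =
        ∑ k ∈ Finset.range l, (ζ ^ i * u) ^ k := by
      refine Finset.sum_congr rfl fun k _ => ?_
      rw [mul_pow, ← pow_mul, ← pow_mul, mul_comm k i]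
    rw [e2, ← e]
    have hS : ∑ k ∈ Finset.range l, (ζ ^ i * u) ^ k ≠ 0 := by
      intro h0
      rw [h0, mul_zero] at e
      exact hw e.symm
    field_simp
  simp only [h1]
  rw [← Finset.sum_mul, Finset.sum_comm]
  congr 1
  rw [Finset.sum_eq_single 0]
  · simp
  · intro k hk hk0
    rw [← Finset.sum_mul]
    have h2 : ζ ^ k ≠ 1 := hζ.pow_ne_one_of_pos_of_lt hk0 (Finset.mem_range.1 hk)
    have e := mul_neg_geom_sum (ζ ^ k) l
    rw [← pow_mul, mul_comm k l, pow_mul, hζ.pow_eq_one, one_pow, sub_self] at e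
    rw [(mul_eq_zero.1 e).resolve_left (sub_ne_zero.2 h2.symm), zero_mul]
  · intro h0
    exact absurd (Finset.mem_range.2 hl) h0

/-- `∑_{ζ^l = 1} ζ u / (1 - ζ u)² = u^l / (1 - u^l)²` in characteristic 2 -/
theorem sum_inv_sq {l : ℕ} (hl : Odd l) {ζ : FF} (hζ : IsPrimitiveRoot ζ l) {u : FF}
    (hu : u ^ l ≠ 1) : ∑ i ∈ Finset.range l, ζ ^ i * u * Ring.inverse (1 - ζ ^ i * u) ^ 2 =
      u ^ l * Ring.inverse (1 - u ^ l) ^ 2 := by
  have key : ∀ x : FF, x ≠ 1 → x * Ring.inverse (1 - x) ^ 2 = (1 - x)⁻¹ ^ 2 - (1 - x)⁻¹ := by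
    intro x hx
    have : 1 - x ≠ 0 := sub_ne_zero.2 hx.symm
    rw [Ring.inverse_eq_inv']
    field_simp
    ring
  have hx : ∀ i : ℕ, ζ ^ i * u ≠ 1 := fun i h1 => by
    apply hu
    have : (ζ ^ i * u) ^ l = u ^ l := by
      rw [mul_pow, ← pow_mul, mul_comm i l, pow_mul, hζ.pow_eq_one, one_pow, one_mul]
    rw [← this, h1, one_pow]
  have hl1 : (l : FF) = 1 := by
    obtain ⟨m, rfl⟩ := hl
    have h2 : (2 : FF) = 0 := CharP.cast_eq_zero FF 2
    push_cast
    rw [h2]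
    ring
  have hs := h33_sum_inv hl.pos hζ hu
  rw [hl1, one_mul] at hs
  rw [Finset.sum_congr rfl fun i _ => key _ (hx i), key _ hu, Finset.sum_sub_distrib, hs, ← hs,
    sum_pow_char 2]

theorem h78_sum_div {l : ℕ} (hl : l ≠ 0) (F : ℕ → ℕ → FF)
    (hF : ∀ d e, ¬ (l ∣ d ∧ l ∣ e) → F d e = 0) (n : ℕ) :
    ∑ p ∈ n.divisorsAntidiagonal, F p.1 p.2 =
      if l ^ 2 ∣ n then ∑ p ∈ (n / l ^ 2).divisorsAntidiagonal, F (p.1 * l) (p.2 * l) else 0 := by
  have hl0 := Nat.pos_of_ne_zero hl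
  have hl2 : 0 < l ^ 2 := pow_pos hl0 2
  split_ifs with hd
  · obtain ⟨k, rfl⟩ := hd
    rw [Nat.mul_div_cancel_left _ hl2]
    symm
    refine Finset.sum_of_injOn (fun p : ℕ × ℕ => (p.1 * l, p.2 * l)) ?_ ?_ ?_ fun _ _ => rfl
    · rintro ⟨a, b⟩ _ ⟨c, d⟩ _ hh
      simp only [Prod.mk.injEq] at hh ⊢
      exact ⟨Nat.eq_of_mul_eq_mul_right hl0 hh.1, Nat.eq_of_mul_eq_mul_right hl0 hh.2⟩
    · rintro ⟨a, b⟩ hp
      rw [Finset.mem_coe, Nat.mem_divisorsAntidiagonal] at hp ⊢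
      refine ⟨?_, mul_ne_zero hl2.ne' hp.2⟩
      rw [← hp.1]; ring
    · rintro ⟨a, b⟩ hp hn
      refine hF a b fun hb => hn ?_
      obtain ⟨⟨c, rfl⟩, ⟨d, rfl⟩⟩ := hb
      rw [Nat.mem_divisorsAntidiagonal] at hp
      refine ⟨(c, d), ?_, by simp [mul_comm]⟩
      rw [Finset.mem_coe, Nat.mem_divisorsAntidiagonal]
      refine ⟨Nat.eq_of_mul_eq_mul_left hl2 ?_, fun hk => hp.2 (by simp [hk])⟩
      rw [← hp.1]; ring
  · refine Finset.sum_eq_zero fun p hp => hF _ _ fun he => hd ?_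
    rw [← (Nat.mem_divisorsAntidiagonal.1 hp).1, pow_two]
    exact mul_dvd_mul he.1 he.2

theorem h78_coeff (h : ℕ) [NeZero h] (c : ZMod h) {n : ℕ} (hn : n ≠ 0) :
    coeff n (Xser (eF h) (0, c)) = ∑ p ∈ n.divisorsAntidiagonal,
      if h ∣ p.2 then (p.1 : FF) * (eF h (c * p.1) + eF h (-(c * p.1))) else 0 := by
  have h2 : (2 : FF) = 0 := CharP.cast_eq_zero FF 2
  rw [Xser, coeff_mk, if_neg hn]
  refine Finset.sum_congr rfl fun p _ => ?_
  simp only [neg_zero, ZMod.natCast_eq_zero_iff, h2]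
  split_ifs <;> simp

theorem h78_lvl (M l : ℕ) [NeZero M] [NeZero l] (hM : Odd M) (hl : Odd l) (b d : ℕ) :
    eF (M * l) ((b : ZMod (M * l)) * ((d * l : ℕ) : ZMod (M * l))) =
      eF M ((b : ZMod M) * (d : ZMod M)) := by
  rw [← Nat.cast_mul, ← Nat.cast_mul, eF, eF, chr_nat (zz_pow _ (hM.mul hl)), chr_nat (zz_pow _ hM),
    ← zz_mul M l hM hl, ← pow_mul]
  congr 1; ring

theorem h78_sum_val (l : ℕ) [NeZero l] (f : ℕ → FF) :
    ∑ i : ZMod l, f i.val = ∑ i ∈ Finset.range l, f i := by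
  obtain ⟨k, rfl⟩ := Nat.exists_eq_succ_of_ne_zero (NeZero.ne l)
  exact Fin.sum_univ_eq_sum_range f (k + 1)

/-- the isogeny with kernel `μ_l` -/
theorem expand_sq_Xser (M l : ℕ) [NeZero M] [NeZero l] (hM : Odd M) (hl : Odd l) {b : ℕ}
    (hb : (b : ZMod M) ≠ 0) :
    PowerSeries.expand (l ^ 2) (pow_ne_zero 2 (NeZero.ne l)) (Xser (eF M) (0, (b : ZMod M))) =
      ∑ i : ZMod l, Xser (eF (M * l)) (0, (b : ZMod (M * l)) + upL M l i) := by
  have hl0 : l ≠ 0 := NeZero.ne l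
  have hz := zz_pow _ (hM.mul hl)
  ext n
  rw [coeff_expand, map_sum]
  by_cases hn : n = 0
  · subst hn
    have hζ : IsPrimitiveRoot (zz (M * l) ^ M) l :=
      (zz_spec.1 _ (hM.mul hl)).pow (Nat.pos_of_ne_zero (NeZero.ne _)) rfl
    have e0 : eF M (b : ZMod M) = (zz (M * l) ^ b) ^ l := by
      rw [eF, chr_nat (zz_pow _ hM), ← zz_mul M l hM hl, ← pow_mul, ← pow_mul, mul_comm l b]
    have hu : (zz (M * l) ^ b) ^ l ≠ 1 := by
      rw [← e0]
      exact fun h => (prim_eF M hM _ hb).ne_zero (by rw [h, sub_self])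
    have e1 : ∀ i : ZMod l, eF (M * l) ((b : ZMod (M * l)) + upL M l i) =
        (zz (M * l) ^ M) ^ i.val * zz (M * l) ^ b := fun i => by
      rw [upL_val, ← Nat.cast_add, eF, chr_nat hz, ← pow_mul, ← pow_add]
      congr 1; ring
    simp only [Xser, coeff_mk, dvd_zero, Nat.zero_div, if_true, e0, e1]
    rw [← sum_inv_sq hl hζ hu]
    exact (h78_sum_val l fun i => (zz (M * l) ^ M) ^ i * zz (M * l) ^ b *
      Ring.inverse (1 - (zz (M * l) ^ M) ^ i * zz (M * l) ^ b) ^ 2).symm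
  · have hl1 : (l : FF) = 1 := by
      obtain ⟨k, rfl⟩ := hl
      have h2 : (2 : FF) = 0 := CharP.cast_eq_zero FF 2
      push_cast
      rw [h2, zero_mul, zero_add]
    have hS : ∀ d : ℕ, ∑ i : ZMod l, (eF (M * l) (((b : ZMod (M * l)) + upL M l i) * d) +
        eF (M * l) (-(((b : ZMod (M * l)) + upL M l i) * d))) =
        if l ∣ d then eF (M * l) (b * d) + eF (M * l) (-(b * d)) else 0 := by
      intro d
      have s1 := sum_eF_upL M l hM hl d
      have s2 : ∑ i : ZMod l, eF (M * l) (-(upL M l i * d)) = if l ∣ d then 1 else 0 := by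
        rw [← s1, ← Equiv.sum_comp (Equiv.neg (ZMod l))]
        simp only [Equiv.neg_apply, map_neg, neg_mul, neg_neg]
      simp only [add_mul, neg_add, AddChar.map_add_eq_mul, Finset.sum_add_distrib,
        ← Finset.mul_sum, s1, s2]
      split_ifs <;> simp
    simp only [h78_coeff _ _ hn]
    rw [Finset.sum_comm]
    have e2 : ∀ p : ℕ × ℕ, (∑ i : ZMod l, if M * l ∣ p.2 then (p.1 : FF) *
        (eF (M * l) (((b : ZMod (M * l)) + upL M l i) * p.1) +
          eF (M * l) (-(((b : ZMod (M * l)) + upL M l i) * p.1))) else 0) =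
        if M * l ∣ p.2 then (p.1 : FF) *
          (if l ∣ p.1 then eF (M * l) (b * p.1) + eF (M * l) (-(b * p.1)) else 0) else 0 := by
      intro p
      by_cases h : M * l ∣ p.2
      · simp only [if_pos h]
        rw [← Finset.mul_sum, hS]
      · simp only [if_neg h, Finset.sum_const_zero]
    simp only [e2]
    rw [h78_sum_div hl0 (fun d e => if M * l ∣ e then (d : FF) *
      (if l ∣ d then eF (M * l) (b * d) + eF (M * l) (-(b * d)) else 0) else 0)]
    · by_cases h1 : l ^ 2 ∣ n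
      · rw [if_pos h1, if_pos h1,
          h78_coeff _ _ fun h2 => hn (Nat.eq_zero_of_dvd_of_div_eq_zero h1 h2)]
        refine Finset.sum_congr rfl fun p _ => ?_
        rw [if_pos (dvd_mul_left l p.1), AddChar.map_neg_eq_inv, AddChar.map_neg_eq_inv,
          h78_lvl M l hM hl, Nat.cast_mul, hl1, mul_one]
        simp only [Nat.mul_dvd_mul_iff_right (Nat.pos_of_ne_zero hl0)]
      · rw [if_neg h1, if_neg h1]
    · intro d e he
      by_cases h1 : M * l ∣ e
      · rw [if_pos h1, if_neg fun h2 => he ⟨h2, (dvd_mul_left l M).trans h1⟩, mul_zero]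
      · rw [if_neg h1]

theorem h44_expand_comm (M l : ℕ) [NeZero M] [NeZero l] (f : FF⟦X⟧) :
    PowerSeries.expand l (NeZero.ne l) (PowerSeries.expand M (NeZero.ne M) f) =
      PowerSeries.expand M (NeZero.ne M) (PowerSeries.expand l (NeZero.ne l) f) := by
  rw [← expand_mul, ← expand_mul]
  simp only [mul_comm]

/-- `U_l` as a sum of substitutions -/
theorem sum_rescale_expand (M l : ℕ) [NeZero M] [NeZero l] (hM : Odd M) (hl : Odd l) (f : FF⟦X⟧) :
    ∑ j ∈ Finset.range l, rescale (zz (M * l) ^ j) (PowerSeries.expand M (NeZero.ne M) f) =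
      PowerSeries.expand l (NeZero.ne l) (PowerSeries.expand M (NeZero.ne M) (Uop l f)) := by
  rw [h44_expand_comm]
  ext n
  simp only [map_sum, coeff_rescale]
  by_cases h : M ∣ n
  · obtain ⟨k, rfl⟩ := h
    have e : ∀ j, (zz (M * l) ^ j) ^ (M * k) = (zz l ^ k) ^ j := fun j => by
      rw [← zz_spec.2 M l hM hl, ← pow_mul, ← pow_mul, ← pow_mul]
      congr 1
      ring
    simp only [coeff_expand_mul, e]
    rw [← Finset.sum_mul, h44_geom hl, coeff_expand]
    split_ifs with h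
    · rw [Uop, coeff_mk, Nat.div_mul_cancel h, one_mul]
    · rw [zero_mul]
  · simp only [coeff_expand_of_not_dvd _ _ _ h, mul_zero, Finset.sum_const_zero]

/-- `V_l` as a substitution -/
theorem expand_sq_expand (M l : ℕ) [NeZero M] [NeZero l] (f : FF⟦X⟧) :
    PowerSeries.expand (l ^ 2) (pow_ne_zero 2 (NeZero.ne l)) (PowerSeries.expand M (NeZero.ne M) f) =
      PowerSeries.expand l (NeZero.ne l) (PowerSeries.expand M (NeZero.ne M) (Vop l f)) := by
  have e : Vop l f = PowerSeries.expand l (NeZero.ne l) f := by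
    ext n
    rw [Vop, coeff_mk, coeff_expand]
  rw [e, ← h44_expand_comm M l f, ← expand_mul l (NeZero.ne l) l]
  simp only [sq]

end Crest.Agent.R007
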