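import Crest.Agent.R007.GS0
import Crest.Agent.R007.GS1
import Crest.Agent.R007.GK
import Crest.Agent.R007.W

/-! Row 7, block GEO (Tate side): Vélu's formula for the modulus on the Tate curve. -/

set_option autoImplicit false

noncomputable section
namespace Crest.Agent.R007

open PowerSeries

theorem Xser_FF_zero (h : ℕ) [NeZero h] : Xser (eF h) 0 = 0 := by
  ext n
  have h2 : (2 : FF) = 0 := CharTwo.two_eq_zero
  simp only [Xser, coeff_mk, Prod.fst_zero, Prod.snd_zero, zero_mul, neg_zero, AddChar.map_zero_eq_one,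
    sub_self, map_zero]
  split_ifs with h1
  · simp
  · refine Finset.sum_eq_zero fun p _ => ?_
    split_ifs
    · rw [h2, sub_zero, one_add_one_eq_two, h2, mul_zero]
    · simp

theorem lev_rho_ne (h : ℕ) [NeZero h] : lev FF h rho ≠ 0 := by
  intro e
  have := congrArg (coeff h) e
  simp only [lev, RingHom.coe_comp, Function.comp_apply, AlgHom.toRingHom_eq_coe, RingHom.coe_coe,
    coeff_expand, dvd_refl, if_true, Nat.div_self (Nat.pos_of_ne_zero (NeZero.ne h)), coeff_map,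
    coeff_one_rho, map_one, map_zero] at this
  exact one_ne_zero this

theorem two_ne_of_odd {h : ℕ} (ho : Odd h) {P : ZMod h × ZMod h} (hP : P ≠ 0) : P + P ≠ 0 := by
  intro e
  apply hP
  obtain ⟨k, hk⟩ := ho
  have h0 : h • P = 0 := by
    ext <;> simp
  have : h • P = k • (P + P) + P := by
    rw [← two_nsmul, ← mul_nsmul, ← succ_nsmul]
    congr 1
  rw [h0, e, nsmul_zero, zero_add] at this
  exact this.symm

/-- the Kummer data of the `h`-torsion of the Tate curve -/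
def kumT (h : ℕ) [NeZero h] (ho : Odd h) : Kum (ZMod h × ZMod h) (LaurentSeries FF) where
  ξ P := cL (Xser (eF h) P)
  ρ := cL (lev FF h rho)
  ρ_ne := (map_ne_zero_iff _ cL_inj).mpr (lev_rho_ne h)
  ξ_zero := by rw [Xser_FF_zero, map_zero]
  ξ_neg P := by rw [Xser_neg _ (prim_eF h ho)]
  ne P hP := (map_ne_zero_iff _ cL_inj).mpr (Xser_FF_ne_zero h ho (by rintro rfl; simp at hP))
  inj P Q hP hQ h1 h2 e := by
    have e' := cL_inj e
    have := sum_FF h ho hP hQ h1 h2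
    rw [e', ← two_mul, h25_two_FF, zero_mul, zero_pow two_ne_zero, mul_zero] at this
    exact mul_ne_zero (Xser_FF_ne_zero h ho hQ) (Xser_FF_ne_zero h ho hQ) this.symm
  dbl P hP := by
    have := dup_FF h ho (P := P) (by rintro rfl; simp at hP)
    rw [two_nsmul] at this
    simpa using congrArg cL this
  sum P Q hP hQ h1 h2 := by simpa using congrArg cL (sum_FF h ho hP hQ h1 h2)

theorem tate_velu_aux (M d : ℕ) [NeZero M] (hM : Odd M) (h3 : 3 ∣ M) (hh : Odd (M * (2 * d + 1)))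
    (τ : FF⟦X⟧ →+* FF⟦X⟧)
    (ι : ZMod (2 * d + 1) →+ ZMod (M * (2 * d + 1)) × ZMod (M * (2 * d + 1)))
    (hι : Function.Injective ι) (P : ZMod (M * (2 * d + 1)) × ZMod (M * (2 * d + 1)))
    (hP : P + P ∉ ι.range)
    (h1 : τ (Xser (eF M) (0, ((1 : ℕ) : ZMod M))) = ∑ i, Xser (eF (M * (2 * d + 1))) (P + ι i))
    (h2 : τ (Xser (eF M) (0, ((2 : ℕ) : ZMod M))) = ∑ i, Xser (eF (M * (2 * d + 1))) (P + P + ι i)) :
    ∃ k : Kum (ZMod (2 * d + 1)) (LaurentSeries FF), k.ρ = cL (lev FF (M * (2 * d + 1)) rho) ∧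
      cL (τ (lev FF M rho)) * k.pr (AddMonoidHom.id _) ^ 8 = k.ρ ^ (2 * d + 1) := by
  set K := kumT (M * (2 * d + 1)) hh with hK
  refine ⟨K.comap ι hι, rfl, ?_⟩
  have hpr : (K.comap ι hι).pr (AddMonoidHom.id _) = K.pr ι := rfl
  have hρ : (K.comap ι hι).ρ = K.ρ := rfl
  rw [hpr, hρ]
  obtain ⟨-, hv⟩ := K.vx_dbl hι hP
  have e1 : K.vx ι P = cL (τ (Xser (eF M) (0, ((1 : ℕ) : ZMod M)))) := by
    rw [h1, map_sum]; rfl
  have e2 : K.vx ι (P + P) = cL (τ (Xser (eF M) (0, ((2 : ℕ) : ZMod M)))) := by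
    rw [h2, map_sum]; rfl
  have hM1 : 1 < M := by
    have := Nat.le_of_dvd (Nat.pos_of_ne_zero (NeZero.ne M)) h3
    omega
  have hne : ((0, ((1 : ℕ) : ZMod M)) : ZMod M × ZMod M) ≠ 0 := by
    intro e
    have := congrArg Prod.snd e
    simp only [Prod.snd_zero, ZMod.natCast_eq_zero_iff, Nat.dvd_one] at this
    omega
  have hd := dup_FF M hM hne
  have e3 : (2 • ((0, ((1 : ℕ) : ZMod M)) : ZMod M × ZMod M)) = (0, ((2 : ℕ) : ZMod M)) := by
    ext <;> simp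
  rw [e3] at hd
  have hd' := congrArg (fun x => cL (τ x)) hd
  simp only [map_mul, map_pow, map_add] at hd'
  rw [e1, e2, hd', add_right_inj] at hv
  rw [hv, Kum.vρ, div_mul_cancel₀ _ (pow_ne_zero _ (K.pr_ne hι))]

theorem not_dvd_two {M : ℕ} [NeZero M] (h3 : 3 ∣ M) : ¬ M ∣ 2 := fun h => by
  have := Nat.le_of_dvd two_pos (h3.trans h)
  omega

theorem tate_velu_rescale (M d : ℕ) [NeZero M] (hM : Odd M) (h3 : 3 ∣ M) (j : ℕ) :
    ∃ k : Kum (ZMod (2 * d + 1)) (LaurentSeries FF), k.ρ = cL (lev FF (M * (2 * d + 1)) rho) ∧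
      cL (rescale (zz (M * (2 * d + 1)) ^ j) (lev FF M rho)) * k.pr (AddMonoidHom.id _) ^ 8 =
        k.ρ ^ (2 * d + 1) := by
  have hl : Odd (2 * d + 1) := odd_two_mul_add_one d
  let ι : ZMod (2 * d + 1) →+ ZMod (M * (2 * d + 1)) × ZMod (M * (2 * d + 1)) :=
    (upL M (2 * d + 1)).prod
      ((AddMonoidHom.mulRight (j : ZMod (M * (2 * d + 1)))).comp (upL M (2 * d + 1)))
  have hι' : ∀ i, ι i = (upL M (2 * d + 1) i, upL M (2 * d + 1) i * (j : ZMod (M * (2 * d + 1)))) :=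
    fun i => rfl
  refine tate_velu_aux M d hM h3 (hM.mul hl) _ ι
    (fun a b e => upL_inj M (2 * d + 1) (congrArg Prod.fst e))
    (0, (((2 * d + 1) * 1 : ℕ) : ZMod (M * (2 * d + 1)))) ?_ ?_ ?_
  · rintro ⟨i, hi⟩
    rw [hι'] at hi
    have e1 := congrArg Prod.fst hi
    have e2 := congrArg Prod.snd hi
    simp only [Prod.mk_add_mk, add_zero] at e1 e2
    rw [e1, zero_mul, ← Nat.cast_add, eq_comm, ZMod.natCast_eq_zero_iff,
      show (2 * d + 1) * 1 + (2 * d + 1) * 1 = 2 * (2 * d + 1) by ring,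
      Nat.mul_dvd_mul_iff_right (Nat.succ_pos _)] at e2
    exact not_dvd_two h3 e2
  · rw [rescale_Xser M (2 * d + 1) hM hl j 1]
    refine Finset.sum_congr rfl fun i _ => ?_
    rw [hι', Prod.mk_add_mk, zero_add]
  · rw [rescale_Xser M (2 * d + 1) hM hl j 2]
    refine Finset.sum_congr rfl fun i _ => ?_
    rw [hι', Prod.mk_add_mk, Prod.mk_add_mk, zero_add, zero_add, ← Nat.cast_add,
      show (2 * d + 1) * 1 + (2 * d + 1) * 1 = (2 * d + 1) * 2 by ring]

theorem tate_velu_expand (M d : ℕ) [NeZero M] (hM : Odd M) (h3 : 3 ∣ M) :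
    ∃ k : Kum (ZMod (2 * d + 1)) (LaurentSeries FF), k.ρ = cL (lev FF (M * (2 * d + 1)) rho) ∧
      cL (PowerSeries.expand ((2 * d + 1) ^ 2) (pow_ne_zero 2 (NeZero.ne (2 * d + 1)))
        (lev FF M rho)) * k.pr (AddMonoidHom.id _) ^ 8 = k.ρ ^ (2 * d + 1) := by
  have hl : Odd (2 * d + 1) := odd_two_mul_add_one d
  have hM2 : ∀ b : ℕ, b ∣ 2 → (b : ZMod M) ≠ 0 := fun b hb e => by
    rw [ZMod.natCast_eq_zero_iff] at e
    exact not_dvd_two h3 (e.trans hb)
  let ι : ZMod (2 * d + 1) →+ ZMod (M * (2 * d + 1)) × ZMod (M * (2 * d + 1)) :=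
    (0 : ZMod (2 * d + 1) →+ ZMod (M * (2 * d + 1))).prod (upL M (2 * d + 1))
  have hι' : ∀ i, ι i = (0, upL M (2 * d + 1) i) := fun i => rfl
  refine tate_velu_aux M d hM h3 (hM.mul hl)
    (PowerSeries.expand ((2 * d + 1) ^ 2) (pow_ne_zero 2 (NeZero.ne (2 * d + 1)))).toRingHom ι
    (fun a b e => upL_inj M (2 * d + 1) (congrArg Prod.snd e))
    (0, ((1 : ℕ) : ZMod (M * (2 * d + 1)))) ?_ ?_ ?_
  · rintro ⟨i, hi⟩
    rw [hι'] at hi
    have e2 := congrArg Prod.snd hi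
    simp only [Prod.mk_add_mk] at e2
    rw [← Nat.cast_add, eq_comm, upL_eq_iff] at e2
    exact not_dvd_two h3 e2.1
  · refine (expand_sq_Xser M (2 * d + 1) hM hl (hM2 1 (one_dvd 2))).trans ?_
    refine Finset.sum_congr rfl fun i _ => ?_
    rw [hι', Prod.mk_add_mk, zero_add]
  · refine (expand_sq_Xser M (2 * d + 1) hM hl (hM2 2 dvd_rfl)).trans ?_
    refine Finset.sum_congr rfl fun i _ => ?_
    rw [hι', Prod.mk_add_mk, Prod.mk_add_mk, zero_add, zero_add, ← Nat.cast_add]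

/-- final export of the Tate side -/
theorem tate_velu (M d : ℕ) [NeZero M] (hM : Odd M) (h3 : 3 ∣ M) (τ : FF⟦X⟧ →+* FF⟦X⟧)
    (hτ : (∃ j : ℕ, τ = rescale (zz (M * (2 * d + 1)) ^ j)) ∨
      τ = (PowerSeries.expand ((2 * d + 1) ^ 2)
        (pow_ne_zero 2 (NeZero.ne (2 * d + 1)))).toRingHom) :
    ∃ k : Kum (ZMod (2 * d + 1)) (LaurentSeries FF), k.ρ = cL (lev FF (M * (2 * d + 1)) rho) ∧
      cL (τ (lev FF M rho)) * k.pr (AddMonoidHom.id _) ^ 8 = k.ρ ^ (2 * d + 1) := by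
  rcases hτ with ⟨j, rfl⟩ | rfl
  · exact tate_velu_rescale M d hM h3 j
  · exact tate_velu_expand M d hM h3

end Crest.Agent.R007
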