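import Crest.Agent.R007.W
import Crest.Agent.R007.GK
import Crest.Agent.R007.GS2

/-! Row 7, block GEO (Tate side): the exported statements (helper82). -/

set_option autoImplicit false

noncomputable section
namespace Crest.Agent.R007

open PowerSeries

theorem tate_velu₁ (M d : ℕ) [NeZero M] (ho : Odd M) (h3 : 3 ∣ M) (j : ℕ) :
    ∃ k : Kum (ZMod (2 * d + 1)) (LaurentSeries FF),
      k.ρ = ((PowerSeries.expand (2 * d + 1) (by omega) (lev FF M rho) : FF⟦X⟧) :
        LaurentSeries FF) ∧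
      ((PowerSeries.rescale (zz (M * (2 * d + 1)) ^ j) (lev FF M rho) : FF⟦X⟧) :
        LaurentSeries FF) * k.pr (AddMonoidHom.id _) ^ 8 = k.ρ ^ (2 * d + 1) := by
  rw [expand_lev]
  exact tate_velu_rescale M d ho h3 j

theorem tate_velu₂ (M d : ℕ) [NeZero M] (ho : Odd M) (h3 : 3 ∣ M) :
    ∃ k : Kum (ZMod (2 * d + 1)) (LaurentSeries FF),
      k.ρ = ((PowerSeries.expand (2 * d + 1) (by omega) (lev FF M rho) : FF⟦X⟧) :
        LaurentSeries FF) ∧
      ((PowerSeries.expand ((2 * d + 1) ^ 2) (by positivity) (lev FF M rho) : FF⟦X⟧) :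
        LaurentSeries FF) * k.pr (AddMonoidHom.id _) ^ 8 = k.ρ ^ (2 * d + 1) := by
  rw [expand_lev]
  exact tate_velu_expand M d ho h3

theorem sum_rescale (M d : ℕ) [NeZero M] (ho : Odd M) (f : FF⟦X⟧) :
    ∑ j : Fin (2 * d + 1), PowerSeries.rescale (zz (M * (2 * d + 1)) ^ (j : ℕ))
        (PowerSeries.expand M (NeZero.ne M) f) =
      PowerSeries.expand (2 * d + 1) (by omega)
        (PowerSeries.expand M (NeZero.ne M) (Uop (2 * d + 1) f)) := by
  rw [← sum_rescale_expand M (2 * d + 1) ho (odd_two_mul_add_one d) f, Finset.sum_range]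

theorem expand_sq_Vop (M d : ℕ) [NeZero M] (f : FF⟦X⟧) :
    PowerSeries.expand ((2 * d + 1) ^ 2) (by positivity) (PowerSeries.expand M (NeZero.ne M) f) =
      PowerSeries.expand (2 * d + 1) (by omega)
        (PowerSeries.expand M (NeZero.ne M) (Vop (2 * d + 1) f)) := by
  exact expand_sq_expand M (2 * d + 1) f

end Crest.Agent.R007
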