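import Mathlib

/-! Row 7, block GEO (Tate side): theta series over a complete non-archimedean field of
characteristic 2; definitions. -/

set_option autoImplicit false

noncomputable section
namespace Crest.Agent.R007

section defs
variable {Ω : Type} [NormedField Ω]

/-- `n (n - 1) / 2` -/
def tri (n : ℤ) : ℤ := n * (n - 1) / 2
/-- weighted theta series `∑ χ(n) q^{n(n-1)/2} u^n` -/
def thC (q : Ω) (χ : ℤ → Ω) (u : Ω) : Ω := ∑' n : ℤ, χ n * q ^ tri n * u ^ n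
/-- `θ(u)` -/
def th (q u : Ω) : Ω := thC q (fun _ => 1) u
/-- `u θ'(u)` -/
def thD (q u : Ω) : Ω := thC q (fun n => (n : Ω)) u
/-- `∑ χ(n) q^{n²} u^{2n}` -/
def b0C (q : Ω) (χ : ℤ → Ω) (u : Ω) : Ω := ∑' n : ℤ, χ n * q ^ (n * n) * u ^ (2 * n)
/-- `∑ χ(n) q^{n²+n} u^{2n+1}` -/
def b1C (q : Ω) (χ : ℤ → Ω) (u : Ω) : Ω := ∑' n : ℤ, χ n * q ^ (n * n + n) * u ^ (2 * n + 1)
def b0 (q u : Ω) : Ω := b0C q (fun _ => 1) u
def b1 (q u : Ω) : Ω := b1C q (fun _ => 1) u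
/-- `κ = ∑_{n ≥ 0} q^{n(n+1)}` -/
def kap (q : Ω) : Ω := b1C q (fun n => (n : Ω)) 1
/-- Euler's coefficients `q^{k(k-1)/2} / (q;q)_k` (zero for `k < 0`) -/
def alp (q : Ω) (k : ℤ) : Ω :=
  if k < 0 then 0 else q ^ tri k / ∏ i ∈ Finset.range k.toNat, (1 + q ^ (i + 1))
/-- `A(u) = ∏_{n ≥ 0} (1 + q^n u)` -/
def eA (q u : Ω) : Ω := ∑' k : ℤ, alp q k * u ^ k
/-- `u A'(u)` -/
def eAD (q u : Ω) : Ω := ∑' k : ℤ, (k : Ω) * alp q k * u ^ k
def gT (v : Ω) : Ω := v / (1 + v)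
def fT (v : Ω) : Ω := v / (1 + v) ^ 2
/-- the `x`-coordinate on the Tate curve in characteristic 2 -/
def xiT (q u : Ω) : Ω := ∑' n : ℕ, fT (q ^ n * u) + ∑' n : ℕ, fT (q ^ (n + 1) / u)
/-- `u` is a non-zero point of `Ω^× / q^ℤ` -/
def OffT (q u : Ω) : Prop := u ≠ 0 ∧ ∀ n : ℤ, u ≠ q ^ n

end defs

theorem two_mul_tri (n : ℤ) : 2 * tri n = n * (n - 1) := by
  have : Even (n * (n - 1)) := Int.even_mul_pred_self n
  unfold tri
  exact Int.mul_ediv_cancel' (even_iff_two_dvd.mp this)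

section summ
variable {Ω : Type} [NormedField Ω] [IsUltrametricDist Ω] [CompleteSpace Ω] {q : Ω}

/-- the basic summability criterion: the terms tend to `0` along `cofinite`
(`NonarchimedeanAddGroup.summable_of_tendsto_cofinite_zero`); `‖q‖^{e n} ‖u‖^n → 0` since
`2 e n ≥ n² - B |n|` -/
theorem summable_quad (hq0 : q ≠ 0) (hq : ‖q‖ < 1) {u : Ω} (hu : u ≠ 0) (c : ℤ → Ω)
    (hc : ∀ n, ‖c n‖ ≤ 1) (e : ℤ → ℤ) (B : ℤ) (he : ∀ n, n * n - B * |n| ≤ 2 * e n) :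
    Summable fun n : ℤ => c n * q ^ e n * u ^ n := by
  have ha : 0 < ‖q‖ := norm_pos_iff.2 hq0
  have hb : 0 < ‖u‖ := norm_pos_iff.2 hu
  obtain ⟨m, hm⟩ := exists_pow_lt_of_lt_one (lt_min hb (inv_pos.2 hb)) hq
  have h1 : ∀ n : ℤ, ‖u‖ ^ n * ‖q‖ ^ (m * |n|) ≤ 1 := fun n => by
    rw [zpow_mul, zpow_natCast]
    rcases le_total 0 n with h | h
    · rw [abs_of_nonneg h, ← mul_zpow]
      refine zpow_le_one₀ (by positivity) ?_ h
      have := (hm.trans_le (min_le_right _ _)).le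
      rwa [← one_div, le_div_iff₀' hb] at this
    · rw [abs_of_nonpos h, show ‖u‖ ^ n = ‖u‖⁻¹ ^ (-n) by rw [inv_zpow', neg_neg], ← mul_zpow]
      refine zpow_le_one₀ (by positivity) ?_ (neg_nonneg.2 h)
      rw [inv_mul_le_one₀ hb]
      exact (hm.trans_le (min_le_left _ _)).le
  have hs : Summable fun n : ℤ => ‖q‖ ^ n.natAbs :=
    Summable.of_nat_of_neg (by simpa using summable_geometric_of_lt_one ha.le hq)
      (by simpa using summable_geometric_of_lt_one ha.le hq)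
  refine Summable.of_norm_bounded_eventually hs ?_
  refine (Set.finite_Ioo (-(B + 2 * m + 2)) (B + 2 * m + 2)).subset fun n hn => ?_
  by_contra hn'
  refine hn ?_
  have h2 : B + 2 * m + 2 ≤ |n| := not_lt.1 fun h => hn' (abs_lt.1 h)
  have h3 : |n| + m * |n| ≤ e n := by
    have := mul_le_mul_of_nonneg_right h2 (abs_nonneg n)
    have h4 := he n
    rw [← abs_mul_abs_self] at h4
    linarith
  have h5 : ‖q‖ ^ e n ≤ ‖q‖ ^ (|n| + m * |n|) := zpow_le_zpow_right_of_le_one₀ ha hq.le h3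
  rw [Set.mem_ofPred_eq, norm_mul, norm_mul, norm_zpow, norm_zpow, ← zpow_natCast,
    Int.natCast_natAbs]
  rw [zpow_add₀ ha.ne'] at h5
  calc ‖c n‖ * ‖q‖ ^ e n * ‖u‖ ^ n ≤ 1 * (‖q‖ ^ |n| * ‖q‖ ^ (m * |n|)) * ‖u‖ ^ n := by
        gcongr
        exact hc n
    _ = ‖q‖ ^ |n| * (‖u‖ ^ n * ‖q‖ ^ (m * |n|)) := by ring
    _ ≤ ‖q‖ ^ |n| := mul_le_of_le_one_right (by positivity) (h1 n)

theorem summable_thC (hq0 : q ≠ 0) (hq : ‖q‖ < 1) {u : Ω} (hu : u ≠ 0) {χ : ℤ → Ω}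
    (hχ : ∀ n, ‖χ n‖ ≤ 1) : Summable fun n : ℤ => χ n * q ^ tri n * u ^ n := by
  refine summable_quad hq0 hq hu χ hχ tri 1 fun n => ?_
  rw [two_mul_tri]
  linarith [le_abs_self n]

theorem summable_b0C (hq0 : q ≠ 0) (hq : ‖q‖ < 1) {u : Ω} (hu : u ≠ 0) {χ : ℤ → Ω}
    (hχ : ∀ n, ‖χ n‖ ≤ 1) : Summable fun n : ℤ => χ n * q ^ (n * n) * u ^ (2 * n) := by
  simpa only [zpow_mul] using summable_quad hq0 hq (zpow_ne_zero 2 hu) χ hχ (fun n => n * n) 0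
    fun n => by linarith [mul_self_nonneg n]

theorem summable_b1C (hq0 : q ≠ 0) (hq : ‖q‖ < 1) {u : Ω} (hu : u ≠ 0) {χ : ℤ → Ω}
    (hχ : ∀ n, ‖χ n‖ ≤ 1) : Summable fun n : ℤ => χ n * q ^ (n * n + n) * u ^ (2 * n + 1) := by
  have h := (summable_quad hq0 hq (zpow_ne_zero 2 hu) χ hχ (fun n => n * n + n) 2
    fun n => by linarith [mul_self_nonneg n, neg_abs_le n]).mul_right u
  refine h.congr fun n => ?_
  rw [zpow_add_one₀ hu, zpow_mul, mul_assoc]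

/-- `‖1 + q^{i+1}‖ = 1` -/
theorem norm_alp (hq0 : q ≠ 0) (hq : ‖q‖ < 1) (k : ℤ) : ‖alp q k‖ ≤ ‖q ^ tri k‖ := by
  unfold alp
  split_ifs
  · rw [norm_zero]; exact norm_nonneg _
  · have h : ∀ i : ℕ, ‖1 + q ^ (i + 1)‖ = 1 := fun i => by
      have h1 : ‖q ^ (i + 1)‖ < 1 := by
        rw [norm_pow]; exact pow_lt_one₀ (norm_nonneg _) hq (Nat.succ_ne_zero i)
      rw [IsUltrametricDist.norm_add_eq_max_of_norm_ne_norm (by rw [norm_one]; exact h1.ne'),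
        norm_one, max_eq_left h1.le]
    rw [norm_div, norm_prod, Finset.prod_eq_one fun i _ => h i, div_one]

theorem summable_alp (hq0 : q ≠ 0) (hq : ‖q‖ < 1) {u : Ω} (hu : u ≠ 0) {χ : ℤ → Ω}
    (hχ : ∀ n, ‖χ n‖ ≤ 1) : Summable fun k : ℤ => χ k * alp q k * u ^ k := by
  have h0 : ∀ k, q ^ tri k ≠ 0 := fun k => zpow_ne_zero _ hq0
  refine (summable_thC hq0 hq hu (χ := fun k => χ k * (alp q k / q ^ tri k)) fun k => ?_).congr
    fun k => by rw [mul_assoc (χ k), div_mul_cancel₀ _ (h0 k)]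
  rw [norm_mul, norm_div]
  exact mul_le_one₀ (hχ k) (by positivity)
    ((div_le_one (norm_pos_iff.2 (h0 k))).2 (norm_alp hq0 hq k))

/-- reindexing `ℤ × ℤ` by the parity of `n + m` -/
theorem tsum_parity {F : ℤ × ℤ → Ω} (hF : Summable F) :
    (Summable fun p : ℤ × ℤ => F (p.1 + p.2, p.1 - p.2)) ∧
    (Summable fun p : ℤ × ℤ => F (p.1 + p.2 + 1, p.1 - p.2)) ∧
    ∑' p, F p = ∑' p : ℤ × ℤ, F (p.1 + p.2, p.1 - p.2) +
      ∑' p : ℤ × ℤ, F (p.1 + p.2 + 1, p.1 - p.2) := by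
  have h1 : Function.Injective fun p : ℤ × ℤ => (p.1 + p.2, p.1 - p.2) := fun p p' h => by
    simp only [Prod.mk.injEq] at h
    exact Prod.ext (by omega) (by omega)
  have h2 : Function.Injective fun p : ℤ × ℤ => (p.1 + p.2 + 1, p.1 - p.2) := fun p p' h => by
    simp only [Prod.mk.injEq] at h
    exact Prod.ext (by omega) (by omega)
  have s1 := hF.comp_injective h1
  have s2 := hF.comp_injective h2
  refine ⟨s1, s2, HasSum.tsum_eq (HasSum.add_isCompl ?_ (h1.hasSum_range_iff.2 s1.hasSum)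
    (h2.hasSum_range_iff.2 s2.hasSum))⟩
  refine ⟨Set.disjoint_left.2 ?_, codisjoint_iff.2 (Set.eq_univ_of_forall fun x => ?_)⟩
  · rintro _ ⟨p, rfl⟩ ⟨p', h⟩
    simp only [Prod.mk.injEq] at h
    omega
  · by_cases h : (x.1 + x.2) % 2 = 0
    · exact Or.inl ⟨((x.1 + x.2) / 2, (x.1 - x.2) / 2), Prod.ext (by simp only; omega)
        (by simp only; omega)⟩
    · exact Or.inr ⟨((x.1 + x.2 - 1) / 2, (x.1 - x.2 - 1) / 2), Prod.ext (by simp only; omega)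
        (by simp only; omega)⟩

end summ

end Crest.Agent.R007
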