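import Crest.Agent.R007.GT0

/-! Row 7, block GEO (Tate side): bilinear theta identities in characteristic 2. -/

set_option autoImplicit false

noncomputable section
namespace Crest.Agent.R007

variable {Ω : Type} [NormedField Ω] [IsUltrametricDist Ω] [CompleteSpace Ω] [CharP Ω 2] {q : Ω}

omit [CompleteSpace Ω] [CharP Ω 2] in
theorem h49_nonarch : NonarchimedeanRing Ω :=
  ⟨NonarchimedeanAddGroup.is_nonarchimedean⟩

omit [IsUltrametricDist Ω] [CompleteSpace Ω] [CharP Ω 2] in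
theorem h49_term (hq0 : q ≠ 0) {u v : Ω} (hu : u ≠ 0) (hv : v ≠ 0) (x y : Ω) {n m a b c d : ℤ}
    (h1 : 2 * (a + b) = n * (n - 1) + m * (m - 1)) (h2 : c = n + m) (h3 : d = n - m) :
    x * q ^ tri n * (u * v) ^ n * (y * q ^ tri m * (u / v) ^ m) =
      x * y * (q ^ a * u ^ c) * (q ^ b * v ^ d) := by
  have e : q ^ tri n * q ^ tri m = q ^ a * q ^ b := by
    rw [← zpow_add₀ hq0, ← zpow_add₀ hq0]
    congr 1
    linarith [two_mul_tri n, two_mul_tri m]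
  rw [h2, h3, zpow_add₀ hu, zpow_sub₀ hv, mul_zpow, div_zpow]
  linear_combination (x * y * u ^ n * u ^ m * (v ^ n / v ^ m)) * e

omit [CharP Ω 2] in
theorem h49_thC_mul (hq0 : q ≠ 0) (hq : ‖q‖ < 1) {u v : Ω} (hu : u ≠ 0) (hv : v ≠ 0)
    {χ χ' : ℤ → Ω} (hχ : ∀ n, ‖χ n‖ ≤ 1) (hχ' : ∀ n, ‖χ' n‖ ≤ 1) :
    (Summable fun p : ℤ × ℤ => χ (p.1 + p.2 + 1) * χ' (p.1 - p.2) *
          (q ^ (p.1 * p.1) * u ^ (2 * p.1 + 1)) * (q ^ (p.2 * p.2 + p.2) * v ^ (2 * p.2 + 1))) ∧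
    thC q χ (u * v) * thC q χ' (u / v) =
      ∑' p : ℤ × ℤ, χ (p.1 + p.2) * χ' (p.1 - p.2) *
          (q ^ (p.1 * p.1 - p.1) * u ^ (2 * p.1)) * (q ^ (p.2 * p.2) * v ^ (2 * p.2)) +
        ∑' p : ℤ × ℤ, χ (p.1 + p.2 + 1) * χ' (p.1 - p.2) *
          (q ^ (p.1 * p.1) * u ^ (2 * p.1 + 1)) * (q ^ (p.2 * p.2 + p.2) * v ^ (2 * p.2 + 1)) := by
  have := h49_nonarch (Ω := Ω)
  have s1 := summable_thC hq0 hq (mul_ne_zero hu hv) hχ
  have s2 := summable_thC hq0 hq (div_ne_zero hu hv) hχ'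
  obtain ⟨-, k2, k3⟩ := tsum_parity (s1.mul_of_nonarchimedean s2)
  refine ⟨k2.congr fun p => h49_term hq0 hu hv _ _ (by ring) (by ring) (by ring), ?_⟩
  rw [thC, thC, tsum_mul_tsum_of_nonarchimedean s1 s2, k3]
  congr 1
  · exact tsum_congr fun p => h49_term hq0 hu hv _ _ (by ring) (by ring) (by ring)
  · exact tsum_congr fun p => h49_term hq0 hu hv _ _ (by ring) (by ring) (by ring)

/-- `tsum_mul_tsum_of_nonarchimedean`, `Summable.mul_of_nonarchimedean`, `tsum_parity`;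
`tri (r+s) + tri (r-s) = r² - r + s²`, `tri (r+s+1) + tri (r-s) = r² + s² + s` -/
theorem thC_mul (hq0 : q ≠ 0) (hq : ‖q‖ < 1) {u v : Ω} (hu : u ≠ 0) (hv : v ≠ 0)
    {χ χ' : ℤ → Ω} (hχ : ∀ n, ‖χ n‖ ≤ 1) (hχ' : ∀ n, ‖χ' n‖ ≤ 1) :
    thC q χ (u * v) * thC q χ' (u / v) =
      ∑' p : ℤ × ℤ, χ (p.1 + p.2) * χ' (p.1 - p.2) *
          (q ^ (p.1 * p.1 - p.1) * u ^ (2 * p.1)) * (q ^ (p.2 * p.2) * v ^ (2 * p.2)) +
        ∑' p : ℤ × ℤ, χ (p.1 + p.2 + 1) * χ' (p.1 - p.2) *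
          (q ^ (p.1 * p.1) * u ^ (2 * p.1 + 1)) * (q ^ (p.2 * p.2 + p.2) * v ^ (2 * p.2 + 1)) :=
  (h49_thC_mul hq0 hq hu hv hχ hχ').2

omit [CharP Ω 2] in
theorem h49_sum2 (hq0 : q ≠ 0) (hq : ‖q‖ < 1) {u v : Ω} (hu : u ≠ 0) (hv : v ≠ 0) :
    ∑' p : ℤ × ℤ, (1 : Ω) * 1 * (q ^ (p.1 * p.1) * u ^ (2 * p.1 + 1)) *
      (q ^ (p.2 * p.2 + p.2) * v ^ (2 * p.2 + 1)) = u * (b0 q u * b1 q v) := by
  have h1 : ∀ n : ℤ, ‖(fun _ : ℤ => (1 : Ω)) n‖ ≤ 1 := fun _ => norm_one.le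
  have := h49_nonarch (Ω := Ω)
  rw [b0, b1, b0C, b1C,
    tsum_mul_tsum_of_nonarchimedean (summable_b0C hq0 hq hu h1) (summable_b1C hq0 hq hv h1),
    ← tsum_mul_left]
  refine tsum_congr fun p => ?_
  rw [zpow_add_one₀ hu]
  ring

omit [CharP Ω 2] in
theorem h49_sum1 (hq0 : q ≠ 0) (hq : ‖q‖ < 1) {u v : Ω} (hu : u ≠ 0) (hv : v ≠ 0) :
    ∑' p : ℤ × ℤ, (1 : Ω) * 1 * (q ^ (p.1 * p.1 - p.1) * u ^ (2 * p.1)) *
      (q ^ (p.2 * p.2) * v ^ (2 * p.2)) = u * (b1 q u * b0 q v) := by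
  have h1 : ∀ n : ℤ, ‖(fun _ : ℤ => (1 : Ω)) n‖ ≤ 1 := fun _ => norm_one.le
  have := h49_nonarch (Ω := Ω)
  rw [b0, b1, b0C, b1C,
    tsum_mul_tsum_of_nonarchimedean (summable_b1C hq0 hq hu h1) (summable_b0C hq0 hq hv h1),
    ← tsum_mul_left, ← ((Equiv.addRight (1 : ℤ)).prodCongr (Equiv.refl ℤ)).tsum_eq]
  refine tsum_congr fun p => ?_
  simp only [Equiv.prodCongr_apply, Equiv.coe_addRight, Equiv.coe_refl, Prod.map_fst, Prod.map_snd,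
    id_eq]
  rw [show (p.1 + 1) * (p.1 + 1) - (p.1 + 1) = p.1 * p.1 + p.1 by ring,
    show 2 * (p.1 + 1) = 2 * p.1 + 1 + 1 by ring, zpow_add_one₀ hu (2 * p.1 + 1)]
  ring

/-- `thC_mul` with trivial weights; shift `r = n + 1` in the first sum -/
theorem th_mul (hq0 : q ≠ 0) (hq : ‖q‖ < 1) {u v : Ω} (hu : u ≠ 0) (hv : v ≠ 0) :
    th q (u * v) * th q (u / v) = u * (b1 q u * b0 q v + b0 q u * b1 q v) := by
  rw [th, th, thC_mul hq0 hq hu hv (fun _ => norm_one.le) (fun _ => norm_one.le),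
    h49_sum1 hq0 hq hu hv, h49_sum2 hq0 hq hu hv, mul_add]

/-- `thC_mul` twice: the total weight `n + m` is `0` on the first sum and `1` on the second -/
theorem thD_mul (hq0 : q ≠ 0) (hq : ‖q‖ < 1) {u v : Ω} (hu : u ≠ 0) (hv : v ≠ 0) :
    thD q (u * v) * th q (u / v) + th q (u * v) * thD q (u / v) = u * (b0 q u * b1 q v) := by
  have h1 : ∀ n : ℤ, ‖(fun _ : ℤ => (1 : Ω)) n‖ ≤ 1 := fun _ => norm_one.le
  have h2 : ∀ n : ℤ, ‖(fun n : ℤ => (n : Ω)) n‖ ≤ 1 := fun n =>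
    IsUltrametricDist.norm_intCast_le_one Ω n
  obtain ⟨a1, a2⟩ := h49_thC_mul hq0 hq hu hv h2 h1
  obtain ⟨b1', b2⟩ := h49_thC_mul hq0 hq hu hv h1 h2
  have h0 : (2 : Ω) = 0 := CharTwo.two_eq_zero
  rw [th, th, thD, thD, a2, b2, add_add_add_comm, ← a1.tsum_add b1', ← h49_sum2 hq0 hq hu hv]
  have e : ∑' p : ℤ × ℤ, ((p.1 + p.2 : ℤ) : Ω) * 1 * (q ^ (p.1 * p.1 - p.1) * u ^ (2 * p.1)) *
      (q ^ (p.2 * p.2) * v ^ (2 * p.2)) = ∑' p : ℤ × ℤ, 1 * ((p.1 - p.2 : ℤ) : Ω) *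
        (q ^ (p.1 * p.1 - p.1) * u ^ (2 * p.1)) * (q ^ (p.2 * p.2) * v ^ (2 * p.2)) := by
    refine tsum_congr fun p => ?_
    push_cast
    rw [CharTwo.sub_eq_add (p.1 : Ω), mul_one, one_mul]
  rw [e, CharTwo.add_self_eq_zero, zero_add]
  refine tsum_congr fun p => ?_
  push_cast
  linear_combination ((p.1 : Ω) * (q ^ (p.1 * p.1) * u ^ (2 * p.1 + 1)) *
    (q ^ (p.2 * p.2 + p.2) * v ^ (2 * p.2 + 1))) * h0

/-- pair `n` with `-n` -/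
theorem b0_one (hq0 : q ≠ 0) (hq : ‖q‖ < 1) : b0 q 1 = 1 := by
  have h := (summable_b0C hq0 hq (one_ne_zero (α := Ω)) (χ := fun _ => 1)
    (fun _ => norm_one.le)).hasSum.nat_add_neg
  have h0 : (fun n : ℕ => (1 : Ω) * q ^ ((n : ℤ) * n) * 1 ^ (2 * (n : ℤ)) +
      1 * q ^ (-(n : ℤ) * -n) * 1 ^ (2 * -(n : ℤ))) = fun _ => 0 := by
    funext n
    rw [neg_mul_neg, one_zpow, one_zpow, CharTwo.add_self_eq_zero]
  rw [h0] at h
  have h1 := h.unique hasSum_zero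
  rw [CharTwo.add_eq_zero] at h1
  refine h1.trans ?_
  simp

/-- pair `n` with `-1 - n` -/
theorem b1_one (hq0 : q ≠ 0) (hq : ‖q‖ < 1) : b1 q 1 = 0 := by
  have h := (summable_b1C hq0 hq (one_ne_zero (α := Ω)) (χ := fun _ => 1)
    (fun _ => norm_one.le)).hasSum.nat_add_neg_add_one
  have h0 : (fun n : ℕ => (1 : Ω) * q ^ ((n : ℤ) * n + n) * 1 ^ (2 * (n : ℤ) + 1) +
      1 * q ^ (-((n : ℤ) + 1) * -((n : ℤ) + 1) + -((n : ℤ) + 1)) *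
        1 ^ (2 * -((n : ℤ) + 1) + 1)) = fun _ => 0 := by
    funext n
    rw [show -((n : ℤ) + 1) * -((n : ℤ) + 1) + -((n : ℤ) + 1) = n * n + n by ring, one_zpow,
      one_zpow, CharTwo.add_self_eq_zero]
  rw [h0] at h
  exact h.unique hasSum_zero

theorem th_sq (hq0 : q ≠ 0) (hq : ‖q‖ < 1) {u : Ω} (hu : u ≠ 0) : th q u ^ 2 = u * b1 q u := by
  have := th_mul hq0 hq hu one_ne_zero
  rw [mul_one, div_one, b0_one hq0 hq, b1_one hq0 hq] at this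
  rw [sq, this]
  ring

/-- `thC_mul` with `v = 1`, weights `n` and `1 + m`: weight `0` on the first sum and
`(r + 1) + s` on the second; `b1_one` -/
theorem thD_mul_self (hq0 : q ≠ 0) (hq : ‖q‖ < 1) {u : Ω} (hu : u ≠ 0) :
    thD q u * (th q u + thD q u) = kap q * (u * b0 q u) := by
  haveI : NonarchimedeanRing Ω := ⟨NonarchimedeanAddGroup.is_nonarchimedean⟩
  have hn : ∀ n : ℤ, ‖(n : Ω)‖ ≤ 1 := IsUltrametricDist.norm_intCast_le_one Ω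
  have h1 : ∀ _ : ℤ, ‖(1 : Ω)‖ ≤ 1 := fun _ => norm_one.le
  have h2 : (2 : Ω) = 0 := CharTwo.two_eq_zero
  have e1 : th q u + thD q u = thC q (fun m => ((1 + m : ℤ) : Ω)) u := by
    rw [th, thD, thC, thC, thC,
      ← (summable_thC hq0 hq hu h1).tsum_add (summable_thC hq0 hq hu hn)]
    refine tsum_congr fun n => ?_
    push_cast
    ring
  have key := thC_mul hq0 hq hu one_ne_zero hn fun m => hn (1 + m)
  rw [mul_one, div_one] at key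
  have hA : ∀ {χ : ℤ → Ω}, (∀ n, ‖χ n‖ ≤ 1) →
      HasSum (fun n : ℤ => χ n * q ^ (n * n) * u ^ (2 * n) * u) (b0C q χ u * u) := fun hχ =>
    (summable_b0C hq0 hq hu hχ).hasSum.mul_right u
  have hB : ∀ {χ : ℤ → Ω}, (∀ n, ‖χ n‖ ≤ 1) →
      HasSum (fun n : ℤ => χ n * q ^ (n * n + n) * 1 ^ (2 * n + 1)) (b1C q χ 1) := fun hχ =>
    (summable_b1C hq0 hq one_ne_zero hχ).hasSum
  have hS := ((hA fun n => hn (n + 1)).mul_of_nonarchimedean (hB h1)).add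
    ((hA h1).mul_of_nonarchimedean (hB hn))
  have e0 : b1C q (fun _ => 1) 1 = 0 := b1_one hq0 hq
  rw [e0, mul_zero, zero_add] at hS
  have hw : ∀ a b : ℤ, ((a + b : ℤ) : Ω) * ((1 + (a - b) : ℤ) : Ω) = 0 := by
    intro a b
    obtain ⟨k, hk⟩ := Int.even_mul_succ_self (a + b)
    have : (a + b) * (1 + (a - b)) = 2 * (k - (a + b) * b) := by linear_combination hk
    rw [← Int.cast_mul, this, Int.cast_mul, Int.cast_ofNat, h2, zero_mul]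
  have hw' : ∀ a b : ℤ, ((a + b + 1 : ℤ) : Ω) * ((1 + (a - b) : ℤ) : Ω) =
      ((a + 1 : ℤ) : Ω) + (b : Ω) := by
    intro a b
    obtain ⟨k, hk⟩ := Int.even_mul_succ_self (a + b)
    have : (a + b + 1) * (1 + (a - b)) = 2 * (k - (a + b + 1) * b) + ((a + 1) + b) := by
      linear_combination hk
    rw [← Int.cast_mul, this, Int.cast_add, Int.cast_mul, Int.cast_ofNat, h2, zero_mul, zero_add,
      Int.cast_add]
  rw [e1, thD, key]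
  simp only [hw, hw', zero_mul, tsum_zero, zero_add]
  rw [kap, b0, mul_comm u, mul_comm, ← hS.tsum_eq]
  refine tsum_congr fun p => ?_
  rw [zpow_add_one₀ hu]
  ring

end Crest.Agent.R007
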