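import Crest.Agent.R007.GT0

/-! Row 7, block GEO (Tate side): the triple product in characteristic 2. -/

set_option autoImplicit false

noncomputable section
namespace Crest.Agent.R007

variable {Ω : Type} [NormedField Ω] [IsUltrametricDist Ω] [CompleteSpace Ω] [CharP Ω 2] {q : Ω}

omit [IsUltrametricDist Ω] [CompleteSpace Ω] [CharP Ω 2] in
theorem h5_one_add_ne (hq : ‖q‖ < 1) (i : ℕ) : 1 + q ^ (i + 1) ≠ 0 := by
  intro h
  have h1 : q ^ (i + 1) = -1 := by linear_combination h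
  have h2 : ‖q ^ (i + 1)‖ < 1 := by
    rw [norm_pow]; exact pow_lt_one₀ (norm_nonneg _) hq (Nat.succ_ne_zero i)
  rw [h1, norm_neg, norm_one] at h2
  exact lt_irrefl _ h2

theorem h5_tri_succ (k : ℤ) : tri (k + 1) = tri k + k := by
  have h1 := two_mul_tri k
  have h2 := two_mul_tri (k + 1)
  have : 2 * tri (k + 1) = 2 * (tri k + k) := by rw [h2, mul_add, h1]; ring
  omega

theorem h5_tri_nonneg (k : ℤ) : 0 ≤ tri k := by
  have h1 := two_mul_tri k
  have : 0 ≤ k * (k - 1) := by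
    rcases le_or_gt k 0 with h | h
    · exact mul_nonneg_of_nonpos_of_nonpos h (by omega)
    · exact mul_nonneg h.le (by omega)
  omega

theorem alp_rec (hq0 : q ≠ 0) (hq : ‖q‖ < 1) (k : ℤ) :
    alp q k = q ^ k * alp q k + q ^ (k - 1) * alp q (k - 1) := by
  rcases lt_trichotomy k 0 with hk | rfl | hk
  · have : k - 1 < 0 := by omega
    simp [alp, hk, this]
  · simp [alp, tri]
  · obtain ⟨n, rfl⟩ : ∃ n : ℕ, k = (n : ℤ) + 1 := ⟨(k - 1).toNat, by omega⟩
    have h1 : ¬ ((n : ℤ) + 1 < 0) := by omega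
    have h2 : ¬ ((n : ℤ) < 0) := by omega
    have h3 : ((n : ℤ) + 1).toNat = n + 1 := by omega
    have hP : ∏ i ∈ Finset.range n, (1 + q ^ (i + 1)) ≠ 0 :=
      Finset.prod_ne_zero_iff.mpr fun i _ => h5_one_add_ne hq i
    have hn := h5_one_add_ne hq n
    have two : (2 : Ω) = 0 := CharTwo.two_eq_zero
    simp only [alp, add_sub_cancel_right, if_neg h1, if_neg h2, h3, Int.toNat_natCast,
      Finset.prod_range_succ, h5_tri_succ, zpow_add₀ hq0, zpow_natCast, zpow_one]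
    field_simp
    linear_combination (-(q ^ n * q)) * two

/-- termwise `alp_rec`, shift `k ↦ k + 1` -/
theorem eA_rec (hq0 : q ≠ 0) (hq : ‖q‖ < 1) {u : Ω} (hu : u ≠ 0) :
    eA q u = (1 + u) * eA q (q * u) := by
  have hqu : q * u ≠ 0 := mul_ne_zero hq0 hu
  have s1 : Summable fun k : ℤ => alp q k * (q * u) ^ k := by
    simpa using summable_alp hq0 hq hqu (χ := fun _ => 1) (by simp)
  have s2 : HasSum (fun k : ℤ => u * (alp q (k - 1) * (q * u) ^ (k - 1))) (u * eA q (q * u)) :=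
    ((Equiv.subRight (1 : ℤ)).hasSum_iff.mpr s1.hasSum).mul_left u
  have s3 := (s1.hasSum.add s2).tsum_eq
  rw [add_mul, one_mul]
  refine Eq.trans (tsum_congr fun k => ?_) s3
  have e : u ^ k = u * u ^ (k - 1) := by rw [zpow_sub_one₀ hu]; field_simp
  rw [mul_zpow, mul_zpow]
  linear_combination (u ^ k) * alp_rec hq0 hq k + (q ^ (k - 1) * alp q (k - 1)) * e

theorem eAD_rec (hq0 : q ≠ 0) (hq : ‖q‖ < 1) {u : Ω} (hu : u ≠ 0) :
    eAD q u = u * eA q (q * u) + (1 + u) * eAD q (q * u) := by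
  have hqu : q * u ≠ 0 := mul_ne_zero hq0 hu
  have s1 : Summable fun k : ℤ => alp q k * (q * u) ^ k := by
    simpa using summable_alp hq0 hq hqu (χ := fun _ => 1) (by simp)
  have s1' : Summable fun k : ℤ => (k : Ω) * alp q k * (q * u) ^ k :=
    summable_alp hq0 hq hqu (χ := fun k => (k : Ω)) (IsUltrametricDist.norm_intCast_le_one Ω)
  have s2 : HasSum (fun k : ℤ => u * (alp q (k - 1) * (q * u) ^ (k - 1))) (u * eA q (q * u)) :=
    ((Equiv.subRight (1 : ℤ)).hasSum_iff.mpr s1.hasSum).mul_left u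
  have s2' : HasSum (fun k : ℤ => u * (((k - 1 : ℤ) : Ω) * alp q (k - 1) * (q * u) ^ (k - 1)))
      (u * eAD q (q * u)) :=
    ((Equiv.subRight (1 : ℤ)).hasSum_iff.mpr s1'.hasSum).mul_left u
  have s3 := (s2.add (s1'.hasSum.add s2')).tsum_eq
  rw [add_mul, one_mul]
  refine Eq.trans (tsum_congr fun k => ?_) s3
  have e : u ^ k = u * u ^ (k - 1) := by rw [zpow_sub_one₀ hu]; field_simp
  rw [mul_zpow, mul_zpow]
  push_cast
  linear_combination ((k : Ω) * u ^ k) * alp_rec hq0 hq k +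
    ((k : Ω) * q ^ (k - 1) * alp q (k - 1)) * e

/-- ultrametric bound for sums (`IsUltrametricDist.norm_tsum_le_of_forall_le`..): the term
`k = 0` is `1`, the others have norm at most `‖u‖` -/
theorem eA_near (hq0 : q ≠ 0) (hq : ‖q‖ < 1) {u : Ω} (hu : u ≠ 0) (h1 : ‖u‖ ≤ 1) :
    ‖eA q u - 1‖ ≤ ‖u‖ ∧ ‖eAD q u‖ ≤ ‖u‖ := by
  have key : ∀ k : ℤ, k ≠ 0 → ‖alp q k * u ^ k‖ ≤ ‖u‖ := by
    intro k hk
    rcases lt_or_gt_of_ne hk with h | h
    · simp [alp, h]
    · have a1 : ‖alp q k‖ ≤ 1 := by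
        refine (norm_alp hq0 hq k).trans ?_
        rw [norm_zpow]
        exact zpow_le_one₀ (norm_pos_iff.mpr hq0) hq.le (h5_tri_nonneg k)
      have a2 : ‖u ^ k‖ ≤ ‖u‖ := by
        have e : u ^ k = u * u ^ (k - 1) := by rw [zpow_sub_one₀ hu]; field_simp
        rw [e, norm_mul, norm_zpow]
        exact mul_le_of_le_one_right (norm_nonneg _)
          (zpow_le_one₀ (norm_pos_iff.mpr hu) h1 (by omega))
      rw [norm_mul]
      exact (mul_le_of_le_one_left (norm_nonneg _) a1).trans a2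
  constructor
  · have s1 : Summable fun k : ℤ => alp q k * u ^ k := by
      simpa using summable_alp hq0 hq hu (χ := fun _ => 1) (by simp)
    have e0 : alp q 0 * u ^ (0 : ℤ) = 1 := by simp [alp, tri]
    rw [eA, s1.tsum_eq_add_tsum_ite 0, e0, add_sub_cancel_left]
    refine IsUltrametricDist.norm_tsum_le_of_forall_le_of_nonneg (norm_nonneg _) fun k => ?_
    split_ifs with hk
    · simp
    · exact key k hk
  · refine IsUltrametricDist.norm_tsum_le_of_forall_le_of_nonneg (norm_nonneg _) fun k => ?_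
    by_cases hk : k = 0
    · simp [hk]
    · rw [mul_assoc, norm_mul]
      exact (mul_le_of_le_one_left (norm_nonneg _)
        (IsUltrametricDist.norm_intCast_le_one Ω k)).trans (key k hk)

/-- iterate `eA_rec`, `eAD_rec`: `A(u) = ∏_{n<N} (1 + q^n u) A(q^N u)`, and
`A'/A (u) = ∑_{n<N} g(q^n u) + A'/A (q^N u)`; `eA_near` -/
theorem eA_log (hq0 : q ≠ 0) (hq : ‖q‖ < 1) {u : Ω} (hu : u ≠ 0) (h : ∀ n : ℕ, q ^ n * u ≠ 1) :
    eA q u ≠ 0 ∧ HasSum (fun n : ℕ => gT (q ^ n * u)) (eAD q u / eA q u) := by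
  have hne : ∀ n : ℕ, q ^ n * u ≠ 0 := fun n => mul_ne_zero (pow_ne_zero _ hq0) hu
  have h1 : ∀ n : ℕ, 1 + q ^ n * u ≠ 0 := fun n hn => h n (by
    have h2 : (1 : Ω) + 1 = 0 := CharTwo.add_self_eq_zero 1
    linear_combination hn - h2)
  have hs : ∀ n : ℕ, q * (q ^ n * u) = q ^ (n + 1) * u := fun n => by ring
  have hlim : Filter.Tendsto (fun n : ℕ => q ^ n * u) Filter.atTop (nhds 0) := by
    simpa using (tendsto_pow_atTop_nhds_zero_of_norm_lt_one hq).mul_const u
  have hlim' : Filter.Tendsto (fun n : ℕ => ‖q ^ n * u‖) Filter.atTop (nhds 0) :=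
    tendsto_zero_iff_norm_tendsto_zero.1 hlim
  have hev : ∀ᶠ n : ℕ in Filter.atTop, ‖q ^ n * u‖ < 1 := hlim'.eventually (gt_mem_nhds one_pos)
  have hA : Filter.Tendsto (fun n : ℕ => eA q (q ^ n * u)) Filter.atTop (nhds 1) := by
    rw [tendsto_iff_norm_sub_tendsto_zero]
    refine squeeze_zero' (Filter.Eventually.of_forall fun _ => norm_nonneg _) ?_ hlim'
    filter_upwards [hev] with n hn using (eA_near hq0 hq (hne n) hn.le).1
  have hD : Filter.Tendsto (fun n : ℕ => eAD q (q ^ n * u)) Filter.atTop (nhds 0) := by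
    rw [tendsto_zero_iff_norm_tendsto_zero]
    refine squeeze_zero' (Filter.Eventually.of_forall fun _ => norm_nonneg _) ?_ hlim'
    filter_upwards [hev] with n hn using (eA_near hq0 hq (hne n) hn.le).2
  have hiff : ∀ n : ℕ, eA q u = 0 → eA q (q ^ n * u) = 0 := by
    intro n h0
    induction n with
    | zero => simpa using h0
    | succ n ih =>
      rw [eA_rec hq0 hq (hne n), hs] at ih
      exact (mul_eq_zero.1 ih).resolve_left (h1 n)
  have h0 : eA q u ≠ 0 := fun h0 => by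
    simp only [hiff _ h0] at hA
    exact zero_ne_one (tendsto_nhds_unique tendsto_const_nhds hA)
  have hn0 : ∀ n : ℕ, eA q (q ^ n * u) ≠ 0 := by
    intro n
    induction n with
    | zero => simpa using h0
    | succ n ih =>
      rw [eA_rec hq0 hq (hne n), hs] at ih
      exact right_ne_zero_of_mul ih
  have hpart : ∀ N : ℕ, ∑ n ∈ Finset.range N, gT (q ^ n * u) =
      eAD q u / eA q u - eAD q (q ^ N * u) / eA q (q ^ N * u) := by
    intro N
    induction N with
    | zero => simp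
    | succ n ih =>
      rw [Finset.sum_range_succ, ih, eAD_rec hq0 hq (hne n), eA_rec hq0 hq (hne n), hs, gT]
      have h2 := h1 n
      have h3 := hn0 (n + 1)
      generalize eA q (q ^ (n + 1) * u) = a at h3 ⊢
      generalize eAD q (q ^ (n + 1) * u) = d
      generalize eAD q u / eA q u = c
      generalize q ^ n * u = v at h2 ⊢
      field_simp
      ring
  have hsum : Summable fun n : ℕ => gT (q ^ n * u) := by
    refine NonarchimedeanAddGroup.summable_of_tendsto_cofinite_zero ?_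
    rw [Nat.cofinite_eq_atTop]
    have := hlim.div (tendsto_const_nhds.add hlim) (by simp : (1 : Ω) + 0 ≠ 0)
    rw [zero_div] at this
    exact this
  refine ⟨h0, (hsum.hasSum_iff_tendsto_nat).2 ?_⟩
  simp only [hpart]
  have := (tendsto_const_nhds (x := eAD q u / eA q u)).sub (hD.div hA one_ne_zero)
  rw [zero_div, sub_zero] at this
  exact this

/-- `β n = ∑_l α_{l+n} α_l q^l` -/
def bet (q : Ω) (n : ℤ) : Ω := ∑' l : ℤ, alp q (l + n) * alp q l * q ^ l

omit [CharP Ω 2] in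
theorem h19_norm_alp_le (hq0 : q ≠ 0) (hq : ‖q‖ < 1) (k : ℤ) : ‖alp q k‖ ≤ 1 := by
  refine (norm_alp hq0 hq k).trans ?_
  have h0 : 0 ≤ tri k := by
    have h1 := two_mul_tri k
    have h2 : 0 ≤ k * (k - 1) := by
      rcases le_or_gt k 0 with h | h
      · exact mul_nonneg_of_nonpos_of_nonpos h (by omega)
      · exact mul_nonneg (by omega) (by omega)
    omega
  rw [norm_zpow]
  exact zpow_le_one₀ (norm_pos_iff.2 hq0) hq.le h0

omit [IsUltrametricDist Ω] [CompleteSpace Ω] [CharP Ω 2] in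
theorem h19_congr {f g : ℤ → Ω} {a : Ω} (h : HasSum f a) (e : ∀ l, g l = f l) : HasSum g a := by
  rw [funext e]; exact h

omit [CharP Ω 2] in
theorem h19_sum (hq0 : q ≠ 0) (hq : ‖q‖ < 1) (m : ℤ) :
    Summable fun l : ℤ => alp q (l + m) * alp q l * (q * q) ^ l :=
  summable_alp hq0 hq (mul_ne_zero hq0 hq0) fun l => h19_norm_alp_le hq0 hq (l + m)

/-- expand `α_{l+n+1}` on the left and `α_l` on the right by `alp_rec`: both sides are
`∑ α_{l+n+1} α_l q^{2l+n+1} + ∑ α_{l+n} α_l q^{2l+n}` -/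
theorem bet_succ (hq0 : q ≠ 0) (hq : ‖q‖ < 1) (n : ℤ) : bet q (n + 1) = q ^ n * bet q n := by
  have s0 := (h19_sum hq0 hq n).hasSum
  have s1 := (h19_sum hq0 hq (n + 1)).hasSum
  set S0 := ∑' l : ℤ, alp q (l + n) * alp q l * (q * q) ^ l
  set S1 := ∑' l : ℤ, alp q (l + (n + 1)) * alp q l * (q * q) ^ l
  have h1 : HasSum (fun l : ℤ => alp q (l + (n + 1)) * alp q l * q ^ l)
      (q ^ (n + 1) * S1 + q ^ n * S0) := by
    refine h19_congr ((s1.mul_left (q ^ (n + 1))).add (s0.mul_left (q ^ n))) fun l => ?_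
    have e := alp_rec hq0 hq (l + (n + 1))
    rw [show l + (n + 1) - 1 = l + n by ring, zpow_add₀ hq0 l (n + 1), zpow_add₀ hq0 l n] at e
    rw [mul_zpow]
    linear_combination (alp q l * q ^ l) * e
  have s2 : HasSum (fun l : ℤ => alp q (l - 1 + (n + 1)) * alp q (l - 1) * (q * q) ^ (l - 1)) S1 :=
    (Equiv.subRight (1 : ℤ)).hasSum_iff.2 s1
  have h2 : HasSum (fun l : ℤ => alp q (l + n) * alp q l * q ^ l) (S0 + q * S1) := by
    refine h19_congr (s0.add (s2.mul_left q)) fun l => ?_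
    have e := alp_rec hq0 hq l
    have e2 : q ^ l = q ^ (l - 1) * q := by rw [← zpow_add_one₀ hq0, sub_add_cancel]
    rw [show l - 1 + (n + 1) = l + n by ring, mul_zpow, mul_zpow]
    linear_combination (alp q (l + n) * q ^ l) * e +
      (alp q (l + n) * alp q (l - 1) * q ^ (l - 1)) * e2
  unfold bet
  rw [h1.tsum_eq, h2.tsum_eq, zpow_add_one₀ hq0]
  ring

theorem bet_eq (hq0 : q ≠ 0) (hq : ‖q‖ < 1) (n : ℤ) : bet q n = q ^ tri n * bet q 0 := by
  have ht : ∀ k : ℤ, tri (k + 1) = k + tri k := by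
    intro k
    have h1 := two_mul_tri k
    have h2 := two_mul_tri (k + 1)
    have h3 : (k + 1) * (k + 1 - 1) = k * (k - 1) + 2 * k := by ring
    omega
  induction n using Int.induction_on with
  | zero => simp [tri]
  | succ k ih => rw [bet_succ hq0 hq, ih, ht, zpow_add₀ hq0, mul_assoc]
  | pred k ih =>
    have h1 := bet_succ hq0 hq (-(k : ℤ) - 1)
    have h2 := ht (-(k : ℤ) - 1)
    rw [sub_add_cancel] at h1 h2
    rw [h1, h2, zpow_add₀ hq0, mul_assoc] at ih
    exact mul_left_cancel₀ (zpow_ne_zero _ hq0) ih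

theorem h17_prod (hq0 : q ≠ 0) (hq : ‖q‖ < 1) {u : Ω} (hu : u ≠ 0) {χ ψ : ℤ → Ω}
    (hχ : ∀ n, ‖χ n‖ ≤ 1) (hψ : ∀ n, ‖ψ n‖ ≤ 1) :
    HasSum (fun p : ℤ × ℤ => χ (p.2 + p.1) * ψ p.2 *
        (alp q (p.2 + p.1) * alp q p.2 * q ^ p.2 * u ^ p.1))
      ((∑' k : ℤ, χ k * alp q k * u ^ k) * ∑' k : ℤ, ψ k * alp q k * (q / u) ^ k) := by
  haveI : NonarchimedeanRing Ω :=
    { is_nonarchimedean := NonarchimedeanAddGroup.is_nonarchimedean }
  have h1 := (summable_alp hq0 hq hu hχ).hasSum.mul_of_nonarchimedean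
    (summable_alp hq0 hq (div_ne_zero hq0 hu) hψ).hasSum
  let e : ℤ × ℤ ≃ ℤ × ℤ :=
    ⟨fun p => (p.2 + p.1, p.2), fun p => (p.1 - p.2, p.2), fun p => by simp, fun p => by simp⟩
  rw [← e.hasSum_iff] at h1
  convert h1 using 2 with p
  simp only [e, Function.comp, Equiv.coe_fn_mk]
  rw [zpow_add₀ hu, div_zpow]
  have := zpow_ne_zero p.2 hu
  field_simp

/-- product of the two series, reindexed by `(k, l) = (l + n, l)`, summed fibrewise
(`Summable.tsum_prod`), `bet_eq`; the weight `k + l` equals `n` in characteristic 2 -/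
theorem jtp (hq0 : q ≠ 0) (hq : ‖q‖ < 1) {u : Ω} (hu : u ≠ 0) :
    eA q u * eA q (q / u) = bet q 0 * th q u ∧
      eAD q u * eA q (q / u) + eA q u * eAD q (q / u) = bet q 0 * thD q u := by
  have h1 : ∀ n : ℤ, ‖(fun _ : ℤ => (1 : Ω)) n‖ ≤ 1 := fun _ => norm_one.le
  have h2 : ∀ n : ℤ, ‖(fun n : ℤ => (n : Ω)) n‖ ≤ 1 := fun n =>
    IsUltrametricDist.norm_intCast_le_one Ω n
  have fin : ∀ (χ : ℤ → Ω) (a : Ω), HasSum (fun p : ℤ × ℤ =>
      χ p.1 * (alp q (p.2 + p.1) * alp q p.2 * q ^ p.2 * u ^ p.1)) a → a = bet q 0 * thC q χ u := by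
    intro χ a h
    rw [← h.tsum_eq, h.summable.tsum_prod, thC, ← tsum_mul_left]
    refine tsum_congr fun n => ?_
    simp only
    rw [tsum_mul_left, tsum_mul_right, ← bet, bet_eq hq0 hq n]
    ring
  have a11 := h17_prod hq0 hq hu h1 h1
  have a21 := h17_prod hq0 hq hu h2 h1
  have a12 := h17_prod hq0 hq hu h1 h2
  simp only [one_mul, mul_one] at a11 a21 a12
  refine ⟨fin (fun _ => 1) _ ?_, fin (fun n => (n : Ω)) _ ?_⟩
  · simpa only [one_mul, eA] using a11
  · have h3 := a21.add a12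
    simp only [eA, eAD]
    convert h3 using 2 with p
    have h4 : (2 : Ω) = 0 := CharTwo.two_eq_zero
    push_cast
    linear_combination (-(p.2 : Ω) * (alp q (p.2 + p.1) * alp q p.2 * q ^ p.2 * u ^ p.1)) * h4

end Crest.Agent.R007
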