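import Crest.Agent.R007.GT1
import Crest.Agent.R007.GT2

/-! Row 7, block GEO (Tate side): the sum formula for the `x`-coordinate. -/

set_option autoImplicit false

noncomputable section
namespace Crest.Agent.R007

variable {Ω : Type} [NormedField Ω] [IsUltrametricDist Ω] [CompleteSpace Ω] [CharP Ω 2] {q : Ω}

omit [IsUltrametricDist Ω] [CompleteSpace Ω] in
theorem h92_gT (v : Ω) : gT v ^ 2 + gT v = fT v := by
  have h2 : (2 : Ω) = 0 := CharTwo.two_eq_zero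
  by_cases h : 1 + v = 0
  · simp [gT, fT, h]
  · rw [gT, fT]
    field_simp
    linear_combination v ^ 2 * h2

omit [IsUltrametricDist Ω] [CompleteSpace Ω] in
theorem h92_hasSum {w : ℕ → Ω} {x : Ω} (h : HasSum (fun n => gT (w n)) x) :
    ∑' n, fT (w n) = x ^ 2 + x := by
  have h1 : HasSum (fun n => gT (w n) ^ 2) (x ^ 2) :=
    h.map (frobenius Ω 2) (continuous_pow 2)
  simpa only [h92_gT] using (h1.add h).tsum_eq

/-- `eA_log` at `u` and `q / u`, `jtp`; `g² + g = f` termwise (squaring is a continuous additive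
map: `HasSum.map` with `frobenius`) -/
theorem th_log (hq0 : q ≠ 0) (hq : ‖q‖ < 1) {u : Ω} (hu : OffT q u) :
    th q u ≠ 0 ∧ (thD q u / th q u) ^ 2 + thD q u / th q u = xiT q u := by
  have h2 : (2 : Ω) = 0 := CharTwo.two_eq_zero
  have hu0 := hu.1
  obtain ⟨hA, sA⟩ := eA_log hq0 hq hu0 fun n h => hu.2 (-(n : ℤ)) (by
    rw [zpow_neg, zpow_natCast]
    exact eq_inv_of_mul_eq_one_right h)
  have e : ∀ n : ℕ, q ^ n * (q / u) = q ^ (n + 1) / u := fun n => by rw [pow_succ, mul_div_assoc]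
  obtain ⟨hB, sB⟩ := eA_log hq0 hq (div_ne_zero hq0 hu0) fun n h => hu.2 ((n + 1 : ℕ) : ℤ) (by
    rw [e, div_eq_one_iff_eq hu0] at h
    rw [zpow_natCast, h])
  obtain ⟨j1, j2⟩ := jtp hq0 hq hu0
  have hne : bet q 0 * th q u ≠ 0 := j1 ▸ mul_ne_zero hA hB
  refine ⟨right_ne_zero_of_mul hne, ?_⟩
  have e1 : thD q u / th q u = eAD q u / eA q u + eAD q (q / u) / eA q (q / u) := by
    rw [div_add_div _ _ hA hB, j1, j2, mul_div_mul_left _ _ (left_ne_zero_of_mul hne)]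
  simp only [e] at sB
  rw [xiT, h92_hasSum sA, h92_hasSum sB, e1]
  linear_combination eAD q u / eA q u * (eAD q (q / u) / eA q (q / u)) * h2

/-- `ξ = κ B₀ / B₁` (`thD_mul_self`, `th_sq`) -/
theorem xiT_eq (hq0 : q ≠ 0) (hq : ‖q‖ < 1) {u : Ω} (hu : OffT q u) :
    b1 q u ≠ 0 ∧ xiT q u * b1 q u = kap q * b0 q u := by
  obtain ⟨h1, h2⟩ := th_log hq0 hq hu
  have h3 := th_sq hq0 hq hu.1
  have h4 := thD_mul_self hq0 hq hu.1
  refine ⟨right_ne_zero_of_mul (h3 ▸ pow_ne_zero 2 h1), mul_left_cancel₀ hu.1 ?_⟩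
  have h5 : xiT q u * th q u ^ 2 = thD q u * (th q u + thD q u) := by
    rw [← h2]
    field_simp
    ring
  linear_combination h5 + h4 - xiT q u * h3

/-- `m = Λ(uv) + Λ(u/v) = B₀(u) B₁(v) / (B₁(u) B₀(v) + B₀(u) B₁(v))` (`th_mul`, `thD_mul`),
`m² + m = ξ(uv) + ξ(u/v)` -/
theorem xiT_sum (hq0 : q ≠ 0) (hq : ‖q‖ < 1) {u v : Ω} (hu : OffT q u) (hv : OffT q v)
    (h₁ : OffT q (u * v)) (h₂ : OffT q (u / v)) :
    (xiT q (u * v) + xiT q (u / v)) * (xiT q u + xiT q v) ^ 2 = xiT q u * xiT q v := by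
  have h2 : (2 : Ω) = 0 := CharTwo.two_eq_zero
  obtain ⟨a1, a2⟩ := th_log hq0 hq h₁
  obtain ⟨c1, c2⟩ := th_log hq0 hq h₂
  obtain ⟨u1, u2⟩ := xiT_eq hq0 hq hu
  obtain ⟨v1, v2⟩ := xiT_eq hq0 hq hv
  have m1 := th_mul hq0 hq hu.1 hv.1
  have m2 := thD_mul hq0 hq hu.1 hv.1
  obtain ⟨m, hm⟩ : ∃ m, m = thD q (u * v) / th q (u * v) + thD q (u / v) / th q (u / v) := ⟨_, rfl⟩
  have e1 : xiT q (u * v) + xiT q (u / v) = m ^ 2 + m := by
    rw [← a2, ← c2, hm]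
    linear_combination (-(thD q (u * v) / th q (u * v) * (thD q (u / v) / th q (u / v)))) * h2
  have e2 : m * (b1 q u * b0 q v + b0 q u * b1 q v) = b0 q u * b1 q v := by
    refine mul_left_cancel₀ hu.1 ?_
    rw [← m2, mul_left_comm, ← m1, hm, div_add_div _ _ a1 c1, div_mul_cancel₀ _ (mul_ne_zero a1 c1)]
  have e3 : (xiT q u + xiT q v) * (b1 q u * b1 q v) = kap q * (b1 q u * b0 q v + b0 q u * b1 q v) := by
    linear_combination b1 q v * u2 + b1 q u * v2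
  have e4 : xiT q u * xiT q v * (b1 q u * b1 q v) = kap q ^ 2 * (b0 q u * b0 q v) := by
    linear_combination xiT q v * b1 q v * u2 + kap q * b0 q u * v2
  rw [e1]
  refine mul_right_cancel₀ (pow_ne_zero 2 (mul_ne_zero u1 v1)) ?_
  rw [mul_assoc, ← mul_pow, e3]
  linear_combination kap q ^ 2 * ((m + 1) * (b1 q u * b0 q v + b0 q u * b1 q v) + b0 q u * b1 q v) * e2 -
    b1 q u * b1 q v * e4 + kap q ^ 2 * (b0 q u * b1 q v) ^ 2 * h2

theorem summable_fT (hq : ‖q‖ < 1) (u : Ω) : Summable fun n : ℕ => fT (q ^ n * u) := by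
  refine NonarchimedeanAddGroup.summable_of_tendsto_cofinite_zero ?_
  rw [Nat.cofinite_eq_atTop]
  have h1 : Filter.Tendsto (fun n : ℕ => q ^ n * u) Filter.atTop (nhds 0) := by
    simpa using (tendsto_pow_atTop_nhds_zero_of_norm_lt_one hq).mul_const u
  have h2 := h1.div ((h1.const_add 1).pow 2) (by simp)
  simpa [fT, Pi.div_def] using h2

/-- shift both sums; `f(1/u) = f(u)` -/
theorem xiT_mul (hq0 : q ≠ 0) (hq : ‖q‖ < 1) {u : Ω} (hu : u ≠ 0) : xiT q (q * u) = xiT q u := by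
  have hf : fT u⁻¹ = fT u := by
    have e : 1 + u⁻¹ = (1 + u) / u := by field_simp; ring
    rw [fT, fT, e, div_pow, div_div_eq_mul_div]
    congr 1
    field_simp
  have s1 := (summable_fT hq u).tsum_eq_zero_add
  have s2 := (summable_fT hq u⁻¹).tsum_eq_zero_add
  have e1 : ∀ n : ℕ, q ^ n * (q * u) = q ^ (n + 1) * u := fun n => by ring
  have e2 : ∀ n : ℕ, q ^ (n + 1) / (q * u) = q ^ n * u⁻¹ := fun n => by field_simp; ring
  simp only [pow_zero, one_mul] at s1 s2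
  simp only [xiT, e1, e2]
  rw [s1, s2, hf]
  simp only [div_eq_mul_inv]
  ring

theorem xiT_zpow (hq0 : q ≠ 0) (hq : ‖q‖ < 1) {u : Ω} (hu : u ≠ 0) (n : ℤ) :
    xiT q (q ^ n * u) = xiT q u := by
  induction n using Int.induction_on with
  | zero => simp
  | succ n ih =>
    rw [← ih, ← xiT_mul hq0 hq (mul_ne_zero (zpow_ne_zero (n : ℤ) hq0) hu), zpow_add_one₀ hq0]
    congr 1
    ring
  | pred n ih =>
    rw [← ih, ← xiT_mul hq0 hq (mul_ne_zero (zpow_ne_zero _ hq0) hu), zpow_sub_one₀ hq0]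
    congr 1
    field_simp

/-- `v / (1 + v)² = ∑ d v^d` -/
theorem hasSum_fT {v : Ω} (hv : ‖v‖ < 1) : HasSum (fun d : ℕ => (d : Ω) * v ^ d) (fT v) := by
  have h := hasSum_coe_mul_geometric_of_norm_lt_one hv
  rwa [CharTwo.sub_eq_add] at h

end Crest.Agent.R007
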