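import Crest.Agent.R007.BGrp
import Crest.Agent.R007.BPsi

/-! # Row 7, GEO team B: assembly (G9). -/

set_option autoImplicit false

noncomputable section
namespace Crest.Agent.R007

open PowerSeries Crest.LubinTate Crest.Agent.R227

theorem helper87_pole_map {R S : Type} [CommRing R] [Algebra FF R] [CommRing S] [Algebra FF S]
    (f : R →ₐ[FF] S) {ρ x : R} {k : ℕ} (h : PoleEq ρ k x) : PoleEq (f ρ) k (f x) := by
  obtain ⟨n, p, hn, hp, he⟩ := h
  refine ⟨n, p, hn, hp, ?_⟩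
  have := congrArg f he
  simpa only [map_add, map_pow, map_sum, map_mul, map_zero, ← Polynomial.aeval_algHom_apply]
    using this

theorem helper87_pole_inj {R S : Type} [CommRing R] [Algebra FF R] [CommRing S] [Algebra FF S]
    (f : R →ₐ[FF] S) (hf : Function.Injective f) {ρ x : R} {k : ℕ} (h : PoleEq (f ρ) k (f x)) :
    PoleEq ρ k x := by
  obtain ⟨n, p, hn, hp, he⟩ := h
  refine ⟨n, p, hn, hp, hf ?_⟩
  simpa only [map_add, map_pow, map_sum, map_mul, map_zero, ← Polynomial.aeval_algHom_apply]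
    using he

/-- `sF` as an algebra map -/
def helper87_sA (M l A B : ℕ) [NeZero A] : FF⟦X⟧ →ₐ[FF] FF⟦X⟧ :=
  { sF M l A B with
    commutes' := fun c => by
      have h1 : PowerSeries.rescale (zz (M * l) ^ (A * B)) (algebraMap FF FF⟦X⟧ c) =
          algebraMap FF FF⟦X⟧ c := by
        ext n
        rw [PowerSeries.coeff_rescale, PowerSeries.algebraMap_apply, PowerSeries.coeff_C]
        split_ifs with h
        · rw [h, pow_zero, one_mul]
        · rw [mul_zero]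
      change PowerSeries.expand (R := FF) (A ^ 2) (NeZero.ne _)
        (PowerSeries.rescale (zz (M * l) ^ (A * B)) (algebraMap FF FF⟦X⟧ c)) = _
      rw [h1, AlgHom.commutes] }

/-- `sF` between the algebras of good functions -/
def helper87_sG (M l A B D : ℕ) [NeZero M] [NeZero l] [NeZero A] (ho : Odd M) (h3 : 3 ∣ M)
    (hl : Odd l) (hAD : A * D = l) : goodAlg (eF M) →ₐ[FF] goodAlg (eF (M * l)) :=
  ((helper87_sA M l A B).comp (goodAlg (eF M)).val).codRestrict _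
    fun f => sF_good M l A B D ho h3 hl hAD f.2

theorem helper87_sG_coe (M l A B D : ℕ) [NeZero M] [NeZero l] [NeZero A] (ho : Odd M) (h3 : 3 ∣ M)
    (hl : Odd l) (hAD : A * D = l) (f : goodAlg (eF M)) :
    (helper87_sG M l A B D ho h3 hl hAD f : FF⟦X⟧) = sF M l A B f := rfl

theorem helper87_key {G : Type} [Group G] (σ : G →* (Om ≃ₐ[FF] Om))
    (hσ : ∀ (c' : Om) (ψ : Om⟦X⟧), IsFGHom (Fab 1 c') (Fab 1 (aO⁻¹ ^ 3)) ψ → coeff 1 ψ = 1 →
      (∀ n, ∃ f : FF⟦X⟧, algebraMap FF⟦X⟧ Om f = aO ^ n * coeff (n + 1) ψ) →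
      ∃ g : G, σ g (aO⁻¹ ^ 3) = c')
    (M l A B D : ℕ) [NeZero M] [NeZero l] [NeZero A] (ho : Odd M) (h3 : 3 ∣ M)
    (hl : Odd l) (hAD : A * D = l) (η : EmbB (M * l)) :
    ∃ (g : G) (ηb : EmbB M), ∀ f : goodAlg (eF M),
      η.1 (helper87_sG M l A B D ho h3 hl hAD f) = σ g (ηb.1 f) := by
  have ho' : Odd (M * l) := ho.mul hl
  have h3' : 3 ∣ M * l := h3.mul_right l
  set c : goodAlg (eF (M * l)) :=
    ⟨Xser (eF (M * l)) (P3 (M * l)), Xser_good (M * l) ho' (P3_ne_zero h3')⟩ with hc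
  set c₀ : goodAlg (eF M) := ⟨Xser (eF M) (P3 M), Xser_good M ho (P3_ne_zero h3)⟩ with hc₀
  set S := helper87_sG M l A B D ho h3 hl hAD with hS
  obtain ⟨ψ, hψ, hψ1, hψp⟩ := exists_psi M l A B D ho h3 hl hAD c (S c₀) rfl rfl
  have hηc : η.1 c = aO⁻¹ ^ 3 := η.2 c rfl
  set ρ : goodAlg (eF (M * l)) := ⟨lev FF (M * l) rho, rho_good (M * l)⟩ with hρ
  have hρc : ρ = c ^ 4 + c ^ 3 :=
    Subtype.ext (rho_FF (M * l) ho' (P3_ne_zero h3') (three_smul_P3 h3'))
  have hhom := hom_map hψ (η.1 : goodAlg (eF (M * l)) →+* Om)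
  rw [Fab_map, Fab_map, map_one] at hhom
  have e1 : (η.1 : goodAlg (eF (M * l)) →+* Om) c = aO⁻¹ ^ 3 := hηc
  rw [e1] at hhom
  obtain ⟨g, hg⟩ := hσ _ _ hhom (by rw [PowerSeries.coeff_map, hψ1, map_one]) (fun n => by
    have h1 : PoleEq ρ n (coeff (n + 1) ψ) :=
      helper87_pole_inj (goodAlg (eF (M * l))).val Subtype.val_injective (hψp n)
    have h2 := helper87_pole_map η.1 h1
    rw [hρc, map_add, map_pow, map_pow, hηc] at h2
    rw [PowerSeries.coeff_map]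
    exact pole_bound n h2)
  refine ⟨g, ⟨((σ g).symm : Om →ₐ[FF] Om).comp (η.1.comp S), fun f hf => ?_⟩, fun f => ?_⟩
  · have : f = c₀ := Subtype.ext hf
    rw [this]
    change (σ g).symm (η.1 (S c₀)) = _
    rw [AlgEquiv.symm_apply_eq]
    exact hg.symm
  · change _ = σ g ((σ g).symm (η.1 (S f)))
    rw [AlgEquiv.apply_symm_apply]

theorem helper87_sum_range {W : Type} [AddCommMonoid W] (n : ℕ) (f : ℕ → W) :
    ((List.range n).map f).sum = ∑ j ∈ Finset.range n, f j := by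
  induction n with
  | zero => simp
  | succ n ih => rw [List.range_succ, List.map_append, List.sum_append, ih, Finset.sum_range_succ]; simp

theorem geo_main_B (M : ℕ) [NeZero M] (ho : Odd M) (h3 : 3 ∣ M) :
    ∃ (E : Type) (_ : Ring E) (G : Type) (_ : Group G) (φ : G →* Eˣ) (W : Type)
      (_ : AddCommGroup W) (_ : DistribMulAction G W) (ι : Type) (_ : Finite ι) (ev : ι → (goodAlg (eF M) →+ W)),
      GData E G φ W ∧ (∀ g, (∀ i, ev i g = 0) → g = 0) ∧
      ∀ l : ℕ, l.Prime → l ≠ 2 → ∀ i : ι, ∃ l₁ l₂ : List (G × ι),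
        ∀ (f₁ f₂ : FF⟦X⟧) (g₁ g₂ g₃ : goodAlg (eF M)),
          (g₁ : FF⟦X⟧) = PowerSeries.expand M (NeZero.ne M) f₁ →
          (g₂ : FF⟦X⟧) = PowerSeries.expand M (NeZero.ne M) f₂ →
          (g₃ : FF⟦X⟧) = PowerSeries.expand M (NeZero.ne M) (Uop l f₁ + Vop l f₂) →
          ev i g₃ = (l₁.map fun p => p.1 • ev p.2 g₁).sum + (l₂.map fun p => p.1 • ev p.2 g₂).sum := by
  obtain ⟨E, iE, G, iG, φ, σ, iA, hG, hact, hσ⟩ := exists_group
  refine ⟨E, iE, G, iG, φ, WB, inferInstance, iA, EmbB M, emb_finite M ho h3,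
    fun η => (QuotientAddGroup.mk' NW).comp (η.1 : goodAlg (eF M) →+ Om), hG, fun g hg => ?_,
    fun l hl hl2 η => ?_⟩
  · refine emb_inj M ho h3 g fun η => ?_
    exact (QuotientAddGroup.eq_zero_iff _).1 (hg η)
  · haveI : NeZero l := ⟨hl.ne_zero⟩
    have hlo : Odd l := hl.odd_of_ne_two hl2
    obtain ⟨η', hη'⟩ := emb_ext M l ho h3 hlo η
    choose gs ηs hs using fun j : ℕ => helper87_key σ hσ M l 1 j l ho h3 hlo (one_mul l) η'
    obtain ⟨g₀, η₀, h₀⟩ := helper87_key σ hσ M l l 0 1 ho h3 hlo (mul_one l) η'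
    refine ⟨(List.range l).map fun j => (gs j, ηs j), [(g₀, η₀)], ?_⟩
    intro f₁ f₂ g₁ g₂ g₃ h₁ h₂ h₃
    have hsum : (⟨PowerSeries.expand l (NeZero.ne l) (g₃ : FF⟦X⟧), expand_good M l ho hlo g₃.2⟩ :
        goodAlg (eF (M * l))) =
        ∑ j ∈ Finset.range l, helper87_sG M l 1 j l ho h3 hlo (one_mul l) g₁ +
          helper87_sG M l l 0 1 ho h3 hlo (mul_one l) g₂ := by
      apply Subtype.ext
      rw [Subalgebra.coe_add, AddSubmonoidClass.coe_finsetSum]
      simp only [helper87_sG_coe]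
      rw [h₁, h₂, h₃, sum_sF M l ho hlo, sF_V, map_add, map_add]
    have h4 := hη' g₃ _ (congrArg Subtype.val hsum).symm
    rw [map_add, map_sum, h₀, Finset.sum_congr rfl fun j _ => hs j g₁] at h4
    rw [List.map_map, helper87_sum_range, List.map_singleton, List.sum_singleton]
    change (QuotientAddGroup.mk (η.1 g₃) : WB) =
      ∑ j ∈ Finset.range l, gs j • (QuotientAddGroup.mk ((ηs j).1 g₁) : WB) +
        g₀ • (QuotientAddGroup.mk (η₀.1 g₂) : WB)
    simp only [hact]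
    rw [← h4, QuotientAddGroup.mk_add, QuotientAddGroup.mk_sum]

end Crest.Agent.R007
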