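import Crest.Agent.R007.HAlg

/-! # Row 7, block H: Hecke operators. -/

set_option autoImplicit false

noncomputable section
namespace Crest.Agent.R007

open PowerSeries UpperHalfPlane
open scoped ModularForm MatrixGroups TensorProduct

open Crest.NumberTheoryR.HeckeTwoAdic

theorem exists_hecke (N : ℕ) (hN : Odd N) :
    ∃ (T D : ℕ → (i : ℕ) → (MF N i →ₗ[ℂ] MF N i)), IsDiamondFamily N D ∧ IsHeckeFamily N T D ∧
      ∃ Tn Sd : (k : ℕ) → ℕ → stage N T D k, HeckeFacts N T D Tn Sd := by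
  haveI : NeZero N := ⟨hN.pos.ne'⟩
  exact ⟨hecke N, dia N, isDiamondFamily_dia, isHeckeFamily_hecke, TnS N, SdS N, heckeFacts hN⟩

end Crest.Agent.R007
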