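import Crest.Agent.R007.HDep

/-! Row 7, block H: the operators `T_n`, `d S_d` and the Hecke ring. -/

set_option autoImplicit false
set_option linter.dupNamespace false

namespace Crest.Agent.R007

open Crest.NumberTheoryR.HeckeTwoAdic CongruenceSubgroup UpperHalfPlane Matrix
open scoped ModularForm MatrixGroups Manifold Real

variable {N : ℕ} [NeZero N]

variable (N) in
/-- `d S_d` on weight `i + 1` -/
noncomputable def SW (i d : ℕ) : Module.End ℂ (MF N (i + 1)) := ((d : ℂ) ^ i) • dia N d (i + 1)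

variable (N) in
/-- `T_n` on weight `i + 1` -/
noncomputable def TW (i : ℕ) (n : ℕ) : Module.End ℂ (MF N (i + 1)) :=
  if _h : n ≤ 1 then 1 else
    TW i (n / n.minFac) * hecke N n.minFac (i + 1) -
      if n.minFac ∣ n / n.minFac then TW i (n / n.minFac / n.minFac) * SW N i n.minFac else 0
termination_by n
decreasing_by
  · exact Nat.div_lt_self (by omega) (Nat.minFac_prime (by omega)).one_lt
  · exact (Nat.div_le_self _ _).trans_lt
      (Nat.div_lt_self (by omega) (Nat.minFac_prime (by omega)).one_lt)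

theorem TW_one (i : ℕ) : TW N i 1 = 1 := by rw [TW, dif_pos le_rfl]

theorem TW_of_lt (i : ℕ) {n : ℕ} (h : ¬ n ≤ 1) : TW N i n =
    TW N i (n / n.minFac) * hecke N n.minFac (i + 1) -
      if n.minFac ∣ n / n.minFac then TW N i (n / n.minFac / n.minFac) * SW N i n.minFac
        else 0 := by
  rw [TW, dif_neg h]

theorem TW_prime (i : ℕ) {ℓ : ℕ} (hℓ : ℓ.Prime) : TW N i ℓ = hecke N ℓ (i + 1) := by
  rw [TW_of_lt i (not_le.2 hℓ.one_lt), hℓ.minFac_eq, Nat.div_self hℓ.pos, TW_one, one_mul,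
    if_neg hℓ.not_dvd_one, sub_zero]

omit [NeZero N] in
theorem aCo_add {i : ℕ} (n : ℕ) (f g : MF N i) : aCo n (f + g) = aCo n f + aCo n g := by
  simp only [aCo_eq, map_add]

omit [NeZero N] in
theorem aCo_sub {i : ℕ} (n : ℕ) (f g : MF N i) : aCo n (f - g) = aCo n f - aCo n g := by
  simp only [aCo_eq, map_sub]

omit [NeZero N] in
theorem aCo_smul {i : ℕ} (n : ℕ) (c : ℂ) (f : MF N i) : aCo n (c • f) = c * aCo n f := by
  simp only [aCo_eq, map_smul, smul_eq_mul]

omit [NeZero N] in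
theorem aCo_zero {i : ℕ} (n : ℕ) : aCo n (0 : MF N i) = 0 := by
  simp only [aCo_eq, map_zero]

theorem aCo_hecke {ℓ : ℕ} (hℓ : ℓ.Prime) (h : ¬ ℓ ∣ 2 * N) {i : ℕ} (f : MF N (i + 1)) (n : ℕ) :
    aCo n (hecke N ℓ (i + 1) f) =
      aCo (ℓ * n) f + if ℓ ∣ n then aCo (n / ℓ) (SW N i ℓ f) else 0 := by
  rw [aCo_eq, coeff_hecke hℓ (isUnit_of_not_dvd hℓ h), SW, LinearMap.smul_apply, aCo_smul,
    show (((i + 1 : ℕ) : ℤ) - 1) = (i : ℕ) by push_cast; ring, zpow_natCast]
  rfl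

omit [NeZero N] in
theorem Smooth.coprime {n₀ ℓ : ℕ} (hs : Smooth N n₀) (hℓ : ℓ.Prime) (h : ¬ ℓ ∣ 2 * N) :
    ℓ.Coprime n₀ :=
  (Nat.Prime.coprime_iff_not_dvd hℓ).2 fun h' => h (hs.2 ℓ hℓ h')

theorem aCo_TW_step {i m ℓ n₀ : ℕ} (hℓ : ℓ.Prime) (h : ¬ ℓ ∣ 2 * N) (hs : Smooth N n₀)
    (h1 : ∀ f, aCo n₀ (TW N i m f) = aCo (n₀ * m) f)
    (h2 : ℓ ∣ m → ∀ f, aCo n₀ (TW N i (m / ℓ) f) = aCo (n₀ * (m / ℓ)) f) (f : MF N (i + 1)) :
    aCo n₀ ((TW N i m * hecke N ℓ (i + 1)) f) = aCo (n₀ * (m * ℓ)) f +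
      aCo n₀ ((if ℓ ∣ m then TW N i (m / ℓ) * SW N i ℓ else 0) f) := by
  rw [Module.End.mul_apply, h1, aCo_hecke hℓ h, show ℓ * (n₀ * m) = n₀ * (m * ℓ) by ring]
  congr 1
  simp only [(hs.coprime hℓ h).dvd_mul_left]
  split_ifs with hd
  · rw [Module.End.mul_apply, h2 hd, Nat.mul_div_assoc _ hd]
  · rw [LinearMap.zero_apply, aCo_zero]

omit [NeZero N] in
theorem cop_ne_zero {n : ℕ} (hn : n.Coprime (2 * N)) : n ≠ 0 := by
  rintro rfl
  rw [Nat.coprime_zero_left] at hn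
  omega

omit [NeZero N] in
theorem not_dvd_of_cop {n ℓ : ℕ} (hn : n.Coprime (2 * N)) (hℓ : ℓ.Prime) (h : ℓ ∣ n) :
    ¬ ℓ ∣ 2 * N :=
  (Nat.Prime.coprime_iff_not_dvd hℓ).1 (hn.coprime_dvd_left h)

theorem aCo_TW (i : ℕ) {n₀ : ℕ} (hs : Smooth N n₀) (n : ℕ) (hn : n.Coprime (2 * N))
    (f : MF N (i + 1)) : aCo n₀ (TW N i n f) = aCo (n₀ * n) f := by
  induction n using Nat.strong_induction_on generalizing f with
  | _ n ih =>
    by_cases h1 : n ≤ 1
    · obtain rfl : n = 1 := by have := cop_ne_zero hn; omega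
      rw [TW_one, mul_one]; rfl
    · have hp := Nat.minFac_prime (n := n) (by omega)
      have hd := Nat.minFac_dvd n
      have hlt : n / n.minFac < n := Nat.div_lt_self (by omega) hp.one_lt
      have hc := hn.coprime_dvd_left (Nat.div_dvd_of_dvd hd)
      rw [TW_of_lt i h1, LinearMap.sub_apply, aCo_sub,
        aCo_TW_step hp (not_dvd_of_cop hn hp hd) hs (ih _ hlt hc) (fun hd' =>
          ih _ ((Nat.div_le_self _ _).trans_lt hlt) (hc.coprime_dvd_left (Nat.div_dvd_of_dvd hd'))),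
        Nat.div_mul_cancel hd, add_sub_cancel_right]

theorem SW_mul (i : ℕ) {d e : ℕ} (hd : d.Coprime (2 * N)) (he : e.Coprime (2 * N)) :
    SW N i (d * e) = SW N i d * SW N i e := by
  have h1 : IsUnit (d : ZMod N) :=
    (ZMod.isUnit_iff_coprime d N).2 (hd.coprime_dvd_right (dvd_mul_left N 2))
  have h2 : IsUnit (e : ZMod N) :=
    (ZMod.isUnit_iff_coprime e N).2 (he.coprime_dvd_right (dvd_mul_left N 2))
  rw [SW, SW, SW, dia, dia, dia, Nat.cast_mul, Nat.cast_mul, diaZ_mul h1 h2, mul_pow,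
    smul_mul_smul_comm]

theorem SW_one (i : ℕ) : SW N i 1 = 1 := by
  rw [SW, dia, Nat.cast_one, Nat.cast_one, one_pow, one_smul, diaZ_one]

theorem TE_mem (k : ℕ) {ℓ : ℕ} (hℓ : ℓ.Prime) (h : ¬ ℓ ∣ 2 * N) :
    (fun i : Fin k => hecke N ℓ ((i : ℕ) + 1) : EndProd N k) ∈ stage N (hecke N) (dia N) k :=
  Subring.subset_closure ⟨ℓ, hℓ, h, Or.inl rfl⟩

theorem SE_mem (k : ℕ) (d : ℕ) (hd : d.Coprime (2 * N)) :
    (fun i : Fin k => SW N i d : EndProd N k) ∈ stage N (hecke N) (dia N) k := by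
  induction d using Nat.recOnMul with
  | zero => exact absurd rfl (cop_ne_zero hd)
  | one =>
    have : (fun i : Fin k => SW N i 1 : EndProd N k) = 1 := funext fun i => SW_one i
    rw [this]; exact one_mem _
  | prime p hp =>
    exact Subring.subset_closure ⟨p, hp, not_dvd_of_cop hd hp dvd_rfl, Or.inr rfl⟩
  | mul a b iha ihb =>
    have ha := hd.coprime_dvd_left (dvd_mul_right a b)
    have hb := hd.coprime_dvd_left (dvd_mul_left b a)
    have : (fun i : Fin k => SW N i (a * b) : EndProd N k) =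
        (fun i : Fin k => SW N i a : EndProd N k) * (fun i : Fin k => SW N i b : EndProd N k) :=
      funext fun i => SW_mul i ha hb
    rw [this]; exact mul_mem (iha ha) (ihb hb)

theorem TnE_mem (k : ℕ) (n : ℕ) (hn : n.Coprime (2 * N)) :
    (fun i : Fin k => TW N i n : EndProd N k) ∈ stage N (hecke N) (dia N) k := by
  induction n using Nat.strong_induction_on with
  | _ n ih =>
    by_cases h1 : n ≤ 1
    · obtain rfl : n = 1 := by have := cop_ne_zero hn; omega
      have : (fun i : Fin k => TW N i 1 : EndProd N k) = 1 := funext fun i => TW_one i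
      rw [this]; exact one_mem _
    · have hp := Nat.minFac_prime (n := n) (by omega)
      have hd := Nat.minFac_dvd n
      have hlt : n / n.minFac < n := Nat.div_lt_self (by omega) hp.one_lt
      have hc := hn.coprime_dvd_left (Nat.div_dvd_of_dvd hd)
      have m1 := mul_mem (ih _ hlt hc) (TE_mem k hp (not_dvd_of_cop hn hp hd))
      by_cases hd' : n.minFac ∣ n / n.minFac
      · have m2 := mul_mem (ih _ ((Nat.div_le_self _ _).trans_lt hlt)
          (hc.coprime_dvd_left (Nat.div_dvd_of_dvd hd'))) (SE_mem k _ (hn.coprime_dvd_left hd))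
        have := sub_mem m1 m2
        refine (congrArg (· ∈ stage N (hecke N) (dia N) k) (funext fun i => ?_)).mpr this
        rw [TW_of_lt _ h1, if_pos hd']
        rfl
      · refine (congrArg (· ∈ stage N (hecke N) (dia N) k) (funext fun i => ?_)).mpr m1
        rw [TW_of_lt _ h1, if_neg hd', sub_zero]
        rfl

theorem stage_comm (k : ℕ) (a b : stage N (hecke N) (dia N) k) : a * b = b * a := by
  refine (Subring.isMulCommutative_closure (s := heckeGens N (hecke N) (dia N) k)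
    ?_).is_comm.comm a b
  rintro _ ⟨ℓ, -, -, rfl | rfl⟩ _ ⟨p, -, -, rfl | rfl⟩ <;> funext i
  · exact (hecke_comm ℓ p _).eq
  · exact ((hecke_dia_comm ℓ p _).smul_right _).eq
  · exact ((hecke_dia_comm p ℓ _).symm.smul_left _).eq
  · exact (((dia_comm ℓ p _).smul_left _).smul_right _).eq

variable (N) in
/-- `T_n` in the Hecke ring -/
noncomputable def TnS (k n : ℕ) : stage N (hecke N) (dia N) k :=
  if h : n.Coprime (2 * N) then ⟨_, TnE_mem k n h⟩ else 0

variable (N) in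
/-- `d S_d` in the Hecke ring -/
noncomputable def SdS (k d : ℕ) : stage N (hecke N) (dia N) k :=
  if h : d.Coprime (2 * N) then ⟨_, SE_mem k d h⟩ else 0

theorem coe_TnS (k : ℕ) {n : ℕ} (h : n.Coprime (2 * N)) :
    (TnS N k n : EndProd N k) = fun i : Fin k => TW N i n := by
  rw [TnS, dif_pos h]

theorem coe_SdS (k : ℕ) {d : ℕ} (h : d.Coprime (2 * N)) :
    (SdS N k d : EndProd N k) = fun i : Fin k => SW N i d := by
  rw [SdS, dif_pos h]

omit [NeZero N] in
theorem exists_smooth_mul (n : ℕ) (hn : n ≠ 0) :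
    ∃ n₀ n₁, n = n₀ * n₁ ∧ Smooth N n₀ ∧ n₁.Coprime (2 * N) := by
  induction n using Nat.recOnMul with
  | zero => exact absurd rfl hn
  | one => exact ⟨1, 1, rfl, ⟨one_ne_zero, fun p hp h => absurd h hp.not_dvd_one⟩,
      Nat.coprime_one_left _⟩
  | prime p hp =>
    by_cases h : p ∣ 2 * N
    · exact ⟨p, 1, (mul_one _).symm, ⟨hp.ne_zero, fun q hq h' =>
        ((Nat.prime_dvd_prime_iff_eq hq hp).1 h') ▸ h⟩, Nat.coprime_one_left _⟩
    · exact ⟨1, p, (one_mul _).symm, ⟨one_ne_zero, fun p hp h => absurd h hp.not_dvd_one⟩,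
        (Nat.Prime.coprime_iff_not_dvd hp).2 h⟩
  | mul a b iha ihb =>
    obtain ⟨a₀, a₁, rfl, ha, ha'⟩ := iha (left_ne_zero_of_mul hn)
    obtain ⟨b₀, b₁, rfl, hb, hb'⟩ := ihb (right_ne_zero_of_mul hn)
    exact ⟨a₀ * b₀, a₁ * b₁, by ring, ⟨mul_ne_zero ha.1 hb.1, fun p hp h =>
      ((Nat.Prime.dvd_mul hp).1 h).elim (ha.2 p hp) (hb.2 p hp)⟩, ha'.mul_left hb'⟩

theorem stage_eq_zero (k : ℕ) (t : stage N (hecke N) (dia N) k)
    (h : ∀ (i : Fin k) (f : MF N ((i : ℕ) + 1)) n₀, Smooth N n₀ →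
      aCo n₀ ((t : EndProd N k) i f) = 0) : t = 0 := by
  refine Subtype.ext (funext fun i => LinearMap.ext fun f => MF_sep i _ fun n hn => ?_)
  obtain ⟨n₀, n₁, rfl, hs, hc⟩ := exists_smooth_mul (N := N) n hn
  have e := congrFun (congrArg Subtype.val (stage_comm k (TnS N k n₁) t)) i
  rw [Subring.coe_mul, Subring.coe_mul, Pi.mul_apply, Pi.mul_apply, coe_TnS k hc] at e
  rw [← aCo_TW i hs n₁ hc, ← Module.End.mul_apply, e, Module.End.mul_apply, h i _ n₀ hs]

theorem TnS_mul (k m ℓ : ℕ) (hm : m.Coprime (2 * N)) (hℓ : ℓ.Prime) (h : ¬ ℓ ∣ 2 * N) :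
    TnS N k m * TnS N k ℓ =
      TnS N k (m * ℓ) + if ℓ ∣ m then SdS N k ℓ * TnS N k (m / ℓ) else 0 := by
  have hc := (Nat.Prime.coprime_iff_not_dvd hℓ).2 h
  rw [← sub_eq_zero, stage_comm k (SdS N k ℓ)]
  refine stage_eq_zero k _ fun i f n₀ hs => ?_
  have e := aCo_TW_step (i := i) (m := m) hℓ h hs (aCo_TW i hs m hm)
    (fun hd => aCo_TW i hs _ (hm.coprime_dvd_left (Nat.div_dvd_of_dvd hd))) f
  rw [AddSubgroupClass.coe_sub, Subring.coe_mul, Subring.coe_add, Pi.sub_apply, Pi.mul_apply,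
    Pi.add_apply, coe_TnS k hm, coe_TnS k hc, coe_TnS k (hm.mul_left hc), LinearMap.sub_apply,
    LinearMap.add_apply, aCo_sub, aCo_add, aCo_TW i hs _ (hm.mul_left hc)]
  beta_reduce
  rw [TW_prime _ hℓ, e, sub_eq_zero]
  congr 3
  split_ifs with hd
  · rw [Subring.coe_mul, Pi.mul_apply, coe_SdS k hc,
      coe_TnS k (hm.coprime_dvd_left (Nat.div_dvd_of_dvd hd))]
  · rfl

theorem SdS_mul (k : ℕ) {d e : ℕ} (hd : d.Coprime (2 * N)) (he : e.Coprime (2 * N)) :
    SdS N k (d * e) = SdS N k d * SdS N k e := by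
  apply Subtype.ext
  rw [Subring.coe_mul, coe_SdS k hd, coe_SdS k he, coe_SdS k (hd.mul_left he)]
  exact funext fun i => SW_mul i hd he

theorem TnS_one (k : ℕ) : TnS N k 1 = 1 := by
  apply Subtype.ext
  rw [coe_TnS k (Nat.coprime_one_left _)]
  exact funext fun i => TW_one i

theorem SdS_one (k : ℕ) : SdS N k 1 = 1 := by
  apply Subtype.ext
  rw [coe_SdS k (Nat.coprime_one_left _)]
  exact funext fun i => SW_one i

theorem coe_TnS_prime (k : ℕ) {ℓ : ℕ} (hℓ : ℓ.Prime) (h : ¬ ℓ ∣ 2 * N) :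
    (TnS N k ℓ : EndProd N k) = fun i : Fin k => hecke N ℓ ((i : ℕ) + 1) := by
  rw [coe_TnS k ((Nat.Prime.coprime_iff_not_dvd hℓ).2 h)]
  exact funext fun i => TW_prime i hℓ

theorem stage_span (k : ℕ) (t : stage N (hecke N) (dia N) k) : t ∈ AddSubgroup.closure
    {x | ∃ d n : ℕ, d.Coprime (2 * N) ∧ n.Coprime (2 * N) ∧ x = SdS N k d * TnS N k n} := by
  set H := AddSubgroup.closure
    {x | ∃ d n : ℕ, d.Coprime (2 * N) ∧ n.Coprime (2 * N) ∧ x = SdS N k d * TnS N k n} with hH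
  have gen : ∀ {d n : ℕ}, d.Coprime (2 * N) → n.Coprime (2 * N) → SdS N k d * TnS N k n ∈ H :=
    fun hd hn => AddSubgroup.subset_closure ⟨_, _, hd, hn, rfl⟩
  have red : ∀ s : stage N (hecke N) (dia N) k, (∀ d n : ℕ, d.Coprime (2 * N) →
      n.Coprime (2 * N) → s * (SdS N k d * TnS N k n) ∈ H) → ∀ x ∈ H, s * x ∈ H := by
    intro s hs x hx
    induction hx using AddSubgroup.closure_induction with
    | mem x hx => obtain ⟨d, n, hd, hn, rfl⟩ := hx; exact hs d n hd hn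
    | zero => rw [mul_zero]; exact zero_mem _
    | add x y _ _ hx hy => rw [mul_add]; exact add_mem hx hy
    | neg x _ hx => rw [mul_neg]; exact neg_mem hx
  suffices ∀ (a : EndProd N k) (ha : a ∈ stage N (hecke N) (dia N) k), ∀ x ∈ H,
      (⟨a, ha⟩ : stage N (hecke N) (dia N) k) * x ∈ H by
    have h1 := gen (Nat.coprime_one_left _) (Nat.coprime_one_left _)
    rw [SdS_one, TnS_one, mul_one] at h1
    simpa using this t.1 t.2 1 h1
  intro a ha
  induction ha using Subring.closure_induction with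
  | mem a ha =>
    obtain ⟨ℓ, hℓ, h, ha⟩ := ha
    have hc := (Nat.Prime.coprime_iff_not_dvd hℓ).2 h
    refine red _ fun d n hd hn => ?_
    rcases ha with rfl | rfl
    · have e : (⟨_, TE_mem k hℓ h⟩ : stage N (hecke N) (dia N) k) = TnS N k ℓ :=
        Subtype.ext (coe_TnS_prime k hℓ h).symm
      rw [e, stage_comm k (TnS N k ℓ), mul_assoc, TnS_mul k n ℓ hn hℓ h, mul_add]
      refine add_mem (gen hd (hn.mul_left hc)) ?_
      split_ifs with hd'
      · rw [← mul_assoc, ← SdS_mul k hd hc]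
        exact gen (hd.mul_left hc) (hn.coprime_dvd_left (Nat.div_dvd_of_dvd hd'))
      · rw [mul_zero]; exact zero_mem _
    · have e : (⟨_, SE_mem k ℓ hc⟩ : stage N (hecke N) (dia N) k) = SdS N k ℓ :=
        Subtype.ext (coe_SdS k hc).symm
      refine e ▸ ?_
      rw [← mul_assoc, ← SdS_mul k hc hd]
      exact gen (hc.mul_left hd) hn
  | zero => intro x _; exact (zero_mul x).symm ▸ zero_mem H
  | one => intro x hx; exact (one_mul x).symm ▸ hx
  | add a b ha hb iha ihb =>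
    intro x hx
    have := add_mem (iha x hx) (ihb x hx)
    rwa [← add_mul] at this
  | neg a ha iha =>
    intro x hx
    have := neg_mem (iha x hx)
    rwa [← neg_mul] at this
  | mul a b ha hb iha ihb =>
    intro x hx
    have := iha _ (ihb x hx)
    rwa [← mul_assoc] at this

theorem stage_nontrivial : Nontrivial (stage N (hecke N) (dia N) 4) := by
  obtain ⟨f, hf⟩ := exists_MF_four_ne_zero (N := N)
  refine ⟨1, 0, fun h => hf ?_⟩
  exact LinearMap.congr_fun (congrFun (congrArg Subtype.val h) (3 : Fin 4)) f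

theorem heckeFacts (hN : Odd N) : HeckeFacts N (hecke N) (dia N) (TnS N) (SdS N) where
  comm := stage_comm
  Tn_prime k _ hℓ h := coe_TnS_prime k hℓ h
  Sd_eq k _ hd := coe_SdS k hd
  D_congr d d' i _ h := by rw [dia, dia, (ZMod.natCast_eq_natCast_iff _ _ _).2 h]
  D_one i := by rw [dia, Nat.cast_one, diaZ_one]; rfl
  Sd_mul k _ _ hd he := SdS_mul k hd he
  Tn_one := TnS_one
  Tn_mul := TnS_mul
  Tn_res k n hn := Subtype.ext (by
    change forgetTop N k (TnS N (k + 1) n : EndProd N (k + 1)) = _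
    rw [coe_TnS _ hn, coe_TnS _ hn]
    rfl)
  span := stage_span
  aCo_Tn k n n₀ hn hs i f := by rw [coe_TnS k hn]; exact aCo_TW i hs n hn f
  deplete := MF_deplete hN
  sep := MF_sep
  toMF := MF_isMF
  nontriv := stage_nontrivial

end Crest.Agent.R007
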