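import Crest.Agent.R007.Cyc

/-! # Row 7, block W0: calculus of `HasQ` and `IsMF`. -/

set_option autoImplicit false

noncomputable section
namespace Crest.Agent.R007

open PowerSeries UpperHalfPlane
open scoped ModularForm MatrixGroups TensorProduct

theorem HasQ.h95_exists {h : ℕ} [NeZero h] {q : ℂ} (hq : ‖q‖ < 1) (h0 : q ≠ 0) :
    ∃ τ : ℍ, Function.Periodic.qParam (h : ℝ) (τ : ℂ) = q := by
  have hh : (0 : ℝ) < h := Nat.cast_pos.2 (NeZero.pos h)
  exact ⟨⟨_, Function.Periodic.im_invQParam_pos_of_norm_lt_one hh hq h0⟩,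
    Function.Periodic.qParam_right_inv hh.ne' h0⟩

theorem HasQ.h95_summable {h : ℕ} [NeZero h] {f : ℍ → ℂ} {F : ℂ⟦X⟧} (a : HasQ h f F) {q : ℂ}
    (hq : ‖q‖ < 1) : Summable fun n : ℕ => coeff n F * q ^ n := by
  rcases eq_or_ne q 0 with rfl | h0
  · exact summable_of_ne_finset_zero (s := {0}) fun n hn => by
      rw [zero_pow (by simpa using hn), mul_zero]
  · obtain ⟨τ, rfl⟩ := HasQ.h95_exists (h := h) hq h0
    exact (a τ).summable

theorem HasQ.h95_ball {h : ℕ} [NeZero h] {f : ℍ → ℂ} {F : ℂ⟦X⟧} (a : HasQ h f F) :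
    HasFPowerSeriesOnBall (fun q : ℂ => ∑' n : ℕ, coeff n F * q ^ n)
      (FormalMultilinearSeries.ofScalars ℂ fun n => coeff n F) 0 1 := by
  constructor
  · refine le_of_forall_lt_imp_le_of_dense fun r hr => ?_
    lift r to NNReal using hr.ne_top
    apply FormalMultilinearSeries.le_radius_of_summable
    simpa [smul_eq_mul, norm_mul, mul_comm, mul_left_comm, mul_assoc] using
      (a.h95_summable (q := r) (by simpa using hr)).norm
  · simp
  · intro y hy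
    rw [← ENNReal.coe_one, Metric.eball_coe, NNReal.coe_one, mem_ball_zero_iff] at hy
    simpa [mul_comm] using (a.h95_summable hy).hasSum

theorem HasQ.unique {h : ℕ} [NeZero h] {f : ℍ → ℂ} {F G : ℂ⟦X⟧} (a : HasQ h f F) (b : HasQ h f G) :
    F = G := by
  have h1 := a.h95_ball.hasFPowerSeriesAt
  have h2 := b.h95_ball.hasFPowerSeriesAt
  have h3 := (h1.continuousAt.eventuallyEq_nhds_iff_eventuallyEq_nhdsNE h2.continuousAt).1 (by
    filter_upwards [self_mem_nhdsWithin,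
      mem_nhdsWithin_of_mem_nhds (Metric.ball_mem_nhds (0 : ℂ) one_pos)] with q h0 hq
    obtain ⟨τ, rfl⟩ := HasQ.h95_exists (h := h) (mem_ball_zero_iff.1 hq) h0
    rw [(a τ).tsum_eq, (b τ).tsum_eq])
  have h4 := FormalMultilinearSeries.ofScalars_series_injective ℂ ℂ
    (h1.eq_formalMultilinearSeries_of_eventually h2 h3)
  exact PowerSeries.ext fun n => congrFun h4 n
theorem HasQ.fun_eq {h : ℕ} {f g : ℍ → ℂ} {F : ℂ⟦X⟧} (a : HasQ h f F) (b : HasQ h g F) : f = g := by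
  exact funext fun τ => (a τ).unique (b τ)
theorem HasQ.qfun_eq {h : ℕ} {f : ℍ → ℂ} {F : ℂ⟦X⟧} (a : HasQ h f F) : qfun h F = f := by
  exact funext fun τ => (a τ).tsum_eq
theorem HasQ.add {h : ℕ} {f g : ℍ → ℂ} {F G : ℂ⟦X⟧} (a : HasQ h f F) (b : HasQ h g G) :
    HasQ h (f + g) (F + G) := by
  intro τ
  simp only [map_add, add_mul]
  exact (a τ).add (b τ)
theorem HasQ.neg {h : ℕ} {f : ℍ → ℂ} {F : ℂ⟦X⟧} (a : HasQ h f F) : HasQ h (-f) (-F) := by
  intro τ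
  simp only [map_neg, neg_mul]
  exact (a τ).neg
theorem HasQ.sub {h : ℕ} {f g : ℍ → ℂ} {F G : ℂ⟦X⟧} (a : HasQ h f F) (b : HasQ h g G) :
    HasQ h (f - g) (F - G) := by
  intro τ
  simp only [map_sub, sub_mul]
  exact (a τ).sub (b τ)
theorem HasQ.mul {h : ℕ} [NeZero h] {f g : ℍ → ℂ} {F G : ℂ⟦X⟧} (a : HasQ h f F) (b : HasQ h g G) :
    HasQ h (f * g) (F * G) := by
  intro τ
  have h1 := (a τ).summable.norm
  have h2 := (b τ).summable.norm
  have h3 := (summable_norm_sum_mul_antidiagonal_of_summable_norm h1 h2).of_norm.hasSum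
  rw [← tsum_mul_tsum_eq_tsum_sum_antidiagonal_of_summable_norm h1 h2, (a τ).tsum_eq,
    (b τ).tsum_eq] at h3
  have e : ∀ n : ℕ, coeff n (F * G) * Function.Periodic.qParam (h : ℝ) (τ : ℂ) ^ n =
      ∑ p ∈ Finset.HasAntidiagonal.antidiagonal n,
        coeff p.1 F * Function.Periodic.qParam (h : ℝ) (τ : ℂ) ^ p.1 *
          (coeff p.2 G * Function.Periodic.qParam (h : ℝ) (τ : ℂ) ^ p.2) := fun n => by
    rw [coeff_mul, Finset.sum_mul]
    refine Finset.sum_congr rfl fun p hp => ?_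
    rw [← Finset.HasAntidiagonal.mem_antidiagonal.1 hp, pow_add]
    ring
  simp only [e]
  exact h3
theorem HasQ.smul {h : ℕ} {f : ℍ → ℂ} {F : ℂ⟦X⟧} (c : ℂ) (a : HasQ h f F) :
    HasQ h (c • f) (c • F) := by
  intro τ
  simp only [map_smul, smul_eq_mul, mul_assoc]
  exact (a τ).mul_left c
theorem HasQ.const (h : ℕ) (c : ℂ) : HasQ h (fun _ => c) (PowerSeries.C c) := by
  intro τ
  have := hasSum_single (f := fun n : ℕ => coeff n (PowerSeries.C c) *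
    Function.Periodic.qParam (h : ℝ) (τ : ℂ) ^ n) 0 fun n hn => by simp [coeff_C, hn]
  simpa using this
theorem HasQ.one (h : ℕ) : HasQ h 1 1 := by
  have := HasQ.const h 1
  rw [map_one] at this
  exact this
theorem HasQ.zero (h : ℕ) : HasQ h 0 0 := by
  have := HasQ.const h 0
  rw [map_zero] at this
  exact this
theorem HasQ.pow {h : ℕ} [NeZero h] {f : ℍ → ℂ} {F : ℂ⟦X⟧} (a : HasQ h f F) (n : ℕ) :
    HasQ h (f ^ n) (F ^ n) := by
  induction n with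
  | zero => simpa only [pow_zero] using HasQ.one h
  | succ n ih => simpa only [pow_succ] using ih.mul a
theorem HasQ.sum {h : ℕ} {ι : Type} (s : Finset ι) {f : ι → ℍ → ℂ} {F : ι → ℂ⟦X⟧}
    (a : ∀ i ∈ s, HasQ h (f i) (F i)) : HasQ h (∑ i ∈ s, f i) (∑ i ∈ s, F i) := by
  classical
  induction s using Finset.induction_on with
  | empty => simpa only [Finset.sum_empty] using HasQ.zero h
  | insert i s hi ih =>
    rw [Finset.sum_insert hi, Finset.sum_insert hi]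
    exact (a i (Finset.mem_insert_self _ _)).add (ih fun j hj => a j (Finset.mem_insert_of_mem hj))
theorem HasQ.prod {h : ℕ} [NeZero h] {ι : Type} (s : Finset ι) {f : ι → ℍ → ℂ} {F : ι → ℂ⟦X⟧}
    (a : ∀ i ∈ s, HasQ h (f i) (F i)) : HasQ h (∏ i ∈ s, f i) (∏ i ∈ s, F i) := by
  classical
  induction s using Finset.induction_on with
  | empty => simpa only [Finset.prod_empty] using HasQ.one h
  | insert i s hi ih =>
    rw [Finset.prod_insert hi, Finset.prod_insert hi]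
    exact (a i (Finset.mem_insert_self _ _)).mul (ih fun j hj => a j (Finset.mem_insert_of_mem hj))
theorem HasQ.holo {h : ℕ} [NeZero h] {f : ℍ → ℂ} {F : ℂ⟦X⟧} (a : HasQ h f F) :
    MDifferentiable (modelWithCornersSelf ℂ ℂ) (modelWithCornersSelf ℂ ℂ) f := by
  have hh : (0 : ℝ) < h := Nat.cast_pos.2 (NeZero.pos h)
  rw [UpperHalfPlane.mdifferentiable_iff]
  have h1 : DifferentiableOn ℂ (fun z : ℂ => ∑' n : ℕ,
      coeff n F * Function.Periodic.qParam (h : ℝ) z ^ n) {z | 0 < z.im} := fun z hz => by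
    refine DifferentiableAt.differentiableWithinAt ?_
    have h2 := (a.h95_ball.analyticAt_of_mem (y := Function.Periodic.qParam (h : ℝ) z) (by
      rw [← ENNReal.coe_one, Metric.eball_coe, NNReal.coe_one, mem_ball_zero_iff]
      exact Function.Periodic.norm_qParam_lt_one hh hz)).differentiableAt
    exact h2.comp z (Function.Periodic.differentiable_qParam z)
  refine h1.congr fun z hz => ?_
  rw [Function.comp_apply, ofComplex_apply_of_im_pos hz]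
  exact (a ⟨z, hz⟩).tsum_eq.symm
theorem HasQ.bdd {h : ℕ} [NeZero h] {f : ℍ → ℂ} {F : ℂ⟦X⟧} (a : HasQ h f F) :
    IsBoundedAtImInfty f := by
  exact isBoundedAtImInfty_of_hasSum_qExpansion (Nat.cast_pos.2 (NeZero.pos h)) a
theorem h39_expand {A : ℕ} (hA : A ≠ 0) {F : ℂ⟦X⟧} {q s : ℂ}
    (a : HasSum (fun n : ℕ => coeff n F * (q ^ A) ^ n) s) :
    HasSum (fun n : ℕ => coeff n (PowerSeries.expand A hA F) * q ^ n) s := by
  refine ((mul_right_injective₀ hA).hasSum_iff fun n hn => ?_).1 ?_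
  · rw [coeff_expand_of_not_dvd, zero_mul]
    rintro ⟨m, rfl⟩
    exact hn ⟨m, rfl⟩
  · simpa only [Function.comp_def, coeff_expand_mul, pow_mul] using a
theorem HasQ.expand {h : ℕ} [NeZero h] (m : ℕ) [NeZero m] {f : ℍ → ℂ} {F : ℂ⟦X⟧} (a : HasQ h f F) :
    HasQ (h * m) f (PowerSeries.expand m (NeZero.ne m) F) := fun τ => by
  refine h39_expand _ ?_
  have h1 : (h : ℂ) ≠ 0 := Nat.cast_ne_zero.2 (NeZero.ne h)
  have h2 : (m : ℂ) ≠ 0 := Nat.cast_ne_zero.2 (NeZero.ne m)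
  have e : Function.Periodic.qParam ((h * m : ℕ) : ℝ) (τ : ℂ) ^ m =
      Function.Periodic.qParam (h : ℝ) (τ : ℂ) := by
    rw [Function.Periodic.qParam, Function.Periodic.qParam, ← Complex.exp_nat_mul]
    congr 1
    push_cast
    field_simp
  rw [e]
  exact a τ
theorem HasQ.lev {x : ℤ⟦X⟧} {f : ℍ → ℂ} (a : HasQ 1 f (lev ℂ 1 x)) (h : ℕ) [NeZero h] :
    HasQ h f (lev ℂ h x) := by
  have b := a.expand h
  have e : PowerSeries.expand h (NeZero.ne h) (R007.lev ℂ 1 x) = R007.lev ℂ h x := by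
    simp [R007.lev]
  rwa [e, one_mul] at b
theorem HasQ.beta {h : ℕ} [NeZero h] (k : ℤ) (A B D : ℕ) [NeZero A] [NeZero D] {f : ℍ → ℂ}
    {F : ℂ⟦X⟧} (a : HasQ h f F) :
    HasQ (h * D) (betaFun k A B D f) ((D : ℂ) ^ (-k) • sB (zC (h * D) ^ B) A F) := fun τ => by
  have h1 : (h : ℂ) ≠ 0 := Nat.cast_ne_zero.2 (NeZero.ne h)
  have h2 : (D : ℂ) ≠ 0 := Nat.cast_ne_zero.2 (NeZero.ne D)
  have e : Function.Periodic.qParam (h : ℝ) ((betaPt A B D τ : ℍ) : ℂ) =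
      zC (h * D) ^ B * Function.Periodic.qParam ((h * D : ℕ) : ℝ) (τ : ℂ) ^ A := by
    rw [Function.Periodic.qParam, Function.Periodic.qParam, zC, ← Complex.exp_nat_mul,
      ← Complex.exp_nat_mul, ← Complex.exp_add]
    congr 1
    simp only [betaPt]
    push_cast
    field_simp
    ring
  have b := a (betaPt A B D τ)
  rw [e] at b
  have c := h39_expand (NeZero.ne A) (F := PowerSeries.rescale (zC (h * D) ^ B) F)
    (q := Function.Periodic.qParam ((h * D : ℕ) : ℝ) (τ : ℂ)) (s := f (betaPt A B D τ)) (by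
      simpa only [coeff_rescale, mul_pow, mul_assoc, mul_left_comm] using b)
  simpa only [betaFun, sB, map_smul, smul_eq_mul, mul_assoc, RingHom.comp_apply,
    AlgHom.toRingHom_eq_coe, RingHom.coe_coe] using c.mul_left ((D : ℂ) ^ (-k))
/-- a series with polynomially bounded coefficients converges -/
theorem hasQ_qfun {h : ℕ} [NeZero h] {F : ℂ⟦X⟧} (C : ℝ) (r : ℕ)
    (hF : ∀ n : ℕ, ‖coeff n F‖ ≤ C * (n + 1) ^ r) : HasQ h (qfun h F) F := fun τ => by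
  have hh : (0 : ℝ) < h := Nat.cast_pos.2 (NeZero.pos h)
  have hq := Function.Periodic.norm_qParam_lt_one hh τ.im_pos
  have hq0 := Function.Periodic.qParam_ne_zero (h := (h : ℝ)) (τ : ℂ)
  refine Summable.hasSum ?_
  generalize Function.Periodic.qParam (h : ℝ) (τ : ℂ) = q at hq hq0
  have h0 : ‖q‖ ≠ 0 := norm_ne_zero_iff.2 hq0
  have h1 := (summable_nat_add_iff 1).2
    (summable_pow_mul_geometric_of_norm_lt_one r (r := ‖q‖) (by rwa [norm_norm]))
  refine Summable.of_norm_bounded (h1.mul_left (C / ‖q‖)) fun n => ?_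
  rw [norm_mul, norm_pow]
  refine (mul_le_mul_of_nonneg_right (hF n) (by positivity)).trans_eq ?_
  push_cast
  rw [pow_succ]
  field_simp
theorem exists_hasQ {h : ℕ} [NeZero h] {f : ℍ → ℂ}
    (hol : MDifferentiable (modelWithCornersSelf ℂ ℂ) (modelWithCornersSelf ℂ ℂ) f)
    (per : ∀ τ : ℍ, f ((h : ℝ) +ᵥ τ) = f τ) (bd : IsBoundedAtImInfty f) :
    HasQ h f (qExpansion h f) := fun τ => by
  refine hasSum_qExpansion (Nat.cast_pos.2 (NeZero.pos h)) (fun w => ?_) hol bd τ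
  by_cases hw : 0 < w.im
  · have : 0 < (w + ((h : ℝ) : ℂ)).im := by simp [hw]
    simp only [Function.comp_apply, ofComplex_apply_of_im_pos this, ofComplex_apply_of_im_pos hw]
    rw [← per ⟨w, hw⟩]
    congr 1
    ext
    simp [add_comm]
  · have : (w + ((h : ℝ) : ℂ)).im ≤ 0 := by simpa using hw
    simp only [Function.comp_apply, ofComplex_apply_eq_of_im_nonpos this (not_lt.1 hw)]
theorem IsMF.hasQ {k : ℤ} {Γ : Subgroup SL(2, ℤ)} {f : ℍ → ℂ} (a : IsMF k Γ f) (h : ℕ) [NeZero h]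
    (hT : ModularGroup.T ^ h ∈ Γ) : HasQ h f (qExpansion h f) := by
  refine exists_hasQ a.holo (fun τ => ?_) (by simpa using a.bdd 1)
  have b := (ModularForm.slash_action_eq'_iff k f _ τ).1 (congrFun (a.inv _ hT) τ)
  rw [← zpow_natCast, modular_T_zpow_smul] at b
  have e := ModularGroup.coe_T_zpow (h : ℤ)
  have e0 : (ModularGroup.T ^ (h : ℤ)) 1 0 = 0 := by
    change (ModularGroup.T ^ (h : ℤ)).1 1 0 = 0
    rw [e]
    rfl
  have e1 : (ModularGroup.T ^ (h : ℤ)) 1 1 = 1 := by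
    change (ModularGroup.T ^ (h : ℤ)).1 1 1 = 1
    rw [e]
    rfl
  rw [e0, e1] at b
  simpa using b

theorem IsMF.mono {k : ℤ} {Γ Γ' : Subgroup SL(2, ℤ)} {f : ℍ → ℂ} (a : IsMF k Γ f) (h : Γ' ≤ Γ) :
    IsMF k Γ' f := by
  exact ⟨a.holo, fun γ hγ => a.inv γ (h hγ), a.bdd⟩
theorem IsMF.add {k : ℤ} {Γ : Subgroup SL(2, ℤ)} {f g : ℍ → ℂ} (a : IsMF k Γ f) (b : IsMF k Γ g) :
    IsMF k Γ (f + g) := by
  refine ⟨a.holo.add b.holo, fun γ hγ => ?_, fun γ => ?_⟩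
  · rw [SlashAction.add_slash, a.inv γ hγ, b.inv γ hγ]
  · rw [SlashAction.add_slash]
    exact Filter.BoundedAtFilter.add (a.bdd γ) (b.bdd γ)
theorem IsMF.sub {k : ℤ} {Γ : Subgroup SL(2, ℤ)} {f g : ℍ → ℂ} (a : IsMF k Γ f) (b : IsMF k Γ g) :
    IsMF k Γ (f - g) := by
  rw [sub_eq_add_neg]
  refine a.add ⟨b.holo.neg, fun γ hγ => ?_, fun γ => ?_⟩
  · rw [SlashAction.neg_slash, b.inv γ hγ]
  · rw [SlashAction.neg_slash]
    exact Filter.BoundedAtFilter.neg (b.bdd γ)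
theorem IsMF.smul {k : ℤ} {Γ : Subgroup SL(2, ℤ)} {f : ℍ → ℂ} (c : ℂ) (a : IsMF k Γ f) :
    IsMF k Γ (c • f) := by
  refine ⟨a.holo.const_smul c, fun γ hγ => ?_, fun γ => ?_⟩
  · rw [ModularForm.SL_smul_slash, a.inv γ hγ]
  · rw [ModularForm.SL_smul_slash]
    exact Filter.BoundedAtFilter.smul c (a.bdd γ)
theorem IsMF.zero (k : ℤ) (Γ : Subgroup SL(2, ℤ)) : IsMF k Γ 0 := by
  refine ⟨mdifferentiable_const, fun γ _ => SlashAction.zero_slash _ _, fun γ => ?_⟩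
  rw [SlashAction.zero_slash]
  exact zero_form_isBoundedAtImInfty
theorem IsMF.one (Γ : Subgroup SL(2, ℤ)) : IsMF 0 Γ 1 := by
  refine ⟨mdifferentiable_const, fun γ _ => ModularForm.is_invariant_one γ, fun γ => ?_⟩
  rw [ModularForm.is_invariant_one]
  exact Filter.const_boundedAtFilter _ (1 : ℂ)
theorem IsMF.mul {k l : ℤ} {Γ : Subgroup SL(2, ℤ)} {f g : ℍ → ℂ} (a : IsMF k Γ f) (b : IsMF l Γ g) :
    IsMF (k + l) Γ (f * g) := by
  refine ⟨a.holo.mul b.holo, fun γ hγ => ?_, fun γ => ?_⟩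
  · rw [ModularForm.mul_slash_SL2, a.inv γ hγ, b.inv γ hγ]
  · rw [ModularForm.mul_slash_SL2]
    exact Filter.BoundedAtFilter.mul (a.bdd γ) (b.bdd γ)
theorem IsMF.pow {k : ℤ} {Γ : Subgroup SL(2, ℤ)} {f : ℍ → ℂ} (a : IsMF k Γ f) (n : ℕ) :
    IsMF (n * k) Γ (f ^ n) := by
  induction n with
  | zero => simpa using IsMF.one Γ
  | succ n ih =>
    have := ih.mul a
    rw [pow_succ, Nat.cast_succ, add_mul, one_mul]
    exact this
theorem IsMF.sum {k : ℤ} {Γ : Subgroup SL(2, ℤ)} {ι : Type} (s : Finset ι) {f : ι → ℍ → ℂ}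
    (a : ∀ i ∈ s, IsMF k Γ (f i)) : IsMF k Γ (∑ i ∈ s, f i) := by
  classical
  induction s using Finset.induction_on with
  | empty => simpa using IsMF.zero k Γ
  | insert i s hi ih =>
    rw [Finset.sum_insert hi]
    exact (a i (Finset.mem_insert_self _ _)).add
      (ih fun j hj => a j (Finset.mem_insert_of_mem hj))
/-- slashing by `γ` a form for a normal subgroup -/
theorem IsMF.slash {k : ℤ} {Γ : Subgroup SL(2, ℤ)} [Γ.Normal] {f : ℍ → ℂ} (a : IsMF k Γ f)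
    (γ : SL(2, ℤ)) : IsMF k Γ (f ∣[k] γ) := by
  refine ⟨a.holo.slash k (γ : GL (Fin 2) ℝ), fun δ hδ => ?_, fun δ => ?_⟩
  · have h : γ * δ = γ * δ * γ⁻¹ * γ := by group
    rw [← SlashAction.slash_mul, h, SlashAction.slash_mul,
      a.inv _ (Subgroup.Normal.conj_mem inferInstance δ hδ γ)]
  · rw [← SlashAction.slash_mul]
    exact a.bdd _

theorem h5_coe_betaPt (A B D : ℕ) [NeZero A] [NeZero D] (τ : ℍ) :
    ((betaPt A B D τ : ℍ) : ℂ) = ((A : ℂ) * τ + B) / D := rfl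

theorem h5_beta_key (A B D A' B' D' : ℕ) [NeZero A] [NeZero D] [NeZero A'] [NeZero D']
    (γ γ' : SL(2, ℤ)) (h1 : (A : ℤ) * γ 0 0 + B * γ 1 0 = γ' 0 0 * A')
    (h2 : (A : ℤ) * γ 0 1 + B * γ 1 1 = γ' 0 0 * B' + γ' 0 1 * D')
    (h3 : (D : ℤ) * γ 1 0 = γ' 1 0 * A') (h4 : (D : ℤ) * γ 1 1 = γ' 1 0 * B' + γ' 1 1 * D')
    (k : ℤ) (f : ℍ → ℂ) : (betaFun k A B D f) ∣[k] γ = betaFun k A' B' D' (f ∣[k] γ') := by
  funext τ
  have hD : (D : ℂ) ≠ 0 := Nat.cast_ne_zero.mpr (NeZero.ne D)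
  have hD' : (D' : ℂ) ≠ 0 := Nat.cast_ne_zero.mpr (NeZero.ne D')
  have e1 : (A : ℂ) * (γ 0 0 : ℤ) + B * (γ 1 0 : ℤ) = (γ' 0 0 : ℤ) * A' := by exact_mod_cast h1
  have e2 : (A : ℂ) * (γ 0 1 : ℤ) + B * (γ 1 1 : ℤ) = (γ' 0 0 : ℤ) * B' + (γ' 0 1 : ℤ) * D' := by
    exact_mod_cast h2
  have e3 : (D : ℂ) * (γ 1 0 : ℤ) = (γ' 1 0 : ℤ) * A' := by exact_mod_cast h3
  have e4 : (D : ℂ) * (γ 1 1 : ℤ) = (γ' 1 0 : ℤ) * B' + (γ' 1 1 : ℤ) * D' := by exact_mod_cast h4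
  have d1 : denom γ τ = ((γ 1 0 : ℤ) : ℂ) * τ + (γ 1 1 : ℤ) := by
    simp [ModularGroup.denom_apply]
  have d2 : denom γ' (betaPt A' B' D' τ) =
      ((γ' 1 0 : ℤ) : ℂ) * (((A' : ℂ) * τ + B') / D') + (γ' 1 1 : ℤ) := by
    rw [ModularGroup.denom_apply, h5_coe_betaPt]
  have n1 : ((γ 1 0 : ℤ) : ℂ) * τ + (γ 1 1 : ℤ) ≠ 0 := d1 ▸ denom_ne_zero _ τ
  have n2 : ((γ' 1 0 : ℤ) : ℂ) * (((A' : ℂ) * τ + B') / D') + (γ' 1 1 : ℤ) ≠ 0 :=
    d2 ▸ denom_ne_zero _ _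
  have hden : (D : ℂ) * (((γ 1 0 : ℤ) : ℂ) * τ + (γ 1 1 : ℤ)) =
      D' * (((γ' 1 0 : ℤ) : ℂ) * (((A' : ℂ) * τ + B') / D') + (γ' 1 1 : ℤ)) := by
    field_simp
    linear_combination (τ : ℂ) * e3 + e4
  have hpt : betaPt A B D (γ • τ) = γ' • betaPt A' B' D' τ := by
    apply UpperHalfPlane.ext
    rw [h5_coe_betaPt, coe_specialLinearGroup_apply, coe_specialLinearGroup_apply, h5_coe_betaPt]
    simp only [eq_intCast, Complex.ofReal_intCast]
    rw [div_eq_div_iff hD n2]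
    apply mul_left_cancel₀ hD'
    rw [← mul_assoc, mul_comm (D' : ℂ), mul_assoc, ← hden]
    have t1 := div_mul_cancel₀ (((γ 0 0 : ℤ) : ℂ) * τ + (γ 0 1 : ℤ)) n1
    have t2 := div_mul_cancel₀ ((A' : ℂ) * τ + B') hD'
    linear_combination (D * A : ℂ) * t1 - (D * (γ' 0 0 : ℤ) : ℂ) * t2 + (D * τ : ℂ) * e1 + D * e2
  simp only [ModularForm.SL_slash_apply, betaFun]
  rw [hpt, d1, d2, mul_right_comm, ← mul_zpow, hden, mul_zpow]
  ring

theorem h5_beta_bdd (k : ℤ) (A B D : ℕ) [NeZero A] [NeZero D] {f : ℍ → ℂ}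
    (hf : IsBoundedAtImInfty f) : IsBoundedAtImInfty (betaFun k A B D f) := by
  rw [isBoundedAtImInfty_iff] at hf ⊢
  obtain ⟨M, T, hf⟩ := hf
  have hA : (1 : ℝ) ≤ A := by exact_mod_cast Nat.pos_of_ne_zero (NeZero.ne A)
  have hD : (0 : ℝ) < D := Nat.cast_pos.mpr (Nat.pos_of_ne_zero (NeZero.ne D))
  refine ⟨‖(D : ℂ) ^ (-k)‖ * M, T * D, fun z hz => ?_⟩
  have him : (betaPt A B D z).im = A * z.im / D := by
    rw [← UpperHalfPlane.coe_im, h5_coe_betaPt, Complex.div_natCast_im]; simp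
  have : T ≤ (betaPt A B D z).im := by
    rw [him, le_div_iff₀ hD]
    nlinarith [z.im_pos]
  simp only [betaFun, norm_mul]
  exact mul_le_mul_of_nonneg_left (hf _ this) (norm_nonneg _)

/-- Hermite normal form: `β γ = γ' β'` -/
theorem beta_slash (A B D : ℕ) [NeZero A] [NeZero D] (γ : SL(2, ℤ)) :
    ∃ (A' B' D' : ℕ) (_ : NeZero A') (_ : NeZero D') (γ' : SL(2, ℤ)), A' * D' = A * D ∧
      ∀ (k : ℤ) (f : ℍ → ℂ), (betaFun k A B D f) ∣[k] γ = betaFun k A' B' D' (f ∣[k] γ') := by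
  have hdet : γ 0 0 * γ 1 1 - γ 0 1 * γ 1 0 = 1 := by
    have := γ.det_coe
    rwa [Matrix.det_fin_two] at this
  have hA : (0 : ℤ) < A := by exact_mod_cast Nat.pos_of_ne_zero (NeZero.ne A)
  have hD : (0 : ℤ) < D := by exact_mod_cast Nat.pos_of_ne_zero (NeZero.ne D)
  obtain ⟨u, hu⟩ : ∃ u : ℤ, u = A * γ 0 0 + B * γ 1 0 := ⟨_, rfl⟩
  obtain ⟨v, hv⟩ : ∃ v : ℤ, v = D * γ 1 0 := ⟨_, rfl⟩
  obtain ⟨m, hm⟩ : ∃ m : ℤ, m = A * γ 0 1 + B * γ 1 1 := ⟨_, rfl⟩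
  obtain ⟨n, hn⟩ : ∃ n : ℤ, n = D * γ 1 1 := ⟨_, rfl⟩
  have hdM : u * n - m * v = A * D := by
    rw [hu, hv, hm, hn]; linear_combination (A * D : ℤ) * hdet
  have hg : 0 < Int.gcd u v := by
    rw [Int.gcd_pos_iff]
    by_contra hc
    push Not at hc
    rw [hc.1, hc.2] at hdM
    nlinarith [mul_pos hA hD]
  obtain ⟨a', c', hcop, ha', hc'⟩ := Int.exists_gcd_one hg
  obtain ⟨g, hgd⟩ : ∃ g : ℕ, g = Int.gcd u v := ⟨_, rfl⟩
  rw [← hgd] at hg ha' hc'
  obtain ⟨p, q, hpq⟩ := Int.isCoprime_iff_gcd_eq_one.mpr hcop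
  have hg' : (0 : ℤ) < g := by exact_mod_cast hg
  have hy : (g : ℤ) * (a' * n - c' * m) = A * D := by
    rw [← hdM, ha', hc']; ring
  have hy0 : 0 < a' * n - c' * m := by
    by_contra hc
    push Not at hc
    nlinarith [mul_pos hA hD]
  obtain ⟨y, hyy⟩ := Int.eq_ofNat_of_zero_le hy0.le
  have hyz : (y : ℤ) ≠ 0 := by rw [← hyy]; exact hy0.ne'
  obtain ⟨B', hB'⟩ := Int.eq_ofNat_of_zero_le (Int.emod_nonneg (p * m + q * n) hyz)
  obtain ⟨t, ht⟩ : ∃ t : ℤ, t = (p * m + q * n) / y := ⟨_, rfl⟩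
  have hx : (B' : ℤ) + y * t = p * m + q * n := by
    rw [← hB', ht]; exact Int.emod_add_mul_ediv _ _
  have i1 : NeZero g := ⟨hg.ne'⟩
  have i2 : NeZero y := ⟨by exact_mod_cast hyz⟩
  refine ⟨g, B', y, i1, i2, ⟨!![a', -q + t * a'; c', p + t * c'], ?_⟩, ?_, fun k f => ?_⟩
  · rw [Matrix.det_fin_two_of]; linear_combination hpq
  · have : (g : ℤ) * y = A * D := by rw [← hyy]; exact hy
    exact_mod_cast this
  · apply h5_beta_key
    · simp only [Matrix.of_apply, Matrix.cons_val', Matrix.cons_val_zero]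
      rw [← hu, ha']
    · simp only [Matrix.of_apply, Matrix.cons_val',
        Matrix.cons_val_zero, Matrix.cons_val_one]
      rw [← hm]
      linear_combination (-a') * hx - q * hyy - m * hpq
    · simp only [Matrix.of_apply, Matrix.cons_val',
        Matrix.cons_val_zero, Matrix.cons_val_one]
      rw [← hv, hc']
    · simp only [Matrix.of_apply, Matrix.cons_val',
        Matrix.cons_val_zero, Matrix.cons_val_one]
      rw [← hn]
      linear_combination (-c') * hx + p * hyy - n * hpq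
theorem IsMF.beta {k : ℤ} {h : ℕ} {f : ℍ → ℂ} (a : IsMF k (CongruenceSubgroup.Gamma h) f)
    (A B D : ℕ) [NeZero A] [NeZero D] :
    IsMF k (CongruenceSubgroup.Gamma (h * (A * D))) (betaFun k A B D f) := by
  refine ⟨?_, fun γ hγ => ?_, fun γ => ?_⟩
  · have h1 := UpperHalfPlane.mdifferentiable_iff.mp a.holo
    rw [UpperHalfPlane.mdifferentiable_iff]
    have h2 : DifferentiableOn ℂ (fun z : ℂ => (D : ℂ) ^ (-k) *
        (f ∘ ofComplex) (((A : ℂ) * z + B) / D)) {z : ℂ | 0 < z.im} := by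
      refine DifferentiableOn.const_mul (h1.comp (f := fun z : ℂ => ((A : ℂ) * z + B) / D)
        (by fun_prop) fun z hz => ?_) _
      exact (betaPt A B D ⟨z, hz⟩).im_pos
    refine h2.congr fun z hz => ?_
    have e1 : ofComplex z = ⟨z, hz⟩ := ofComplex_apply_of_im_pos hz
    have e2 : ofComplex (((A : ℂ) * z + B) / D) = betaPt A B D ⟨z, hz⟩ :=
      ofComplex_apply (betaPt A B D ⟨z, hz⟩)
    simp only [Function.comp_apply, betaFun, e1, e2]
  · have hdet : γ 0 0 * γ 1 1 - γ 0 1 * γ 1 0 = 1 := by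
      have := γ.det_coe
      rwa [Matrix.det_fin_two] at this
    obtain ⟨h00, h01, h10, h11⟩ := CongruenceSubgroup.Gamma_mem.mp hγ
    obtain ⟨a0, ha⟩ : ((h * (A * D) : ℕ) : ℤ) ∣ γ 0 0 - 1 :=
      (ZMod.intCast_zmod_eq_zero_iff_dvd _ _).mp (by push_cast; rw [h00, sub_self])
    obtain ⟨b0, hb⟩ := (ZMod.intCast_zmod_eq_zero_iff_dvd _ _).mp h01
    obtain ⟨c0, hc⟩ := (ZMod.intCast_zmod_eq_zero_iff_dvd _ _).mp h10
    obtain ⟨d0, hd⟩ : ((h * (A * D) : ℕ) : ℤ) ∣ γ 1 1 - 1 :=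
      (ZMod.intCast_zmod_eq_zero_iff_dvd _ _).mp (by push_cast; rw [h11, sub_self])
    push_cast at ha hb hc hd
    have ha' : γ 0 0 = 1 + h * (A * D) * a0 := by linear_combination ha
    have hd' : γ 1 1 = 1 + h * (A * D) * d0 := by linear_combination hd
    let γ' : SL(2, ℤ) := ⟨!![1 + h * (A * D * a0 + B * D * c0),
        h * (A ^ 2 * b0 + A * B * d0 - A * B * a0 - B ^ 2 * c0);
        h * (D ^ 2 * c0), 1 + h * (A * D * d0 - B * D * c0)], by
      rw [Matrix.det_fin_two_of]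
      rw [ha', hb, hc, hd'] at hdet
      linear_combination hdet⟩
    have g00 : γ' 0 0 = 1 + h * (A * D * a0 + B * D * c0) := rfl
    have g01 : γ' 0 1 = h * (A ^ 2 * b0 + A * B * d0 - A * B * a0 - B ^ 2 * c0) := rfl
    have g10 : γ' 1 0 = h * (D ^ 2 * c0) := rfl
    have g11 : γ' 1 1 = 1 + h * (A * D * d0 - B * D * c0) := rfl
    have hγ' : γ' ∈ CongruenceSubgroup.Gamma h := by
      rw [CongruenceSubgroup.Gamma_mem, g00, g01, g10, g11]
      simp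
    rw [h5_beta_key A B D A B D γ γ' (by rw [g00, ha', hc]; ring)
      (by rw [g00, g01, hb, hd']; ring) (by rw [g10, hc]; ring) (by rw [g10, g11, hd']; ring),
      a.inv γ' hγ']
  · obtain ⟨A', B', D', i1, i2, γ', -, H⟩ := beta_slash A B D γ
    rw [H]
    exact h5_beta_bdd k A' B' D' (a.bdd γ')

/-- the bundled modular form -/
def h50_toMF {k : ℤ} {Γ : Subgroup SL(2, ℤ)} [Γ.FiniteIndex] {f : ℍ → ℂ} (a : IsMF k Γ f) :
    ModularForm (Γ : Subgroup (GL (Fin 2) ℝ)) k where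
  toFun := f
  slash_action_eq' := by
    rintro _ ⟨γ, hγ, rfl⟩
    exact a.inv γ hγ
  holo' := a.holo
  bdd_at_cusps' hc := by
    rw [Subgroup.IsArithmetic.isCusp_iff_isCusp_SL2Z] at hc
    rw [OnePoint.isBoundedAt_iff_forall_SL2Z hc]
    exact fun γ _ => a.bdd γ

theorem h50_norm {k : ℕ} {Γ : Subgroup SL(2, ℤ)} [Γ.FiniteIndex] {f : ℍ → ℂ} (a : IsMF k Γ f)
    (hf : f ≠ 0) : ∃ (N : ModularForm 𝒮ℒ ((k * Γ.index : ℕ) : ℤ)) (g : ℍ → ℂ), N ≠ 0 ∧
      (N : ℍ → ℂ) = f * g ∧ MDifferentiable (modelWithCornersSelf ℂ ℂ) (modelWithCornersSelf ℂ ℂ) g ∧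
      IsBoundedAtImInfty g := by
  classical
  have hc : Nat.card (𝒮ℒ ⧸ (Γ : Subgroup (GL (Fin 2) ℝ)).subgroupOf 𝒮ℒ) = Γ.index := by
    change (Γ : Subgroup (GL (Fin 2) ℝ)).relIndex 𝒮ℒ = _
    rw [MonoidHom.range_eq_map, Subgroup.relIndex_map_map_of_injective _ _
      Matrix.SpecialLinearGroup.mapGL_injective, Subgroup.relIndex_top_right]
  let _ := Fintype.ofFinite (𝒮ℒ ⧸ (Γ : Subgroup (GL (Fin 2) ℝ)).subgroupOf 𝒮ℒ)
  refine ⟨ModularForm.mcast (by rw [hc]; push_cast; rfl) (ModularForm.norm 𝒮ℒ (h50_toMF a)),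
    ∏ q ∈ Finset.univ.erase ((1 : 𝒮ℒ) : 𝒮ℒ ⧸ (Γ : Subgroup (GL (Fin 2) ℝ)).subgroupOf 𝒮ℒ),
      SlashInvariantForm.quotientFunc (h50_toMF a) q, ?_, ?_, ?_, ?_⟩
  · rw [Ne, ModularForm.mcast_eq_zero_iff]
    exact ModularForm.norm_ne_zero _ hf
  · rw [ModularForm.coe_mcast, ModularForm.coe_norm,
      ← Finset.mul_prod_erase _ _ (Finset.mem_univ
        ((1 : 𝒮ℒ) : 𝒮ℒ ⧸ (Γ : Subgroup (GL (Fin 2) ℝ)).subgroupOf 𝒮ℒ))]
    congr 1
    change f ∣[(k : ℤ)] (1 : GL (Fin 2) ℝ)⁻¹ = f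
    rw [inv_one, SlashAction.slash_one]
  · exact .prod (Quotient.forall.mpr fun r _ => a.holo.slash _ _)
  · rw [IsBoundedAtImInfty]
    refine Filter.BoundedAtFilter.prod (β := ℂ) _ (Quotient.forall.mpr fun r _ => ?_)
    obtain ⟨_, γ, rfl⟩ := r
    have := a.bdd γ⁻¹
    rw [SlashInvariantForm.quotientFunc_mk, ← map_inv]
    exact this

/-- Sturm bound through the norm to level one -/
theorem IsMF.sturm {k : ℕ} {Γ : Subgroup SL(2, ℤ)} [Γ.FiniteIndex] {f : ℍ → ℂ} (a : IsMF k Γ f)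
    {F : ℂ⟦X⟧} (hF : HasQ 1 f F) (hz : ∀ n : ℕ, 12 * n ≤ k * Γ.index → coeff n F = 0) : F = 0 := by
  by_cases hf : f = 0
  · subst hf
    exact hF.unique (HasQ.zero 1)
  exfalso
  obtain ⟨N, g, hN, e, hg, hb⟩ := h50_norm a hf
  have pf : ∀ τ : ℍ, f ((1 : ℝ) +ᵥ τ) = f τ := fun τ => by
    refine (hF _).unique ?_
    have : Function.Periodic.qParam ((1 : ℕ) : ℝ) ((((1 : ℝ) +ᵥ τ : ℍ)) : ℂ) =
        Function.Periodic.qParam ((1 : ℕ) : ℝ) (τ : ℂ) := by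
      simp [Function.Periodic.qParam, mul_add, Complex.exp_add]
    rw [this]
    exact hF τ
  have pN : ∀ τ : ℍ, N ((1 : ℝ) +ᵥ τ) = N τ := fun τ =>
    SlashInvariantForm.vAdd_apply_of_mem_strictPeriods N τ one_mem_strictPeriods_SL
  have hg' : MDifferentiable (modelWithCornersSelf ℂ ℂ) (modelWithCornersSelf ℂ ℂ)
      fun τ : ℍ => g ((1 : ℝ) +ᵥ τ) := by
    have := hg.comp (mdifferentiable_smul (g := (ModularGroup.T : SL(2, ℤ))) (by simp))
    simp only [← modular_T_smul]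
    exact this
  have pg : ∀ τ : ℍ, g ((1 : ℝ) +ᵥ τ) = g τ := by
    have h0 : f * ((fun τ : ℍ => g ((1 : ℝ) +ᵥ τ)) - g) = 0 := by
      funext τ
      have h1 := pN τ
      simp only [e, Pi.mul_apply, pf] at h1
      simp only [Pi.mul_apply, Pi.sub_apply, Pi.zero_apply, mul_sub, h1, sub_self]
    have h1 := ((mul_eq_zero_iff a.holo (hg'.sub hg)).1 h0).resolve_left hf
    exact fun τ => sub_eq_zero.1 (congrFun h1 τ)
  have hG := exists_hasQ (h := 1) hg (by simpa using pg) hb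
  have hQ := exists_hasQ (h := 1) (f := N) (ModularFormClass.holo N) (by simpa using pN)
    (ModularFormClass.bdd_at_infty N)
  have e2 : qExpansion 1 N = F * qExpansion (1 : ℕ) g := by
    have := hQ.unique (e ▸ hF.mul hG)
    simpa using this
  refine hN (ModularForm.sturm_bound_levelOne_nat ?_)
  rw [e2]
  refine lt_of_lt_of_le ?_ ((le_self_add).trans (PowerSeries.le_order_mul _ _))
  refine lt_of_lt_of_le (b := ((k * Γ.index / 12 + 1 : ℕ) : ℕ∞)) (by exact_mod_cast Nat.lt_succ_self _)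
    (PowerSeries.nat_le_order _ _ fun n hn => hz n (by omega))

end Crest.Agent.R007
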