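import Crest.Agent.R007.HQ
import Crest.Agent.R007.HasQ

/-! Row 7, block H: `U`-operators, depletion, separation. -/

set_option autoImplicit false
set_option linter.dupNamespace false

namespace Crest.Agent.R007

open Crest.NumberTheoryR.HeckeTwoAdic CongruenceSubgroup UpperHalfPlane Matrix
open scoped ModularForm MatrixGroups Manifold Real

variable {N : ℕ}

theorem aCo_eq {i : ℕ} (n : ℕ) (f : MF N i) : aCo n f = (qexp N i f).coeff n := rfl

theorem MF_sep [NeZero N] (i : ℕ) (f : MF N (i + 1)) (h : ∀ n, n ≠ 0 → aCo n f = 0) : f = 0 := by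
  have hc : ∀ τ, f τ = aCo 0 f := fun τ => by
    have h1 := hasSum_qexp f τ
    have h2 := hasSum_single (f := fun m => (qexp N (i + 1) f).coeff m *
      Complex.exp (2 * π * Complex.I * τ) ^ m) 0 (fun m hm => by rw [← aCo_eq, h m hm, zero_mul])
    rw [h1.unique h2, pow_zero, mul_one, aCo_eq]
  let γ : SL(2, ℤ) := ⟨!![1, 0; (N : ℤ), 1], by simp [det_fin_two]⟩
  have hγ : γ ∈ Gamma1 N := by rw [Gamma1_mem]; simp [γ]
  have h1 := congrFun (MF_slash f hγ) UpperHalfPlane.I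
  rw [ModularForm.slash_action_eq'_iff, hc, hc] at h1
  have h2 : ((γ 1 0 : ℤ) : ℂ) * (UpperHalfPlane.I : ℍ) + ((γ 1 1 : ℤ) : ℂ) = N * Complex.I + 1 := by
    simp [γ]
  rw [h2, zpow_natCast] at h1
  have h3 : ((N : ℂ) * Complex.I + 1) ^ (i + 1) ≠ 1 := by
    intro e
    have e1 := congrArg Complex.normSq e
    rw [map_pow, map_one] at e1
    have e2 : Complex.normSq ((N : ℂ) * Complex.I + 1) = 1 + (N : ℝ) ^ 2 := by
      simp [Complex.normSq_apply]; ring
    have hN : (0 : ℝ) < N := Nat.cast_pos.2 (NeZero.pos N)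
    rw [e2] at e1
    exact (one_lt_pow₀ (by nlinarith) (Nat.succ_ne_zero i)).ne' e1
  have h4 : aCo 0 f = 0 := by
    by_contra h0
    exact h3 (mul_right_cancel₀ h0 (by rw [← h1, one_mul]))
  ext τ
  rw [hc, h4]
  rfl

theorem MF_isMF [NeZero N] (i : ℕ) (f : MF N i) : IsMF i (Gamma1 N) f :=
  ⟨ModularFormClass.holo f, fun _ hγ => MF_slash f hγ,
    fun γ => ModularFormClass.bdd_at_infty_slash f γ⟩

theorem exists_MF_four_ne_zero [NeZero N] : ∃ f : MF N 4, f ≠ 0 := by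
  refine ⟨mkMF (⇑ModularForm.E₄) (fun γ _ =>
      SlashInvariantFormClass.slash_action_eq ModularForm.E₄ _ ⟨γ, rfl⟩)
    (ModularFormClass.holo ModularForm.E₄) (fun c hc => ModularFormClass.bdd_at_cusps
      ModularForm.E₄ ((Subgroup.IsArithmetic.isCusp_iff_isCusp_SL2Z _).1 hc)), fun h => ?_⟩
  have h1 : (⇑ModularForm.E₄ : ℍ → ℂ) = 0 := congrArg DFunLike.coe h
  have h2 := ModularForm.E₄_qExpansion_coeff_one
  rw [h1, qExpansion_zero] at h2
  simp at h2

/-- change of level -/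
def upLevel [NeZero N] {L : ℕ} [NeZero L] (h : N ∣ L) {i : ℕ} (f : MF N i) : MF L i :=
  mkMF (⇑f) (fun γ hγ => MF_slash f (by
      rw [Gamma1_mem] at hγ ⊢
      obtain ⟨h1, h2, h3⟩ := hγ
      refine ⟨?_, ?_, ?_⟩
      · simpa only [map_intCast, map_one] using congrArg (ZMod.castHom h (ZMod N)) h1
      · simpa only [map_intCast, map_one] using congrArg (ZMod.castHom h (ZMod N)) h2
      · simpa using congrArg (ZMod.castHom h (ZMod N)) h3))
    (ModularFormClass.holo f) (fun c hc => ModularFormClass.bdd_at_cusps f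
      ((Subgroup.IsArithmetic.isCusp_iff_isCusp_SL2Z _).2
        ((Subgroup.IsArithmetic.isCusp_iff_isCusp_SL2Z _).1 hc)))

/-- the matrices `(1 j; 0 n)` -/
def repU (n : ℕ) (j : Fin n) : Matrix (Fin 2) (Fin 2) ℤ := !![1, ((j : ℕ) : ℤ); 0, (n : ℤ)]

theorem repU_det (n : ℕ) (j : Fin n) : (repU n j).det = n := by simp [repU, det_fin_two]

theorem repU_mul {n : ℕ} (hn : n ≠ 0) (hs : ∀ p : ℕ, p.Prime → p ∣ n → p ∣ N) (j : Fin n)
    {γ : SL(2, ℤ)} (hγ : γ ∈ Gamma1 N) :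
    ∃ j' : Fin n, ∃ g ∈ Gamma1 N, repU n j * γ.1 = g.1 * repU n j' := by
  have : NeZero n := ⟨hn⟩
  obtain ⟨h1, h2, h3⟩ := (Gamma1_mem N γ).1 hγ
  have hdet := γ.2
  rw [det_fin_two] at hdet
  set a : ℤ := γ 0 0 + (j : ℕ) * γ 1 0 with ha
  set b : ℤ := γ 0 1 + (j : ℕ) * γ 1 1 with hb
  have ha1 : (a : ZMod N) = 1 := by simp [ha, h1, h3]
  have hcop : IsCoprime a (n : ℤ) := by
    rw [Int.isCoprime_iff_gcd_eq_one]
    by_contra hne
    obtain ⟨p, hp, hpd⟩ := Nat.exists_prime_and_dvd hne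
    have hpa : (p : ℤ) ∣ a := (Int.natCast_dvd_natCast.2 hpd).trans (Int.gcd_dvd_left _ _)
    have hpn : p ∣ n :=
      Int.natCast_dvd_natCast.1 ((Int.natCast_dvd_natCast.2 hpd).trans (Int.gcd_dvd_right _ _))
    have hN1 : (N : ℤ) ∣ a - 1 := by
      rw [← ZMod.intCast_zmod_eq_zero_iff_dvd]; simp [ha1]
    have : (p : ℤ) ∣ 1 := by
      have := dvd_sub hpa ((Int.natCast_dvd_natCast.2 (hs p hp hpn)).trans hN1)
      simpa using this
    exact hp.not_dvd_one (by exact_mod_cast this)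
  obtain ⟨u, v, huv⟩ := hcop
  let j' : Fin n := ⟨((u * b : ℤ) : ZMod n).val, ZMod.val_lt _⟩
  have hj' : (n : ℤ) ∣ u * b - (j' : ℕ) := by
    rw [← ZMod.intCast_zmod_eq_zero_iff_dvd]; simp [j']
  obtain ⟨w, hw⟩ := hj'
  have hdet' : (!![a, v * b + a * w; n * γ 1 0, γ 1 1 - γ 1 0 * (j' : ℕ)]).det = 1 := by
    rw [det_fin_two_of]
    linear_combination hdet - γ 1 0 * b * huv + γ 1 0 * a * hw
  let g : SL(2, ℤ) := ⟨_, hdet'⟩
  refine ⟨j', g, ?_, ?_⟩
  · rw [Gamma1_mem]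
    simp [g, ha1, h2, h3]
  · ext x y
    fin_cases x <;> fin_cases y <;> simp [g, repU, Matrix.mul_apply, Fin.sum_univ_two]
    · rw [ha]
    · linear_combination - b * huv + a * hw
    · ring

theorem repU_inj {n : ℕ} {j j' : Fin n} {g : SL(2, ℤ)} (h : repU n j = g.1 * repU n j') :
    j = j' := by
  have h0 := congrFun (congrFun h 0) 0
  have h1 := congrFun (congrFun h 0) 1
  simp [repU, Matrix.mul_apply, Fin.sum_univ_two] at h0 h1
  rw [← h0, one_mul] at h1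
  have hj := j.2
  have hj' := j'.2
  have hd : (n : ℤ) ∣ (j : ℕ) - (j' : ℕ) := ⟨g 0 1, by linear_combination h1⟩
  have := Int.eq_zero_of_abs_lt_dvd hd (by rw [abs_lt]; constructor <;> omega)
  ext
  omega

theorem exists_U [NeZero N] {n : ℕ} (hn : n ≠ 0) (hs : ∀ p : ℕ, p.Prime → p ∣ n → p ∣ N)
    {i : ℕ} (f : MF N i) : ∃ g : MF N i, ∀ m, aCo m g = aCo (n * m) f := by
  have hn0 : (n : ℤ) ≠ 0 := by exact_mod_cast hn
  have hd : ∀ r, (repU n r).det ≠ 0 := fun r => by rw [repU_det]; exact hn0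
  have hsl : ∀ A : SL(2, ℤ), A.1.det ≠ 0 := fun A => by rw [A.2]; exact one_ne_zero
  refine ⟨mkMF (∑ j : Fin n, (⇑f) ∣[(i : ℤ)] toGL (repU n j)) (fun γ hγ => ?_)
    (.sum fun r _ => (ModularFormClass.holo f).slash _ _)
    (fun c hc => isBoundedAt_sum _ fun r _ => bdd_slash_toGL f _ hc), fun m => ?_⟩
  · choose p g hg key using fun j => repU_mul hn hs j hγ
    have hinj : Function.Injective p := fun r s hrs => by
      refine repU_inj (g := g r * (g s)⁻¹) ?_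
      have e1 : repU n r = (g r).1 * repU n (p r) * (γ⁻¹).1 := by
        rw [← key, Matrix.mul_assoc, ← Matrix.SpecialLinearGroup.coe_mul, mul_inv_cancel]; simp
      have e2 : repU n s = (g s).1 * repU n (p s) * (γ⁻¹).1 := by
        rw [← key, Matrix.mul_assoc, ← Matrix.SpecialLinearGroup.coe_mul, mul_inv_cancel]; simp
      rw [e1, e2, hrs, ← Matrix.mul_assoc, ← Matrix.mul_assoc,
        ← Matrix.SpecialLinearGroup.coe_mul, inv_mul_cancel_right]
    rw [SlashAction.sum_slash]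
    refine Eq.trans ?_ ((Finite.injective_iff_bijective.1 hinj).sum_comp _)
    refine Finset.sum_congr rfl fun r _ => ?_
    rw [ModularForm.SL_slash, ← SlashAction.slash_mul, ← toGL_SL, ← toGL_mul (hd r) (hsl γ), key,
      toGL_mul (hsl _) (hd _), SlashAction.slash_mul, toGL_SL, ← ModularForm.SL_slash,
      MF_slash _ (hg r)]
  · rw [aCo_eq, aCo_eq]
    refine qexp_unique _ (c := fun m => (qexp N i f).coeff (n * m)) (fun τ => ?_) m
    have e : ∑ j : Fin n, (⇑f) ∣[(i : ℤ)] toGL (repU n j) =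
        ∑ j ∈ Finset.range n, (⇑f) ∣[(i : ℤ)] upperMat n j hn := by
      rw [← Fin.sum_univ_eq_sum_range (fun j => (⇑f) ∣[(i : ℤ)] upperMat n j hn)]
      refine Finset.sum_congr rfl fun j _ => ?_
      rw [repU, toGL_upper]
    rw [coe_mkMF, e]
    exact hasSum_upper hn f τ

/-- the matrices `(L j; 0 L)` -/
def trM (L j : ℕ) : Matrix (Fin 2) (Fin 2) ℤ := !![(L : ℤ), (j : ℤ); 0, (L : ℤ)]

theorem trM_det (L j : ℕ) : (trM L j).det = L * L := by simp [trM, det_fin_two]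

theorem slash_trM {L : ℕ} (hL : L ≠ 0) (j : ℕ) (k : ℤ) (F : ℍ → ℂ) (τ : ℍ) :
    ∃ τ' : ℍ, (τ' : ℂ) = τ + j / L ∧ (F ∣[k] toGL (trM L j)) τ = (L : ℂ) ^ (k - 2) * F τ' := by
  have hL' : (L : ℂ) ≠ 0 := by exact_mod_cast hL
  have hd' : (trM L j).det ≠ 0 := by rw [trM_det]; exact_mod_cast mul_ne_zero hL hL
  have hdet : (toGL (trM L j)).det.val = L * L := by rw [toGL_det hd', trM_det]; simp
  have hpos : 0 < (toGL (trM L j)).det.val := by rw [hdet]; positivity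
  have hden : denom (toGL (trM L j)) τ = L := by
    simp only [denom, toGL_apply hd']; simp [trM]
  have hnum : num (toGL (trM L j)) τ = L * τ + j := by
    simp only [num, toGL_apply hd']; simp [trM]
  refine ⟨toGL (trM L j) • τ, by rw [coe_smul_of_det_pos hpos, hden, hnum]; field_simp, ?_⟩
  rw [ModularForm.slash_apply, hden]
  simp only [σ, hpos, if_true]
  rw [hdet, abs_of_nonneg (by positivity)]
  push_cast
  rw [mul_assoc, mul_zpow, ← zpow_add₀ hL', ← zpow_add₀ hL',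
    show k - 1 + (k - 1) + -k = k - 2 by ring, mul_comm]
  rfl

theorem trM_inv {L : ℕ} [NeZero L] {i : ℕ} (g : MF L i) (j : ℕ) {γ : SL(2, ℤ)}
    (hc : (L : ℤ) * L ∣ γ 1 0) (ha : (L : ℤ) ∣ γ 0 0 - 1) (hd : (L : ℤ) ∣ γ 1 1 - 1) :
    ((⇑g) ∣[(i : ℤ)] toGL (trM L j)) ∣[(i : ℤ)] γ = (⇑g) ∣[(i : ℤ)] toGL (trM L j) := by
  obtain ⟨c, hc⟩ := hc
  obtain ⟨a, ha⟩ := ha
  obtain ⟨d, hd⟩ := hd
  have ha' : γ 0 0 = 1 + L * a := by linear_combination ha
  have hd' : γ 1 1 = 1 + L * d := by linear_combination hd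
  have hdet := γ.2
  rw [det_fin_two, hc, ha', hd'] at hdet
  have hdet' : (!![1 + L * a + j * (L * c), γ 0 1 + j * (d - a) - j * j * c;
      L * L * c, 1 + L * d - j * (L * c)] : Matrix (Fin 2) (Fin 2) ℤ).det = 1 := by
    rw [det_fin_two_of]
    linear_combination hdet
  let h : SL(2, ℤ) := ⟨_, hdet'⟩
  have hh : h ∈ Gamma1 L := by
    rw [Gamma1_mem]
    simp [h]
  have key : trM L j * γ.1 = h.1 * trM L j := by
    ext x y
    fin_cases x <;> fin_cases y <;> simp [h, trM, Matrix.mul_apply, Fin.sum_univ_two, hc, ha', hd']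
      <;> ring
  have hL : (trM L j).det ≠ 0 := by
    rw [trM_det]; exact_mod_cast mul_ne_zero (NeZero.ne L) (NeZero.ne L)
  have hsl : ∀ A : SL(2, ℤ), A.1.det ≠ 0 := fun A => by rw [A.2]; exact one_ne_zero
  rw [ModularForm.SL_slash, ← SlashAction.slash_mul, ← toGL_SL, ← toGL_mul hL (hsl γ), key,
    toGL_mul (hsl _) hL, SlashAction.slash_mul, toGL_SL, ← ModularForm.SL_slash, MF_slash _ hh]

theorem exists_fourier {L : ℕ} (hL : L ≠ 0) (χ : ℕ → ℂ) (hχ : ∀ n, χ (n % L) = χ n) :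
    ∃ c : ℕ → ℂ, ∀ n, ∑ j ∈ Finset.range L,
      c j * (Complex.exp (2 * π * Complex.I / L) ^ j) ^ n = χ n := by
  have hL' : (L : ℂ) ≠ 0 := by exact_mod_cast hL
  set ζ := Complex.exp (2 * π * Complex.I / L)
  refine ⟨fun j => ∑ m ∈ Finset.range L, (L : ℂ)⁻¹ * χ m * (ζ ^ (L - m)) ^ j, fun n => ?_⟩
  simp_rw [Finset.sum_mul]
  rw [Finset.sum_comm]
  have e : ∀ m ∈ Finset.range L, ∑ j ∈ Finset.range L,
      (L : ℂ)⁻¹ * χ m * (ζ ^ (L - m)) ^ j * (ζ ^ j) ^ n = if m = n % L then χ m else 0 := by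
    intro m hm
    have hm' := Finset.mem_range.1 hm
    have e1 : ∀ j, (L : ℂ)⁻¹ * χ m * (ζ ^ (L - m)) ^ j * (ζ ^ j) ^ n =
        (L : ℂ)⁻¹ * χ m * (ζ ^ (L - m + n)) ^ j := fun j => by
      rw [mul_assoc, ← pow_mul ζ j n, mul_comm j n, pow_mul, ← mul_pow, ← pow_add]
    simp_rw [e1]
    rw [← Finset.mul_sum, sum_root_pow hL]
    have e2 : L ∣ L - m + n ↔ m = n % L := by
      rw [← Nat.mod_add_div n L, Nat.add_mul_mod_self_left, Nat.mod_mod, ← add_assoc,
        Nat.dvd_add_left (dvd_mul_right _ _)]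
      have := Nat.mod_lt n (Nat.pos_of_ne_zero hL)
      constructor
      · rintro ⟨t, ht⟩
        have h1 : 0 < t := Nat.pos_of_ne_zero (by rintro rfl; omega)
        have h2 : t < 2 := by
          by_contra h3
          have : L * 2 ≤ L * t := Nat.mul_le_mul_left _ (by omega)
          omega
        obtain rfl : t = 1 := by omega
        omega
      · intro h
        exact ⟨1, by omega⟩
    simp only [e2]
    split_ifs
    · field_simp
    · simp
  rw [Finset.sum_congr rfl e, Finset.sum_ite_eq' , if_pos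
    (Finset.mem_range.2 (Nat.mod_lt n (Nat.pos_of_ne_zero hL))), hχ]

theorem MF_deplete (hN : Odd N) (i n₀ : ℕ) (f : MF N i) (hs : Smooth N n₀) :
    ∃ g : ℍ → ℂ, IsMF i (GamS (3 * N ^ 2)) g ∧
      HasQ 1 g (PowerSeries.mk fun n => if n.Coprime (2 * N) then aCo (n₀ * n) f else 0) := by
  have : NeZero N := ⟨hN.pos.ne'⟩
  have hL : 2 * N ≠ 0 := NeZero.ne _
  have hL' : ((2 * N : ℕ) : ℂ) ≠ 0 := by exact_mod_cast hL
  obtain ⟨g, hg⟩ := exists_U hs.1 hs.2 (upLevel (dvd_mul_left N 2) f)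
  have hg' : ∀ m, aCo m g = aCo (n₀ * m) f := hg
  obtain ⟨c, hc⟩ := exists_fourier hL (fun n => if n.Coprime (2 * N) then 1 else 0)
    (fun n => by simp only [Nat.Coprime, ← Nat.gcd_rec, Nat.gcd_comm n])
  refine ⟨∑ j ∈ Finset.range (2 * N), (c j * ((2 * N : ℕ) : ℂ) ^ (2 - (i : ℤ))) •
    (⇑g) ∣[(i : ℤ)] toGL (trM (2 * N) j), IsMF.sum _ fun j _ => IsMF.smul _ ⟨?_, ?_, ?_⟩, ?_⟩
  · exact (ModularFormClass.holo g).slash _ _
  · rintro γ ⟨h1, h2⟩
    obtain ⟨e1, -, e3, e4⟩ := Gamma_mem.1 h1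
    have e5 : (4 : ℤ) ∣ γ 1 0 := by
      exact_mod_cast (ZMod.intCast_zmod_eq_zero_iff_dvd _ 4).1 (Gamma0_mem.1 h2)
    have e3' : (N : ℤ) ^ 2 ∣ γ 1 0 := (dvd_mul_left _ 3).trans
      (by exact_mod_cast (ZMod.intCast_zmod_eq_zero_iff_dvd _ _).1 e3)
    have hN' : Odd (N : ℤ) := by exact_mod_cast hN
    have h2N : IsCoprime (2 : ℤ) N := Int.isCoprime_two_left.2 hN'
    have hdet := γ.2
    rw [det_fin_two] at hdet
    have hodd : Odd (γ 0 0 * γ 1 1) := by
      obtain ⟨t, ht⟩ := e5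
      exact ⟨2 * t * γ 0 1, by rw [ht] at hdet; linear_combination hdet⟩
    have aux : ∀ x : ℤ, Odd x → ((x : ℤ) : ZMod (3 * N ^ 2)) = 1 → ((2 * N : ℕ) : ℤ) ∣ x - 1 := by
      intro x hx h
      push_cast
      refine h2N.mul_dvd (even_iff_two_dvd.1 (hx.sub_odd odd_one)) ?_
      have : ((3 * N ^ 2 : ℕ) : ℤ) ∣ x - 1 := by
        rw [← ZMod.intCast_zmod_eq_zero_iff_dvd, Int.cast_sub, h]; simp
      refine dvd_trans ?_ this
      exact ⟨3 * N, by push_cast; ring⟩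
    refine trM_inv g j ?_ (aux _ (Int.odd_mul.1 hodd).1 e1) (aux _ (Int.odd_mul.1 hodd).2 e4)
    have : IsCoprime (4 : ℤ) ((N : ℤ) ^ 2) := by
      simpa using h2N.pow (m := 2) (n := 2)
    have := this.mul_dvd e5 e3'
    push_cast
    rwa [show (2 * N : ℤ) * (2 * N) = 4 * N ^ 2 by ring]
  · intro γ
    refine bdd_slash_toGL g _ (c := (γ : GL (Fin 2) ℝ) • OnePoint.infty) ?_ _ rfl
    rw [← toGL_SL]
    exact isCusp_toGL Fact.out _
  · intro τ
    have h1 : ∀ j ∈ Finset.range (2 * N), HasSum (fun m => c j *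
        (Complex.exp (2 * π * Complex.I / (2 * N : ℕ)) ^ j) ^ m *
          (aCo m g * Complex.exp (2 * π * Complex.I * τ) ^ m))
        (((c j * ((2 * N : ℕ) : ℂ) ^ (2 - (i : ℤ))) • (⇑g) ∣[(i : ℤ)] toGL (trM (2 * N) j)) τ) := by
      intro j _
      obtain ⟨τ', e1, e2⟩ := slash_trM hL j i g τ
      rw [Pi.smul_apply, e2, smul_eq_mul, mul_assoc (c j), ← mul_assoc _ _ (g τ'), ← zpow_add₀ hL',
        show 2 - (i : ℤ) + (i - 2) = 0 by ring, zpow_zero, one_mul]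
      refine hasSum_of_eq ((hasSum_qexp g τ').mul_left (c j)) fun m => ?_
      rw [e1, ← Complex.exp_nat_mul, mul_assoc (c j), mul_left_comm _ (aCo m g), ← mul_pow,
        ← Complex.exp_add, aCo_eq]
      congr 4
      ring
    have h2 := hasSum_sum h1
    rw [← Finset.sum_apply] at h2
    refine hasSum_of_eq h2 fun m => ?_
    rw [← Finset.sum_mul, hc, PowerSeries.coeff_mk, hg']
    simp [Function.Periodic.qParam]

end Crest.Agent.R007
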