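import Mathlib
import Crest.Prelude.Def_HeckeTwo

/-! Row 7, block H: integer matrices acting on modular forms, diamond operators. -/

set_option autoImplicit false
set_option linter.dupNamespace false

namespace Crest.Agent.R007

open Crest.NumberTheoryR.HeckeTwoAdic CongruenceSubgroup UpperHalfPlane Matrix
open scoped ModularForm MatrixGroups Manifold

/-- an integer matrix of non-zero determinant as an element of `GL₂(ℝ)` (junk value `1`) -/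
noncomputable def toGL (M : Matrix (Fin 2) (Fin 2) ℤ) : GL (Fin 2) ℝ :=
  if h : M.det ≠ 0 then
    (GeneralLinearGroup.mkOfDetNeZero (M.map (Int.castRingHom ℚ)) (by
      rw [← RingHom.mapMatrix_apply, ← RingHom.map_det]; simpa using h)).map (Rat.castHom ℝ)
  else 1

theorem toGL_apply {M : Matrix (Fin 2) (Fin 2) ℤ} (h : M.det ≠ 0) (a b : Fin 2) :
    (toGL M) a b = (M a b : ℝ) := by
  simp [toGL, h, GeneralLinearGroup.mkOfDetNeZero, GeneralLinearGroup.mk'']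

theorem toGL_mul {A B : Matrix (Fin 2) (Fin 2) ℤ} (hA : A.det ≠ 0) (hB : B.det ≠ 0) :
    toGL (A * B) = toGL A * toGL B := by
  have hAB : (A * B).det ≠ 0 := by rw [det_mul]; exact mul_ne_zero hA hB
  ext a b
  rw [toGL_apply hAB, GeneralLinearGroup.coe_mul, Matrix.mul_apply, Matrix.mul_apply]
  simp [toGL_apply hA, toGL_apply hB]

theorem toGL_SL (γ : SL(2, ℤ)) : toGL γ.1 = (γ : GL (Fin 2) ℝ) := by
  have h : γ.1.det ≠ 0 := by rw [γ.2]; exact one_ne_zero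
  ext a b
  rw [toGL_apply h]
  simp

theorem toGL_det {M : Matrix (Fin 2) (Fin 2) ℤ} (h : M.det ≠ 0) :
    (toGL M).det.val = (M.det : ℝ) := by
  rw [GeneralLinearGroup.val_det_apply, det_fin_two, det_fin_two]
  simp [toGL_apply h]

theorem smul_slash_toGL {M : Matrix (Fin 2) (Fin 2) ℤ} (h : 0 < M.det) (k : ℤ) (f : ℍ → ℂ)
    (c : ℂ) : (c • f) ∣[k] toGL M = c • f ∣[k] toGL M := by
  rw [ModularForm.smul_slash]
  have : 0 < (toGL M).det.val := by rw [toGL_det h.ne']; exact_mod_cast h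
  simp only [σ, this, if_true]
  rfl

theorem isCusp_toGL {Γ : Subgroup (GL (Fin 2) ℝ)} [Γ.IsArithmetic] {c : OnePoint ℝ}
    (hc : IsCusp c Γ) (M : Matrix (Fin 2) (Fin 2) ℤ) : IsCusp (toGL M • c) Γ := by
  unfold toGL
  split_ifs with h
  · rw [Subgroup.IsArithmetic.isCusp_iff_isCusp_SL2Z, isCusp_SL2Z_iff] at hc ⊢
    obtain ⟨c, rfl⟩ := hc
    exact ⟨_ • c, by rw [← Rat.coe_castHom, OnePoint.map_smul]⟩
  · simpa using hc

theorem toGL_upper (ℓ j : ℕ) (hℓ : ℓ ≠ 0) :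
    toGL !![1, (j : ℤ); 0, (ℓ : ℤ)] = upperMat ℓ j hℓ := by
  have h : (!![1, (j : ℤ); 0, (ℓ : ℤ)]).det ≠ 0 := by simpa [det_fin_two] using hℓ
  ext a b
  rw [toGL_apply h]
  fin_cases a <;> fin_cases b <;>
    simp [upperMat, mat2, GeneralLinearGroup.mkOfDetNeZero, GeneralLinearGroup.mk'']

theorem toGL_lower (ℓ : ℕ) (hℓ : ℓ ≠ 0) :
    toGL !![(ℓ : ℤ), 0; 0, 1] = lowerMat ℓ hℓ := by
  have h : (!![(ℓ : ℤ), 0; 0, 1]).det ≠ 0 := by simpa [det_fin_two] using hℓ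
  ext a b
  rw [toGL_apply h]
  fin_cases a <;> fin_cases b <;>
    simp [lowerMat, mat2, GeneralLinearGroup.mkOfDetNeZero, GeneralLinearGroup.mk'']

variable {N : ℕ}

theorem MF_slash {i : ℕ} (f : MF N i) {γ : SL(2, ℤ)} (hγ : γ ∈ Gamma1 N) :
    (⇑f) ∣[(i : ℤ)] γ = ⇑f :=
  SlashInvariantFormClass.slash_action_eq f _ ⟨γ, hγ, rfl⟩

/-- a modular form of level `Γ₁(N)` from a function -/
def mkMF {i : ℕ} (F : ℍ → ℂ) (hinv : ∀ γ ∈ Gamma1 N, F ∣[(i : ℤ)] γ = F) (hhol : MDiff F)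
    (hb : ∀ c : OnePoint ℝ, IsCusp c ((Gamma1 N : Subgroup SL(2, ℤ)) : Subgroup (GL (Fin 2) ℝ)) →
      c.IsBoundedAt F i) : MF N i where
  toFun := F
  slash_action_eq' := by
    rintro _ ⟨γ, hγ, rfl⟩
    exact hinv γ hγ
  holo' := hhol
  bdd_at_cusps' hc := hb _ hc

@[simp] theorem coe_mkMF {i : ℕ} (F : ℍ → ℂ) (hinv hhol hb) :
    ⇑(mkMF (N := N) (i := i) F hinv hhol hb) = F := rfl

theorem bdd_slash_toGL [NeZero N] {i : ℕ} (f : MF N i) (M : Matrix (Fin 2) (Fin 2) ℤ)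
    {c : OnePoint ℝ}
    (hc : IsCusp c ((Gamma1 N : Subgroup SL(2, ℤ)) : Subgroup (GL (Fin 2) ℝ))) :
    c.IsBoundedAt ((⇑f) ∣[(i : ℤ)] toGL M) i := by
  rw [← OnePoint.IsBoundedAt.smul_iff]
  exact ModularFormClass.bdd_at_cusps f (isCusp_toGL hc M)

theorem G0_det {γ : SL(2, ℤ)} (hγ : γ ∈ Gamma0 N) :
    ((γ 0 0 : ℤ) : ZMod N) * ((γ 1 1 : ℤ) : ZMod N) = 1 := by
  have h := γ.2
  rw [det_fin_two] at h
  have h' := congrArg (Int.cast : ℤ → ZMod N) h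
  push_cast at h'
  rw [Gamma0_mem.1 hγ] at h'
  simpa using h'

theorem mem_Gamma1_of {γ : SL(2, ℤ)} (hγ : γ ∈ Gamma0 N) (h : ((γ 1 1 : ℤ) : ZMod N) = 1) :
    γ ∈ Gamma1 N := by
  have := G0_det hγ
  rw [h, mul_one] at this
  exact (Gamma1_mem N γ).2 ⟨this, h, Gamma0_mem.1 hγ⟩

theorem G0_mul_11 {A B : SL(2, ℤ)} (hA : A ∈ Gamma0 N) :
    (((A * B) 1 1 : ℤ) : ZMod N) = ((A 1 1 : ℤ) : ZMod N) * ((B 1 1 : ℤ) : ZMod N) := by
  have := Gamma0_mem.1 hA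
  simp [Matrix.mul_apply, Fin.sum_univ_two, this]

theorem G0_inv_11 (A : SL(2, ℤ)) : ((A⁻¹ 1 1 : ℤ) : ZMod N) = ((A 0 0 : ℤ) : ZMod N) := by
  simp [Matrix.SpecialLinearGroup.coe_inv, adjugate_fin_two]

theorem mul_inv_mem_Gamma1 {A B : SL(2, ℤ)} (hA : A ∈ Gamma0 N) (hB : B ∈ Gamma0 N)
    (h : ((A 1 1 : ℤ) : ZMod N) = ((B 1 1 : ℤ) : ZMod N)) : A * B⁻¹ ∈ Gamma1 N := by
  refine mem_Gamma1_of (mul_mem hA (inv_mem hB)) ?_
  rw [G0_mul_11 hA, G0_inv_11, h, mul_comm, G0_det hB]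

theorem conj_mem_Gamma1 {γ g : SL(2, ℤ)} (hγ : γ ∈ Gamma0 N) (hg : g ∈ Gamma1 N) :
    γ * g * γ⁻¹ ∈ Gamma1 N := by
  refine mul_inv_mem_Gamma1 (mul_mem hγ (Gamma1_in_Gamma0 N hg)) hγ ?_
  rw [G0_mul_11 hγ, ((Gamma1_mem N g).1 hg).2.1, mul_one]

theorem slash_eq_of_11 {i : ℕ} (f : MF N i) {A B : SL(2, ℤ)} (hA : A ∈ Gamma0 N)
    (hB : B ∈ Gamma0 N) (h : ((A 1 1 : ℤ) : ZMod N) = ((B 1 1 : ℤ) : ZMod N)) :
    (⇑f) ∣[(i : ℤ)] A = (⇑f) ∣[(i : ℤ)] B := by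
  have e : A = (A * B⁻¹) * B := by group
  conv_lhs => rw [e, SlashAction.slash_mul, MF_slash f (mul_inv_mem_Gamma1 hA hB h)]

variable [NeZero N]

/-- the action of an element of `Γ₀(N)` on forms of level `Γ₁(N)` -/
noncomputable def slashG0 (γ : SL(2, ℤ)) (hγ : γ ∈ Gamma0 N) (i : ℕ) : MF N i →ₗ[ℂ] MF N i where
  toFun f := mkMF ((⇑f) ∣[(i : ℤ)] γ)
    (fun g hg => by
      rw [← SlashAction.slash_mul, show γ * g = (γ * g * γ⁻¹) * γ by group, SlashAction.slash_mul,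
        MF_slash f (conj_mem_Gamma1 hγ hg)])
    ((ModularFormClass.holo f).slash _ _)
    (fun c hc => by
      rw [ModularForm.SL_slash, ← toGL_SL]; exact bdd_slash_toGL f _ hc)
  map_add' f g := by
    ext τ
    simp [FunLike.coe_add]
  map_smul' c f := by
    ext τ
    simp [FunLike.coe_smul]

@[simp] theorem coe_slashG0 (γ : SL(2, ℤ)) (hγ : γ ∈ Gamma0 N) (i : ℕ) (f : MF N i) :
    ⇑(slashG0 γ hγ i f) = (⇑f) ∣[(i : ℤ)] γ := rfl

variable (N) in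
open Classical in
/-- a matrix of `Γ₀(N)` with lower right entry `u` (the identity if `u` is not a unit) -/
noncomputable def diaMat (u : ZMod N) : SL(2, ℤ) :=
  if h : ∃ γ : SL(2, ℤ), γ ∈ Gamma0 N ∧ ((γ 1 1 : ℤ) : ZMod N) = u then h.choose else 1

omit [NeZero N] in
theorem diaMat_mem (u : ZMod N) : diaMat N u ∈ Gamma0 N := by
  unfold diaMat
  split_ifs with h
  · exact h.choose_spec.1
  · exact one_mem _

omit [NeZero N] in
theorem diaMat_11_of {u : ZMod N} {γ : SL(2, ℤ)} (hγ : γ ∈ Gamma0 N)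
    (h : ((γ 1 1 : ℤ) : ZMod N) = u) : (((diaMat N u) 1 1 : ℤ) : ZMod N) = u := by
  have h' : ∃ γ : SL(2, ℤ), γ ∈ Gamma0 N ∧ ((γ 1 1 : ℤ) : ZMod N) = u := ⟨γ, hγ, h⟩
  unfold diaMat
  rw [dif_pos h']
  exact h'.choose_spec.2

theorem exists_G0_of_isUnit {u : ZMod N} (hu : IsUnit u) :
    ∃ γ : SL(2, ℤ), γ ∈ Gamma0 N ∧ ((γ 1 1 : ℤ) : ZMod N) = u := by
  obtain ⟨v, hv⟩ := hu.exists_right_inv
  have h : (((v.val : ℤ) * (u.val : ℤ) - 1 : ℤ) : ZMod N) = 0 := by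
    push_cast
    simp [mul_comm v, hv]
  obtain ⟨t, ht⟩ := (ZMod.intCast_zmod_eq_zero_iff_dvd _ _).1 h
  refine ⟨⟨!![(v.val : ℤ), t; (N : ℤ), (u.val : ℤ)], ?_⟩, ?_, ?_⟩
  · rw [det_fin_two_of]; linear_combination ht
  · rw [Gamma0_mem]; simp
  · simp

theorem diaMat_11 {u : ZMod N} (hu : IsUnit u) : (((diaMat N u) 1 1 : ℤ) : ZMod N) = u := by
  obtain ⟨γ, hγ, h⟩ := exists_G0_of_isUnit hu
  exact diaMat_11_of hγ h

omit [NeZero N] in
theorem diaMat_of_not_isUnit {u : ZMod N} (hu : ¬ IsUnit u) : diaMat N u = 1 := by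
  unfold diaMat
  rw [dif_neg]
  rintro ⟨γ, hγ, rfl⟩
  exact hu (IsUnit.of_mul_eq_one_right _ (G0_det hγ))

variable (N) in
/-- the diamond operator `⟨u⟩` (the identity if `u` is not a unit) -/
noncomputable def diaZ (u : ZMod N) (i : ℕ) : MF N i →ₗ[ℂ] MF N i :=
  slashG0 (diaMat N u) (diaMat_mem u) i

variable (N) in
/-- the diamond family of the statement -/
noncomputable def dia (d : ℕ) (i : ℕ) : MF N i →ₗ[ℂ] MF N i := diaZ N (d : ZMod N) i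

theorem coe_diaZ {u : ZMod N} {γ : SL(2, ℤ)} (hγ : γ ∈ Gamma0 N)
    (h : ((γ 1 1 : ℤ) : ZMod N) = u) (i : ℕ) (f : MF N i) :
    ⇑(diaZ N u i f) = (⇑f) ∣[(i : ℤ)] γ :=
  slash_eq_of_11 f (diaMat_mem u) hγ ((diaMat_11_of hγ h).trans h.symm)

theorem isDiamondFamily_dia : IsDiamondFamily N (dia N) :=
  fun _ i _ hγ h f => coe_diaZ hγ h i f

theorem slashG0_eq_diaZ (γ : SL(2, ℤ)) (hγ : γ ∈ Gamma0 N) (i : ℕ) :
    slashG0 γ hγ i = diaZ N ((γ 1 1 : ℤ) : ZMod N) i := by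
  ext f : 1
  exact DFunLike.coe_injective (coe_diaZ hγ rfl i f).symm

theorem diaZ_one (i : ℕ) : diaZ N 1 i = 1 := by
  ext f : 1
  apply DFunLike.coe_injective
  rw [coe_diaZ (one_mem _) (by simp) i f]
  simp

theorem diaZ_of_not_isUnit {u : ZMod N} (hu : ¬ IsUnit u) (i : ℕ) : diaZ N u i = 1 := by
  ext f : 1
  apply DFunLike.coe_injective
  simp [diaZ, diaMat_of_not_isUnit hu]

theorem diaZ_mul {u v : ZMod N} (hu : IsUnit u) (hv : IsUnit v) (i : ℕ) :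
    diaZ N (u * v) i = diaZ N u i * diaZ N v i := by
  ext f : 1
  apply DFunLike.coe_injective
  rw [coe_diaZ (mul_mem (diaMat_mem v) (diaMat_mem u))
    (by rw [G0_mul_11 (diaMat_mem v), diaMat_11 hu, diaMat_11 hv, mul_comm]) i f,
    SlashAction.slash_mul]
  rfl

theorem diaZ_comm (u v : ZMod N) (i : ℕ) : Commute (diaZ N u i) (diaZ N v i) := by
  by_cases hu : IsUnit u
  · by_cases hv : IsUnit v
    · rw [Commute, SemiconjBy, ← diaZ_mul hu hv, ← diaZ_mul hv hu, mul_comm]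
    · rw [diaZ_of_not_isUnit hv]; exact Commute.one_right _
  · rw [diaZ_of_not_isUnit hu]; exact Commute.one_left _

/-- `⟨-1⟩` acts on weight `i` by `(-1)^i` -/
theorem diaZ_neg_one (i : ℕ) : diaZ N (-1) i = ((-1 : ℂ) ^ i) • 1 := by
  ext f : 1
  apply DFunLike.coe_injective
  rw [coe_diaZ (γ := -1) (by rw [Gamma0_mem]; simp) (by simp) i f]
  ext τ
  have h1 : (-1 : SL(2, ℤ)) • τ = τ := by
    rw [ModularGroup.SL_neg_smul, one_smul]
  rw [ModularForm.SL_slash_apply, h1]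
  have h2 : denom ((-1 : SL(2, ℤ)) : GL (Fin 2) ℝ) τ = -1 := by simp [denom]
  rw [h2]
  simp [FunLike.coe_smul, mul_comm, ← inv_pow]

end Crest.Agent.R007
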