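import Crest.Agent.R007.HDia

/-! Row 7, block H: the Hecke operators `T_ℓ`. -/

set_option autoImplicit false
set_option linter.dupNamespace false

namespace Crest.Agent.R007

open Crest.NumberTheoryR.HeckeTwoAdic CongruenceSubgroup UpperHalfPlane Matrix
open scoped ModularForm MatrixGroups Manifold

variable {N : ℕ}

variable (N) in
/-- the coset representatives -/
noncomputable def rep (ℓ : ℕ) : Option (Fin ℓ) → Matrix (Fin 2) (Fin 2) ℤ
  | some j => !![1, ((j : ℕ) : ℤ); 0, (ℓ : ℤ)]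
  | none => (diaMat N (ℓ : ZMod N)).1 * !![(ℓ : ℤ), 0; 0, 1]

variable (N) in
/-- the double coset -/
def InD (ℓ : ℕ) (M : Matrix (Fin 2) (Fin 2) ℤ) : Prop :=
  M.det = ℓ ∧ ((M 1 0 : ℤ) : ZMod N) = 0 ∧ ((M 0 0 : ℤ) : ZMod N) = 1

theorem rep_det (ℓ : ℕ) (r : Option (Fin ℓ)) : (rep N ℓ r).det = ℓ := by
  cases r with
  | none => rw [rep, det_mul, (diaMat N (ℓ : ZMod N)).2]; simp [det_fin_two]
  | some j => simp [rep, det_fin_two]

theorem rep_inD [NeZero N] {ℓ : ℕ} (hu : IsUnit (ℓ : ZMod N)) (r : Option (Fin ℓ)) :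
    InD N ℓ (rep N ℓ r) := by
  refine ⟨rep_det ℓ r, ?_⟩
  cases r with
  | none =>
    have h1 := Gamma0_mem.1 (diaMat_mem (N := N) (ℓ : ZMod N))
    have h2 := G0_det (diaMat_mem (N := N) (ℓ : ZMod N))
    rw [diaMat_11 hu] at h2
    simp [rep, Matrix.mul_apply, Fin.sum_univ_two, h1, h2]
  | some j => simp [rep]

theorem InD.conj {ℓ : ℕ} {M : Matrix (Fin 2) (Fin 2) ℤ} (hM : InD N ℓ M) {γ : SL(2, ℤ)}
    (hγ : γ ∈ Gamma0 N) : InD N ℓ ((γ⁻¹).1 * M * γ.1) := by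
  obtain ⟨h1, h2, h3⟩ := hM
  have h4 := Gamma0_mem.1 hγ
  have h5 := G0_det hγ
  refine ⟨by rw [det_mul, det_mul, (γ⁻¹).2, γ.2, h1]; simp, ?_, ?_⟩
  · simp [Matrix.SpecialLinearGroup.coe_inv, adjugate_fin_two, Matrix.mul_apply,
      Fin.sum_univ_two, Matrix.vecMul, dotProduct, h2, h4]
  · simp [Matrix.SpecialLinearGroup.coe_inv, adjugate_fin_two, Matrix.mul_apply,
      Fin.sum_univ_two, Matrix.vecMul, dotProduct, h2, h3, h4]
    rw [mul_comm]; exact h5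

theorem exists_col {ℓ : ℕ} (hℓ : ℓ.Prime) {a b c d : ℤ} (h : a * d - b * c = ℓ)
    (hac : ¬ ((ℓ : ℤ) ∣ a ∧ (ℓ : ℤ) ∣ c)) :
    ∃ j : Fin ℓ, (ℓ : ℤ) ∣ b - a * (j : ℕ) ∧ (ℓ : ℤ) ∣ d - c * (j : ℕ) := by
  haveI := Fact.mk hℓ
  have h0 : (a : ZMod ℓ) * d - b * c = 0 := by
    have := congrArg (Int.cast : ℤ → ZMod ℓ) h
    simpa using this
  suffices ∃ j : ZMod ℓ, (b : ZMod ℓ) = a * j ∧ (d : ZMod ℓ) = c * j by
    obtain ⟨j, h1, h2⟩ := this
    refine ⟨⟨j.val, ZMod.val_lt j⟩, ?_, ?_⟩ <;>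
      rw [← ZMod.intCast_zmod_eq_zero_iff_dvd] <;> simp [h1, h2]
  simp only [← ZMod.intCast_zmod_eq_zero_iff_dvd] at hac
  by_cases ha : (a : ZMod ℓ) = 0
  · have hc : (c : ZMod ℓ) ≠ 0 := fun hc => hac ⟨ha, hc⟩
    refine ⟨d / c, ?_, by field_simp⟩
    rw [ha, zero_mul]
    rw [ha, zero_mul, zero_sub, neg_eq_zero, mul_eq_zero] at h0
    exact h0.resolve_right hc
  · refine ⟨b / a, by field_simp, ?_⟩
    field_simp
    linear_combination h0

theorem InD.exists_rep [NeZero N] {ℓ : ℕ} (hℓ : ℓ.Prime) (hu : IsUnit (ℓ : ZMod N))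
    {M : Matrix (Fin 2) (Fin 2) ℤ} (hM : InD N ℓ M) :
    ∃ r : Option (Fin ℓ), ∃ g ∈ Gamma1 N, M = g.1 * rep N ℓ r := by
  obtain ⟨h1, h2, h3⟩ := hM
  rw [det_fin_two] at h1
  have hℓ0 : (ℓ : ℤ) ≠ 0 := by exact_mod_cast hℓ.ne_zero
  by_cases hac : (ℓ : ℤ) ∣ M 0 0 ∧ (ℓ : ℤ) ∣ M 1 0
  · obtain ⟨⟨a, ha⟩, ⟨c, hc⟩⟩ := hac
    have hdet : (!![a, M 0 1; c, M 1 1]).det = 1 := by
      rw [det_fin_two_of]
      apply mul_left_cancel₀ hℓ0
      rw [ha, hc] at h1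
      linear_combination h1
    let h : SL(2, ℤ) := ⟨_, hdet⟩
    have hc0 : (c : ZMod N) = 0 := by
      rw [hc] at h2
      push_cast at h2
      exact (hu.mul_right_eq_zero).1 h2
    have hh : h ∈ Gamma0 N := by rw [Gamma0_mem]; simpa [h] using hc0
    have h11 : ((h 1 1 : ℤ) : ZMod N) = ℓ := by
      have e := G0_det hh
      rw [ha] at h3
      push_cast at h3
      have e0 : ((h 0 0 : ℤ) : ZMod N) = a := by simp [h]
      rw [e0] at e
      linear_combination (ℓ : ZMod N) * e - ((h 1 1 : ℤ) : ZMod N) * h3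
    refine ⟨none, h * (diaMat N (ℓ : ZMod N))⁻¹,
      mul_inv_mem_Gamma1 hh (diaMat_mem _) (h11.trans (diaMat_11 hu).symm), ?_⟩
    rw [rep, ← Matrix.mul_assoc, ← Matrix.SpecialLinearGroup.coe_mul, inv_mul_cancel_right]
    ext x y
    fin_cases x <;> fin_cases y <;> simp [h, Matrix.mul_apply, Fin.sum_univ_two, ha, hc, mul_comm]
  · obtain ⟨j, ⟨s, hs⟩, ⟨t, ht⟩⟩ := exists_col hℓ h1 hac
    have hdet : (!![M 0 0, s; M 1 0, t]).det = 1 := by
      rw [det_fin_two_of]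
      apply mul_left_cancel₀ hℓ0
      linear_combination h1 - M 0 0 * ht + M 1 0 * hs
    let h : SL(2, ℤ) := ⟨_, hdet⟩
    have hh : h ∈ Gamma0 N := by rw [Gamma0_mem]; simpa [h] using h2
    have e := G0_det hh
    have e0 : ((h 0 0 : ℤ) : ZMod N) = 1 := by simpa [h] using h3
    rw [e0, one_mul] at e
    refine ⟨some j, h, mem_Gamma1_of hh e, ?_⟩
    ext x y
    fin_cases x <;> fin_cases y <;> simp [h, rep, Matrix.mul_apply, Fin.sum_univ_two]
    · linear_combination hs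
    · linear_combination ht

theorem rep_some_ne_none {ℓ : ℕ} (hℓ : ℓ.Prime) (j : Fin ℓ) (g : SL(2, ℤ)) :
    rep N ℓ (some j) ≠ g.1 * rep N ℓ none := by
  intro h
  have h0 := congrFun (congrFun h 0) 0
  rw [rep, rep, ← Matrix.mul_assoc] at h0
  simp only [Matrix.mul_apply (N := !![(ℓ : ℤ), 0; 0, 1]), Fin.sum_univ_two] at h0
  simp at h0
  have : (ℓ : ℤ) ∣ 1 := ⟨_, h0.trans (mul_comm _ _)⟩
  exact hℓ.not_dvd_one (by exact_mod_cast this)

theorem rep_inj {ℓ : ℕ} (hℓ : ℓ.Prime) {r s : Option (Fin ℓ)} {g : SL(2, ℤ)}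
    (h : rep N ℓ r = g.1 * rep N ℓ s) : r = s := by
  cases r with
  | none =>
    cases s with
    | none => rfl
    | some j =>
      exfalso
      refine rep_some_ne_none (N := N) hℓ j g⁻¹ ?_
      rw [h, ← Matrix.mul_assoc, ← Matrix.SpecialLinearGroup.coe_mul, inv_mul_cancel]
      simp
  | some j =>
    cases s with
    | none => exact absurd h (rep_some_ne_none hℓ j g)
    | some j' =>
      have h0 := congrFun (congrFun h 0) 0
      have h1 := congrFun (congrFun h 0) 1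
      simp [rep, Matrix.mul_apply, Fin.sum_univ_two] at h0 h1
      rw [← h0, one_mul] at h1
      have hj := j.2
      have hj' := j'.2
      have hd : (ℓ : ℤ) ∣ (j : ℕ) - (j' : ℕ) := ⟨g 0 1, by linear_combination h1⟩
      have := Int.eq_zero_of_abs_lt_dvd hd (by rw [abs_lt]; constructor <;> omega)
      congr 1
      ext
      omega

variable [NeZero N]

variable (N) in
/-- the Hecke sum -/
noncomputable def heckeFun (ℓ i : ℕ) (F : ℍ → ℂ) : ℍ → ℂ :=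
  ∑ r : Option (Fin ℓ), F ∣[(i : ℤ)] toGL (rep N ℓ r)

theorem heckeFun_slash {ℓ : ℕ} (hℓ : ℓ.Prime) (hu : IsUnit (ℓ : ZMod N)) {i : ℕ} (f : MF N i)
    {γ : SL(2, ℤ)} (hγ : γ ∈ Gamma0 N) :
    (heckeFun N ℓ i f) ∣[(i : ℤ)] γ = heckeFun N ℓ i (slashG0 γ hγ i f) := by
  have hℓ0 : (ℓ : ℤ) ≠ 0 := by exact_mod_cast hℓ.ne_zero
  choose π g hg hπ using fun r => ((rep_inD hu r).conj hγ).exists_rep hℓ hu
  have key : ∀ r, rep N ℓ r * γ.1 = (γ * g r).1 * rep N ℓ (π r) := fun r => by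
    rw [Matrix.SpecialLinearGroup.coe_mul, Matrix.mul_assoc, ← hπ r, ← Matrix.mul_assoc,
      ← Matrix.mul_assoc, ← Matrix.SpecialLinearGroup.coe_mul, mul_inv_cancel]
    simp
  have hinj : Function.Injective π := fun r s hrs => by
    refine rep_inj (N := N) hℓ (g := (γ * g r) * (γ * g s)⁻¹) ?_
    have e1 : rep N ℓ r = (γ * g r).1 * rep N ℓ (π r) * (γ⁻¹).1 := by
      rw [← key, Matrix.mul_assoc, ← Matrix.SpecialLinearGroup.coe_mul, mul_inv_cancel]; simp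
    have e2 : rep N ℓ s = (γ * g s).1 * rep N ℓ (π s) * (γ⁻¹).1 := by
      rw [← key, Matrix.mul_assoc, ← Matrix.SpecialLinearGroup.coe_mul, mul_inv_cancel]; simp
    rw [e1, e2, hrs, ← Matrix.mul_assoc, ← Matrix.mul_assoc, ← Matrix.SpecialLinearGroup.coe_mul,
      inv_mul_cancel_right]
  have hd : ∀ r, (rep N ℓ r).det ≠ 0 := fun r => by rw [rep_det]; exact hℓ0
  have hs : ∀ A : SL(2, ℤ), A.1.det ≠ 0 := fun A => by rw [A.2]; exact one_ne_zero
  rw [heckeFun, heckeFun, SlashAction.sum_slash]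
  refine Eq.trans ?_ ((Finite.injective_iff_bijective.1 hinj).sum_comp _)
  refine Finset.sum_congr rfl fun r _ => ?_
  rw [ModularForm.SL_slash, ← SlashAction.slash_mul, ← toGL_SL, ← toGL_mul (hd r) (hs γ), key,
    toGL_mul (hs _) (hd _), SlashAction.slash_mul, toGL_SL, ← ModularForm.SL_slash,
    SlashAction.slash_mul, ← coe_slashG0 γ hγ, MF_slash _ (hg r)]

theorem isBoundedAt_sum {ι : Type} (s : Finset ι) {c : OnePoint ℝ} {k : ℤ} {F : ι → ℍ → ℂ}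
    (h : ∀ r ∈ s, c.IsBoundedAt (F r) k) : c.IsBoundedAt (∑ r ∈ s, F r) k := by
  classical
  induction s using Finset.induction_on with
  | empty =>
    intro g _
    simpa using zero_form_isBoundedAtImInfty
  | insert a s ha ih =>
    rw [Finset.sum_insert ha]
    exact (h a (Finset.mem_insert_self _ _)).add
      (ih fun r hr => h r (Finset.mem_insert_of_mem hr))

/-- `T_ℓ` for a prime `ℓ` prime to `N` -/
noncomputable def heckeOf {ℓ : ℕ} (hℓ : ℓ.Prime) (hu : IsUnit (ℓ : ZMod N)) (i : ℕ) :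
    MF N i →ₗ[ℂ] MF N i where
  toFun f := mkMF (heckeFun N ℓ i f)
    (fun g hg => by
      rw [heckeFun_slash hℓ hu f (Gamma1_in_Gamma0 N hg), coe_slashG0, MF_slash f hg])
    (.sum fun r _ => (ModularFormClass.holo f).slash _ _)
    (fun c hc => isBoundedAt_sum _ fun r _ => bdd_slash_toGL f _ hc)
  map_add' f g := by
    apply DFunLike.coe_injective
    simp [FunLike.coe_add, heckeFun, Finset.sum_add_distrib]
  map_smul' c f := by
    apply DFunLike.coe_injective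
    have hd : ∀ r, 0 < (rep N ℓ r).det := fun r => by rw [rep_det]; exact_mod_cast hℓ.pos
    simp [FunLike.coe_smul, heckeFun, smul_slash_toGL (hd _), Finset.smul_sum]

variable (N) in
open Classical in
/-- the Hecke family of the statement (`0` at the unused indices) -/
noncomputable def hecke (ℓ : ℕ) (i : ℕ) : MF N i →ₗ[ℂ] MF N i :=
  if h : ℓ.Prime ∧ IsUnit (ℓ : ZMod N) then heckeOf h.1 h.2 i else 0

theorem coe_hecke {ℓ : ℕ} (hℓ : ℓ.Prime) (hu : IsUnit (ℓ : ZMod N)) (i : ℕ) (f : MF N i) :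
    ⇑(hecke N ℓ i f) = heckeFun N ℓ i f := by
  rw [hecke, dif_pos ⟨hℓ, hu⟩]
  rfl

theorem coe_hecke' {ℓ : ℕ} (hℓ : ℓ.Prime) (hu : IsUnit (ℓ : ZMod N)) (i : ℕ) (f : MF N i) :
    ⇑(hecke N ℓ i f) = (∑ j ∈ Finset.range ℓ, (⇑f) ∣[(i : ℤ)] upperMat ℓ j hℓ.ne_zero) +
      (⇑(dia N ℓ i f)) ∣[(i : ℤ)] lowerMat ℓ hℓ.ne_zero := by
  rw [coe_hecke hℓ hu, heckeFun, Fintype.sum_option, add_comm]
  congr 1
  · rw [← Fin.sum_univ_eq_sum_range (fun j => (⇑f) ∣[(i : ℤ)] upperMat ℓ j hℓ.ne_zero)]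
    refine Finset.sum_congr rfl fun j _ => ?_
    rw [rep, toGL_upper]
  · rw [rep, toGL_mul (by rw [(diaMat N (ℓ : ZMod N)).2]; exact one_ne_zero)
      (by simpa [det_fin_two] using hℓ.ne_zero), toGL_lower ℓ hℓ.ne_zero, toGL_SL,
      SlashAction.slash_mul]
    rfl

omit [NeZero N] in
theorem isUnit_of_not_dvd {ℓ : ℕ} (hℓ : ℓ.Prime) (h : ¬ ℓ ∣ 2 * N) : IsUnit (ℓ : ZMod N) :=
  (ZMod.isUnit_prime_iff_not_dvd hℓ).2 fun h' => h (h'.mul_left 2)

theorem isHeckeFamily_hecke : IsHeckeFamily N (hecke N) (dia N) :=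
  fun _ hℓ h i f => coe_hecke' hℓ (isUnit_of_not_dvd hℓ h) i f

theorem hecke_diaZ_comm (ℓ : ℕ) (u : ZMod N) (i : ℕ) : Commute (hecke N ℓ i) (diaZ N u i) := by
  by_cases h : ℓ.Prime ∧ IsUnit (ℓ : ZMod N)
  · ext f : 1
    apply DFunLike.coe_injective
    change ⇑(hecke N ℓ i (diaZ N u i f)) = (⇑(hecke N ℓ i f)) ∣[(i : ℤ)] diaMat N u
    rw [coe_hecke h.1 h.2, coe_hecke h.1 h.2, heckeFun_slash h.1 h.2 f (diaMat_mem u)]
    rfl
  · rw [hecke, dif_neg h]; exact Commute.zero_left _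

end Crest.Agent.R007
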