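import Crest.Agent.R007.HHecke

/-! Row 7, block H: action of the Hecke operators on `q`-expansions, commutativity. -/

set_option autoImplicit false
set_option linter.dupNamespace false

namespace Crest.Agent.R007

open Crest.NumberTheoryR.HeckeTwoAdic CongruenceSubgroup UpperHalfPlane Matrix
open scoped ModularForm MatrixGroups Manifold Real

variable {N : ℕ}

theorem one_mem_periods :
    (1 : ℝ) ∈ ((Gamma1 N : Subgroup SL(2, ℤ)) : Subgroup (GL (Fin 2) ℝ)).strictPeriods := by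
  simp

variable (N) in
/-- the `q`-expansion at `∞` -/
noncomputable def qexp (i : ℕ) : MF N i →ₗ[ℂ] PowerSeries ℂ where
  toFun f := qExpansion 1 f
  map_add' f g := ModularForm.qExpansion_add one_pos one_mem_periods f g
  map_smul' c f := ModularForm.qExpansion_smul one_pos one_mem_periods c f

theorem qexp_apply (i : ℕ) (f : MF N i) : qexp N i f = qExpansion 1 f := rfl

theorem qexp_injective (i : ℕ) : Function.Injective (qexp N i) := by
  rw [injective_iff_map_eq_zero]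
  intro f hf
  exact (ModularForm.qExpansion_eq_zero_iff one_pos one_mem_periods f).1 hf

variable [NeZero N]

theorem hasSum_qexp {i : ℕ} (f : MF N i) (τ : ℍ) :
    HasSum (fun m => (qexp N i f).coeff m * Complex.exp (2 * π * Complex.I * τ) ^ m) (f τ) := by
  simpa [Function.Periodic.qParam, qexp_apply] using
    ModularForm.hasSum_qExpansion f one_pos one_mem_periods τ

omit [NeZero N] in
theorem qexp_unique {i : ℕ} (f : MF N i) {c : ℕ → ℂ}
    (h : ∀ τ : ℍ, HasSum (fun m => c m * Complex.exp (2 * π * Complex.I * τ) ^ m) (f τ)) (m : ℕ) :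
    (qexp N i f).coeff m = c m :=
  (ModularFormClass.qExpansion_coeff_unique one_pos one_mem_periods (f := f)
    (fun τ => by simpa [Function.Periodic.qParam] using h τ) m).symm

theorem hasSum_of_eq {f g : ℕ → ℂ} {a : ℂ} (h : HasSum f a) (e : ∀ n, g n = f n) :
    HasSum g a := by
  rw [funext e]; exact h

theorem slash_upper {ℓ : ℕ} (hℓ : ℓ ≠ 0) (j : ℕ) (k : ℤ) (F : ℍ → ℂ) (τ : ℍ) :
    ∃ τ' : ℍ, (τ' : ℂ) = (τ + j) / ℓ ∧ (F ∣[k] upperMat ℓ j hℓ) τ = (ℓ : ℂ)⁻¹ * F τ' := by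
  have hd : (!![1, (j : ℤ); 0, (ℓ : ℤ)]).det = ℓ := by simp [det_fin_two]
  have hd' : (!![1, (j : ℤ); 0, (ℓ : ℤ)]).det ≠ 0 := by rw [hd]; exact_mod_cast hℓ
  have hℓ' : (ℓ : ℂ) ≠ 0 := by exact_mod_cast hℓ
  have hdet : (upperMat ℓ j hℓ).det.val = ℓ := by rw [← toGL_upper, toGL_det hd', hd]; simp
  have hpos : 0 < (upperMat ℓ j hℓ).det.val := by rw [hdet]; positivity
  have hden : denom (upperMat ℓ j hℓ) τ = ℓ := by
    rw [← toGL_upper]; simp [denom, toGL_apply hd']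
  have hnum : num (upperMat ℓ j hℓ) τ = τ + j := by
    rw [← toGL_upper]; simp [num, toGL_apply hd']
  refine ⟨upperMat ℓ j hℓ • τ, by rw [coe_smul_of_det_pos hpos, hden, hnum], ?_⟩
  rw [ModularForm.slash_apply, hden]
  simp only [σ, hpos, if_true]
  rw [hdet, abs_of_nonneg (Nat.cast_nonneg ℓ)]
  push_cast
  rw [mul_assoc, ← zpow_add₀ hℓ', show k - 1 + -k = -1 by ring, _root_.zpow_neg_one, mul_comm]
  rfl

theorem slash_lower {ℓ : ℕ} (hℓ : ℓ ≠ 0) (k : ℤ) (F : ℍ → ℂ) (τ : ℍ) :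
    ∃ τ' : ℍ, (τ' : ℂ) = ℓ * τ ∧ (F ∣[k] lowerMat ℓ hℓ) τ = (ℓ : ℂ) ^ (k - 1) * F τ' := by
  have hd : (!![(ℓ : ℤ), 0; 0, 1]).det = ℓ := by simp [det_fin_two]
  have hd' : (!![(ℓ : ℤ), 0; 0, 1]).det ≠ 0 := by rw [hd]; exact_mod_cast hℓ
  have hdet : (lowerMat ℓ hℓ).det.val = ℓ := by rw [← toGL_lower, toGL_det hd', hd]; simp
  have hpos : 0 < (lowerMat ℓ hℓ).det.val := by rw [hdet]; positivity
  have hden : denom (lowerMat ℓ hℓ) τ = 1 := by
    rw [← toGL_lower]; simp [denom, toGL_apply hd']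
  have hnum : num (lowerMat ℓ hℓ) τ = ℓ * τ := by
    rw [← toGL_lower]; simp [num, toGL_apply hd']
  refine ⟨lowerMat ℓ hℓ • τ, by rw [coe_smul_of_det_pos hpos, hden, hnum, div_one], ?_⟩
  rw [ModularForm.slash_apply, hden]
  simp only [σ, hpos, if_true]
  rw [hdet, abs_of_nonneg (Nat.cast_nonneg ℓ)]
  push_cast
  rw [_root_.one_zpow, mul_one, mul_comm]
  rfl

theorem sum_root_pow {ℓ : ℕ} (hℓ : ℓ ≠ 0) (m : ℕ) :
    ∑ j ∈ Finset.range ℓ, (Complex.exp (2 * π * Complex.I / ℓ) ^ m) ^ j =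
      if ℓ ∣ m then (ℓ : ℂ) else 0 := by
  have hp := Complex.isPrimitiveRoot_exp ℓ hℓ
  split_ifs with h
  · rw [(hp.pow_eq_one_iff_dvd m).2 h]; simp
  · have h1 : Complex.exp (2 * π * Complex.I / ℓ) ^ m ≠ 1 := fun e =>
      h ((hp.pow_eq_one_iff_dvd m).1 e)
    rw [geom_sum_eq h1, ← pow_mul, mul_comm m ℓ, pow_mul, hp.pow_eq_one]
    simp

theorem hasSum_upper {ℓ : ℕ} (hℓ : ℓ ≠ 0) {i : ℕ} (f : MF N i) (τ : ℍ) :
    HasSum (fun n => (qexp N i f).coeff (ℓ * n) * Complex.exp (2 * π * Complex.I * τ) ^ n)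
      ((∑ j ∈ Finset.range ℓ, (⇑f) ∣[(i : ℤ)] upperMat ℓ j hℓ) τ) := by
  have hℓ' : (ℓ : ℂ) ≠ 0 := by exact_mod_cast hℓ
  set w := Complex.exp (2 * π * Complex.I * τ / ℓ) with hw
  have h1 : ∀ j ∈ Finset.range ℓ, HasSum (fun m => (ℓ : ℂ)⁻¹ * ((qexp N i f).coeff m * w ^ m *
      (Complex.exp (2 * π * Complex.I / ℓ) ^ m) ^ j)) (((⇑f) ∣[(i : ℤ)] upperMat ℓ j hℓ) τ) := by
    intro j _
    obtain ⟨τ', h1, h2⟩ := slash_upper hℓ j i f τ
    rw [h2]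
    refine HasSum.mul_left _ ?_
    refine hasSum_of_eq (hasSum_qexp f τ') fun m => ?_
    rw [mul_assoc, ← pow_mul, mul_comm m j, pow_mul, ← mul_pow, h1, hw, ← Complex.exp_nat_mul,
      ← Complex.exp_add]
    congr 3
    field_simp
  have h2 := hasSum_sum h1
  rw [← Finset.sum_apply] at h2
  simp_rw [← Finset.mul_sum, sum_root_pow hℓ] at h2
  have hinj : Function.Injective fun n : ℕ => ℓ * n := mul_right_injective₀ hℓ
  rw [← hinj.hasSum_iff (by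
    intro m hm
    rw [if_neg]
    · simp
    · rintro ⟨n, rfl⟩
      exact hm ⟨n, rfl⟩)] at h2
  refine hasSum_of_eq h2 fun n => ?_
  have : w ^ ℓ = Complex.exp (2 * π * Complex.I * τ) := by
    rw [hw, ← Complex.exp_nat_mul]; congr 1; field_simp
  simp only [Function.comp, dvd_mul_right, if_true, pow_mul, this]
  field_simp

theorem hasSum_lower {ℓ : ℕ} (hℓ : ℓ ≠ 0) {i : ℕ} (f : MF N i) (τ : ℍ) :
    HasSum (fun n => (if ℓ ∣ n then (ℓ : ℂ) ^ ((i : ℤ) - 1) * (qexp N i f).coeff (n / ℓ) else 0) *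
      Complex.exp (2 * π * Complex.I * τ) ^ n) (((⇑f) ∣[(i : ℤ)] lowerMat ℓ hℓ) τ) := by
  obtain ⟨τ', h1, h2⟩ := slash_lower hℓ i f τ
  have hinj : Function.Injective fun n : ℕ => ℓ * n := mul_right_injective₀ hℓ
  rw [← hinj.hasSum_iff (by
    intro m hm
    rw [if_neg]
    · simp
    · rintro ⟨n, rfl⟩
      exact hm ⟨n, rfl⟩), h2]
  refine hasSum_of_eq ((hasSum_qexp f τ').mul_left ((ℓ : ℂ) ^ ((i : ℤ) - 1))) fun n => ?_
  have : Complex.exp (2 * π * Complex.I * τ) ^ ℓ = Complex.exp (2 * π * Complex.I * τ') := by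
    rw [h1, ← Complex.exp_nat_mul]; congr 1; ring
  simp only [Function.comp, dvd_mul_right, if_true, pow_mul, this,
    Nat.mul_div_cancel_left n (Nat.pos_of_ne_zero hℓ)]
  rw [mul_assoc]

/-- `a_n(T_ℓ f) = a_{ℓ n}(f) + ℓ^{i-1} a_{n/ℓ}(⟨ℓ⟩ f)` -/
theorem coeff_hecke {ℓ : ℕ} (hℓ : ℓ.Prime) (hu : IsUnit (ℓ : ZMod N)) {i : ℕ} (f : MF N i)
    (n : ℕ) : (qexp N i (hecke N ℓ i f)).coeff n = (qexp N i f).coeff (ℓ * n) +
      if ℓ ∣ n then (ℓ : ℂ) ^ ((i : ℤ) - 1) * (qexp N i (dia N ℓ i f)).coeff (n / ℓ) else 0 := by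
  refine qexp_unique _ (c := fun n => (qexp N i f).coeff (ℓ * n) +
      if ℓ ∣ n then (ℓ : ℂ) ^ ((i : ℤ) - 1) * (qexp N i (dia N ℓ i f)).coeff (n / ℓ) else 0)
      (fun τ => ?_) n
  rw [coe_hecke' hℓ hu, Pi.add_apply]
  simpa only [add_mul] using
    (hasSum_upper hℓ.ne_zero f τ).add (hasSum_lower hℓ.ne_zero (dia N ℓ i f) τ)

theorem hecke_dia_comm (ℓ d i : ℕ) : Commute (hecke N ℓ i) (dia N d i) := hecke_diaZ_comm ℓ _ i

theorem dia_comm (d e i : ℕ) : Commute (dia N d i) (dia N e i) := diaZ_comm _ _ i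

theorem comm_aux {V : Type} (a : V → ℕ → ℂ) (Tl Tp Dl Dp : V → V) {ℓ p : ℕ} (x y : ℂ)
    (hc : Nat.Coprime ℓ p) (hℓ : 0 < ℓ) (hp : 0 < p)
    (e1 : ∀ f n, a (Tl f) n = a f (ℓ * n) + if ℓ ∣ n then x * a (Dl f) (n / ℓ) else 0)
    (e2 : ∀ f n, a (Tp f) n = a f (p * n) + if p ∣ n then y * a (Dp f) (n / p) else 0)
    (c1 : ∀ f, Dl (Tp f) = Tp (Dl f)) (c2 : ∀ f, Dp (Tl f) = Tl (Dp f))
    (c3 : ∀ f, Dp (Dl f) = Dl (Dp f)) (f : V) (n : ℕ) : a (Tl (Tp f)) n = a (Tp (Tl f)) n := by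
  simp only [e1, e2, c1, c2, c3, hc.dvd_mul_left, hc.symm.dvd_mul_left]
  rw [mul_left_comm p ℓ n]
  by_cases h1 : ℓ ∣ n <;> by_cases h2 : p ∣ n
  · obtain ⟨m, rfl⟩ := hc.mul_dvd_of_dvd_of_dvd h1 h2
    have a1 : ℓ * p * m / ℓ = p * m := by rw [mul_assoc, Nat.mul_div_cancel_left _ hℓ]
    have a2 : ℓ * p * m / p = ℓ * m := by
      rw [mul_comm ℓ p, mul_assoc, Nat.mul_div_cancel_left _ hp]
    have a3 : ℓ * (ℓ * p * m) / p = ℓ * (ℓ * m) := by rw [Nat.mul_div_assoc _ h2, a2]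
    have a4 : p * (ℓ * p * m) / ℓ = p * (p * m) := by rw [Nat.mul_div_assoc _ h1, a1]
    simp only [h1, h2, if_true, a1, a2, a3, a4, dvd_mul_right,
      Nat.mul_div_cancel_left _ hℓ, Nat.mul_div_cancel_left _ hp]
    ring
  · have h3 : ¬ p ∣ n / ℓ := fun h => h2 (h.trans (Nat.div_dvd_of_dvd h1))
    simp [h1, h2, h3, Nat.mul_div_assoc _ h1]
  · have h3 : ¬ ℓ ∣ n / p := fun h => h1 (h.trans (Nat.div_dvd_of_dvd h2))
    simp [h1, h2, h3, Nat.mul_div_assoc _ h2]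
  · simp [h1, h2]

theorem hecke_of_not {ℓ : ℕ} (h : ¬ (ℓ.Prime ∧ IsUnit (ℓ : ZMod N))) (i : ℕ) :
    hecke N ℓ i = 0 := by
  rw [hecke, dif_neg h]

theorem hecke_comm (ℓ p i : ℕ) : Commute (hecke N ℓ i) (hecke N p i) := by
  by_cases hℓ : ℓ.Prime ∧ IsUnit (ℓ : ZMod N)
  swap
  · rw [hecke_of_not hℓ]; exact Commute.zero_left _
  by_cases hp : p.Prime ∧ IsUnit (p : ZMod N)
  swap
  · rw [hecke_of_not hp]; exact Commute.zero_right _
  by_cases e : ℓ = p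
  · subst e; exact Commute.refl _
  have hc : Nat.Coprime ℓ p := (Nat.coprime_primes hℓ.1 hp.1).2 e
  refine LinearMap.ext fun f => qexp_injective i (PowerSeries.ext fun n => ?_)
  have c1 : ∀ f, dia N ℓ i (hecke N p i f) = hecke N p i (dia N ℓ i f) := fun f => by
    rw [← Module.End.mul_apply, ← (hecke_dia_comm p ℓ i).eq, Module.End.mul_apply]
  have c2 : ∀ f, dia N p i (hecke N ℓ i f) = hecke N ℓ i (dia N p i f) := fun f => by
    rw [← Module.End.mul_apply, ← (hecke_dia_comm ℓ p i).eq, Module.End.mul_apply]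
  have c3 : ∀ f, dia N p i (dia N ℓ i f) = dia N ℓ i (dia N p i f) := fun f => by
    rw [← Module.End.mul_apply, (dia_comm p ℓ i).eq, Module.End.mul_apply]
  have := comm_aux (fun (f : MF N i) n => (qexp N i f).coeff n) (hecke N ℓ i) (hecke N p i)
    (dia N ℓ i) (dia N p i) ((ℓ : ℂ) ^ ((i : ℤ) - 1)) ((p : ℂ) ^ ((i : ℤ) - 1)) hc hℓ.1.pos hp.1.pos
    (fun f n => coeff_hecke hℓ.1 hℓ.2 f n) (fun f n => coeff_hecke hp.1 hp.2 f n) c1 c2 c3 f n
  rw [Module.End.mul_apply, Module.End.mul_apply]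
  exact this

end Crest.Agent.R007
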