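import Mathlib

/-! Row 7, block I: abstract Katz descent in a ring with a Frobenius lift at `2`. -/

set_option autoImplicit false
set_option linter.dupNamespace false

namespace Crest.Agent.R007

open Polynomial

/-- the smallest subring containing `A` and the inverses of the elements `1 + 2 x` -/
inductive Gen {𝕂 : Type*} [CommRing 𝕂] (A : Set 𝕂) : 𝕂 → Prop
  | base {a : 𝕂} : a ∈ A → Gen A a
  | one : Gen A 1
  | neg {a : 𝕂} : Gen A a → Gen A (-a)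
  | add {a b : 𝕂} : Gen A a → Gen A b → Gen A (a + b)
  | mul {a b : 𝕂} : Gen A a → Gen A b → Gen A (a * b)
  | inv {x y : 𝕂} : Gen A x → (1 + 2 * x) * y = 1 → Gen A y

/-- `Gen A` as a subring -/
def genRing {𝕂 : Type*} [CommRing 𝕂] (A : Set 𝕂) : Subring 𝕂 where
  carrier := {a | Gen A a}
  mul_mem' := Gen.mul
  one_mem' := Gen.one
  add_mem' := Gen.add
  zero_mem' := by simpa using (Gen.one (A := A)).add Gen.one.neg
  neg_mem' := Gen.neg

section gen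

variable {𝕂 : Type*} [CommRing 𝕂] {A : Set 𝕂}

theorem mem_genRing {a : 𝕂} (h : a ∈ A) : a ∈ genRing A := Gen.base h

theorem inv_mem_genRing {x y : 𝕂} (hx : x ∈ genRing A) (h : (1 + 2 * x) * y = 1) :
    y ∈ genRing A := Gen.inv hx h

theorem genRing_le {Λ : Subring 𝕂} (hA : A ⊆ Λ)
    (hu : ∀ x ∈ Λ, ∀ y, (1 + 2 * x) * y = 1 → y ∈ Λ) : genRing A ≤ Λ := by
  intro a ha
  induction ha with
  | base h => exact hA h
  | one => exact Λ.one_mem
  | neg _ h => exact Λ.neg_mem h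
  | add _ _ h h' => exact Λ.add_mem h h'
  | mul _ _ h h' => exact Λ.mul_mem h h'
  | inv _ h ih => exact hu _ ih _ h

/-- `genRing A` is closed under `δ` as soon as `δ A ⊆ genRing A` -/
theorem genRing_delta (φ : 𝕂 →+* 𝕂) (hA : ∀ a ∈ A, ∃ t ∈ genRing A, a ^ 2 - φ a = 2 * t) :
    ∀ a ∈ genRing A, ∃ t ∈ genRing A, a ^ 2 - φ a = 2 * t := by
  have two : (2 : 𝕂) ∈ genRing A := by simp
  intro a ha
  induction ha with
  | base h => exact hA _ h
  | one => exact ⟨0, zero_mem _, by simp⟩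
  | @neg a h ih =>
    obtain ⟨t, ht, e⟩ := ih
    refine ⟨a ^ 2 - t, sub_mem (pow_mem (show a ∈ genRing A from h) 2) ht, ?_⟩
    rw [map_neg]; linear_combination -e
  | @add a b h h' ih ih' =>
    obtain ⟨t, ht, e⟩ := ih
    obtain ⟨t', ht', e'⟩ := ih'
    refine ⟨t + t' + a * b, add_mem (add_mem ht ht') (Gen.mul h h'), ?_⟩
    rw [map_add]; linear_combination e + e'
  | @mul a b h h' ih ih' =>
    obtain ⟨t, ht, e⟩ := ih
    obtain ⟨t', ht', e'⟩ := ih'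
    have ha : a ∈ genRing A := h
    have hb : b ∈ genRing A := h'
    refine ⟨a ^ 2 * t' + (b ^ 2 - 2 * t') * t, add_mem (mul_mem (pow_mem ha 2) ht')
      (mul_mem (sub_mem (pow_mem hb 2) (mul_mem two ht')) ht), ?_⟩
    rw [map_mul]
    have e1 : φ a = a ^ 2 - 2 * t := by linear_combination -e
    have e2 : φ b = b ^ 2 - 2 * t' := by linear_combination -e'
    rw [e1, e2]; ring
  | @inv x y h hy ih =>
    obtain ⟨t, ht, e⟩ := ih
    have hx : x ∈ genRing A := h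
    have hy' : y ∈ genRing A := Gen.inv h hy
    have e1 : φ x = x ^ 2 - 2 * t := by linear_combination -e
    have e2 : (1 + 2 * (x ^ 2 - 2 * t)) * φ y = 1 := by
      have := congrArg φ hy
      rwa [map_mul, map_add, map_one, map_mul, map_ofNat, e1] at this
    have hφ : φ y ∈ genRing A := Gen.inv (sub_mem (pow_mem hx 2) (mul_mem two ht)) e2
    refine ⟨-(x ^ 2 + 2 * x + 2 * t) * y ^ 2 * φ y, mul_mem (mul_mem (neg_mem (add_mem (add_mem
      (pow_mem hx 2) (mul_mem two hx)) (mul_mem two ht))) (pow_mem hy' 2)) hφ, ?_⟩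
    linear_combination (-y ^ 2) * e2 + φ y * ((1 + 2 * x) * y + 1) * hy

/-- reduction modulo `2` -/
theorem genRing_mod {Λ : Subring 𝕂} (hA : A ⊆ Λ)
    (hu : ∀ x ∈ Λ, ∀ y, (1 + 2 * x) * y = 1 → y ∈ Λ) {S : Subring 𝕂} (hS : S ≤ Λ)
    (h : ∀ a ∈ A, ∃ s ∈ S, ∃ t ∈ Λ, a = s + 2 * t) :
    ∀ a ∈ genRing A, ∃ s ∈ S, ∃ t ∈ Λ, a = s + 2 * t := by
  have two : (2 : 𝕂) ∈ Λ := by simp
  intro a ha
  induction ha with
  | base h' => exact h _ h'
  | one => exact ⟨1, one_mem _, 0, zero_mem _, by simp⟩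
  | neg _ ih =>
    obtain ⟨s, hs, t, ht, e⟩ := ih
    exact ⟨-s, neg_mem hs, -t, neg_mem ht, by rw [e]; ring⟩
  | add _ _ ih ih' =>
    obtain ⟨s, hs, t, ht, e⟩ := ih
    obtain ⟨s', hs', t', ht', e'⟩ := ih'
    exact ⟨s + s', add_mem hs hs', t + t', add_mem ht ht', by rw [e, e']; ring⟩
  | mul _ _ ih ih' =>
    obtain ⟨s, hs, t, ht, e⟩ := ih
    obtain ⟨s', hs', t', ht', e'⟩ := ih'
    exact ⟨s * s', mul_mem hs hs', s * t' + t * s' + 2 * (t * t'), add_mem (add_mem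
      (mul_mem (hS hs) ht') (mul_mem ht (hS hs'))) (mul_mem two (mul_mem ht ht')),
      by rw [e, e']; ring⟩
  | @inv x y hx hy _ =>
    have hx' : x ∈ Λ := genRing_le hA hu hx
    exact ⟨1, one_mem _, -(x * y), neg_mem (mul_mem hx' (hu _ hx' _ hy)),
      by linear_combination hy⟩

end gen

/-- the data of the descent: integral elements `Λ`, a Frobenius lift `φ`, a `δ`-closed subring `S`,
a weight-two unit `ε ≡ 1 mod 8` with `φ ε = lam ε` -/
structure KD (𝕂 : Type*) [CommRing 𝕂] where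
  /-- integral elements -/
  Λ : Subring 𝕂
  /-- the `δ`-closed subring -/
  S : Subring 𝕂
  /-- Frobenius lift -/
  φ : 𝕂 →+* 𝕂
  /-- one half -/
  ι : 𝕂
  two_mul_ι : 2 * ι = 1
  le : S ≤ Λ
  δΛ : ∀ g ∈ Λ, ∃ t ∈ Λ, g ^ 2 - φ g = 2 * t
  δS : ∀ g ∈ S, ∃ t ∈ S, g ^ 2 - φ g = 2 * t
  unit : ∀ x ∈ Λ, ∃ y ∈ Λ, (1 + 2 * x) * y = 1
  /-- the weight-two form -/
  ε : 𝕂
  ε_eq : ∃ u ∈ Λ, ε = 1 + 8 * u
  /-- `φ ε / ε` -/
  lam : 𝕂
  lam_mem : lam ∈ S
  φ_ε : φ ε = lam * ε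

namespace KD

variable {𝕂 : Type*} [CommRing 𝕂] (D : KD 𝕂)

include D in
theorem cancel {a b : 𝕂} (h : 2 * a = 2 * b) : a = b := by
  linear_combination D.ι * h - (a - b) * D.two_mul_ι

theorem two_mem (R : Subring 𝕂) : (2 : 𝕂) ∈ R := by simp

theorem φ_ι : D.φ D.ι = D.ι := by
  have := congrArg D.φ D.two_mul_ι
  rw [map_mul, map_ofNat, map_one] at this
  exact D.cancel (this.trans D.two_mul_ι.symm)

theorem φ_memΛ {g : 𝕂} (h : g ∈ D.Λ) : D.φ g ∈ D.Λ := by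
  obtain ⟨t, ht, e⟩ := D.δΛ g h
  have : D.φ g = g ^ 2 - 2 * t := by linear_combination -e
  exact this ▸ sub_mem (pow_mem h 2) (mul_mem (two_mem _) ht)

theorem φ_memS {g : 𝕂} (h : g ∈ D.S) : D.φ g ∈ D.S := by
  obtain ⟨t, ht, e⟩ := D.δS g h
  have : D.φ g = g ^ 2 - 2 * t := by linear_combination -e
  exact this ▸ sub_mem (pow_mem h 2) (mul_mem (two_mem _) ht)

/-- saturation: if `2 ^ n g ∈ S` and `g ∈ Λ`, then `g ^ 2 ^ n ∈ S + 2 Λ` -/
theorem sat (n : ℕ) : ∀ g ∈ D.Λ, 2 ^ n * g ∈ D.S → ∃ s ∈ D.S, ∃ t ∈ D.Λ,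
    g ^ 2 ^ n = s + 2 * t := by
  induction n with
  | zero => exact fun g _ h => ⟨g, by simpa using h, 0, zero_mem _, by simp⟩
  | succ n ih =>
    intro g hg h
    obtain ⟨t, ht, e⟩ := D.δS _ h
    obtain ⟨u, hu, e'⟩ := D.δΛ g hg
    have h1 : 2 ^ n * (2 ^ (n + 1) * g ^ 2 - D.φ g) = t := by
      rw [map_mul, map_pow, map_ofNat] at e
      refine D.cancel ?_
      rw [← e]; ring
    have hm : 2 ^ (n + 1) * g ^ 2 - D.φ g ∈ D.Λ :=
      sub_mem (mul_mem (pow_mem (two_mem _) _) (pow_mem hg 2)) (D.φ_memΛ hg)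
    obtain ⟨s, hs, v, hv, e2⟩ := ih _ hm (h1 ▸ ht)
    have hw : 2 ^ n * g ^ 2 - g ^ 2 + u ∈ D.Λ :=
      add_mem (sub_mem (mul_mem (pow_mem (two_mem _) _) (pow_mem hg 2)) (pow_mem hg 2)) hu
    have h2 : 2 ^ (n + 1) * g ^ 2 - D.φ g = g ^ 2 + 2 * (2 ^ n * g ^ 2 - g ^ 2 + u) := by
      linear_combination e'
    obtain ⟨r, hr⟩ : ∃ r : D.Λ, (⟨_, hm⟩ : D.Λ) ^ 2 ^ n - ⟨_, pow_mem hg 2⟩ ^ 2 ^ n =
        ((⟨_, hm⟩ : D.Λ) - ⟨_, pow_mem hg 2⟩) * r := sub_dvd_pow_sub_pow _ _ _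
    have hr' := congrArg Subtype.val hr
    simp only [AddSubgroupClass.coe_sub, SubmonoidClass.coe_pow, MulMemClass.coe_mul] at hr'
    refine ⟨s, hs, v - (2 ^ n * g ^ 2 - g ^ 2 + u) * r, sub_mem hv (mul_mem hw r.2), ?_⟩
    rw [pow_succ' 2 n, pow_mul]
    linear_combination e2 - hr' - r.1 * h2

/-- `S[1/2]` -/
def S' : Subring 𝕂 where
  carrier := {x | ∃ e : ℕ, 2 ^ e * x ∈ D.S}
  mul_mem' := by
    rintro a b ⟨e, he⟩ ⟨f, hf⟩
    exact ⟨e + f, by convert mul_mem he hf using 1; ring⟩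
  one_mem' := ⟨0, by simp⟩
  add_mem' := by
    rintro a b ⟨e, he⟩ ⟨f, hf⟩
    exact ⟨e + f, by
      convert add_mem (mul_mem (pow_mem (two_mem D.S) f) he)
        (mul_mem (pow_mem (two_mem D.S) e) hf) using 1; ring⟩
  zero_mem' := ⟨0, by simp⟩
  neg_mem' := by
    rintro a ⟨e, he⟩
    exact ⟨e, by simpa using neg_mem he⟩

theorem S_le : D.S ≤ D.S' := fun x hx => ⟨0, by simpa using hx⟩

theorem ι_mem : D.ι ∈ D.S' := ⟨1, by simp [D.two_mul_ι]⟩

theorem φ_memS' {g : 𝕂} (h : g ∈ D.S') : D.φ g ∈ D.S' := by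
  obtain ⟨e, he⟩ := h
  exact ⟨e, by simpa [map_ofNat] using D.φ_memS he⟩

/-- integral values at the points `z ^ s ε` -/
def IV (z : ℤ) (p : 𝕂[X]) : Prop := ∀ s : ℕ, p.eval ((z : 𝕂) ^ s * D.ε) ∈ D.Λ

/-- coefficients in `S[1/2]` -/
def CS (p : 𝕂[X]) : Prop := ∀ m, p.coeff m ∈ D.S'

theorem CS.mul {D : KD 𝕂} {p q : 𝕂[X]} (hp : D.CS p) (hq : D.CS q) : D.CS (p * q) := fun m => by
  rw [coeff_mul]
  exact sum_mem fun c _ => mul_mem (hp _) (hq _)

/-- the Frobenius lift on polynomials, `Y ↦ lam Y` -/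
noncomputable def Φ (p : 𝕂[X]) : 𝕂[X] := (p.map D.φ).comp (C D.lam * X)

theorem coeff_Φ (p : 𝕂[X]) (m : ℕ) : (D.Φ p).coeff m = D.φ (p.coeff m) * D.lam ^ m := by
  rw [Φ, comp_C_mul_X_coeff, coeff_map]

theorem eval_Φ (p : 𝕂[X]) (z : ℤ) (s : ℕ) :
    (D.Φ p).eval ((z : 𝕂) ^ s * D.ε) = D.φ (p.eval ((z : 𝕂) ^ s * D.ε)) := by
  rw [Φ, eval_comp, eval_mul, eval_C, eval_X, eval_map, ← eval₂_at_apply, map_mul, map_pow,
    map_intCast, D.φ_ε]
  congr 1; ring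

/-- the polynomials `δ ^ i ((Y - 1) / 8)` -/
theorem exists_Q {z : ℤ} (hz : (8 : ℤ) ∣ z - 1) (i : ℕ) : ∃ q : 𝕂[X], D.IV z q ∧ D.CS q ∧
    q.natDegree ≤ 2 ^ i ∧ 2 ^ (4 * 2 ^ i - 1) * q.coeff (2 ^ i) = 1 := by
  induction i with
  | zero =>
    refine ⟨C (D.ι ^ 3) * (X - 1), fun s => ?_, fun m => ?_, ?_, ?_⟩
    · obtain ⟨u, hu, e⟩ := D.ε_eq
      obtain ⟨c, hc⟩ : (8 : ℤ) ∣ z ^ s - 1 := by
        simpa using hz.trans (sub_dvd_pow_sub_pow z 1 s)
      have hc' : (z : 𝕂) ^ s = 1 + 8 * c := by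
        have := congrArg (Int.cast : ℤ → 𝕂) hc
        push_cast at this
        linear_combination this
      have : eval ((z : 𝕂) ^ s * D.ε) (C (D.ι ^ 3) * (X - 1)) = c + u + 8 * (c * u) := by
        simp only [eval_mul, eval_C, eval_sub, eval_X, eval_one, hc', e]
        linear_combination ((c : 𝕂) + u + 8 * (c * u)) * ((2 * D.ι) ^ 2 + 2 * D.ι + 1) *
          D.two_mul_ι
      rw [this]
      exact add_mem (add_mem (intCast_mem _ c) hu)
        (mul_mem (by simp) (mul_mem (intCast_mem _ c) hu))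
    · rw [coeff_C_mul, coeff_sub, coeff_X, coeff_one]
      refine mul_mem (pow_mem D.ι_mem 3) (sub_mem ?_ ?_) <;> split_ifs <;> simp
    · compute_degree!
    · rw [coeff_C_mul, coeff_sub, pow_zero, coeff_X_one, coeff_one]
      norm_num
      linear_combination ((2 * D.ι) ^ 2 + 2 * D.ι + 1) * D.two_mul_ι
  | succ i ih =>
    obtain ⟨q, h1, h2, h3, h4⟩ := ih
    have hΦ : ∀ m, 2 ^ i < m → (D.Φ q).coeff m = 0 := fun m hm => by
      rw [coeff_Φ, coeff_eq_zero_of_natDegree_lt (h3.trans_lt hm), map_zero, zero_mul]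
    have hp : 2 ^ (i + 1) = 2 ^ i + 2 ^ i := by ring
    have h0 : 0 < 2 ^ i := by positivity
    refine ⟨C D.ι * (q * q - D.Φ q), fun s => ?_, fun m => ?_, ?_, ?_⟩
    · obtain ⟨t, ht, e⟩ := D.δΛ _ (h1 s)
      rw [eval_mul, eval_C, eval_sub, eval_mul, eval_Φ, ← sq, e, ← mul_assoc, mul_comm D.ι,
        D.two_mul_ι, one_mul]
      exact ht
    · rw [coeff_C_mul, coeff_sub, coeff_Φ]
      exact mul_mem D.ι_mem (sub_mem (h2.mul h2 m)
        (mul_mem (D.φ_memS' (h2 m)) (pow_mem (D.S_le D.lam_mem) m)))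
    · refine (natDegree_C_mul_le _ _).trans ((natDegree_sub_le _ _).trans (max_le ?_ ?_))
      · exact natDegree_mul_le.trans (by omega)
      · exact natDegree_le_iff_coeff_eq_zero.2 fun m hm => hΦ m (by omega)
    · rw [coeff_C_mul, coeff_sub, hΦ _ (by omega), hp, coeff_mul_add_eq_of_natDegree_le h3 h3]
      have : 4 * (2 ^ i + 2 ^ i) - 1 = (4 * 2 ^ i - 1) + (4 * 2 ^ i - 1) + 1 := by omega
      rw [this, pow_succ, pow_add]
      linear_combination (2 ^ (4 * 2 ^ i - 1) * q.coeff (2 ^ i)) ^ 2 * D.two_mul_ι +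
        (2 ^ (4 * 2 ^ i - 1) * q.coeff (2 ^ i) + 1) * h4

theorem exists_P' {z : ℤ} (hz : (8 : ℤ) ∣ z - 1) (n : ℕ) : ∀ i, ∃ q : 𝕂[X], D.IV z q ∧ D.CS q ∧
    q.natDegree ≤ 2 ^ i * n ∧
      2 ^ (4 * (2 ^ i * n) - (Nat.digits 2 n).sum) * q.coeff (2 ^ i * n) = 1 := by
  induction n using Nat.strong_induction_on with
  | _ n ih =>
    intro i
    rcases Nat.eq_zero_or_pos n with rfl | hn
    · refine ⟨1, fun s => by simp, fun m => ?_, by simp, by simp⟩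
      rw [coeff_one]; split_ifs <;> simp
    obtain ⟨q, h1, h2, h3, h4⟩ := ih (n / 2) (by omega) (i + 1)
    rw [Nat.digits_def' (by norm_num) hn, List.sum_cons]
    rcases Nat.mod_two_eq_zero_or_one n with h | h
    · have e : 2 ^ (i + 1) * (n / 2) = 2 ^ i * n := by
        conv_rhs => rw [← Nat.div_add_mod n 2, h]
        ring
      rw [e] at h3 h4
      exact ⟨q, h1, h2, h3, by simpa [h] using h4⟩
    · obtain ⟨r, k1, k2, k3, k4⟩ := D.exists_Q hz i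
      have e : 2 ^ i * n = 2 ^ i + 2 ^ (i + 1) * (n / 2) := by
        conv_lhs => rw [← Nat.div_add_mod n 2, h]
        ring
      have hd := Nat.digit_sum_le 2 (n / 2)
      have h0 : 0 < 2 ^ i := by positivity
      have h5 : n / 2 ≤ 2 ^ (i + 1) * (n / 2) := Nat.le_mul_of_pos_left _ (by positivity)
      refine ⟨r * q, fun s => ?_, k2.mul h2, ?_, ?_⟩
      · rw [eval_mul]; exact mul_mem (k1 s) (h1 s)
      · exact natDegree_mul_le.trans (by omega)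
      · rw [e, coeff_mul_add_eq_of_natDegree_le k3 h3, h]
        have : 4 * (2 ^ i + 2 ^ (i + 1) * (n / 2)) - (1 + (Nat.digits 2 (n / 2)).sum) =
            (4 * 2 ^ i - 1) + (4 * (2 ^ (i + 1) * (n / 2)) - (Nat.digits 2 (n / 2)).sum) := by omega
        rw [this, pow_add]
        linear_combination (2 ^ (4 * (2 ^ (i + 1) * (n / 2)) - (Nat.digits 2 (n / 2)).sum) *
          q.coeff (2 ^ (i + 1) * (n / 2))) * k4 + h4

/-- the basis `P n` -/
theorem exists_P {z : ℤ} (hz : (8 : ℤ) ∣ z - 1) (n : ℕ) : ∃ q : 𝕂[X], D.IV z q ∧ D.CS q ∧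
    q.natDegree ≤ n ∧ 2 ^ (3 * n + padicValNat 2 n.factorial) * q.coeff n = 1 := by
  obtain ⟨q, h1, h2, h3, h4⟩ := D.exists_P' hz n 0
  have h5 := sub_one_mul_padicValNat_factorial (p := 2) n
  have hd := Nat.digit_sum_le 2 n
  simp only [pow_zero, one_mul] at h3 h4
  refine ⟨q, h1, h2, h3, ?_⟩
  rwa [show 3 * n + padicValNat 2 n.factorial = 4 * n - (Nat.digits 2 n).sum by omega]

theorem val_prod {z : ℤ} (hz : (16 : ℤ) ∣ z - 9) (n : ℕ) : ∃ o : ℤ, Odd o ∧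
    ∏ j ∈ Finset.range n, (z ^ n - z ^ j) = 2 ^ (3 * n + padicValNat 2 n.factorial) * o := by
  obtain ⟨c, hc⟩ := hz
  have hz : z = 9 + 16 * c := by linarith
  have hodd : Odd z := ⟨4 + 8 * c, by rw [hz]; ring⟩
  induction n with
  | zero => exact ⟨1, odd_one, by simp⟩
  | succ n ih =>
    obtain ⟨o, ho, e⟩ := ih
    have h1 : emultiplicity (2 : ℤ) (z - 1) = (3 : ℕ) := by
      rw [emultiplicity_eq_coe]
      constructor
      · exact ⟨1 + 2 * c, by rw [hz]; ring⟩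
      · rw [hz]; omega
    have h2 := Int.two_pow_sub_pow' (x := z) (y := 1) (n + 1) ⟨2 + 4 * c, by rw [hz]; ring⟩
      (by rw [hz]; omega)
    have h3 : emultiplicity (2 : ℤ) ((n + 1 : ℕ) : ℤ) = (padicValNat 2 (n + 1) : ℕ) := by
      rw [padicValNat_eq_emultiplicity (by omega)]
      exact Int.natCast_emultiplicity 2 (n + 1)
    rw [h1, h3, one_pow, ← Nat.cast_add, emultiplicity_eq_coe] at h2
    obtain ⟨⟨u, hu⟩, h4⟩ := h2
    have hu' : Odd u := by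
      rw [← Int.not_even_iff_odd]
      rintro ⟨v, rfl⟩
      exact h4 ⟨v, by rw [hu]; ring⟩
    refine ⟨u * z ^ n * o, (hu'.mul hodd.pow).mul ho, ?_⟩
    have h5 : ∏ j ∈ Finset.range n, (z ^ (n + 1) - z ^ (j + 1)) =
        z ^ n * ∏ j ∈ Finset.range n, (z ^ n - z ^ j) := by
      rw [show z ^ n = ∏ _j ∈ Finset.range n, z by simp, ← Finset.prod_mul_distrib]
      exact Finset.prod_congr rfl fun j _ => by simp only [Finset.prod_const, Finset.card_range]; ring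
    rw [Finset.prod_range_succ', h5, e, pow_zero, hu, Nat.factorial_succ,
      padicValNat.mul (by omega) (Nat.factorial_ne_zero n)]
    ring

/-- the leading coefficient of an integral-valued polynomial -/
theorem lead {z : ℤ} (hz : (16 : ℤ) ∣ z - 9) {n : ℕ} {F : 𝕂[X]} (hF : D.IV z F)
    (hn : F.natDegree ≤ n) : 2 ^ (3 * n + padicValNat 2 n.factorial) * F.coeff n ∈ D.Λ := by
  have key : ∀ k, ∃ G : 𝕂[X], D.IV z G ∧ ∀ m, G.coeff m =
      ((∏ j ∈ Finset.range k, (z ^ m - z ^ j) : ℤ) : 𝕂) * F.coeff m := by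
    intro k
    induction k with
    | zero => exact ⟨F, hF, by simp⟩
    | succ k ih =>
      obtain ⟨G, h1, h2⟩ := ih
      refine ⟨G.comp (C (z : 𝕂) * X) - C ((z : 𝕂) ^ k) * G, fun s => ?_, fun m => ?_⟩
      · rw [eval_sub, eval_comp, eval_mul, eval_mul, eval_C, eval_C, eval_X, ← mul_assoc,
          ← pow_succ']
        exact sub_mem (h1 _) (mul_mem (pow_mem (intCast_mem _ z) k) (h1 s))
      · rw [coeff_sub, comp_C_mul_X_coeff, coeff_C_mul, h2, Finset.prod_range_succ]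
        push_cast
        ring
  obtain ⟨G, h1, h2⟩ := key n
  have hG : G = monomial n (G.coeff n) := by
    ext m
    rw [coeff_monomial]
    split_ifs with h
    · rw [h]
    · rcases lt_or_gt_of_ne h with h | h
      · rw [h2, coeff_eq_zero_of_natDegree_lt (hn.trans_lt h), mul_zero]
      · rw [h2, Finset.prod_eq_zero (Finset.mem_range.2 h) (sub_self _), Int.cast_zero, zero_mul]
  have h3 := h1 0
  rw [hG, eval_monomial, pow_zero, one_mul, h2] at h3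
  obtain ⟨o, ⟨r, rfl⟩, e⟩ := val_prod hz n
  obtain ⟨u, hu, eu⟩ := D.ε_eq
  obtain ⟨y, hy, ey⟩ := D.unit (4 * u) (mul_mem (by simp) hu)
  obtain ⟨y', hy', ey'⟩ := D.unit r (intCast_mem _ r)
  have ey2 : D.ε ^ n * y ^ n = 1 := by
    rw [← mul_pow, eu, show 1 + 8 * u = 1 + 2 * (4 * u) by ring, ey, one_pow]
  rw [e] at h3
  push_cast at h3
  convert mul_mem (mul_mem h3 (pow_mem hy n)) hy' using 1
  linear_combination (-(2 ^ (3 * n + padicValNat 2 n.factorial) * F.coeff n)) * ey' -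
    (2 ^ (3 * n + padicValNat 2 n.factorial) * F.coeff n) * ((2 * r + 1) * y') * ey2

theorem const {z : ℤ} (hz : (16 : ℤ) ∣ z - 9) (n : ℕ) : ∀ G : 𝕂[X], D.IV z G → G.natDegree ≤ n →
    (∀ m, 0 < m → G.coeff m ∈ D.S') → ∃ c ∈ D.S', G.coeff 0 - c ∈ D.Λ := by
  induction n with
  | zero =>
    intro G h1 h2 _
    have := h1 0
    rw [eq_C_of_natDegree_le_zero h2, eval_C] at this
    exact ⟨0, zero_mem _, by simpa using this⟩
  | succ n ih =>
    intro G h1 h2 h3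
    obtain ⟨P, k1, k2, k3, k4⟩ := D.exists_P (z := z) (by omega) (n + 1)
    have hx := D.lead hz h1 h2
    set x := 2 ^ (3 * (n + 1) + padicValNat 2 (n + 1).factorial) * G.coeff (n + 1) with ex
    have hx' : x ∈ D.S' := mul_mem (pow_mem (two_mem _) _) (h3 _ n.succ_pos)
    obtain ⟨c, hc, e⟩ := ih (G - C x * P) (fun s => by
      rw [eval_sub, eval_mul, eval_C]
      exact sub_mem (h1 s) (mul_mem hx (k1 s))) (natDegree_le_iff_coeff_eq_zero.2 fun m hm => by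
      rw [coeff_sub, coeff_C_mul]
      rcases (Nat.succ_le_of_lt hm).eq_or_lt with rfl | hm
      · rw [ex]
        linear_combination (-G.coeff (n + 1)) * k4
      · rw [coeff_eq_zero_of_natDegree_lt (h2.trans_lt hm),
          coeff_eq_zero_of_natDegree_lt (k3.trans_lt hm), mul_zero, sub_zero]) (fun m hm => by
      rw [coeff_sub, coeff_C_mul]
      exact sub_mem (h3 m hm) (mul_mem hx' (k2 m)))
    refine ⟨c + x * P.coeff 0, add_mem hc (mul_mem hx' (k2 0)), ?_⟩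
    rw [coeff_sub, coeff_C_mul] at e
    convert e using 1
    ring

/-- **Katz descent**: if `F ∈ S[1/2][Y]` takes the value `γ` modulo `2 Λ` at all the points
`z ^ s ε`, then a `2`-power of `γ` lies in `S + 2 Λ` -/
theorem descent {z : ℤ} (hz : (16 : ℤ) ∣ z - 9) {F : 𝕂[X]} (hF : D.CS F) {γ : 𝕂} (hγ : γ ∈ D.Λ)
    (h : ∀ s : ℕ, ∃ t ∈ D.Λ, F.eval ((z : 𝕂) ^ s * D.ε) = γ + 2 * t) :
    ∃ e : ℕ, ∃ s ∈ D.S, ∃ t ∈ D.Λ, γ ^ 2 ^ e = s + 2 * t := by
  obtain ⟨c, hc, e⟩ := D.const hz _ (C D.ι * (F - C γ)) (fun s => by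
    obtain ⟨t, ht, e⟩ := h s
    rw [eval_mul, eval_C, eval_sub, eval_C, e, add_sub_cancel_left, ← mul_assoc, mul_comm D.ι,
      D.two_mul_ι, one_mul]
    exact ht) le_rfl (fun m hm => by
    rw [coeff_C_mul, coeff_sub, coeff_C, if_neg hm.ne', sub_zero]
    exact mul_mem D.ι_mem (hF m))
  rw [coeff_C_mul, coeff_sub, coeff_C_zero] at e
  set v := D.ι * (F.coeff 0 - γ) - c with hv
  have e1 : F.coeff 0 - 2 * c = γ + 2 * v := by
    rw [hv]; linear_combination (γ - F.coeff 0) * D.two_mul_ι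
  have hg : γ + 2 * v ∈ D.Λ := add_mem hγ (mul_mem (two_mem _) e)
  obtain ⟨n, hn⟩ : γ + 2 * v ∈ D.S' := e1 ▸ sub_mem (hF 0) (mul_mem (two_mem _) hc)
  obtain ⟨s, hs, t, ht, e2⟩ := D.sat n _ hg hn
  obtain ⟨r, hr⟩ : ∃ r : D.Λ, (⟨_, hg⟩ : D.Λ) ^ 2 ^ n - ⟨_, hγ⟩ ^ 2 ^ n =
      ((⟨_, hg⟩ : D.Λ) - ⟨_, hγ⟩) * r := sub_dvd_pow_sub_pow _ _ _
  have hr' := congrArg Subtype.val hr
  simp only [AddSubgroupClass.coe_sub, SubmonoidClass.coe_pow, MulMemClass.coe_mul] at hr'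
  exact ⟨n, s, hs, t - v * r, sub_mem ht (mul_mem e r.2), by linear_combination e2 - hr'⟩

end KD

end Crest.Agent.R007
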