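import Crest.Agent.R007.Defs

/-! # Row 7, block Q, part 1: rational functionals with bounded denominators at 2. -/

set_option autoImplicit false

noncomputable section
namespace Crest.Agent.R007.Qb

/-- `q ∈ ℤ_(2)` has residue `c` -/
def Int2 (q : ℚ) (c : ZMod 2) : Prop := ∃ m a : ℤ, Odd m ∧ (m : ℚ) * q = a ∧ (a : ZMod 2) = c

theorem odd_cast {m : ℤ} (h : Odd m) : (m : ZMod 2) = 1 := by
  obtain ⟨k, rfl⟩ := h
  have : (2 : ZMod 2) = 0 := rfl
  push_cast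
  rw [this]; ring

theorem odd_ne {m : ℤ} (h : Odd m) : (m : ℚ) ≠ 0 := by
  have : m ≠ 0 := by rintro rfl; exact absurd h (by decide)
  exact_mod_cast this

theorem Int2.intCast (a : ℤ) : Int2 a a := ⟨1, a, odd_one, by simp, rfl⟩

theorem Int2.zero : Int2 0 0 := by simpa using Int2.intCast 0

theorem Int2.add {q q' : ℚ} {c c' : ZMod 2} (h : Int2 q c) (h' : Int2 q' c') :
    Int2 (q + q') (c + c') := by
  obtain ⟨m, a, hm, e, rfl⟩ := h
  obtain ⟨m', a', hm', e', rfl⟩ := h'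
  refine ⟨m * m', m' * a + m * a', hm.mul hm', ?_, ?_⟩
  · push_cast; rw [← e, ← e']; ring
  · push_cast; rw [odd_cast hm, odd_cast hm']; ring

theorem Int2.mul {q q' : ℚ} {c c' : ZMod 2} (h : Int2 q c) (h' : Int2 q' c') :
    Int2 (q * q') (c * c') := by
  obtain ⟨m, a, hm, e, rfl⟩ := h
  obtain ⟨m', a', hm', e', rfl⟩ := h'
  refine ⟨m * m', a * a', hm.mul hm', ?_, ?_⟩
  · push_cast; rw [← e, ← e']; ring
  · push_cast; rfl

theorem Int2.of_eq {q q' : ℚ} {c : ZMod 2} (h : Int2 q c) (e : q = q') : Int2 q' c := e ▸ h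

theorem Int2.neg {q : ℚ} {c : ZMod 2} (h : Int2 q c) : Int2 (-q) (-c) := by
  simpa using (Int2.intCast (-1)).mul h

theorem Int2.unique {q : ℚ} {c c' : ZMod 2} (h : Int2 q c) (h' : Int2 q c') : c = c' := by
  obtain ⟨m, a, hm, e, rfl⟩ := h
  obtain ⟨m', a', hm', e', rfl⟩ := h'
  have h1 : ((m' * a : ℤ) : ℚ) = (m * a' : ℤ) := by push_cast; rw [← e, ← e']; ring
  have h2 : m' * a = m * a' := by exact_mod_cast h1
  have h3 := congrArg (Int.cast : ℤ → ZMod 2) h2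
  push_cast at h3
  rwa [odd_cast hm, odd_cast hm', one_mul, one_mul] at h3

theorem Int2.of_odd_mul {q : ℚ} {c : ZMod 2} {m : ℤ} (hm : Odd m) (h : Int2 (m * q) c) :
    Int2 q c := by
  obtain ⟨m', a, hm', e, rfl⟩ := h
  exact ⟨m' * m, a, hm'.mul hm, by push_cast; rw [← e]; ring, rfl⟩

theorem Int2.two_mul {q : ℚ} {c : ZMod 2} (h : Int2 q c) : Int2 (2 * q) 0 := by
  have h2 := (Int2.intCast 2).mul h
  have : ((2 : ℤ) : ZMod 2) = 0 := rfl
  rw [this, zero_mul] at h2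
  simpa using h2

theorem Int2.sum {ι : Type} (s : Finset ι) {q : ι → ℚ} {c : ι → ZMod 2}
    (h : ∀ i ∈ s, Int2 (q i) (c i)) : Int2 (∑ i ∈ s, q i) (∑ i ∈ s, c i) := by
  classical
  induction s using Finset.induction_on with
  | empty => simpa using Int2.zero
  | insert i s hi ih =>
    rw [Finset.sum_insert hi, Finset.sum_insert hi]
    exact (h i (Finset.mem_insert_self _ _)).add
      (ih fun j hj => h j (Finset.mem_insert_of_mem hj))

theorem Int2.pow_mono {q : ℚ} {n n' : ℕ} (hn : n ≤ n') (h : ∃ c, Int2 (2 ^ n * q) c) :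
    ∃ c, Int2 (2 ^ n' * q) c := by
  obtain ⟨c, h⟩ := h
  obtain ⟨e, rfl⟩ := Nat.exists_eq_add_of_le hn
  have := (Int2.intCast (2 ^ e)).mul h
  refine ⟨_, this.of_eq ?_⟩
  push_cast; ring

theorem exists_int2 (q : ℚ) : ∃ n : ℕ, ∃ c, Int2 (2 ^ n * q) c := by
  obtain ⟨e, n', h1, h2⟩ := Nat.exists_eq_pow_mul_and_not_dvd q.den_nz 2 (by norm_num)
  refine ⟨e, _, n', q.num, ?_, ?_, rfl⟩
  · exact_mod_cast Nat.odd_iff.2 (Nat.two_dvd_ne_zero.1 h1)
  · rw [← Rat.mul_den_eq_num, h2]; push_cast; ring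

section abs
variable {A : Type} [AddCommGroup A]

/-- bounded denominators at 2 -/
def Bd2 (φ : A →+ ℚ) : Prop := ∃ n : ℕ, ∀ t, ∃ c, Int2 (2 ^ n * φ t) c

theorem Bd2.zero : Bd2 (0 : A →+ ℚ) := ⟨0, fun _ => ⟨0, by simpa using Int2.zero⟩⟩

theorem Bd2.add {φ ψ : A →+ ℚ} (h : Bd2 φ) (h' : Bd2 ψ) : Bd2 (φ + ψ) := by
  obtain ⟨n, h⟩ := h
  obtain ⟨n', h'⟩ := h'
  refine ⟨max n n', fun t => ?_⟩
  obtain ⟨c, hc⟩ := Int2.pow_mono (le_max_left n n') (h t)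
  obtain ⟨c', hc'⟩ := Int2.pow_mono (le_max_right n n') (h' t)
  exact ⟨_, by simpa [mul_add] using hc.add hc'⟩

theorem Bd2.smul (a : ℚ) {φ : A →+ ℚ} (h : Bd2 φ) : Bd2 (a • φ) := by
  obtain ⟨n, h⟩ := h
  obtain ⟨n', c', h'⟩ := exists_int2 a
  refine ⟨n + n', fun t => ?_⟩
  obtain ⟨c, hc⟩ := h t
  refine ⟨_, (hc.mul h').of_eq ?_⟩
  simp only [AddMonoidHom.smul_apply, smul_eq_mul]; ring

theorem Bd2.of_closure {φ : A →+ ℚ} {S : Set A} (hS : ∀ t, t ∈ AddSubgroup.closure S) (n : ℕ)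
    (h : ∀ t ∈ S, ∃ c, Int2 (2 ^ n * φ t) c) : Bd2 φ := by
  refine ⟨n, fun t => ?_⟩
  induction hS t using AddSubgroup.closure_induction with
  | mem x hx => exact h x hx
  | zero => exact ⟨0, by simpa using Int2.zero⟩
  | add x y _ _ hx hy =>
    obtain ⟨c, hc⟩ := hx
    obtain ⟨c', hc'⟩ := hy
    exact ⟨_, by simpa [mul_add] using hc.add hc'⟩
  | neg x _ hx =>
    obtain ⟨c, hc⟩ := hx
    exact ⟨_, by simpa using hc.neg⟩

/-- an element on which `φ` has minimal valuation -/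
theorem exists_t0 (B : AddSubgroup A) {φ : A →+ ℚ} (hφ : Bd2 φ) :
    ∃ t₀ ∈ B, ∀ t ∈ B, ∃ m a : ℤ, Odd m ∧ (m : ℚ) * φ t = a * φ t₀ := by
  classical
  by_cases h0 : ∀ t ∈ B, φ t = 0
  · exact ⟨0, B.zero_mem, fun t ht => ⟨1, 0, odd_one, by simp [h0 t ht]⟩⟩
  push Not at h0
  obtain ⟨t₁, ht₁, h₁⟩ := h0
  obtain ⟨n, hn⟩ := hφ
  have hex : ∃ j : ℕ, ¬ ∀ t ∈ B, ∃ c, Int2 (2 ^ n * φ t / 2 ^ (j + 1)) c := by
    obtain ⟨c, m, a, hm, e, -⟩ := hn t₁
    have ha : a ≠ 0 := by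
      rintro rfl
      exact mul_ne_zero (odd_ne hm) (mul_ne_zero (pow_ne_zero n two_ne_zero) h₁) (by simpa using e)
    refine ⟨a.natAbs, fun h => ?_⟩
    obtain ⟨c', m', a', hm', e', -⟩ := h t₁ ht₁
    have h1 : ((m' * a : ℤ) : ℚ) = (2 ^ (a.natAbs + 1) * (m * a') : ℤ) := by
      push_cast; rw [← e, ← e']; field_simp
    have h2 : m' * a = 2 ^ (a.natAbs + 1) * (m * a') := by exact_mod_cast h1
    have h3 : (2 : ℤ) ^ (a.natAbs + 1) ∣ a := by
      refine IsCoprime.dvd_of_dvd_mul_left (IsCoprime.pow_left ?_) ⟨_, h2⟩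
      exact Int.isCoprime_two_left.2 hm'
    have h4 := Int.natAbs_le_of_dvd_ne_zero h3 ha
    rw [Int.natAbs_pow] at h4
    have h5 : a.natAbs + 1 < 2 ^ (a.natAbs + 1) := Nat.lt_two_pow_self
    simp at h4
    omega
  obtain ⟨J, hP, hQ⟩ : ∃ J : ℕ, (∀ t ∈ B, ∃ c, Int2 (2 ^ n * φ t / 2 ^ J) c) ∧
      ¬ ∀ t ∈ B, ∃ c, Int2 (2 ^ n * φ t / 2 ^ (J + 1)) c := by
    by_contra hh
    push Not at hh
    have : ∀ J : ℕ, ∀ t ∈ B, ∃ c, Int2 (2 ^ n * φ t / 2 ^ J) c := by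
      intro J
      induction J with
      | zero => intro t _; simpa using hn t
      | succ J ih => exact hh J ih
    obtain ⟨j, hj⟩ := hex
    exact hj (this _)
  push Not at hQ
  obtain ⟨t₀, ht₀, hQ⟩ := hQ
  refine ⟨t₀, ht₀, fun t ht => ?_⟩
  obtain ⟨c₀, m₀, a₀, hm₀, e₀, -⟩ := hP t₀ ht₀
  obtain ⟨c, m, a, hm, e, -⟩ := hP t ht
  have ha₀ : Odd a₀ := by
    by_contra hh
    obtain ⟨b, rfl⟩ := Int.not_odd_iff_even.1 hh
    refine hQ b ⟨m₀, b, hm₀, ?_, rfl⟩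
    push_cast at e₀
    rw [pow_succ]
    field_simp
    field_simp at e₀
    linarith
  refine ⟨m * a₀, a * m₀, hm.mul ha₀, ?_⟩
  push_cast
  rw [← e, ← e₀]
  field_simp

theorem fg2_list (L : List (A →+ ℚ)) (hL : ∀ φ ∈ L, Bd2 φ) (B : AddSubgroup A)
    (hB : ∀ t ∈ B, (∀ φ ∈ L, φ t = 0) → t = 0) :
    ∃ s : Finset A, ∀ t ∈ B, ∃ m : ℤ, Odd m ∧ m • t ∈ Submodule.span ℤ (s : Set A) := by
  classical
  induction L generalizing B with
  | nil =>
    refine ⟨∅, fun t ht => ⟨1, odd_one, ?_⟩⟩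
    rw [hB t ht (by simp)]; simp
  | cons φ L ih =>
    obtain ⟨s, hs⟩ := ih (fun ψ hψ => hL ψ (List.mem_cons_of_mem _ hψ)) (B ⊓ φ.ker)
      fun t ht h => hB t ht.1 fun ψ hψ => by
        rcases List.mem_cons.1 hψ with rfl | hψ
        · exact ht.2
        · exact h ψ hψ
    obtain ⟨t₀, ht₀, h₀⟩ := exists_t0 B (hL φ List.mem_cons_self)
    refine ⟨insert t₀ s, fun t ht => ?_⟩
    obtain ⟨m, a, hm, e⟩ := h₀ t ht
    obtain ⟨m', hm', h'⟩ := hs (m • t - a • t₀)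
      ⟨B.sub_mem (B.zsmul_mem ht _) (B.zsmul_mem ht₀ _), by
        change φ _ = 0
        rw [map_sub, map_zsmul, map_zsmul, zsmul_eq_mul, zsmul_eq_mul, e, sub_self]⟩
    refine ⟨m' * m, hm'.mul hm, ?_⟩
    have e2 : (m' * m) • t = m' • (m • t - a • t₀) + (m' * a) • t₀ := by
      rw [smul_sub, smul_smul, smul_smul]; abel
    rw [e2]
    refine Submodule.add_mem _ (Submodule.span_mono (by simp) h')
      (Submodule.smul_mem _ _ (Submodule.subset_span (by simp)))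

theorem lift_list (L : List (A →+ ℚ)) (hL : ∀ φ ∈ L, Bd2 φ) (B : AddSubgroup A)
    (l : A →+ ZMod 2) (hB : ∀ t ∈ B, (∀ φ ∈ L, φ t = 0) → l t = 0) :
    ∃ lam ∈ Submodule.span ℚ {φ | φ ∈ L}, ∀ t ∈ B, Int2 (lam t) (l t) := by
  induction L generalizing B with
  | nil =>
    refine ⟨0, Submodule.zero_mem _, fun t ht => ?_⟩
    rw [hB t ht (by simp)]; exact Int2.zero
  | cons φ L ih =>
    obtain ⟨lam, hlam, hs⟩ := ih (fun ψ hψ => hL ψ (List.mem_cons_of_mem _ hψ)) (B ⊓ φ.ker)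
      fun t ht h => hB t ht.1 fun ψ hψ => by
        rcases List.mem_cons.1 hψ with rfl | hψ
        · exact ht.2
        · exact h ψ hψ
    have hlam' : lam ∈ Submodule.span ℚ {ψ | ψ ∈ φ :: L} :=
      Submodule.span_mono (fun ψ hψ => List.mem_cons_of_mem _ hψ) hlam
    obtain ⟨t₀, ht₀, h₀⟩ := exists_t0 B (hL φ List.mem_cons_self)
    by_cases hz : φ t₀ = 0
    · refine ⟨lam, hlam', fun t ht => hs t ⟨ht, ?_⟩⟩
      obtain ⟨m, a, hm, e⟩ := h₀ t ht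
      rw [hz, mul_zero] at e
      exact (mul_eq_zero.1 e).resolve_left (odd_ne hm)
    · refine ⟨lam + ((((l t₀).val : ℤ) - lam t₀) / φ t₀) • φ, Submodule.add_mem _ hlam'
        (Submodule.smul_mem _ _ (Submodule.subset_span List.mem_cons_self)), fun t ht => ?_⟩
      obtain ⟨m, a, hm, e⟩ := h₀ t ht
      have h1 := hs (m • t - a • t₀) ⟨B.sub_mem (B.zsmul_mem ht _) (B.zsmul_mem ht₀ _), by
        change φ _ = 0
        rw [map_sub, map_zsmul, map_zsmul, zsmul_eq_mul, zsmul_eq_mul, e, sub_self]⟩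
      have h2 := h1.add (Int2.intCast (a * ((l t₀).val : ℤ)))
      refine Int2.of_odd_mul hm ?_
      convert h2 using 1
      · simp only [AddMonoidHom.add_apply, AddMonoidHom.smul_apply, smul_eq_mul, map_sub,
          map_zsmul, zsmul_eq_mul]
        have e' : φ t = a * φ t₀ / m := by rw [← e]; field_simp [odd_ne hm]
        rw [e']
        have := odd_ne hm
        push_cast
        field_simp
        ring
      · simp only [map_sub, map_zsmul, zsmul_eq_mul, odd_cast hm]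
        push_cast
        rw [ZMod.natCast_zmod_val]; ring

theorem exists_list {Φ : Set (A →+ ℚ)} (h : (Submodule.span ℚ Φ).FG) :
    ∃ L : List (A →+ ℚ), (∀ φ ∈ L, φ ∈ Φ) ∧ ∀ t, (∀ φ ∈ L, φ t = 0) → ∀ φ ∈ Φ, φ t = 0 := by
  obtain ⟨s, hs, e⟩ := (Submodule.fg_span_iff_fg_span_finset_subset Φ).1 h
  refine ⟨s.toList, fun φ hφ => hs (Finset.mem_toList.1 hφ), fun t ht φ hφ => ?_⟩
  have h1 : φ ∈ Submodule.span ℚ (s : Set (A →+ ℚ)) := e ▸ Submodule.subset_span hφ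
  clear hφ
  induction h1 using Submodule.span_induction with
  | mem x hx => exact ht x (Finset.mem_toList.2 hx)
  | zero => rfl
  | add x y _ _ hx hy => rw [AddMonoidHom.add_apply, hx, hy, add_zero]
  | smul a x _ hx => rw [AddMonoidHom.smul_apply, hx, smul_zero]

theorem fg2_of {Φ : Set (A →+ ℚ)} (h : (Submodule.span ℚ Φ).FG) (hb : ∀ φ ∈ Φ, Bd2 φ)
    (hs : ∀ t, (∀ φ ∈ Φ, φ t = 0) → t = 0) : FG2 A := by
  obtain ⟨L, h1, h2⟩ := exists_list h
  obtain ⟨s, hs⟩ := fg2_list L (fun φ hφ => hb φ (h1 φ hφ)) ⊤ fun t _ ht => hs t (h2 t ht)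
  exact ⟨s, fun t => hs t trivial⟩

theorem lift_of {Φ : Set (A →+ ℚ)} (h : (Submodule.span ℚ Φ).FG) (hb : ∀ φ ∈ Φ, Bd2 φ)
    (l : A →+ ZMod 2) (hs : ∀ t, (∀ φ ∈ Φ, φ t = 0) → l t = 0) :
    ∃ lam ∈ Submodule.span ℚ Φ, ∀ t, Int2 (lam t) (l t) := by
  obtain ⟨L, h1, h2⟩ := exists_list h
  obtain ⟨lam, h3, h4⟩ := lift_list L (fun φ hφ => hb φ (h1 φ hφ)) ⊤ l fun t _ ht => hs t (h2 t ht)
  exact ⟨lam, Submodule.span_mono h1 h3, fun t => h4 t trivial⟩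

end abs

/-- `5` generates `1 + 4ℤ₂` -/
theorem exists_pow_congr {l₀ d d' : ℤ} (h8 : l₀ % 8 = 5) (hd : Odd d) (hdd : 4 ∣ d - d') (s : ℕ) :
    ∃ e : ℕ, 2 ^ (s + 2) ∣ d * l₀ ^ e - d' := by
  have key : ∀ s : ℕ, ∃ v : ℤ, Odd v ∧ l₀ ^ 2 ^ s = 1 + 2 ^ (s + 2) * v := by
    intro s
    induction s with
    | zero => exact ⟨2 * (l₀ / 8) + 1, odd_two_mul_add_one _, by norm_num; omega⟩
    | succ s ih =>
      obtain ⟨v, hv, e⟩ := ih
      refine ⟨v + 2 * (2 ^ s * v ^ 2), hv.add_even (even_two_mul _), ?_⟩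
      rw [pow_succ, pow_mul, e]; ring
  have hl : Odd l₀ := Int.odd_iff.2 (by omega)
  induction s with
  | zero => exact ⟨0, by simpa using hdd⟩
  | succ s ih =>
    obtain ⟨e, u, hu⟩ := ih
    rcases Int.even_or_odd u with ⟨w, rfl⟩ | hu'
    · exact ⟨e, w, by rw [hu]; ring⟩
    · obtain ⟨v, hv, ev⟩ := key s
      obtain ⟨w, hw⟩ := hu'.add_odd ((hd.mul (hl.pow (n := e))).mul hv)
      refine ⟨e + 2 ^ s, w, ?_⟩
      rw [pow_add, ev]
      linear_combination hu + 2 ^ (s + 2) * hw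

theorem red_intCast (a : ℤ) : red (a : OO) = algebraMap (ZMod 2) FF (a : ZMod 2) := by
  simp

theorem Int2.lift_OO (j : ℚ →+* KK) {q : ℚ} {c : ZMod 2} (h : Int2 q c) :
    ∃ y : OO, algebraMap OO KK y = j q ∧ red y = algebraMap (ZMod 2) FF c := by
  obtain ⟨m, a, hm, e, rfl⟩ := h
  have h1 : red (m : OO) = 1 := by rw [red_intCast, odd_cast hm, map_one]
  have hu : IsUnit (m : OO) := WittVector.isUnit_of_coeff_zero_ne_zero _ (by
    change red (m : OO) ≠ 0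
    rw [h1]; exact one_ne_zero)
  obtain ⟨u, hu⟩ := hu.exists_left_inv
  refine ⟨u * a, ?_, ?_⟩
  · have h2 := congrArg j e
    have h3 := congrArg (algebraMap OO KK) hu
    simp only [map_mul, map_intCast, map_one] at h2 h3 ⊢
    rw [← h2, ← mul_assoc, h3, one_mul]
  · have h3 := congrArg red hu
    rw [map_mul, h1, mul_one, map_one] at h3
    rw [map_mul, h3, one_mul, red_intCast]

theorem int2_of_OO (j : ℚ →+* KK) {q : ℚ} {y : OO} (h : algebraMap OO KK y = j q) :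
    ∃ c, Int2 q c := by
  refine ⟨_, q.den, q.num, ?_, by rw [mul_comm]; exact_mod_cast Rat.mul_den_eq_num q, rfl⟩
  by_contra hh
  have h1 : Even (q.den : ℤ) := Int.not_odd_iff_even.1 hh
  have h2 : (y * (q.den : ℤ) : OO) = (q.num : OO) := by
    apply IsFractionRing.injective OO KK
    have := congrArg j (Rat.mul_den_eq_num q)
    simp only [map_mul, map_intCast, map_natCast, Int.cast_natCast] at this ⊢
    rw [h, this]
  have h3 := congrArg red h2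
  rw [map_mul, red_intCast, red_intCast, (ZMod.intCast_eq_zero_iff_even).2 h1, map_zero,
    mul_zero] at h3
  have h4 : (q.num : ZMod 2) = 0 := (map_eq_zero _).1 h3.symm
  have h5 : Even q.num := ZMod.intCast_eq_zero_iff_even.1 h4
  have h6 := q.reduced
  have h7 : 2 ∣ q.num.natAbs := even_iff_two_dvd.1 (Int.natAbs_even.2 h5)
  have h8 : 2 ∣ q.den := by exact_mod_cast even_iff_two_dvd.1 h1
  have := Nat.dvd_gcd h7 h8
  rw [h6] at this
  omega

end Crest.Agent.R007.Qb
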