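import Crest.Agent.R007.R
import Crest.Agent.R007.I
import Crest.Agent.R007.Q1

/-! # Row 7, block Q, part 2: the functionals `t ↦ π (a_{n₀}(t_i f))`. -/

set_option autoImplicit false

noncomputable section
namespace Crest.Agent.R007.Qb

open PowerSeries UpperHalfPlane
open scoped ModularForm MatrixGroups TensorProduct

open Crest.NumberTheoryR.HeckeTwoAdic

/-- goodness over `KK` of the rational components of modular forms -/
def Ctx (M : ℕ) [NeZero M] (j : ℚ →+* KK) (t : OO⟦X⟧) : Prop :=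
  ∀ (w m : ℕ) (g : ℍ → ℂ) (G : ℂ⟦X⟧), IsMF w (GamS M) g → HasQ M g G → ∀ π : ℂ →ₗ[ℚ] ℚ,
    w + w % 2 = 2 * m → Good (eKK M) (PowerSeries.map j (piSer π G) *
      PowerSeries.map (algebraMap OO KK) (1 + 2 * t) ^ (w % 2) * lev KK M epsInv ^ m)

theorem exists_ctx (M : ℕ) [NeZero M] (ho : Odd M) (h3 : 3 ∣ M) : ∃ j t, Ctx M j t := by
  obtain ⟨ι, hι⟩ := exists_iota M ho
  obtain ⟨AC, -, hAC⟩ := hasQ_a1f M (P3_ne_zero h3) (three_smul_P3 h3)
  obtain ⟨t, ht⟩ := exists_A1_OO M ho (P3_ne_zero h3) (three_smul_P3 h3)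
  obtain ⟨A, hA1, hA2⟩ := lifts_A1 ho hι M dvd_rfl (P3_ne_zero h3) (three_smul_P3 h3) hAC ht
  have hinj : Function.Injective (PowerSeries.map (algebraMap (KC M) ℂ)) :=
    PowerSeries.map_injective _ (algebraMap (KC M) ℂ).injective
  have hX := map_Xser (algebraMap (KC M) ℂ) (prim_eK M) (eC_eq M) (P3 M)
  have hDX := map_DXser (algebraMap (KC M) ℂ) (prim_eK M) (eC_eq M) (P3 M)
  have hA : IsA1 (eK M) (P3 M) A := by
    constructor
    · apply hinj
      simp only [map_mul, map_sub, map_add, map_pow, map_ofNat, hX, hDX, hA1, map_lev]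
      exact hAC.1
    · apply hinj
      simp only [map_mul, map_add, map_pow, map_ofNat, map_one, hX, hA1]
      exact hAC.2
  refine ⟨ι.comp (algebraMap ℚ (KC M)), t, fun w m g G hg hG π hm => ?_⟩
  have h1 := Good.map ι (prim_eK M) (eKK_iota M hι) (good_pi M ho h3 w m hg hG π hA hm)
  simpa only [map_mul, map_pow, hA2, map_lev, PowerSeries.map_comp, RingHom.comp_apply] using h1

theorem isUnit_one_add (t : OO⟦X⟧) : IsUnit (1 + 2 * t) := by
  rw [PowerSeries.isUnit_iff_constantCoeff]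
  refine WittVector.isUnit_of_coeff_zero_ne_zero _ ?_
  change red (constantCoeff (1 + 2 * t)) ≠ 0
  have h2 : (2 : FF) = 0 := CharP.ofNat_eq_zero FF 2
  simp only [map_add, map_mul, map_one, map_ofNat, h2, zero_mul, add_zero]
  exact one_ne_zero

theorem red_one_add (t : OO⟦X⟧) : PowerSeries.map red (1 + 2 * t) = 1 := by
  have h2 : (2 : FF⟦X⟧) = 0 := by
    have : (2 : FF⟦X⟧) = PowerSeries.C (2 : FF) := (map_ofNat _ 2).symm
    rw [this, CharP.ofNat_eq_zero FF 2, map_zero]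
  simp only [map_add, map_mul, map_one, map_ofNat, h2, zero_mul, add_zero]

theorem bd_of_good {M : ℕ} [NeZero M] (ho : Odd M) {j : ℚ →+* KK} {t : OO⟦X⟧} {S : ℚ⟦X⟧}
    {b m : ℕ} (h : Good (eKK M) (PowerSeries.map j S *
      PowerSeries.map (algebraMap OO KK) (1 + 2 * t) ^ b * lev KK M epsInv ^ m)) :
    ∃ n : ℕ, ∀ r, ∃ c, Int2 (2 ^ n * coeff r S) c := by
  obtain ⟨n, y, hy⟩ := good_bdd M ho h
  obtain ⟨u, hu⟩ := (isUnit_one_add t).exists_right_inv
  refine ⟨n, fun r => int2_of_OO j (y := coeff r (y * u ^ b * lev OO M eps ^ m)) ?_⟩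
  have h1 : PowerSeries.map (algebraMap OO KK) (y * u ^ b * lev OO M eps ^ m) =
      PowerSeries.map j (2 ^ n * S) := by
    have hu' := congrArg (PowerSeries.map (algebraMap OO KK)) hu
    have he := lev_eps_mul_inv (R := KK) (h := M)
    rw [map_mul, map_one] at hu'
    simp only [map_mul, map_pow, hy, map_lev, map_ofNat]
    calc _ = 2 ^ n * PowerSeries.map j S * (PowerSeries.map (algebraMap OO KK) (1 + 2 * t) *
          PowerSeries.map (algebraMap OO KK) u) ^ b * (lev KK M eps * lev KK M epsInv) ^ m := by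
          ring
      _ = _ := by rw [hu', he]; ring
  have h2 := congrArg (coeff r) h1
  rw [coeff_map, coeff_map] at h2
  rw [h2]
  congr 1
  have : (2 ^ n * S : ℚ⟦X⟧) = PowerSeries.C (2 ^ n : ℚ) * S := by
    rw [map_pow, map_ofNat]
  rw [this, coeff_C_mul]

theorem expand_piSer (M : ℕ) (hM : M ≠ 0) (π : ℂ →ₗ[ℚ] ℚ) (G : ℂ⟦X⟧) :
    PowerSeries.expand M hM (piSer π G) = piSer π (PowerSeries.expand M hM G) := by
  ext n
  simp only [piSer, coeff_expand, coeff_mk]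
  split_ifs
  · rfl
  · exact (map_zero π).symm

theorem piSer_mem (π : ℂ →ₗ[ℚ] ℚ) {s : Set ℚ⟦X⟧} {G : ℂ⟦X⟧}
    (h : G ∈ Submodule.span ℂ (PowerSeries.map (algebraMap ℚ ℂ) '' s)) :
    piSer π G ∈ Submodule.span ℚ s := by
  have key : ∀ c : ℂ, piSer π (c • G) ∈ Submodule.span ℚ s := by
    induction h using Submodule.span_induction with
    | mem x hx =>
      obtain ⟨y, hy, rfl⟩ := hx
      intro c
      have : piSer π (c • PowerSeries.map (algebraMap ℚ ℂ) y) = π c • y := by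
        ext n
        simp only [piSer, coeff_mk, map_smul, coeff_map, smul_eq_mul]
        rw [mul_comm c, ← Algebra.smul_def, map_smul, smul_eq_mul, mul_comm]
      rw [this]
      exact Submodule.smul_mem _ _ (Submodule.subset_span hy)
    | zero =>
      intro c
      have : piSer π (c • 0) = 0 := by ext n; simp [piSer]
      rw [this]; exact Submodule.zero_mem _
    | add x y _ _ hx hy =>
      intro c
      have : piSer π (c • (x + y)) = piSer π (c • x) + piSer π (c • y) := by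
        ext n; simp [piSer, mul_add]
      rw [this]; exact Submodule.add_mem _ (hx c) (hy c)
    | smul a x _ hx =>
      intro c
      rw [smul_smul]; exact hx _
  simpa using key 1

theorem exists_smooth_mul {N : ℕ} (m : ℕ) (hm : m ≠ 0) :
    ∃ n₀ n, Smooth N n₀ ∧ n.Coprime (2 * N) ∧ m = n₀ * n := by
  induction m using Nat.recOnMul with
  | zero => exact absurd rfl hm
  | one => exact ⟨1, 1, ⟨one_ne_zero, fun p hp h => absurd (Nat.dvd_one.1 h) hp.ne_one⟩,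
      Nat.coprime_one_left _, rfl⟩
  | prime p hp =>
    by_cases h : p ∣ 2 * N
    · exact ⟨p, 1, ⟨hp.ne_zero, fun q hq h' => by
        rwa [(Nat.prime_dvd_prime_iff_eq hq hp).1 h']⟩, Nat.coprime_one_left _, (mul_one p).symm⟩
    · exact ⟨1, p, ⟨one_ne_zero, fun p hp h => absurd (Nat.dvd_one.1 h) hp.ne_one⟩,
        hp.coprime_iff_not_dvd.2 h, (one_mul p).symm⟩
  | mul a b ha hb =>
    obtain ⟨a₀, a₁, h1, h2, rfl⟩ := ha (left_ne_zero_of_mul hm)
    obtain ⟨b₀, b₁, h3, h4, rfl⟩ := hb (right_ne_zero_of_mul hm)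
    refine ⟨a₀ * b₀, a₁ * b₁, ⟨mul_ne_zero h1.1 h3.1, fun p hp h => ?_⟩,
      Nat.Coprime.mul_left h2 h4, by ring⟩
    rcases (hp.dvd_mul).1 h with h | h
    exacts [h1.2 p hp h, h3.2 p hp h]

variable {N : ℕ} {T D : ℕ → (i : ℕ) → (MF N i →ₗ[ℂ] MF N i)} {Tn Sd : (k : ℕ) → ℕ → stage N T D k}

theorem aCo_add {i : ℕ} (n : ℕ) (f g : MF N i) : aCo n (f + g) = aCo n f + aCo n g := by
  unfold aCo
  rw [ModularForm.coe_add, ModularForm.qExpansion_add one_pos (by simp), map_add]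

theorem aCo_smul {i : ℕ} (n : ℕ) (c : ℂ) (f : MF N i) : aCo n (c • f) = c * aCo n f := by
  unfold aCo
  rw [ModularForm.IsGLPos.coe_smul, ModularForm.qExpansion_smul one_pos (by simp), map_smul,
    smul_eq_mul]

theorem aCo_zero {i : ℕ} (n : ℕ) : aCo n (0 : MF N i) = 0 := by
  simpa using aCo_smul n 0 (0 : MF N i)

/-- the basic functionals -/
def phiF (T D : ℕ → (i : ℕ) → (MF N i →ₗ[ℂ] MF N i)) {k : ℕ} (i : Fin k) (f : MF N ((i : ℕ) + 1))
    (n₀ : ℕ) (π : ℂ →ₗ[ℚ] ℚ) : stage N T D k →+ ℚ where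
  toFun t := π (aCo n₀ ((t : EndProd N k) i f))
  map_zero' := by
    rw [Subring.coe_zero, Pi.zero_apply, LinearMap.zero_apply, aCo_zero, map_zero]
  map_add' a b := by
    rw [Subring.coe_add, Pi.add_apply, LinearMap.add_apply, aCo_add, map_add]

def PhiSet (T D : ℕ → (i : ℕ) → (MF N i →ₗ[ℂ] MF N i)) {k : ℕ} (p : Fin k → Prop) :
    Set (stage N T D k →+ ℚ) :=
  {φ | ∃ i, p i ∧ ∃ f n₀ π, Smooth N n₀ ∧ φ = phiF T D i f n₀ π}

/-- the rational series of a functional -/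
def ser (Tn Sd : (k : ℕ) → ℕ → stage N T D k) {k : ℕ} (lam : stage N T D k →+ ℚ) (d : ℕ) : ℚ⟦X⟧ :=
  PowerSeries.mk fun n => if n.Coprime (2 * N) then lam (Sd k d * Tn k n) else 0

/-- the depleted expansion -/
def dep {i : ℕ} (n₀ : ℕ) (f : MF N i) : ℂ⟦X⟧ :=
  PowerSeries.mk fun n => if n.Coprime (2 * N) then aCo (n₀ * n) f else 0

theorem phiF_Sd (H : HeckeFacts N T D Tn Sd) {k : ℕ} (i : Fin k) (f : MF N ((i : ℕ) + 1)) (n₀ : ℕ)
    (π : ℂ →ₗ[ℚ] ℚ) {d : ℕ} (hd : d.Coprime (2 * N)) (t : stage N T D k) :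
    phiF T D i f n₀ π (Sd k d * t) = (d : ℚ) ^ (i : ℕ) * phiF T D i (D d _ f) n₀ π t := by
  rw [H.comm]
  change π (aCo n₀ ((t : EndProd N k) i ((Sd k d : EndProd N k) i f))) = _ * π _
  rw [H.Sd_eq k d hd]
  simp only [LinearMap.smul_apply, map_smul]
  rw [aCo_smul, ← smul_eq_mul ((d : ℚ) ^ (i : ℕ)), ← map_smul, Algebra.smul_def]
  simp

theorem phiF_ST (H : HeckeFacts N T D Tn Sd) {k : ℕ} (i : Fin k) (f : MF N ((i : ℕ) + 1)) {n₀ : ℕ}
    (h₀ : Smooth N n₀) (π : ℂ →ₗ[ℚ] ℚ) {d n : ℕ} (hd : d.Coprime (2 * N))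
    (hn : n.Coprime (2 * N)) : phiF T D i f n₀ π (Sd k d * Tn k n) =
      (d : ℚ) ^ (i : ℕ) * coeff n (piSer π (dep n₀ (D d _ f))) := by
  rw [phiF_Sd H i f n₀ π hd]
  congr 1
  change π (aCo n₀ _) = _
  rw [H.aCo_Tn k n n₀ hn h₀, piSer, coeff_mk, dep, coeff_mk, if_pos hn]

theorem ser_phiF (H : HeckeFacts N T D Tn Sd) {k : ℕ} (i : Fin k) (f : MF N ((i : ℕ) + 1)) {n₀ : ℕ}
    (h₀ : Smooth N n₀) (π : ℂ →ₗ[ℚ] ℚ) {d : ℕ} (hd : d.Coprime (2 * N)) :
    ser Tn Sd (phiF T D i f n₀ π) d = (d : ℚ) ^ (i : ℕ) • piSer π (dep n₀ (D d _ f)) := by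
  ext n
  rw [ser, coeff_mk, map_smul, smul_eq_mul]
  split_ifs with hn
  · exact phiF_ST H i f h₀ π hd hn
  · simp [piSer, dep, hn]

theorem dep_mf (H : HeckeFacts N T D Tn Sd) [NeZero (3 * N ^ 2)] {i n₀ : ℕ} (f : MF N i)
    (h₀ : Smooth N n₀) : ∃ g : ℍ → ℂ, IsMF i (GamS (3 * N ^ 2)) g ∧
      HasQ (3 * N ^ 2) g (PowerSeries.expand (3 * N ^ 2) (NeZero.ne _) (dep n₀ f)) := by
  obtain ⟨g, hg, hq⟩ := H.deplete i n₀ f h₀
  have := hq.expand (3 * N ^ 2)
  rw [one_mul] at this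
  exact ⟨g, hg, this⟩

theorem D_mod (H : HeckeFacts N T D Tn Sd) {d : ℕ} (hd : d.Coprime (2 * N)) (i : ℕ) :
    D d i = D (d % N) i :=
  H.D_congr d _ i (Nat.Coprime.coprime_mul_left_right hd) (Nat.mod_modEq d N).symm

theorem odd_level (hN : Odd N) : Odd (3 * N ^ 2) := (by decide : Odd 3).mul hN.pow

theorem good_dep (H : HeckeFacts N T D Tn Sd) [NeZero (3 * N ^ 2)] {j : ℚ →+* KK} {t : OO⟦X⟧}
    (hc : Ctx (3 * N ^ 2) j t) {i n₀ : ℕ} (f : MF N (i + 1)) (h₀ : Smooth N n₀) (π : ℂ →ₗ[ℚ] ℚ) :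
    Good (eKK (3 * N ^ 2)) (PowerSeries.map j
      (PowerSeries.expand (3 * N ^ 2) (NeZero.ne _) (piSer π (dep n₀ f))) *
      PowerSeries.map (algebraMap OO KK) (1 + 2 * t) ^ ((i + 1) % 2) *
        lev KK (3 * N ^ 2) epsInv ^ ((i + 2) / 2)) := by
  obtain ⟨g, hg, hq⟩ := dep_mf H f h₀
  rw [expand_piSer]
  exact hc (i + 1) _ g _ hg hq π (by omega)

theorem bd2_phiF (hN : Odd N) (H : HeckeFacts N T D Tn Sd) {k : ℕ} (i : Fin k)
    (f : MF N ((i : ℕ) + 1)) {n₀ : ℕ} (h₀ : Smooth N n₀) (π : ℂ →ₗ[ℚ] ℚ) :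
    Bd2 (phiF T D i f n₀ π) := by
  haveI : NeZero (3 * N ^ 2) := ⟨(odd_level hN).pos.ne'⟩
  obtain ⟨j, t, hc⟩ := exists_ctx (3 * N ^ 2) (odd_level hN) (dvd_mul_right _ _)
  choose n hn using fun r : ℕ => bd_of_good (odd_level hN) (good_dep H hc (D r _ f) h₀ π)
  refine Bd2.of_closure (H.span k) ((Finset.range N).sup n) ?_
  rintro _ ⟨d, m, hd, hm, rfl⟩
  rw [phiF_ST H i f h₀ π hd hm, D_mod H hd]
  have h1 := hn (d % N) (3 * N ^ 2 * m)
  rw [coeff_expand_mul] at h1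
  obtain ⟨c, hc⟩ := Int2.pow_mono (Finset.le_sup (f := n)
    (Finset.mem_range.2 (Nat.mod_lt d hN.pos))) h1
  refine ⟨_, ((Int2.intCast (d ^ (i : ℕ))).mul hc).of_eq ?_⟩
  push_cast; ring

theorem fg_PhiSet (hN : Odd N) (H : HeckeFacts N T D Tn Sd) {k : ℕ} (p : Fin k → Prop) :
    (Submodule.span ℚ (PhiSet T D p)).FG := by
  classical
  haveI : NeZero (3 * N ^ 2) := ⟨(odd_level hN).pos.ne'⟩
  choose s hs using finite_rat (3 * N ^ 2) (odd_level hN) (dvd_mul_right _ _)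
  let R : (stage N T D k →+ ℚ) →ₗ[ℚ] (ℕ → ℕ → ℚ) :=
    { toFun := fun lam d n =>
        if d.Coprime (2 * N) ∧ n.Coprime (2 * N) then lam (Sd k d * Tn k n) else 0
      map_add' := fun a b => by
        funext d n
        simp only [Pi.add_apply, AddMonoidHom.add_apply]
        split_ifs <;> simp
      map_smul' := fun a b => by
        funext d n
        simp only [Pi.smul_apply, AddMonoidHom.smul_apply, RingHom.id_apply]
        split_ifs <;> simp }
  have hR : Function.Injective R := by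
    rw [injective_iff_map_eq_zero]
    intro lam h
    refine AddMonoidHom.eq_of_eqOn_dense (top_le_iff.1 fun t _ => H.span k t) ?_
    rintro _ ⟨d, n, hd, hn, rfl⟩
    have := congrFun (congrFun h d) n
    change (if _ then _ else _) = _ at this
    rwa [if_pos ⟨hd, hn⟩] at this
  let Λ : ℕ → ℕ → ℚ⟦X⟧ →ₗ[ℚ] (ℕ → ℕ → ℚ) := fun i r =>
    { toFun := fun S d n => if (d.Coprime (2 * N) ∧ n.Coprime (2 * N)) ∧ d % N = r then
        (d : ℚ) ^ i * coeff (3 * N ^ 2 * n) S else 0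
      map_add' := fun a b => by
        funext d n
        simp only [Pi.add_apply, map_add]
        split_ifs <;> ring
      map_smul' := fun a b => by
        funext d n
        simp only [Pi.smul_apply, map_smul, RingHom.id_apply, smul_eq_mul]
        split_ifs <;> ring }
  refine Submodule.fg_of_fg_map_injective R hR (Submodule.FG.of_le
    (T := ⨆ x : Fin k × Fin N, (Submodule.span ℚ (s ((x.1 : ℕ) + 1) : Set ℚ⟦X⟧)).map (Λ x.1 x.2))
    (Submodule.fg_iSup _ fun x => (Submodule.fg_span (Finset.finite_toSet _)).map _) ?_)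
  rw [Submodule.map_span, Submodule.span_le]
  rintro _ ⟨_, ⟨i, -, f, n₀, π, h₀, rfl⟩, rfl⟩
  have e : R (phiF T D i f n₀ π) = ∑ r : Fin N, Λ i r
      (piSer π (PowerSeries.expand (3 * N ^ 2) (NeZero.ne _) (dep n₀ (D r _ f)))) := by
    funext d n
    rw [Finset.sum_apply, Finset.sum_apply, Finset.sum_eq_single ⟨d % N, Nat.mod_lt d hN.pos⟩]
    · simp only [R, Λ, LinearMap.coe_mk, AddHom.coe_mk, and_true]
      split_ifs with h
      · rw [phiF_ST H i f h₀ π h.1 h.2, D_mod H h.1, ← expand_piSer, coeff_expand_mul]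
      · rfl
    · intro r _ hr
      simp only [Λ, LinearMap.coe_mk, AddHom.coe_mk]
      rw [if_neg]
      rintro ⟨-, h⟩
      exact hr (Fin.ext h.symm)
    · simp
  rw [SetLike.mem_coe, e]
  refine Submodule.sum_mem _ fun r _ => Submodule.mem_iSup_of_mem (i, r) ?_
  obtain ⟨g, hg, hq⟩ := dep_mf H (D r _ f) h₀
  exact Submodule.mem_map_of_mem (piSer_mem π (hs _ g _ hg hq))

theorem sep_PhiSet (H : HeckeFacts N T D Tn Sd) {k : ℕ} (p : Fin k → Prop) (t : stage N T D k)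
    (h : ∀ φ ∈ PhiSet T D p, φ t = 0) (i : Fin k) (hi : p i) : (t : EndProd N k) i = 0 := by
  have h1 : ∀ f n₀, Smooth N n₀ → aCo n₀ ((t : EndProd N k) i f) = 0 := fun f n₀ h₀ =>
    (Module.forall_dual_apply_eq_zero_iff ℚ _).1 fun π => h _ ⟨i, hi, f, n₀, π, h₀, rfl⟩
  ext1 f
  refine H.sep i _ fun m hm => ?_
  obtain ⟨n₀, n, h₀, hn, rfl⟩ := exists_smooth_mul (N := N) m hm
  rw [← H.aCo_Tn k n n₀ hn h₀ i]
  have h2 := congrArg (fun x : stage N T D k => (x : EndProd N k) i f) (H.comm k (Tn k n) t)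
  change (Tn k n : EndProd N k) i ((t : EndProd N k) i f) =
    (t : EndProd N k) i ((Tn k n : EndProd N k) i f) at h2
  rw [h2]
  exact h1 _ _ h₀

end Crest.Agent.R007.Qb
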