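import Crest.Agent.R007.Defs

/-! Row 7, block Q: the element `w = S'_{ℓ₀} - 1`. -/

set_option autoImplicit false
set_option linter.dupNamespace false

noncomputable section
namespace Crest.Agent.R007

open Crest.NumberTheoryR.HeckeTwoAdic Polynomial

variable {N : ℕ} {T D : ℕ → (i : ℕ) → (MF N i →ₗ[ℂ] MF N i)} {Tn Sd : (k : ℕ) → ℕ → stage N T D k}

theorem qw_cop {l₀ : ℕ} (h8 : l₀ % 8 = 5) (h1 : l₀ ≡ 1 [MOD N]) : l₀.Coprime (2 * N) := by
  refine Nat.Coprime.mul_right ((Nat.coprime_two_right).2 (Nat.odd_iff.2 (by omega))) ?_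
  rw [Nat.Coprime, h1.gcd_eq, Nat.gcd_one_left]

theorem qw_Sd (H : HeckeFacts N T D Tn Sd) {l₀ : ℕ} (h8 : l₀ % 8 = 5) (h1 : l₀ ≡ 1 [MOD N])
    (k : ℕ) (i : Fin k) : (Sd k l₀ : EndProd N k) i =
      ((((l₀ : ℤ) ^ (i : ℕ) : ℤ)) : Module.End ℂ (MF N ((i : ℕ) + 1))) := by
  rw [H.Sd_eq k l₀ (qw_cop h8 h1)]
  beta_reduce
  rw [← H.D_congr 1 l₀ _ (Nat.coprime_one_left N) h1.symm, H.D_one]
  ext f : 1
  rw [Module.End.intCast_apply, ← Int.cast_smul_eq_zsmul ℂ]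
  simp

theorem qw_aeval (H : HeckeFacts N T D Tn Sd) {l₀ : ℕ} (h8 : l₀ % 8 = 5) (h1 : l₀ ≡ 1 [MOD N])
    (k : ℕ) (i : Fin k) (p : ℤ[X]) : ((aeval (Sd k l₀) p : stage N T D k) : EndProd N k) i =
      ((p.eval ((l₀ : ℤ) ^ (i : ℕ)) : ℤ) : Module.End ℂ (MF N ((i : ℕ) + 1))) := by
  let ψ : stage N T D k →+* Module.End ℂ (MF N ((i : ℕ) + 1)) :=
    (Pi.evalRingHom (fun j : Fin k => Module.End ℂ (MF N ((j : ℕ) + 1))) i).comp
      (stage N T D k).subtype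
  have e1 : ψ (aeval (Sd k l₀) p) = aeval (ψ (Sd k l₀)) p :=
    (aeval_algHom_apply ψ.toIntAlgHom _ p).symm
  have e2 : ψ (Sd k l₀) = algebraMap ℤ _ ((l₀ : ℤ) ^ (i : ℕ)) := qw_Sd H h8 h1 k i
  rw [e2, aeval_algebraMap_apply_eq_algebraMap_eval] at e1
  exact e1

theorem qw_prod {ι : Type} (s : Finset ι) (c : ι → ℤ) (hc : ∀ i, Odd (c i)) :
    ∃ q : ℤ[X], ∏ i ∈ s, (X - C (c i)) = (X - 1) ^ s.card + 2 * q := by
  classical
  induction s using Finset.induction_on with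
  | empty => exact ⟨0, by simp⟩
  | insert a s ha ih =>
    obtain ⟨q, hq⟩ := ih
    obtain ⟨e, he⟩ := hc a
    refine ⟨(X - C (c a)) * q - C e * (X - 1) ^ s.card, ?_⟩
    rw [Finset.prod_insert ha, hq, Finset.card_insert_of_notMem ha, he]
    simp only [map_add, map_mul, map_one, map_ofNat]
    ring

theorem w_nil_ (H : HeckeFacts N T D Tn Sd) {l₀ : ℕ} (h8 : l₀ % 8 = 5)
    (h1 : l₀ ≡ 1 [MOD N]) (k : ℕ) :
    ∃ (n : ℕ) (m : ℤ) (y : stage N T D k), Odd m ∧ m • (Sd k l₀ - 1) ^ n = 2 * y := by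
  have ho : Odd (l₀ : ℤ) := by exact_mod_cast (Nat.odd_iff.2 (by omega) : Odd l₀)
  obtain ⟨q, hq⟩ := qw_prod (Finset.univ : Finset (Fin k)) (fun i => (l₀ : ℤ) ^ (i : ℕ))
    fun i => ho.pow
  have h0 : aeval (Sd k l₀) (∏ i : Fin k, (X - C ((l₀ : ℤ) ^ (i : ℕ)))) = 0 := by
    refine Subtype.ext (funext fun i => ?_)
    rw [qw_aeval H h8 h1, eval_prod, Finset.prod_eq_zero (Finset.mem_univ i) (by simp),
      Int.cast_zero]
    rfl
  rw [hq] at h0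
  simp only [map_add, map_mul, map_pow, map_sub, aeval_X, map_one, map_ofNat] at h0
  exact ⟨_, 1, -aeval (Sd k l₀) q, odd_one, by
    rw [one_smul, mul_neg]; exact eq_neg_of_add_eq_zero_left h0⟩

theorem qw_interp {ι : Type} [Fintype ι] (x : ι → ℤ) (hx : Function.Injective x) :
    ∃ (s : ℕ) (m : ℤ), Odd m ∧ ∀ c : ι → ℤ, (∀ i, 2 ^ s ∣ c i) →
      ∃ q : ℤ[X], ∀ i, m * c i = 2 * q.eval (x i) := by
  classical
  let M : ι → ℤ := fun i => ∏ j ∈ Finset.univ.erase i, (x i - x j)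
  have hM : ∀ i, M i ≠ 0 := fun i => Finset.prod_ne_zero_iff.2 fun j hj =>
    sub_ne_zero.2 fun e => (Finset.ne_of_mem_erase hj) (hx e).symm
  have hP : (∏ i, M i).natAbs ≠ 0 :=
    Int.natAbs_ne_zero.2 (Finset.prod_ne_zero_iff.2 fun i _ => hM i)
  obtain ⟨v, u, hu, e⟩ := Nat.exists_eq_two_pow_mul_odd hP
  have hd : ∀ i, M i ∣ 2 ^ v * (u : ℤ) := fun i => by
    have : M i ∣ ((∏ i, M i).natAbs : ℤ) :=
      Int.dvd_natAbs.2 (Finset.dvd_prod_of_mem _ (Finset.mem_univ i))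
    rw [e] at this
    exact_mod_cast this
  choose r hr using hd
  refine ⟨v + 1, u, by exact_mod_cast hu, fun c hc => ?_⟩
  choose b hb using hc
  refine ⟨∑ i, C (b i * r i) * ∏ j ∈ Finset.univ.erase i, (X - C (x j)), fun i => ?_⟩
  rw [eval_finsetSum, Finset.sum_eq_single i]
  · simp only [eval_mul, eval_C, eval_prod, eval_sub, eval_X]
    rw [hb i]
    linear_combination 2 * b i * hr i
  · intro j _ hj
    rw [eval_mul, eval_prod, Finset.prod_eq_zero (Finset.mem_erase.2 ⟨hj.symm, Finset.mem_univ i⟩)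
      (by simp), mul_zero]
  · simp

theorem qw_pow {l : ℤ} (h : l % 8 = 5) (s : ℕ) : ∃ o : ℤ, Odd o ∧ l ^ 2 ^ s = 1 + 2 ^ (s + 2) * o := by
  induction s with
  | zero => exact ⟨2 * (l / 8) + 1, odd_two_mul_add_one _, by simp; omega⟩
  | succ s ih =>
    obtain ⟨o, ho, e⟩ := ih
    refine ⟨o + 2 * (2 ^ s * o ^ 2), ho.add_even (even_two_mul _), ?_⟩
    rw [pow_succ 2 s, pow_mul, e]
    ring

theorem qw_log {l u v : ℤ} (h : l % 8 = 5) (hu : Odd u) (huv : 4 ∣ v - u) (s : ℕ) :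
    ∃ e : ℕ, 2 ^ (s + 2) ∣ v - u * l ^ e := by
  have hl : Odd l := Int.odd_iff.2 (by omega)
  induction s with
  | zero => exact ⟨0, by simpa using huv⟩
  | succ s ih =>
    obtain ⟨e, t, ht⟩ := ih
    rcases Int.even_or_odd t with ⟨t', rfl⟩ | ht'
    · exact ⟨e, t', by rw [ht]; ring⟩
    · obtain ⟨o, ho, eo⟩ := qw_pow h s
      obtain ⟨r, hr⟩ : Even (t - u * l ^ e * o) := ht'.sub_odd ((hu.mul hl.pow).mul ho)
      refine ⟨e + 2 ^ s, r, ?_⟩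
      rw [pow_add, eo]
      linear_combination ht + 2 ^ (s + 2) * hr

theorem qw_odd {A : Type} [AddCommGroup A] (l : A →+ ZMod 2) {m : ℤ} (hm : Odd m) (x : A) :
    l (m • x) = l x := by
  obtain ⟨t, rfl⟩ := hm
  rw [map_zsmul, zsmul_eq_mul]
  push_cast
  rw [show (2 : ZMod 2) = 0 from rfl]
  simp

theorem Kk_congr_ (H : HeckeFacts N T D Tn Sd) {l₀ : ℕ} (h8 : l₀ % 8 = 5)
    (h1 : l₀ ≡ 1 [MOD N]) {a k : ℕ} (l : Kk (parI N T D a k) (Sd k l₀ - 1)) {d d' : ℕ}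
    (hd : d.Coprime (2 * N)) (hdd : d ≡ d' [MOD 4 * N]) (t : stage N T D k) :
    l.1 (Sd k d * t) = l.1 (Sd k d' * t) := by
  have hl := qw_cop h8 h1
  have hd' : d'.Coprime (2 * N) := by
    rw [Nat.Coprime, ← (hdd.of_dvd (⟨2, by ring⟩ : 2 * N ∣ 4 * N)).gcd_eq]; exact hd
  have hdN : d.Coprime N := hd.coprime_dvd_right (dvd_mul_left N 2)
  have hdo : Odd (d : ℤ) := by
    exact_mod_cast Nat.coprime_two_right.1 (hd.coprime_dvd_right (dvd_mul_right 2 N))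
  have hz : ∀ y, l.1 (Sd k l₀ * y) = l.1 y := fun y => by
    have := l.2.2 y
    rwa [sub_mul, one_mul, map_sub, sub_eq_zero] at this
  have hpow : ∀ e : ℕ, l.1 (Sd k (d * l₀ ^ e) * t) = l.1 (Sd k d * t) := fun e => by
    induction e with
    | zero => rw [pow_zero, mul_one]
    | succ e ih =>
      rw [pow_succ, ← mul_assoc, mul_comm _ l₀, H.Sd_mul k _ _ hl (hd.mul_left (hl.pow_left e)),
        mul_assoc, hz, ih]
  obtain ⟨s, m, hm, hs⟩ := qw_interp (fun i : Fin k => (l₀ : ℤ) ^ (i : ℕ)) (fun i j e =>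
    Fin.ext (pow_right_injective₀ (by omega) (by omega) e))
  obtain ⟨e, he⟩ := qw_log (l := l₀) (u := d) (v := d') (by omega) hdo
    (by exact_mod_cast (hdd.of_dvd (dvd_mul_right 4 N)).dvd) s
  obtain ⟨q, hq⟩ := hs (fun i => (d : ℤ) ^ (k - i) * ((d' : ℤ) ^ (i : ℕ) - (d * l₀ ^ e) ^ (i : ℕ)))
    fun i => Dvd.dvd.mul_left (((pow_dvd_pow 2 (by omega)).trans he).trans
      (sub_dvd_pow_sub_pow _ _ _)) _
  have key : (m * (d : ℤ) ^ k) • (Sd k d' - Sd k (d * l₀ ^ e)) =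
      2 • (aeval (Sd k l₀) q * Sd k d) := by
    refine Subtype.ext (funext fun i => ?_)
    have e1 := H.D_congr d d' ((i : ℕ) + 1) hdN (hdd.of_dvd (dvd_mul_left N 4))
    have e2 := H.D_congr d (d * l₀ ^ e) ((i : ℕ) + 1) hdN
      (by simpa using (Nat.ModEq.refl d).mul (h1.pow e).symm)
    have e3 := congrArg (Int.cast : ℤ → ℂ) (hq i)
    push_cast at e3
    rw [AddSubgroupClass.coe_zsmul, AddSubmonoidClass.coe_nsmul, AddSubgroupClass.coe_sub,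
      Subring.coe_mul, Pi.smul_apply, Pi.smul_apply, Pi.sub_apply, Pi.mul_apply, qw_aeval H h8 h1,
      H.Sd_eq k d hd, H.Sd_eq k d' hd', H.Sd_eq k _ (hd.mul_left (hl.pow_left e))]
    beta_reduce
    rw [← e1, ← e2, ← zsmul_eq_mul, ← sub_smul, ← Int.cast_smul_eq_zsmul ℂ,
      ← Int.cast_smul_eq_zsmul ℂ, ← Nat.cast_smul_eq_nsmul ℂ, smul_smul, smul_smul, smul_smul]
    congr 1
    have e4 : (d : ℂ) ^ k = d ^ (k - i) * d ^ (i : ℕ) := by
      rw [← pow_add, Nat.sub_add_cancel i.2.le]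
    push_cast
    rw [e4]
    linear_combination (d : ℂ) ^ (i : ℕ) * e3
  have h0 : l.1 ((Sd k d' - Sd k (d * l₀ ^ e)) * t) = 0 := by
    rw [← qw_odd l.1 (hm.mul (hdo.pow (n := k))), ← smul_mul_assoc, key, smul_mul_assoc, map_nsmul,
      two_nsmul, CharTwo.add_self_eq_zero]
  rw [sub_mul, map_sub, sub_eq_zero, hpow] at h0
  exact h0.symm

end Crest.Agent.R007
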