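import Crest.Agent.R007.W
import Crest.Agent.R007.RAut

/-! # Row 7, block R: forms of level one. -/

set_option autoImplicit false
set_option linter.dupNamespace false
set_option maxHeartbeats 400000

noncomputable section
namespace Crest.Agent.R007

open PowerSeries UpperHalfPlane CongruenceSubgroup
open scoped ModularForm MatrixGroups

/-- converse of `HasQ.expand` (`Function.Injective.hasSum_iff` for `n ↦ m * n`) -/
theorem HasQ.of_expand {h : ℕ} [NeZero h] (m : ℕ) [NeZero m] {f : ℍ → ℂ} {F : ℂ⟦X⟧}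
    (a : HasQ (h * m) f (PowerSeries.expand m (NeZero.ne m) F)) : HasQ h f F := by
  intro τ
  have h1 : (h : ℂ) ≠ 0 := Nat.cast_ne_zero.2 (NeZero.ne h)
  have h2 : (m : ℂ) ≠ 0 := Nat.cast_ne_zero.2 (NeZero.ne m)
  have e : Function.Periodic.qParam ((h * m : ℕ) : ℝ) (τ : ℂ) ^ m =
      Function.Periodic.qParam (h : ℝ) (τ : ℂ) := by
    rw [Function.Periodic.qParam, Function.Periodic.qParam, ← Complex.exp_nat_mul]
    congr 1
    push_cast
    field_simp
  have hinj : Function.Injective fun n : ℕ => m * n :=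
    mul_right_injective₀ (NeZero.ne m)
  have b := (hinj.hasSum_iff (f := fun n : ℕ => coeff n (PowerSeries.expand m (NeZero.ne m) F) *
      Function.Periodic.qParam ((h * m : ℕ) : ℝ) (τ : ℂ) ^ n) (a := f τ) (fun n hn => by
    rw [PowerSeries.coeff_expand_of_not_dvd, zero_mul]
    rintro ⟨c, rfl⟩
    exact hn ⟨c, rfl⟩)).2 (a τ)
  have e2 : ((fun n : ℕ => coeff n (PowerSeries.expand m (NeZero.ne m) F) *
      Function.Periodic.qParam ((h * m : ℕ) : ℝ) (τ : ℂ) ^ n) ∘ fun n : ℕ => m * n) =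
      fun n : ℕ => coeff n F * Function.Periodic.qParam (h : ℝ) (τ : ℂ) ^ n := by
    funext n
    simp only [Function.comp_apply]
    rw [PowerSeries.coeff_expand_mul, pow_mul, e]
  rwa [e2] at b

theorem Gamma_le_of_dvd {M M' : ℕ} (h : M ∣ M') : Gamma M' ≤ Gamma M := by
  intro γ hγ
  obtain ⟨h00, h01, h10, h11⟩ := Gamma_mem.mp hγ
  have key : ∀ (x : ℤ) (c : ℤ), ((x : ZMod M') = (c : ZMod M')) → ((x : ZMod M) = (c : ZMod M)) := by
    intro x c hx
    have := congrArg (ZMod.castHom h (ZMod M)) hx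
    simpa only [map_intCast] using this
  refine Gamma_mem.mpr ⟨?_, ?_, ?_, ?_⟩
  · simpa using key _ 1 (by simpa using h00)
  · simpa using key _ 0 (by simpa using h01)
  · simpa using key _ 0 (by simpa using h10)
  · simpa using key _ 1 (by simpa using h11)

/-- `coeff n F = coeff (m * n) (expand m F)` -/
theorem mem_psSub_of_expand {S : Subring ℂ} (m : ℕ) [NeZero m] {F : ℂ⟦X⟧}
    (h : PowerSeries.expand m (NeZero.ne m) F ∈ psSub S) : F ∈ psSub S := by
  refine mem_psSub.2 fun n => ?_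
  have := mem_psSub.1 h (m * n)
  rwa [PowerSeries.coeff_expand_mul] at this

theorem expand_mem_psSub {S : Subring ℂ} (m : ℕ) [NeZero m] {F : ℂ⟦X⟧} (h : F ∈ psSub S) :
    PowerSeries.expand m (NeZero.ne m) F ∈ psSub S := by
  refine mem_psSub.2 fun n => ?_
  rw [PowerSeries.coeff_expand]
  split_ifs
  · exact mem_psSub.1 h _
  · exact zero_mem _

theorem lev_mem_psSub (S : Subring ℂ) (h : ℕ) [NeZero h] (x : ℤ⟦X⟧) : lev ℂ h x ∈ psSub S := by
  refine expand_mem_psSub h (F := PowerSeries.map (Int.castRingHom ℂ) x) (mem_psSub.2 fun n => ?_)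
  rw [coeff_map]
  exact intCast_mem S _

/-- bundling at level one -/
def IsMF.toLevelOne {k : ℤ} {f : ℍ → ℂ} (hf : IsMF k ⊤ f) : ModularForm 𝒮ℒ k where
  toFun := f
  slash_action_eq' := by
    rintro _ ⟨γ, rfl⟩
    exact hf.inv γ trivial
  holo' := hf.holo
  bdd_at_cusps' hc := (OnePoint.isBoundedAt_iff_forall_SL2Z hc).2 fun γ _ => hf.bdd γ

theorem IsMF.of_levelOne {k : ℤ} (f : ModularForm 𝒮ℒ k) : IsMF k ⊤ f :=
  ⟨f.holo', fun γ _ => f.slash_action_eq' _ ⟨γ, rfl⟩,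
    fun γ => ModularFormClass.bdd_at_infty_slash f γ⟩

/-- a form with vanishing constant term is divisible by `Δ` (`toCuspForm`,
`CuspForm.discriminantEquiv`, `Delf_eq`); it vanishes when `k < 12`
(`levelOne_neg_weight_eq_zero`) -/
theorem level_one_div {k : ℕ} {f : ℍ → ℂ} (hf : IsMF k ⊤ f) {F : ℂ⟦X⟧} (hF : HasQ 1 f F)
    (h0 : coeff 0 F = 0) :
    (k < 12 → F = 0) ∧ (12 ≤ k → ∃ (g : ℍ → ℂ) (G : ℂ⟦X⟧), IsMF (k - 12 : ℕ) ⊤ g ∧ HasQ 1 g G ∧
      F = lev ℂ 1 Dels * G) := by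
  have hq : qExpansion 1 (hf.toLevelOne : ℍ → ℂ) = F := by
    have h1 := hf.hasQ 1 trivial
    rw [Nat.cast_one] at h1
    exact h1.unique hF
  have hc : (qExpansion 1 (hf.toLevelOne : ℍ → ℂ)).coeff 0 = 0 := by rw [hq]; exact h0
  obtain ⟨g, hg⟩ : ∃ g : ModularForm 𝒮ℒ ((k : ℤ) - 12),
      g = CuspForm.discriminantEquiv (ModularForm.toCuspForm hf.toLevelOne hc) := ⟨_, rfl⟩
  have hfg : f = Delf * (g : ℍ → ℂ) := by
    funext z
    rw [Delf_eq, hg, Pi.mul_apply]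
    exact (ModularForm.discriminant_mul_discriminantEquiv_apply
      (ModularForm.toCuspForm hf.toLevelOne hc) z).symm
  refine ⟨fun hk => ?_, fun hk => ?_⟩
  · have h1 : (g : ℍ → ℂ) = 0 :=
      ModularFormClass.levelOne_neg_weight_eq_zero (k := (k : ℤ) - 12) (by omega) g
    rw [h1, mul_zero] at hfg
    rw [hfg] at hF
    exact hF.unique (HasQ.zero 1)
  · have h1 : IsMF ((k : ℤ) - 12) ⊤ g := IsMF.of_levelOne g
    have h2 := h1.hasQ 1 trivial
    refine ⟨g, _, ?_, h2, ?_⟩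
    · rw [Nat.cast_sub hk]
      exact h1
    · rw [hfg] at hF
      exact hF.unique (hasQ_Delf.mul h2)

/-- odd weights and weight 2 (`levelOne_odd_weight_eq_zero`, `levelOne_weight_two_rank_zero`) -/
theorem level_one_wt {k : ℕ} {f : ℍ → ℂ} (hf : IsMF k ⊤ f) {F : ℂ⟦X⟧} (hF : HasQ 1 f F) :
    F = 0 ∨ ∃ a b : ℕ, 4 * a + 6 * b = k := by
  rcases Nat.even_or_odd k with ⟨m, hm⟩ | hk
  · by_cases h2 : k = 2
    · left
      subst h2
      have h1 : hf.toLevelOne = 0 :=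
        (rank_zero_iff_forall_zero.1 ModularForm.levelOne_weight_two_rank_zero) hf.toLevelOne
      have h3 : f = 0 := congrArg (fun g : ModularForm 𝒮ℒ ((2 : ℕ) : ℤ) => (g : ℍ → ℂ)) h1
      rw [h3] at hF
      exact hF.unique (HasQ.zero 1)
    · right
      rcases Nat.even_or_odd' m with ⟨r, hr | hr⟩
      · exact ⟨r, 0, by omega⟩
      · exact ⟨r - 1, 1, by omega⟩
  · left
    have h1 : hf.toLevelOne = 0 :=
      ModularForm.levelOne_odd_weight_eq_zero (by exact_mod_cast hk) hf.toLevelOne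
    have h3 : f = 0 := congrArg (fun g : ModularForm 𝒮ℒ (k : ℤ) => (g : ℍ → ℂ)) h1
    rw [h3] at hF
    exact hF.unique (HasQ.zero 1)

/-- `Dels = X * U` with `U` a unit of `ℤ⟦X⟧` (`coeff_zero_rho`, `coeff_one_rho`) -/
theorem mem_psSub_of_Dels {S : Subring ℂ} {G : ℂ⟦X⟧} (h : lev ℂ 1 Dels * G ∈ psSub S) :
    G ∈ psSub S := by
  obtain ⟨r, hr⟩ : (X : ℤ⟦X⟧) ∣ rho := PowerSeries.X_dvd_iff.2 (by
    rw [← coeff_zero_eq_constantCoeff_apply]; exact coeff_zero_rho)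
  have hr1 : constantCoeff r = 1 := by
    have := coeff_one_rho
    rw [hr] at this
    rwa [show (1 : ℕ) = 0 + 1 from rfl, coeff_succ_X_mul, coeff_zero_eq_constantCoeff_apply] at this
  have he : constantCoeff eps = 1 := by simp [eps, sigO]
  have hρ : constantCoeff rho = 0 := by
    rw [← coeff_zero_eq_constantCoeff_apply]; exact coeff_zero_rho
  set U : ℤ⟦X⟧ := eps ^ 6 * r * (1 - 64 * rho) ^ 2 with hU
  have hU1 : constantCoeff U = ((1 : ℤˣ) : ℤ) := by simp [hU, he, hr1, hρ]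
  have hD : Dels = X * U := by
    rw [Dels, hU]
    conv_lhs => rw [show eps ^ 6 * rho * (1 - 64 * rho) ^ 2 = eps ^ 6 * (X * r) * (1 - 64 * rho) ^ 2 by
      rw [← hr]]
    ring
  have hV := PowerSeries.mul_invOfUnit U 1 hU1
  have h2 := mul_mem (lev_mem_psSub S 1 (PowerSeries.invOfUnit U 1)) h
  have hX : lev ℂ 1 (X : ℤ⟦X⟧) = X := by simp [lev]
  have e : lev ℂ 1 (PowerSeries.invOfUnit U 1) * (lev ℂ 1 Dels * G) = X * G := by
    rw [← mul_assoc, ← map_mul, hD, show PowerSeries.invOfUnit U 1 * (X * U) =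
      X * (U * PowerSeries.invOfUnit U 1) by ring, hV, mul_one, hX]
  rw [e] at h2
  refine mem_psSub.2 fun n => ?_
  have := mem_psSub.1 h2 (n + 1)
  rwa [coeff_succ_X_mul] at this

/-- strong induction on `k`: subtract `coeff 0 F • E4f ^ a * E6f ^ b` (`level_one_wt`), divide by `Δ`
(`level_one_div`, `mem_psSub_of_Dels`), shift the indices (`Finset.sum_range_succ'`) -/
theorem level_one₁ (k : ℕ) {f : ℍ → ℂ} (hf : IsMF k ⊤ f) {F : ℂ⟦X⟧}
    (hF : HasQ 1 f F) (S : Subring ℂ) (hS : F ∈ psSub S) :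
    ∃ (α : ℕ → ℂ) (a b : ℕ → ℕ), (∀ i, α i ∈ S) ∧
      (∀ i, α i ≠ 0 → 12 * i + 4 * a i + 6 * b i = k) ∧
      F = ∑ i ∈ Finset.range (k / 12 + 1),
        α i • lev ℂ 1 (Dels ^ i * E4s ^ a i * E6s ^ b i) := by
  induction k using Nat.strong_induction_on generalizing f F with
  | _ k ih =>
  rcases level_one_wt hf hF with rfl | ⟨a₀, b₀, hk⟩
  · exact ⟨0, 0, 0, fun _ => S.zero_mem, fun _ h => absurd rfl h, by simp⟩
  have hM : HasQ 1 (E4f ^ a₀ * E6f ^ b₀) (lev ℂ 1 (E4s ^ a₀ * E6s ^ b₀)) := by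
    rw [map_mul, map_pow, map_pow]
    exact (hasQ_E4f.pow _).mul (hasQ_E6f.pow _)
  have hMF : IsMF k ⊤ (E4f ^ a₀ * E6f ^ b₀) := by
    have := (isMF_E4f.pow a₀).mul (isMF_E6f.pow b₀)
    convert this using 1
    rw [← hk]; push_cast; ring
  have hM0 : coeff 0 (lev ℂ 1 (E4s ^ a₀ * E6s ^ b₀)) = 1 := by
    have hs : ∀ r, constantCoeff (sig r) = 0 := fun r => by
      rw [← coeff_zero_eq_constantCoeff_apply, sig, coeff_mk]; simp
    have h4 : constantCoeff E4s = 1 := by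
      rw [E4s, map_add, map_mul, hs, mul_zero, add_zero, map_one]
    have h6 : constantCoeff E6s = 1 := by
      rw [E6s, map_sub, map_mul, hs, mul_zero, sub_zero, map_one]
    have h7 : ∀ x : ℤ⟦X⟧, coeff 0 (lev ℂ 1 x) = ((constantCoeff x : ℤ) : ℂ) := fun x => by
      rw [← coeff_zero_eq_constantCoeff_apply]
      simp only [lev, RingHom.comp_apply, AlgHom.toRingHom_eq_coe, RingHom.coe_coe,
        PowerSeries.expand_one_apply, coeff_map, eq_intCast]
    rw [h7, map_mul, map_pow, map_pow, h4, h6]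
    simp
  have hc : coeff 0 F ∈ S := mem_psSub.1 hS 0
  have h1 := level_one_div (hf.sub (hMF.smul (coeff 0 F))) (hF.sub (hM.smul (coeff 0 F)))
    (by rw [map_sub, coeff_smul, hM0, smul_eq_mul, mul_one, sub_self])
  have hS' : F - coeff 0 F • lev ℂ 1 (E4s ^ a₀ * E6s ^ b₀) ∈ psSub S := by
    refine sub_mem hS (mem_psSub.2 fun n => ?_)
    rw [coeff_smul, smul_eq_mul]
    exact mul_mem hc (mem_psSub.1 (lev_mem_psSub S 1 _) n)
  generalize coeff 0 F = c at hc h1 hS'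
  by_cases h12 : k < 12
  · refine ⟨fun i => if i = 0 then c else 0, fun _ => a₀, fun _ => b₀, fun i => ?_, fun i hi => ?_, ?_⟩
    · dsimp only
      split_ifs
      exacts [hc, S.zero_mem]
    · obtain rfl : i = 0 := by
        by_contra h
        exact hi (if_neg h)
      dsimp only
      omega
    · rw [Nat.div_eq_of_lt h12, zero_add, Finset.sum_range_one]
      simp only [if_true, pow_zero, one_mul]
      exact sub_eq_zero.1 (h1.1 h12)
  · obtain ⟨g, G, hg, hG, e⟩ := h1.2 (not_lt.1 h12)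
    obtain ⟨α, a, b, h2, h3, h4⟩ := ih (k - 12) (by omega) hg hG (mem_psSub_of_Dels (e ▸ hS'))
    refine ⟨fun i => Nat.casesOn i c α, fun i => Nat.casesOn i a₀ a, fun i => Nat.casesOn i b₀ b,
      fun i => ?_, fun i hi => ?_, ?_⟩
    · cases i with
      | zero => exact hc
      | succ i => exact h2 i
    · cases i with
      | zero => show 12 * 0 + 4 * a₀ + 6 * b₀ = k; omega
      | succ i =>
        have := h3 i hi
        show 12 * (i + 1) + 4 * a i + 6 * b i = k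
        omega
    · rw [show k / 12 = (k - 12) / 12 + 1 by omega, Finset.sum_range_succ', sub_eq_iff_eq_add.1 e,
        h4, Finset.mul_sum]
      congr 1
      · refine Finset.sum_congr rfl fun i _ => ?_
        show _ = α i • lev ℂ 1 (Dels ^ (i + 1) * E4s ^ a i * E6s ^ b i)
        rw [mul_smul_comm, ← map_mul]
        congr 2
        ring
      · show _ = c • lev ℂ 1 (Dels ^ 0 * E4s ^ a₀ * E6s ^ b₀)
        rw [pow_zero, one_mul]

/-- `F = expand h F₁` with `F₁ = qExpansion 1 f` (`IsMF.hasQ`, `HasQ.expand`, `HasQ.unique`,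
`expand_lev`), then `level_one₁` -/
theorem level_one' {k : ℕ} {h : ℕ} [NeZero h] {f : ℍ → ℂ} (hf : IsMF k ⊤ f) {F : ℂ⟦X⟧}
    (hF : HasQ h f F) (S : Subring ℂ) (hS : ∀ n, coeff n F ∈ S) :
    ∃ (α : ℕ → ℂ) (a b : ℕ → ℕ), (∀ i, α i ∈ S) ∧
      (∀ i, α i ≠ 0 → 12 * i + 4 * a i + 6 * b i = k) ∧
      F = ∑ i ∈ Finset.range (k / 12 + 1),
        α i • lev ℂ h (Dels ^ i * E4s ^ a i * E6s ^ b i) := by
  obtain ⟨F₁, h1⟩ : ∃ F₁, HasQ 1 f F₁ := ⟨_, hf.hasQ 1 trivial⟩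
  have h2 := h1.expand h
  rw [one_mul] at h2
  have e : F = PowerSeries.expand h (NeZero.ne h) F₁ := hF.unique h2
  have hS₁ : F₁ ∈ psSub S := mem_psSub_of_expand h (e ▸ mem_psSub.2 hS)
  obtain ⟨α, a, b, hα, hab, hsum⟩ := level_one₁ k hf h1 S hS₁
  refine ⟨α, a, b, hα, hab, ?_⟩
  rw [e, hsum, map_sum]
  refine Finset.sum_congr rfl fun i _ => ?_
  rw [map_smul]
  congr 1
  generalize Dels ^ i * E4s ^ a i * E6s ^ b i = x
  simp [R007.lev]

/-- `level_one'` with `S = ⊤`, `E4s_eq`, `E6s_eq`, the definition of `Dels`, `lev_eps_mul_inv` -/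
theorem level_one_rho {m h : ℕ} [NeZero h] {f : ℍ → ℂ} (hf : IsMF (2 * m : ℕ) ⊤ f) {F : ℂ⟦X⟧}
    (hF : HasQ h f F) :
    F * lev ℂ h epsInv ^ m ∈ Algebra.adjoin ℂ ({lev ℂ h rho} : Set ℂ⟦X⟧) := by
  obtain ⟨α, a, b, -, hab, hsum⟩ := level_one' hf hF ⊤ fun _ => Subring.mem_top _
  rw [hsum, Finset.sum_mul]
  refine Subalgebra.sum_mem _ fun i _ => ?_
  by_cases h0 : α i = 0
  · rw [h0, zero_smul, zero_mul]
    exact zero_mem _
  have hm : m = 6 * i + 2 * a i + 3 * b i := by have := hab i h0; omega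
  rw [smul_mul_assoc]
  refine Subalgebra.smul_mem _ ?_ _
  have hr : lev ℂ h rho ∈ Algebra.adjoin ℂ ({lev ℂ h rho} : Set ℂ⟦X⟧) :=
    Algebra.subset_adjoin rfl
  have he := lev_eps_mul_inv (R := ℂ) (h := h)
  have key : lev ℂ h (Dels ^ i * E4s ^ a i * E6s ^ b i) * lev ℂ h epsInv ^ m =
      (lev ℂ h rho * (1 - 64 * lev ℂ h rho) ^ 2) ^ i * (1 + 192 * lev ℂ h rho) ^ a i *
        (1 - 576 * lev ℂ h rho) ^ b i * (lev ℂ h eps * lev ℂ h epsInv) ^ m := by
    rw [E4s_eq, E6s_eq, Dels, hm]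
    simp only [map_mul, map_pow, map_sub, map_add, map_one, map_ofNat]
    simp only [mul_pow, pow_add, pow_mul]
    ring
  rw [key, he, one_pow, mul_one]
  refine mul_mem (mul_mem (pow_mem (mul_mem hr (pow_mem (sub_mem (one_mem _) (mul_mem ?_ hr)) _)) _)
    (pow_mem (add_mem (one_mem _) (mul_mem ?_ hr)) _))
    (pow_mem (sub_mem (one_mem _) (mul_mem ?_ hr)) _) <;> exact ofNat_mem _ _

/-- `s` = all `Dels ^ i * E4s ^ a * E6s ^ b` with `i, a, b ≤ k` -/
theorem level_one_span (k h : ℕ) [NeZero h] : ∃ s : Finset ℤ⟦X⟧, ∀ (f : ℍ → ℂ) (F : ℂ⟦X⟧),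
    IsMF k ⊤ f → HasQ h f F → F ∈ Submodule.span ℂ (lev ℂ h '' (s : Set ℤ⟦X⟧)) := by
  classical
  refine ⟨(Finset.range (k + 1) ×ˢ Finset.range (k + 1) ×ˢ Finset.range (k + 1)).image
    fun p => Dels ^ p.1 * E4s ^ p.2.1 * E6s ^ p.2.2, fun f F hf hF => ?_⟩
  obtain ⟨α, a, b, -, hab, hsum⟩ := level_one' hf hF ⊤ fun _ => Subring.mem_top _
  rw [hsum]
  refine Submodule.sum_mem _ fun i _ => ?_
  by_cases h0 : α i = 0
  · rw [h0, zero_smul]
    exact zero_mem _
  have hk := hab i h0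
  refine Submodule.smul_mem _ _ (Submodule.subset_span ⟨_, ?_, rfl⟩)
  refine Finset.mem_coe.2 (Finset.mem_image.2 ⟨(i, a i, b i), ?_, rfl⟩)
  simp only [Finset.mem_product, Finset.mem_range]
  omega

end Crest.Agent.R007
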