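import Crest.Agent.R007.R0

/-! # Row 7, block R: traces and characteristic polynomials. -/

set_option autoImplicit false
set_option linter.dupNamespace false
set_option maxHeartbeats 400000

noncomputable section
namespace Crest.Agent.R007

open PowerSeries UpperHalfPlane CongruenceSubgroup
open scoped ModularForm MatrixGroups

instance Gamma_normal' (h : ℕ) : (Gamma h).Normal := Gamma_normal h

/-- the finite group `SL₂(ℤ)/Γ(h)` -/
abbrev GQ (h : ℕ) : Type := SL(2, ℤ) ⧸ Gamma h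

instance (h : ℕ) [NeZero h] : Fintype (GQ h) := Fintype.ofFinite _

theorem prod_slash_SL {ι : Type} (s : Finset ι) (f : ι → ℍ → ℂ) (k : ℤ) (γ : SL(2, ℤ)) :
    (∏ i ∈ s, f i) ∣[s.card * k] γ = ∏ i ∈ s, f i ∣[k] γ := by
  classical
  induction s using Finset.induction_on with
  | empty => simpa using ModularForm.is_invariant_one γ
  | insert a s ha ih =>
    rw [Finset.prod_insert ha, Finset.prod_insert ha, Finset.card_insert_of_notMem ha, ← ih,
      ← ModularForm.mul_slash_SL2]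
    congr 1
    push_cast
    ring

theorem pow_slash_SL (f : ℍ → ℂ) (n : ℕ) (k : ℤ) (γ : SL(2, ℤ)) :
    (f ^ n) ∣[n * k] γ = (f ∣[k] γ) ^ n := by
  simpa using prod_slash_SL (Finset.range n) (fun _ => f) k γ

theorem IsMF.prod {k : ℤ} {Γ : Subgroup SL(2, ℤ)} {ι : Type} (s : Finset ι) {f : ι → ℍ → ℂ}
    (a : ∀ i ∈ s, IsMF k Γ (f i)) : IsMF (s.card * k) Γ (∏ i ∈ s, f i) := by
  classical
  induction s using Finset.induction_on with
  | empty => simpa using IsMF.one Γ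
  | insert i s hi ih =>
    rw [Finset.prod_insert hi, Finset.card_insert_of_notMem hi,
      show ((s.card + 1 : ℕ) : ℤ) * k = k + s.card * k by push_cast; ring]
    exact (a i (Finset.mem_insert_self _ _)).mul
      (ih fun j hj => a j (Finset.mem_insert_of_mem hj))

variable {h : ℕ} [NeZero h]

omit [NeZero h] in
/-- `q.out = γ * n = (γ n γ⁻¹) γ` (`QuotientGroup.mk_out_eq_mul`) -/
theorem slash_out {k : ℤ} {f : ℍ → ℂ} (hf : IsMF k (Gamma h) f) (γ : SL(2, ℤ)) :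
    f ∣[k] (QuotientGroup.mk γ : GQ h).out = f ∣[k] γ := by
  obtain ⟨n, hn⟩ := QuotientGroup.mk_out_eq_mul (Gamma h) γ
  rw [hn, show γ * n = (γ * n * γ⁻¹) * γ by group, SlashAction.slash_mul,
    hf.inv _ ((Gamma_normal h).conj_mem _ n.2 γ)]

omit [NeZero h] in
theorem slash_out_mul {k : ℤ} {f : ℍ → ℂ} (hf : IsMF k (Gamma h) f) (q : GQ h) (γ : SL(2, ℤ)) :
    (f ∣[k] q.out) ∣[k] γ = f ∣[k] (q * QuotientGroup.mk γ).out := by
  rw [← SlashAction.slash_mul, ← slash_out hf (q.out * γ), QuotientGroup.mk_mul,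
    QuotientGroup.out_eq']

theorem isMF_trace {k : ℤ} {f : ℍ → ℂ} (hf : IsMF k (Gamma h) f) :
    IsMF k ⊤ (∑ q : GQ h, f ∣[k] q.out) := by
  have hs := IsMF.sum (Finset.univ : Finset (GQ h)) fun q _ => hf.slash q.out
  have hi : ∀ γ : SL(2, ℤ), (∑ q : GQ h, f ∣[k] q.out) ∣[k] γ = ∑ q : GQ h, f ∣[k] q.out := by
    intro γ
    rw [SlashAction.sum_slash]
    simp only [slash_out_mul hf]
    exact Equiv.sum_comp (Equiv.mulRight (QuotientGroup.mk γ : GQ h)) fun q => f ∣[k] q.out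
  exact ⟨hs.holo, fun γ _ => hi γ, hs.bdd⟩

omit [NeZero h] in
/-- Vieta (`Finset.prod_X_add_C_coeff` for `-t i`), `prod_slash_SL`, reindexing of `powersetCard`
by `Finset.map e` -/
theorem isMF_coeff {ι : Type} [Fintype ι] {w : ℤ} {t : ι → ℍ → ℂ} (ht : ∀ i, IsMF w (Gamma h) (t i))
    (hp : ∀ γ : SL(2, ℤ), ∃ e : Equiv.Perm ι, ∀ i, t i ∣[w] γ = t (e i)) {j : ℕ}
    (hj : j ≤ Fintype.card ι) :
    IsMF ((Fintype.card ι - j : ℕ) * w) ⊤
      ((∏ i, (Polynomial.X - Polynomial.C (t i))).coeff j) := by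
  classical
  have e1 : (∏ i, (Polynomial.X - Polynomial.C (t i))).coeff j =
      ∑ s ∈ Finset.univ.powersetCard (Fintype.card ι - j), ∏ i ∈ s, -t i := by
    simp only [sub_eq_add_neg, ← map_neg]
    exact Finset.prod_X_add_C_coeff Finset.univ (fun i => -t i) hj
  rw [e1]
  have h1 : IsMF ((Fintype.card ι - j : ℕ) * w) (Gamma h)
      (∑ s ∈ Finset.univ.powersetCard (Fintype.card ι - j), ∏ i ∈ s, -t i) :=
    IsMF.sum _ fun s hs => by
      rw [← (Finset.mem_powersetCard.1 hs).2]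
      exact IsMF.prod s fun i _ => by simpa using (IsMF.zero w _).sub (ht i)
  refine ⟨h1.holo, fun γ _ => ?_, h1.bdd⟩
  obtain ⟨e, he⟩ := hp γ
  rw [SlashAction.sum_slash]
  conv_rhs => rw [← Finset.map_univ_equiv e, Finset.powersetCard_map, Finset.sum_map]
  refine Finset.sum_congr rfl fun s hs => ?_
  rw [← (Finset.mem_powersetCard.1 hs).2, prod_slash_SL]
  simp [Finset.prod_map, SlashAction.neg_slash, he]

/-- Vieta again (the coefficient vanishes for `j > card ι`) -/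
theorem hasQ_coeff {ι : Type} [Fintype ι] {t : ι → ℍ → ℂ} (S : Subring ℂ⟦X⟧)
    (ht : ∀ i, ∃ T ∈ S, HasQ h (t i) T) (j : ℕ) :
    ∃ U ∈ S, HasQ h ((∏ i, (Polynomial.X - Polynomial.C (t i))).coeff j) U := by
  let R : Subring (ℍ → ℂ) :=
    { carrier := {f | ∃ U ∈ S, HasQ h f U}
      mul_mem' := fun ⟨U, hU, a⟩ ⟨V, hV, b⟩ => ⟨U * V, S.mul_mem hU hV, a.mul b⟩
      one_mem' := ⟨1, S.one_mem, HasQ.one h⟩
      add_mem' := fun ⟨U, hU, a⟩ ⟨V, hV, b⟩ => ⟨U + V, S.add_mem hU hV, a.add b⟩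
      zero_mem' := ⟨0, S.zero_mem, HasQ.zero h⟩
      neg_mem' := fun ⟨U, hU, a⟩ => ⟨-U, S.neg_mem hU, a.neg⟩ }
  have e1 : (∏ i, (Polynomial.X - Polynomial.C (t i))) =
      (∏ i, (Polynomial.X - Polynomial.C (⟨t i, ht i⟩ : R))).map R.subtype := by
    simp [Polynomial.map_prod]
  rw [e1, Polynomial.coeff_map]
  exact ((∏ i, (Polynomial.X - Polynomial.C (⟨t i, ht i⟩ : R))).coeff j).2

theorem h38_poly {ι R : Type} [Fintype ι] [CommRing R] [Nontrivial R] (t : ι → R) (i : ι) :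
    t i ^ Fintype.card ι + ∑ j ∈ Finset.range (Fintype.card ι),
      (∏ i, (Polynomial.X - Polynomial.C (t i))).coeff j * t i ^ j = 0 := by
  have hm : (∏ i, (Polynomial.X - Polynomial.C (t i))).Monic :=
    Polynomial.monic_prod_of_monic _ _ fun q _ => Polynomial.monic_X_sub_C _
  have hd : (∏ i, (Polynomial.X - Polynomial.C (t i))).natDegree = Fintype.card ι := by
    rw [Polynomial.natDegree_prod_of_monic _ _ fun q _ => Polynomial.monic_X_sub_C _]
    simp
  have h0 : (∏ i, (Polynomial.X - Polynomial.C (t i))).eval (t i) = 0 := by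
    rw [Polynomial.eval_prod]
    exact Finset.prod_eq_zero (Finset.mem_univ i) (by simp)
  generalize ∏ i, (Polynomial.X - Polynomial.C (t i)) = p at hm hd h0
  rw [hm.as_sum, hd] at h0
  simpa [Polynomial.eval_finsetSum] using h0

theorem h38_integral {R : Type} [CommRing R] [Algebra ℂ R] (A : Subalgebra ℂ R) {n : ℕ} {x : R}
    {a : Fin n → R} (ha : ∀ j, a j ∈ A) (h : x ^ n + ∑ j, a j * x ^ (j : ℕ) = 0) :
    IsIntegral A x := by
  rcases subsingleton_or_nontrivial A with hA | hA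
  · exact ⟨0, Subsingleton.elim _ _, Polynomial.eval₂_zero _ _⟩
  refine ⟨Polynomial.X ^ n + ∑ j : Fin n, Polynomial.C (⟨a j, ha j⟩ : A) * Polynomial.X ^ (j : ℕ),
    Polynomial.monic_X_pow_add (Polynomial.degree_sum_fin_lt fun j => (⟨a j, ha j⟩ : A)), ?_⟩
  rw [← Polynomial.aeval_def]
  simpa using h

/-- the characteristic polynomial `∏ q : GQ h, (X - f ∣ q)` (monic of degree `n = card (GQ h)`, it
vanishes at `f = f ∣ (1 : GQ h).out`) -/
theorem orbit_eq {k : ℕ} {f : ℍ → ℂ} (hf : IsMF k (Gamma h) f) :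
    ∃ (n : ℕ) (s : ℕ → ℍ → ℂ), 0 < n ∧ (∀ j < n, IsMF ((n - j) * k : ℕ) ⊤ (s j)) ∧
      f ^ n + ∑ j ∈ Finset.range n, s j * f ^ j = 0 ∧
      ∀ S : Subring ℂ⟦X⟧, (∀ γ : SL(2, ℤ), ∃ T ∈ S, HasQ h (f ∣[(k : ℤ)] γ) T) →
        ∀ j, ∃ U ∈ S, HasQ h (s j) U := by
  obtain ⟨t, ht⟩ : ∃ t : GQ h → ℍ → ℂ, ∀ q, t q = f ∣[(k : ℤ)] q.out := ⟨_, fun _ => rfl⟩
  have h1 : t (QuotientGroup.mk 1) = f := by rw [ht, slash_out hf 1, SlashAction.slash_one]
  refine ⟨Fintype.card (GQ h), fun j => (∏ i, (Polynomial.X - Polynomial.C (t i))).coeff j,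
    Fintype.card_pos, fun j hj => ?_, ?_, fun S hS j => hasQ_coeff S (fun q => ?_) j⟩
  · rw [Nat.cast_mul]
    refine isMF_coeff (h := h) (fun q => ?_)
      (fun γ => ⟨Equiv.mulRight (QuotientGroup.mk γ), fun q => ?_⟩) hj.le
    · rw [ht]
      exact hf.slash _
    · rw [ht, ht, slash_out_mul hf, Equiv.coe_mulRight]
  · have := h38_poly t (QuotientGroup.mk 1)
    rwa [h1] at this
  · rw [ht]
    exact hS _

/-- `orbit_eq`, the expansions of the `s j` at level `M` (`IsMF.hasQ`), `HasQ.unique` with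
`HasQ.zero`, multiply by `epsInv ^ (n * m)`, `level_one_rho` -/
theorem integral_rho {M : ℕ} [NeZero M] {m : ℕ} {g : ℍ → ℂ} (hg : IsMF (2 * m : ℕ) (Gamma h) g)
    {G : ℂ⟦X⟧} (hG : HasQ M g G) :
    IsIntegral (Algebra.adjoin ℂ ({lev ℂ M rho} : Set ℂ⟦X⟧)) (G * lev ℂ M epsInv ^ m) := by
  obtain ⟨n, s, -, hs, h0, -⟩ := orbit_eq hg
  have hU : ∀ j < n, HasQ M (s j) (qExpansion M (s j)) := fun j hj => (hs j hj).hasQ M trivial
  have h1 := (hG.pow n).add (HasQ.sum (Finset.range n) fun j hj =>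
    (hU j (Finset.mem_range.1 hj)).mul (hG.pow j))
  rw [h0] at h1
  have h2 := h1.unique (HasQ.zero M)
  refine h38_integral _ (n := n) (a := fun j => qExpansion M (s j) * lev ℂ M epsInv ^ ((n - j) * m))
    (fun j => level_one_rho (by rw [← mul_left_comm]; exact hs j j.2) (hU j j.2)) ?_
  generalize lev ℂ M epsInv = e
  rw [← zero_mul (e ^ (n * m)), ← h2, add_mul, Finset.sum_mul, Finset.sum_range]
  congr 1
  · ring
  · refine Finset.sum_congr rfl fun j _ => ?_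
    have he : n * m = (n - j) * m + m * j := by
      rw [mul_comm m, ← add_mul, Nat.sub_add_cancel j.2.le]
    rw [he]
    ring

end Crest.Agent.R007
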