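import Crest.Agent.R007.R1

/-! # Row 7, block R: a primitive element. -/

set_option autoImplicit false
set_option linter.dupNamespace false
set_option maxHeartbeats 400000

noncomputable section
namespace Crest.Agent.R007

open PowerSeries UpperHalfPlane CongruenceSubgroup
open scoped ModularForm MatrixGroups

/-- the field `ℚ(ζ_M, i)` -/
def K4 (M : ℕ) : IntermediateField ℚ ℂ := IntermediateField.adjoin ℚ {zC M, zC 4}

/-- roots of unity are integral (`zC_prim`) -/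
theorem K4_fd (M : ℕ) [NeZero M] : FiniteDimensional ℚ (K4 M) := by
  exact IntermediateField.finiteDimensional_adjoin_pair
    ((zC_prim M).isIntegral (Nat.pos_of_ne_zero (NeZero.ne M))).tower_top
    ((zC_prim 4).isIntegral (by norm_num)).tower_top

/-- `map_Xser` with `prim_eK`, `eC_eq` -/
theorem Xser_mem_psSub {h : ℕ} [NeZero h] {K : IntermediateField ℚ ℂ} (hK : zC h ∈ K)
    (P : ZMod h × ZMod h) : PowerSeries.C (1 / 12) + Xser (eC h) P ∈ psSub K.toSubring := by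
  have hle : KC h ≤ K := IntermediateField.adjoin_simple_le_iff.2 hK
  refine mem_psSub.2 fun n => ?_
  rw [← map_Xser (algebraMap (KC h) ℂ) (prim_eK h) (eC_eq h), map_add, coeff_map, coeff_C]
  refine add_mem ?_ (hle (coeff n (Xser (eK h) P)).2)
  split_ifs
  · exact K.div_mem K.one_mem (ofNat_mem K 12)
  · exact zero_mem _

theorem DXser_mem_psSub {h : ℕ} [NeZero h] {K : IntermediateField ℚ ℂ} (hK : zC h ∈ K)
    (P : ZMod h × ZMod h) : DXser (eC h) P ∈ psSub K.toSubring := by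
  have hle : KC h ≤ K := IntermediateField.adjoin_simple_le_iff.2 hK
  refine mem_psSub.2 fun n => ?_
  rw [← map_DXser (algebraMap (KC h) ℂ) (prim_eK h) (eC_eq h), coeff_map]
  exact hle (coeff n (DXser (eK h) P)).2

/-- `x_P / ε = Z_P + 1/12` -/
theorem xf_ringA {h : ℕ} [NeZero h] {P : ZMod h × ZMod h} (hP : P ≠ 0) :
    (PowerSeries.C (1 / 12) + Xser (eC h) P) * lev ℂ h epsInv ∈ ringA (eC h) := by
  have h1 := lev_eps_mul_inv (R := ℂ) (h := h)
  rw [eps, map_add, map_one, map_mul, map_ofNat] at h1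
  have h2 : (12 : ℂ⟦X⟧) * PowerSeries.C (1 / 12) = 1 := by
    rw [← map_ofNat (PowerSeries.C : ℂ →+* ℂ⟦X⟧) 12, ← map_mul]
    norm_num
  have h3 : (PowerSeries.C (1 / 12) + Xser (eC h) P) * lev ℂ h epsInv =
      Zser (eC h) P + PowerSeries.C (1 / 12) := by
    rw [Zser]
    linear_combination PowerSeries.C (1 / 12 : ℂ) * h1 -
      2 * lev ℂ h sigO * lev ℂ h epsInv * h2
  rw [h3]
  exact add_mem (Algebra.subset_adjoin (Or.inr ⟨P, hP, rfl⟩))
    (Subalgebra.algebraMap_mem _ (1 / 12 : ℂ))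

/-- `hasQ_xf 4`, `xQ_eq`, `expand_lev`, `HasQ.of_expand` (to level 1), `HasQ.lev` -/
theorem hasQ_xQ (M : ℕ) [NeZero M] :
    HasQ M (xf 4 (0, 1)) ((-1 / 12 : ℂ) • lev ℂ M (eps + 4 * (lam * eps))) := by
  have h1 := (hasQ_xf 4 (0, 1)).smul (-12 : ℂ)
  have h2 : (-12 : ℂ) • (PowerSeries.C (1 / 12) + Xser (eC 4) (0, 1)) =
      PowerSeries.expand 4 (NeZero.ne 4) (lev ℂ 1 (eps + 4 * (lam * eps))) := by
    rw [expand_lev, smul_eq_C_mul, map_neg, map_ofNat, neg_mul, xQ_eq, map_add,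
      map_mul _ (4 : ℤ⟦X⟧), map_ofNat]
    change _ = lev ℂ 4 eps + 4 * lev ℂ 4 (lam * eps)
    ring
  rw [h2] at h1
  have h3 := ((HasQ.of_expand (h := 1) 4 h1).lev M).smul (-1 / 12 : ℂ)
  rwa [smul_smul, show (-1 / 12 : ℂ) * -12 = 1 by norm_num, one_smul] at h3

/-- the primitive element -/
def theta (M : ℕ) [NeZero M] (t : ℕ) : ℍ → ℂ :=
  xf M (1, 0) + (t : ℂ) • xf M (0, 1) + (t : ℂ) ^ 2 • xf 4 (0, 1)

variable {M : ℕ} [NeZero M]

omit [NeZero M] in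
theorem h4_ne (h3 : 3 ∣ M) : ((1, 0) : ZMod M × ZMod M) ≠ 0 ∧ ((0, 1) : ZMod M × ZMod M) ≠ 0 := by
  haveI : Nontrivial (ZMod M) := ZMod.nontrivial_iff.2 (by rintro rfl; omega)
  exact ⟨fun h => one_ne_zero (congrArg Prod.fst h), fun h => one_ne_zero (congrArg Prod.snd h)⟩

theorem h4_ne4 : ((0, 1) : ZMod 4 × ZMod 4) ≠ 0 := by decide

theorem h4_smul_mem {S : Subring ℂ} {c : ℂ} (hc : c ∈ S) {F : ℂ⟦X⟧} (hF : F ∈ psSub S) :
    c • F ∈ psSub S :=
  mem_psSub.2 fun n => by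
    rw [map_smul, smul_eq_mul]
    exact S.mul_mem hc (mem_psSub.1 hF n)

omit [NeZero M] in
theorem h4_zM : zC M ∈ K4 M := IntermediateField.subset_adjoin ℚ _ (Or.inl rfl)

omit [NeZero M] in
theorem h4_z4 : zC 4 ∈ K4 M := IntermediateField.subset_adjoin ℚ _ (Or.inr rfl)

theorem isMF_theta (h3 : 3 ∣ M) (t : ℕ) : IsMF 2 (Gamma (M * 4)) (theta M t) := by
  have h1 : Gamma (M * 4) ≤ Gamma M := Gamma_le_of_dvd (dvd_mul_right M 4)
  have h2 : Gamma (M * 4) ≤ Gamma 4 := Gamma_le_of_dvd (dvd_mul_left 4 M)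
  exact (((isMF_xf M (h4_ne h3).1).mono h1).add (((isMF_xf M (h4_ne h3).2).mono h1).smul _)).add
    (((isMF_xf 4 h4_ne4).mono h2).smul _)

theorem theta_slash (h3 : 3 ∣ M) (t : ℕ) (γ : SL(2, ℤ)) : theta M t ∣[(2 : ℤ)] γ =
    xf M (actP (1, 0) γ) + (t : ℂ) • xf M (actP (0, 1) γ) + (t : ℂ) ^ 2 • xf 4 (actP (0, 1) γ) := by
  rw [theta, SlashAction.add_slash, SlashAction.add_slash, ModularForm.SL_smul_slash,
    ModularForm.SL_smul_slash, xf_slash M (h4_ne h3).1, xf_slash M (h4_ne h3).2, xf_slash 4 h4_ne4]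

/-- a nonzero quadratic polynomial with vector coefficients has at most two roots -/
theorem exists_avoid {V ι : Type} [AddCommGroup V] [Module ℂ V] [Finite ι] (a b c : ι → V) :
    ∃ t : ℕ, ∀ i, a i + (t : ℂ) • b i + (t : ℂ) ^ 2 • c i = 0 → a i = 0 ∧ b i = 0 ∧ c i = 0 := by
  classical
  have two : ∀ (i : ι) (s t : ℕ), s ≠ t → a i + (s : ℂ) • b i + (s : ℂ) ^ 2 • c i = 0 →
      a i + (t : ℂ) • b i + (t : ℂ) ^ 2 • c i = 0 → b i + ((s : ℂ) + t) • c i = 0 := by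
    intro i s t hst hs ht
    have hne : (s : ℂ) - t ≠ 0 := sub_ne_zero.2 (by exact_mod_cast hst)
    have e : ((s : ℂ) - t) • (b i + ((s : ℂ) + t) • c i) =
        (a i + (s : ℂ) • b i + (s : ℂ) ^ 2 • c i) - (a i + (t : ℂ) • b i + (t : ℂ) ^ 2 • c i) := by
      module
    rw [hs, ht, sub_zero] at e
    exact (smul_eq_zero.1 e).resolve_left hne
  have fin : ∀ i, Set.Finite {t : ℕ | a i + (t : ℂ) • b i + (t : ℂ) ^ 2 • c i = 0 ∧
      ¬ (a i = 0 ∧ b i = 0 ∧ c i = 0)} := by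
    intro i
    by_contra hinf
    have hinf' := Set.not_finite.1 hinf
    obtain ⟨s, hs, -⟩ := hinf'.exists_notMem_finset ∅
    obtain ⟨t, ht, hts⟩ := hinf'.exists_notMem_finset {s}
    obtain ⟨u, hu, hus⟩ := hinf'.exists_notMem_finset {s, t}
    simp only [Finset.mem_insert, Finset.mem_singleton, not_or] at hts hus
    have e1 := two i s t (Ne.symm hts) hs.1 ht.1
    have e2 := two i s u (Ne.symm hus.1) hs.1 hu.1
    have hne : (t : ℂ) - u ≠ 0 := sub_ne_zero.2 (by exact_mod_cast (Ne.symm hus.2))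
    have e : ((t : ℂ) - u) • c i = (b i + ((s : ℂ) + t) • c i) - (b i + ((s : ℂ) + u) • c i) := by
      module
    rw [e1, e2, sub_zero] at e
    have hc : c i = 0 := (smul_eq_zero.1 e).resolve_left hne
    have hb : b i = 0 := by simpa [hc] using e1
    have ha : a i = 0 := by simpa [hc, hb] using hs.1
    exact hs.2 ⟨ha, hb, hc⟩
  obtain ⟨t, ht⟩ := (Set.finite_iUnion fin).infinite_compl.nonempty
  refine ⟨t, fun i hi => ?_⟩
  by_contra hn
  exact ht (Set.mem_iUnion.2 ⟨i, hi, hn⟩)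

omit [NeZero M] in
/-- `det γ = 1` and `1 ≠ -1` in `ZMod M` force equal signs -/
theorem mem_GamS_of_actP (h3 : 3 ∣ M) {γ : SL(2, ℤ)}
    (h1 : actP ((1, 0) : ZMod M × ZMod M) γ = (1, 0) ∨ actP ((1, 0) : ZMod M × ZMod M) γ = -(1, 0))
    (h2 : actP ((0, 1) : ZMod M × ZMod M) γ = (0, 1) ∨ actP ((0, 1) : ZMod M × ZMod M) γ = -(0, 1))
    (h4 : actP ((0, 1) : ZMod 4 × ZMod 4) γ = (0, 1) ∨ actP ((0, 1) : ZMod 4 × ZMod 4) γ = -(0, 1)) :
    γ ∈ GamS M ∨ -γ ∈ GamS M := by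
  have hdet : ((γ 0 0 : ℤ) : ZMod M) * ((γ 1 1 : ℤ) : ZMod M) -
      ((γ 0 1 : ℤ) : ZMod M) * ((γ 1 0 : ℤ) : ZMod M) = 1 := by
    have := γ.det_coe
    rw [Matrix.det_fin_two] at this
    exact_mod_cast congrArg (Int.cast : ℤ → ZMod M) this
  have hne : (-1 : ZMod M) ≠ 1 := by
    intro h
    have h2 : ((2 : ℕ) : ZMod M) = 0 := by
      push_cast
      linear_combination -h
    rw [ZMod.natCast_eq_zero_iff] at h2
    exact absurd (h3.trans h2) (by decide)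
  have hc : ((γ 1 0 : ℤ) : ZMod 4) = 0 := by
    rcases h4 with h | h <;> simpa [actP] using congrArg Prod.fst h
  simp only [actP, one_mul, zero_mul, add_zero, zero_add, Prod.neg_mk, neg_zero,
    Prod.mk.injEq] at h1 h2
  rcases h1 with ⟨a1, a2⟩ | ⟨a1, a2⟩ <;> rcases h2 with ⟨b1, b2⟩ | ⟨b1, b2⟩
  · exact Or.inl ⟨Gamma_mem.2 ⟨a1, a2, b1, b2⟩, Gamma0_mem.2 hc⟩
  · rw [a1, a2, b1, b2] at hdet
    exact absurd (by linear_combination hdet) hne
  · rw [a1, a2, b1, b2] at hdet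
    exact absurd (by linear_combination hdet) hne
  · refine Or.inr ⟨Gamma_mem.2 ⟨?_, ?_, ?_, ?_⟩, Gamma0_mem.2 ?_⟩ <;>
      simp [a1, a2, b1, b2, hc]

/-- `exists_avoid` over all triples of points, `theta_slash`, `xf_inj`, `mem_GamS_of_actP` -/
theorem exists_theta (h3 : 3 ∣ M) : ∃ t : ℕ, ∀ γ : SL(2, ℤ),
    theta M t ∣[(2 : ℤ)] γ = theta M t → γ ∈ GamS M ∨ -γ ∈ GamS M := by
  have h10 : (1 : ZMod M) ≠ 0 := by
    intro h
    have h2 : ((1 : ℕ) : ZMod M) = 0 := by simpa using h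
    rw [ZMod.natCast_eq_zero_iff] at h2
    exact absurd (h3.trans h2) (by decide)
  have p1 : ((1, 0) : ZMod M × ZMod M) ≠ 0 := fun h => h10 (congrArg Prod.fst h)
  have p2 : ((0, 1) : ZMod M × ZMod M) ≠ 0 := fun h => h10 (congrArg Prod.snd h)
  have p4 : ((0, 1) : ZMod 4 × ZMod 4) ≠ 0 := by decide
  obtain ⟨t, ht⟩ := exists_avoid
    (ι := (ZMod M × ZMod M) × (ZMod M × ZMod M) × (ZMod 4 × ZMod 4))
    (fun i => xf M i.1 - xf M (1, 0)) (fun i => xf M i.2.1 - xf M (0, 1))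
    (fun i => xf 4 i.2.2 - xf 4 (0, 1))
  refine ⟨t, fun γ hγ => ?_⟩
  rw [theta_slash h3] at hγ
  obtain ⟨e1, e2, e3⟩ := ht (actP (1, 0) γ, actP (0, 1) γ, actP (0, 1) γ) (by
    have := sub_eq_zero.2 hγ
    unfold theta at this
    rw [← this]
    module)
  exact mem_GamS_of_actP h3 (xf_inj M (actP_ne_zero p1 γ) p1 (sub_eq_zero.1 e1))
    (xf_inj M (actP_ne_zero p2 γ) p2 (sub_eq_zero.1 e2))
    (xf_inj 4 (actP_ne_zero p4 γ) p4 (sub_eq_zero.1 e3))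

theorem hasQ_theta (h3 : 3 ∣ M) (t : ℕ) : ∃ Θ ∈ psSub (K4 M).toSubring, HasQ M (theta M t) Θ ∧
    Θ * lev ℂ M epsInv ∈ ringA (eC M) := by
  have ht : (t : ℂ) ∈ (K4 M).toSubring := natCast_mem _ t
  have h12 : (-1 / 12 : ℂ) ∈ (K4 M).toSubring := by
    have : (-1 / 12 : ℂ) = ((-1 / 12 : ℚ) : ℂ) := by push_cast; rfl
    rw [this]
    exact SubfieldClass.ratCast_mem (K4 M) _
  refine ⟨_, add_mem (add_mem (Xser_mem_psSub h4_zM (1, 0))
    (h4_smul_mem ht (Xser_mem_psSub h4_zM (0, 1))))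
    (h4_smul_mem (pow_mem ht 2) (h4_smul_mem h12 (lev_mem_psSub _ M (eps + 4 * (lam * eps))))),
    ((hasQ_xf M (1, 0)).add ((hasQ_xf M (0, 1)).smul _)).add ((hasQ_xQ M).smul _), ?_⟩
  have hmu : lev ℂ M mu ∈ ringA (eC M) := Algebra.subset_adjoin (Or.inl (Or.inr rfl))
  have e : lev ℂ M (eps + 4 * (lam * eps)) * lev ℂ M epsInv = 5 - 96 * lev ℂ M mu := by
    have h1 := lev_eps_mul_inv (R := ℂ) (h := M)
    simp only [lam, map_add, map_mul, map_sub, map_one, map_ofNat]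
    linear_combination (5 - 96 * lev ℂ M mu) * h1
  rw [add_mul, add_mul, smul_mul_assoc, smul_mul_assoc, smul_mul_assoc, e]
  refine add_mem (add_mem (xf_ringA (h4_ne h3).1) (Subalgebra.smul_mem _ (xf_ringA (h4_ne h3).2) _))
    (Subalgebra.smul_mem _ (Subalgebra.smul_mem _ ?_ _) _)
  exact sub_mem (ofNat_mem _ 5) (mul_mem (ofNat_mem _ 96) hmu)

/-- `theta_slash`, `HasQ.expand` -/
theorem hasQ_theta_slash (h3 : 3 ∣ M) (t : ℕ) (γ : SL(2, ℤ)) :
    ∃ U ∈ psSub (K4 M).toSubring, HasQ (M * 4) (theta M t ∣[(2 : ℤ)] γ) U := by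
  have ht : (t : ℂ) ∈ (K4 M).toSubring := natCast_mem _ t
  have h4 := (hasQ_xf 4 (actP (0, 1) γ)).expand M
  rw [mul_comm 4 M] at h4
  rw [theta_slash h3]
  exact ⟨_, add_mem (add_mem (expand_mem_psSub 4 (Xser_mem_psSub h4_zM (actP (1, 0) γ)))
    (h4_smul_mem ht (expand_mem_psSub 4 (Xser_mem_psSub h4_zM (actP (0, 1) γ)))))
    (h4_smul_mem (pow_mem ht 2) (expand_mem_psSub M (Xser_mem_psSub h4_z4 (actP (0, 1) γ)))),
    (((hasQ_xf M _).expand 4).add (((hasQ_xf M _).expand 4).smul _)).add (h4.smul _)⟩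

omit [NeZero M] in
/-- `-1` acts trivially in even weight -/
theorem slash_of_pm {m : ℕ} {Γ : Subgroup SL(2, ℤ)} {g : ℍ → ℂ} (hg : IsMF (2 * m : ℕ) Γ g)
    {γ : SL(2, ℤ)} (h : γ ∈ Γ ∨ -γ ∈ Γ) : g ∣[((2 * m : ℕ) : ℤ)] γ = g := by
  rcases h with h | h
  · exact hg.inv γ h
  · have e : g ∣[((2 * m : ℕ) : ℤ)] γ = g ∣[((2 * m : ℕ) : ℤ)] (-γ) := by
      funext τ
      have hd : denom ((-γ : SL(2, ℤ)) : GL (Fin 2) ℝ) τ = - denom (γ : GL (Fin 2) ℝ) τ := by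
        rw [ModularGroup.denom_apply, ModularGroup.denom_apply]
        simp
        ring
      have hev : Even (-((2 * m : ℕ) : ℤ)) := ⟨-(m : ℤ), by push_cast; ring⟩
      rw [ModularForm.SL_slash_apply, ModularForm.SL_slash_apply, ModularGroup.SL_neg_smul, hd,
        hev.neg_zpow]
    rw [e]
    exact hg.inv _ h

omit [NeZero M] in
theorem Gamma_le_GamS : Gamma (M * 4) ≤ GamS M := by
  intro γ hγ
  exact ⟨Gamma_le_of_dvd (dvd_mul_right M 4) hγ,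
    Gamma0_mem.2 (Gamma_mem.1 (Gamma_le_of_dvd (dvd_mul_left 4 M) hγ)).2.2.1⟩

end Crest.Agent.R007
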