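import Crest.Agent.R007.R3a

/-! # Row 7, block R: Lagrange interpolation. -/

set_option autoImplicit false
set_option linter.dupNamespace false
set_option maxHeartbeats 400000

noncomputable section
namespace Crest.Agent.R007

open PowerSeries UpperHalfPlane CongruenceSubgroup
open scoped ModularForm MatrixGroups

variable {M : ℕ} [NeZero M]

theorem lagrange (h3 : 3 ∣ M) : ∃ (n : ℕ) (D : ℂ⟦X⟧) (B : ℕ → ℂ⟦X⟧), D ≠ 0 ∧
    D ∈ psSub (K4 M).toSubring ∧ (∀ i, B i ∈ psSub (K4 M).toSubring) ∧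
    D * lev ℂ M epsInv ^ n ∈ ringA (eC M) ∧
    (∀ i ≤ n, B i * lev ℂ M epsInv ^ (n - i) ∈ ringA (eC M)) ∧
    ∀ (m : ℕ) (g : ℍ → ℂ) (G : ℂ⟦X⟧), IsMF (2 * m : ℕ) (GamS M) g → HasQ M g G →
      ∃ (t : ℕ → ℍ → ℂ) (T : ℕ → ℂ⟦X⟧), (∀ i, IsMF (2 * (m + i) : ℕ) ⊤ (t i) ∧ HasQ M (t i) (T i)) ∧
        D * G = ∑ i ∈ Finset.range (n + 1), B i * T i :=
  lagrange' h3

/-- `integral_rho`, `lagrange`, `level_one_rho` -/
theorem good_C (h3 : 3 ∣ M) {m : ℕ} {g : ℍ → ℂ} {G : ℂ⟦X⟧} (hg : IsMF (2 * m : ℕ) (GamS M) g)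
    (hG : HasQ M g G) : Good (eC M) (G * lev ℂ M epsInv ^ m) := by
  obtain ⟨n, D, B, hD0, -, -, hD, hB, H⟩ := lagrange h3
  obtain ⟨t, T, hT, hs⟩ := H m g G hg hG
  refine ⟨integral_rho (hg.mono Gamma_le_GamS) hG, _, hD, mul_ne_zero hD0 (pow_ne_zero _
    (right_ne_zero_of_mul_eq_one lev_eps_mul_inv)), ?_⟩
  rw [mul_mul_mul_comm, hs, Finset.sum_mul]
  refine sum_mem fun i hi => ?_
  have hi' : i ≤ n := Nat.lt_succ_iff.1 (Finset.mem_range.1 hi)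
  have e : B i * T i * (lev ℂ M epsInv ^ n * lev ℂ M epsInv ^ m) =
      B i * lev ℂ M epsInv ^ (n - i) * (T i * lev ℂ M epsInv ^ (m + i)) := by
    rw [mul_mul_mul_comm (B i) (_ ^ _), ← pow_add, ← pow_add, show n - i + (m + i) = n + m by omega]
  rw [e]
  exact mul_mem (hB i hi') (Algebra.adjoin_mono
    (fun x hx => Or.inl (Or.inl hx)) (level_one_rho (hT i).1 (hT i).2))

/-- `lagrange`, `level_one_span` -/
theorem exists_den (h3 : 3 ∣ M) (m : ℕ) : ∃ (D : ℂ⟦X⟧) (V : Set ℂ⟦X⟧), D ≠ 0 ∧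
    D ∈ psSub (K4 M).toSubring ∧ V.Finite ∧ (∀ v ∈ V, v ∈ psSub (K4 M).toSubring) ∧
    ∀ (g : ℍ → ℂ) (G : ℂ⟦X⟧), IsMF (2 * m : ℕ) (GamS M) g → HasQ M g G →
      D * G ∈ Submodule.span ℂ V := by
  obtain ⟨n, D, B, hD0, hD, hB, -, -, H⟩ := lagrange h3
  choose s hs using fun k => level_one_span k M
  refine ⟨D, ⋃ i ∈ Set.Iic n, (fun x => B i * lev ℂ M x) '' (s (2 * (m + i)) : Set ℤ⟦X⟧), hD0, hD,
    (Set.finite_Iic n).biUnion fun i _ => (Finset.finite_toSet _).image _, ?_, fun g G hg hG => ?_⟩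
  · intro v hv
    simp only [Set.mem_iUnion] at hv
    obtain ⟨i, -, x, -, rfl⟩ := hv
    exact mul_mem (hB i) (lev_mem_psSub _ _ _)
  · obtain ⟨t, T, hT, h⟩ := H m g G hg hG
    rw [h]
    refine sum_mem fun i hi => ?_
    have hi' : i ≤ n := Nat.lt_succ_iff.1 (Finset.mem_range.1 hi)
    have h1 := Submodule.mem_map_of_mem (f := LinearMap.mulLeft ℂ (B i))
      (hs _ _ _ (hT i).1 (hT i).2)
    rw [Submodule.map_span, Set.image_image] at h1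
    exact Submodule.span_mono (Set.subset_biUnion_of_mem (u := fun i =>
      (fun x => B i * lev ℂ M x) '' (s (2 * (m + i)) : Set ℤ⟦X⟧)) (Set.mem_Iic.2 hi')) h1

end Crest.Agent.R007
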