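import Crest.Agent.R007.R2

/-! # Row 7, block R: Lagrange interpolation (proof). -/

set_option autoImplicit false
set_option linter.dupNamespace false
set_option maxHeartbeats 400000

noncomputable section
namespace Crest.Agent.R007

open PowerSeries UpperHalfPlane CongruenceSubgroup
open scoped ModularForm MatrixGroups

open Polynomial in
theorem lag_deg {R ι : Type} [CommRing R] [Nontrivial R] [Fintype ι] [DecidableEq ι] (t : ι → R)
    (i0 : ι) : (∏ i ∈ Finset.univ.erase i0, (Polynomial.X - Polynomial.C (t i))).natDegree <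
      Fintype.card ι := by
  rw [Polynomial.natDegree_prod_of_monic _ _ fun i _ => Polynomial.monic_X_sub_C _]
  simp only [Polynomial.natDegree_X_sub_C, Finset.sum_const, smul_eq_mul, mul_one]
  exact (Finset.card_erase_lt_of_mem (Finset.mem_univ i0)).trans_eq Finset.card_univ

theorem lag_coeff {R ι : Type} [CommRing R] [Nontrivial R] [Fintype ι] [DecidableEq ι] (t : ι → R)
    (i0 : ι) (i : ℕ) :
    (∏ i ∈ Finset.univ.erase i0, (Polynomial.X - Polynomial.C (t i))).coeff i =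
      ∑ j ∈ Finset.Icc (i + 1) (Fintype.card ι),
        t i0 ^ (j - (i + 1)) * (∏ i, (Polynomial.X - Polynomial.C (t i))).coeff j := by
  have hd : (∏ i, (Polynomial.X - Polynomial.C (t i))).natDegree = Fintype.card ι := by
    rw [Polynomial.natDegree_prod_of_monic _ _ fun i _ => Polynomial.monic_X_sub_C _]
    simp
  rw [← hd, ← Polynomial.coeff_divByMonic_X_sub_C,
    ← Finset.mul_prod_erase _ _ (Finset.mem_univ i0),
    Polynomial.mul_divByMonic_cancel_left _ (Polynomial.monic_X_sub_C _)]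

theorem lag_alg {R ι Q : Type} [CommRing R] [Nontrivial R] [Fintype ι] [Fintype Q] [DecidableEq ι]
    (t : ι → R) (i0 : ι) (p : Q → ι) (gq : Q → R) (g : R) (hg : ∀ q, p q = i0 → gq q = g) :
    (((Finset.univ.filter fun q => p q = i0).card : ℕ) : R) *
      (∏ i ∈ Finset.univ.erase i0, (Polynomial.X - Polynomial.C (t i))).eval (t i0) * g =
      ∑ i ∈ Finset.range (Fintype.card ι),
        (∏ i ∈ Finset.univ.erase i0, (Polynomial.X - Polynomial.C (t i))).coeff i *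
          ∑ q, gq q * t (p q) ^ i := by
  set m1 := ∏ i ∈ Finset.univ.erase i0, (Polynomial.X - Polynomial.C (t i)) with hm1
  have h1 : ∑ i ∈ Finset.range (Fintype.card ι), m1.coeff i * ∑ q, gq q * t (p q) ^ i =
      ∑ q, gq q * m1.eval (t (p q)) := by
    simp_rw [Finset.mul_sum]
    rw [Finset.sum_comm]
    refine Finset.sum_congr rfl fun q _ => ?_
    rw [Polynomial.eval_eq_sum_range' (lag_deg t i0), Finset.mul_sum]
    exact Finset.sum_congr rfl fun i _ => by ring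
  rw [h1, ← Finset.sum_filter_add_sum_filter_not Finset.univ (fun q => p q = i0)]
  have h2 : ∑ q ∈ Finset.univ.filter (fun q => ¬ p q = i0), gq q * m1.eval (t (p q)) = 0 := by
    refine Finset.sum_eq_zero fun q hq => ?_
    have hq' : p q ≠ i0 := (Finset.mem_filter.1 hq).2
    rw [hm1, Polynomial.eval_prod, Finset.prod_eq_zero (i := p q) (by simpa using hq') (by simp),
      mul_zero]
  rw [h2, add_zero, Finset.sum_congr rfl (g := fun _ => g * m1.eval (t i0))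
    fun q hq => by rw [hg q (Finset.mem_filter.1 hq).2, (Finset.mem_filter.1 hq).2]]
  rw [Finset.sum_const, nsmul_eq_mul]
  ring

variable {M : ℕ} [NeZero M]

/-- the orbit of a form as a finite type on which `SL₂(ℤ)` acts by permutations -/
theorem lag_orbit {h : ℕ} [NeZero h] {w : ℤ} {θ : ℍ → ℂ} (hθ : IsMF w (Gamma h) θ) :
    ∃ (ι : Type) (_ : Fintype ι) (t : ι → ℍ → ℂ) (i0 : ι) (p : GQ h → ι), Function.Injective t ∧
      t i0 = θ ∧ (∀ q, t (p q) = θ ∣[w] q.out) ∧ Function.Surjective p ∧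
      ∀ γ : SL(2, ℤ), ∃ e : Equiv.Perm ι, ∀ i, t i ∣[w] γ = t (e i) := by
  let S : Set (ℍ → ℂ) := Set.range fun q : GQ h => θ ∣[w] q.out
  have hS : Finite S := Set.finite_range _
  have h0 : θ ∈ S := ⟨QuotientGroup.mk 1, by
    show θ ∣[w] _ = θ
    rw [slash_out hθ, SlashAction.slash_one]⟩
  refine ⟨S, Fintype.ofFinite S, Subtype.val, ⟨θ, h0⟩, fun q => ⟨_, q, rfl⟩, Subtype.val_injective,
    rfl, fun _ => rfl, ?_, fun γ => ?_⟩
  · rintro ⟨_, q, rfl⟩
    exact ⟨q, rfl⟩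
  · have hm : ∀ i : S, i.1 ∣[w] γ ∈ S := by
      rintro ⟨_, q, rfl⟩
      exact ⟨q * QuotientGroup.mk γ, (slash_out_mul hθ q γ).symm⟩
    have hi : Function.Injective fun i : S => (⟨_, hm i⟩ : S) := by
      intro i j hij
      have h1 : i.1 ∣[w] γ = j.1 ∣[w] γ := congrArg Subtype.val hij
      have h2 := congrArg (fun f => f ∣[w] γ⁻¹) h1
      simp only [← SlashAction.slash_mul, mul_inv_cancel, SlashAction.slash_one] at h2
      exact Subtype.ext h2
    exact ⟨Equiv.ofBijective _ (Finite.injective_iff_bijective.1 hi), fun i => rfl⟩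

theorem rho_le_ringA {h : ℕ} [NeZero h] (e : AddChar (ZMod h) ℂ) :
    Algebra.adjoin ℂ ({lev ℂ h rho} : Set ℂ⟦X⟧) ≤ ringA e :=
  Algebra.adjoin_mono (by rintro _ rfl; exact Or.inl (Or.inl rfl))

theorem lagrange' (h3 : 3 ∣ M) : ∃ (n : ℕ) (D : ℂ⟦X⟧) (B : ℕ → ℂ⟦X⟧), D ≠ 0 ∧
    D ∈ psSub (K4 M).toSubring ∧ (∀ i, B i ∈ psSub (K4 M).toSubring) ∧
    D * lev ℂ M epsInv ^ n ∈ ringA (eC M) ∧
    (∀ i ≤ n, B i * lev ℂ M epsInv ^ (n - i) ∈ ringA (eC M)) ∧
    ∀ (m : ℕ) (g : ℍ → ℂ) (G : ℂ⟦X⟧), IsMF (2 * m : ℕ) (GamS M) g → HasQ M g G →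
      ∃ (t : ℕ → ℍ → ℂ) (T : ℕ → ℂ⟦X⟧), (∀ i, IsMF (2 * (m + i) : ℕ) ⊤ (t i) ∧ HasQ M (t i) (T i)) ∧
        D * G = ∑ i ∈ Finset.range (n + 1), B i * T i := by
  classical
  obtain ⟨τ, hτ⟩ := exists_theta h3
  have hθ := isMF_theta h3 τ
  obtain ⟨Θ, hΘK, hΘ, hΘA⟩ := hasQ_theta h3 τ
  obtain ⟨ι, _, t, i0, p, hinj, hi0, hp, hsurj, hperm⟩ := lag_orbit hθ
  have htM : ∀ i, IsMF 2 (Gamma (M * 4)) (t i) := fun i => by
    obtain ⟨q, rfl⟩ := hsurj i
    rw [hp]
    exact hθ.slash _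
  have htU : ∀ i, ∃ U ∈ psSub (K4 M).toSubring, HasQ (M * 4) (t i) U := fun i => by
    obtain ⟨q, rfl⟩ := hsurj i
    rw [hp]
    exact hasQ_theta_slash h3 τ _
  obtain ⟨n, hn⟩ : ∃ n, Fintype.card ι = n + 1 :=
    Nat.exists_eq_succ_of_ne_zero (Fintype.card_pos_iff.2 ⟨i0⟩).ne'
  set s : ℕ → ℍ → ℂ := fun j => (∏ i, (Polynomial.X - Polynomial.C (t i))).coeff j with hs
  have hsM : ∀ j ≤ n + 1, IsMF (2 * (n + 1 - j) : ℕ) ⊤ (s j) := fun j hj => by
    have := isMF_coeff htM hperm (j := j) (hn ▸ hj)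
    rw [hn] at this
    convert this using 1
    push_cast
    ring
  set S : ℕ → ℂ⟦X⟧ := fun j => qExpansion M (s j) with hS
  have hSQ : ∀ j ≤ n + 1, HasQ M (s j) (S j) := fun j hj => (hsM j hj).hasQ M trivial
  have hSK : ∀ j ≤ n + 1, S j ∈ psSub (K4 M).toSubring := fun j hj => by
    obtain ⟨U, hU, hU'⟩ := hasQ_coeff (psSub (K4 M).toSubring) htU j
    refine mem_psSub_of_expand 4 ?_
    rw [((hSQ j hj).expand 4).unique hU']
    exact hU
  have hSA : ∀ j ≤ n + 1, S j * lev ℂ M epsInv ^ (n + 1 - j) ∈ ringA (eC M) := fun j hj =>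
    rho_le_ringA _ (level_one_rho (hsM j hj) (hSQ j hj))
  set m1 := ∏ i ∈ Finset.univ.erase i0, (Polynomial.X - Polynomial.C (t i)) with hm1
  set B : ℕ → ℂ⟦X⟧ := fun i => ∑ j ∈ Finset.Icc (i + 1) (n + 1), Θ ^ (j - (i + 1)) * S j with hB
  have hBQ : ∀ i, HasQ M (m1.coeff i) (B i) := fun i => by
    rw [hm1, lag_coeff, hn, hi0]
    exact HasQ.sum _ fun j hj => (hΘ.pow _).mul (hSQ j (Finset.mem_Icc.1 hj).2)
  have hBK : ∀ i, B i ∈ psSub (K4 M).toSubring := fun i =>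
    sum_mem fun j hj => mul_mem (pow_mem hΘK _) (hSK j (Finset.mem_Icc.1 hj).2)
  have hBA : ∀ i ≤ n, B i * lev ℂ M epsInv ^ (n - i) ∈ ringA (eC M) := fun i hi => by
    rw [hB, Finset.sum_mul]
    refine sum_mem fun j hj => ?_
    obtain ⟨h1, h2⟩ := Finset.mem_Icc.1 hj
    have e : n - i = (j - (i + 1)) + (n + 1 - j) := by omega
    have : Θ ^ (j - (i + 1)) * S j * lev ℂ M epsInv ^ (n - i) =
        (Θ * lev ℂ M epsInv) ^ (j - (i + 1)) * (S j * lev ℂ M epsInv ^ (n + 1 - j)) := by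
      rw [e]; ring
    rw [this]
    exact mul_mem (pow_mem hΘA _) (hSA j h2)
  set c : ℕ := (Finset.univ.filter fun q => p q = i0).card with hc
  have hc0 : c ≠ 0 := by
    obtain ⟨q, hq⟩ := hsurj i0
    exact Finset.card_ne_zero.2 ⟨q, by simpa using hq⟩
  set D : ℂ⟦X⟧ := (c : ℂ⟦X⟧) * ∑ i ∈ Finset.range (n + 1), B i * Θ ^ i with hD
  have hcQ : HasQ M (c : ℍ → ℂ) (c : ℂ⟦X⟧) := by
    have := HasQ.const M (c : ℂ)
    rwa [map_natCast] at this
  have hevQ : HasQ M (m1.eval (t i0)) (∑ i ∈ Finset.range (n + 1), B i * Θ ^ i) := by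
    rw [Polynomial.eval_eq_sum_range' (lag_deg t i0), hn, hi0]
    exact HasQ.sum _ fun i _ => (hBQ i).mul (hΘ.pow _)
  have hDQ : HasQ M ((c : ℍ → ℂ) * m1.eval (t i0)) D := hcQ.mul hevQ
  refine ⟨n, D, B, ?_, ?_, hBK, ?_, hBA, fun m g G hg hG => ?_⟩
  · have : CharZero ℂ⟦X⟧ := algebraRat.charZero _
    refine mul_ne_zero (Nat.cast_ne_zero.2 hc0) fun h0 => ?_
    rw [h0] at hevQ
    have h1 := hevQ.fun_eq (HasQ.zero M)
    choose U hUK hU using htU
    have h2 : HasQ (M * 4) (m1.eval (t i0)) (∏ i ∈ Finset.univ.erase i0, (U i0 - U i)) := by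
      rw [hm1, Polynomial.eval_prod]
      refine HasQ.prod _ fun i _ => ?_
      simpa using (hU i0).sub (hU i)
    rw [h1] at h2
    have h4 := h2.unique (HasQ.zero _)
    obtain ⟨i, hi, h5⟩ := Finset.prod_eq_zero_iff.1 h4
    rw [sub_eq_zero] at h5
    exact (Finset.mem_erase.1 hi).1 (hinj ((hU i).fun_eq (h5 ▸ hU i0)))
  · exact mul_mem (natCast_mem _ _) (sum_mem fun i _ => mul_mem (hBK i) (pow_mem hΘK _))
  · rw [hD, mul_assoc, Finset.sum_mul]
    refine mul_mem (natCast_mem _ _) (sum_mem fun i hi => ?_)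
    have hi' : i ≤ n := Nat.lt_succ_iff.1 (Finset.mem_range.1 hi)
    have : B i * Θ ^ i * lev ℂ M epsInv ^ n =
        (B i * lev ℂ M epsInv ^ (n - i)) * (Θ * lev ℂ M epsInv) ^ i := by
      conv_lhs => rw [← Nat.sub_add_cancel hi']
      ring
    rw [this]
    exact mul_mem (hBA i hi') (pow_mem hΘA _)
  · have hg' : IsMF (2 * m : ℕ) (Gamma (M * 4)) g := hg.mono Gamma_le_GamS
    have hw : ∀ i : ℕ, ((2 * (m + i) : ℕ) : ℤ) = ((2 * m : ℕ) : ℤ) + i * 2 := fun i => by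
      push_cast; ring
    have htr : ∀ i : ℕ, IsMF (2 * (m + i) : ℕ) ⊤
        (∑ q : GQ (M * 4), g ∣[((2 * m : ℕ) : ℤ)] q.out * t (p q) ^ i) := fun i => by
      have := isMF_trace (hg'.mul (hθ.pow i))
      simp only [ModularForm.mul_slash_SL2, pow_slash_SL, ← hp] at this
      rw [hw]
      exact this
    refine ⟨_, fun i => qExpansion M _, fun i => ⟨htr i, (htr i).hasQ M trivial⟩, ?_⟩
    have key := lag_alg t i0 p (fun q => g ∣[((2 * m : ℕ) : ℤ)] q.out) g fun q hq =>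
      slash_of_pm hg (hτ _ (by rw [← hp, hq, hi0]))
    have h1 := hDQ.mul hG
    rw [hc, hm1, key, hn] at h1
    exact h1.unique (HasQ.sum _ fun i _ => (hBQ i).mul ((htr i).hasQ M trivial))

end Crest.Agent.R007
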