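import Mathlib

/-! # Row 7, block W: general facts on the Weierstrass function of a `PeriodPair`. -/

set_option autoImplicit false

noncomputable section
namespace Crest.Agent.R007

open PeriodPair Filter Topology

/-- multiplication by `c` as a bijection of lattices -/
def h4_scale (L L' : PeriodPair) {c : ℂ} (hc : c ≠ 0)
    (h : ∀ x : ℂ, x ∈ L'.lattice ↔ c * x ∈ L.lattice) : L'.lattice ≃ L.lattice where
  toFun x := ⟨c * x, (h x).1 x.2⟩
  invFun y := ⟨c⁻¹ * y, (h _).2 (by rw [mul_inv_cancel_left₀ hc]; exact y.2)⟩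
  left_inv x := Subtype.ext (inv_mul_cancel_left₀ hc _)
  right_inv y := Subtype.ext (mul_inv_cancel_left₀ hc _)

/-- homogeneity: reindex the `tsum` by the bijection `x ↦ c x` of the lattices
(`Equiv.tsum_eq`, `tsum_mul_left`; no convergence needed). -/
theorem wp_homog (L L' : PeriodPair) {c : ℂ} (hc : c ≠ 0)
    (h : ∀ x : ℂ, x ∈ L'.lattice ↔ c * x ∈ L.lattice) (z : ℂ) :
    ℘[L'] z = c ^ 2 * ℘[L] (c * z) := by
  simp only [weierstrassP]
  rw [← (h4_scale L L' hc h).tsum_eq, ← tsum_mul_left]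
  refine tsum_congr fun x => ?_
  change _ = c ^ 2 * (1 / (c * z - c * x) ^ 2 - 1 / (c * x) ^ 2)
  rw [← mul_sub c, mul_pow, mul_pow, one_div (_ * _), one_div (_ * _), mul_inv, mul_inv, mul_sub,
    mul_inv_cancel_left₀ (pow_ne_zero 2 hc), mul_inv_cancel_left₀ (pow_ne_zero 2 hc), one_div,
    one_div]

theorem wpd_homog (L L' : PeriodPair) {c : ℂ} (hc : c ≠ 0)
    (h : ∀ x : ℂ, x ∈ L'.lattice ↔ c * x ∈ L.lattice) (z : ℂ) :
    ℘'[L'] z = c ^ 3 * ℘'[L] (c * z) := by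
  simp only [derivWeierstrassP]
  rw [← (h4_scale L L' hc h).tsum_eq, mul_neg, ← tsum_mul_left]
  refine congrArg _ (tsum_congr fun x => ?_)
  change _ = c ^ 3 * (2 / (c * z - c * x) ^ 3)
  rw [← mul_sub c, mul_pow, div_eq_mul_inv 2 (_ * _), mul_inv, mul_left_comm 2,
    mul_inv_cancel_left₀ (pow_ne_zero 3 hc), div_eq_mul_inv]

/-- index two overlattice `L' = L ⊔ (L - T)`: split the sum defining `℘[L']`
(`hasSum_weierstrassP`; `L ⊕ L ≃ L'` through `l ↦ l`, `l ↦ l - T`, `HasSum.sum`/`HasSum.add_isCompl`);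
`℘[L] (z + T) - ℘[L] T = ∑ (1/(z - (l - T))² - 1/(l - T)²)` termwise. True for every `z`. -/
theorem wp_index_two (L L' : PeriodPair) {T : ℂ} (hT : T ∉ L.lattice)
    (h : ∀ x : ℂ, x ∈ L'.lattice ↔ x ∈ L.lattice ∨ x + T ∈ L.lattice) (z : ℂ) :
    ℘[L'] z = ℘[L] z + ℘[L] (z + T) - ℘[L] T := by
  set f : ℂ → ℂ := fun x => 1 / (z - x) ^ 2 - 1 / x ^ 2 with hf
  let e : {x : ℂ | x + T ∈ L.lattice} ≃ L.lattice :=
    ⟨fun x => ⟨x + T, x.2⟩, fun y => ⟨y - T, by simp⟩, fun x => Subtype.ext (by simp),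
      fun y => Subtype.ext (by simp)⟩
  have h1 : HasSum (f ∘ (↑) : ↥(L.lattice : Set ℂ) → ℂ) (℘[L] z) := L.hasSum_weierstrassP z
  have h2 : HasSum (f ∘ (↑) : {x : ℂ | x + T ∈ L.lattice} → ℂ) (℘[L] (z + T) - ℘[L] T) := by
    have := e.hasSum_iff.2 ((L.hasSum_weierstrassP (z + T)).sub (L.hasSum_weierstrassP T))
    refine (congrArg (HasSum · _) (funext fun x => ?_)).mpr this
    change 1 / (z - x) ^ 2 - 1 / (x : ℂ) ^ 2 = 1 / (z + T - (x + T)) ^ 2 - 1 / ((x : ℂ) + T) ^ 2 -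
      (1 / (T - (x + T)) ^ 2 - 1 / ((x : ℂ) + T) ^ 2)
    rw [show z + T - (x + T) = z - x by ring, show T - (x + T) = -(x : ℂ) by ring, neg_sq]
    ring
  have hd : Disjoint (L.lattice : Set ℂ) {x : ℂ | x + T ∈ L.lattice} :=
    Set.disjoint_left.2 fun x hx hx' => hT (by simpa using L.lattice.sub_mem hx' hx)
  have h3 := h1.add_disjoint hd h2
  have h4 : (L.lattice : Set ℂ) ∪ {x : ℂ | x + T ∈ L.lattice} = L'.lattice :=
    Set.ext fun x => (h x).symm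
  rw [h4] at h3
  rw [(L'.hasSum_weierstrassP z).unique h3, add_sub_assoc]

theorem wp_hasDerivAt (L : PeriodPair) {z : ℂ} (hz : z ∉ L.lattice) :
    HasDerivAt ℘[L] (℘'[L] z) z := by
  rw [← L.deriv_weierstrassP]
  exact (L.analyticOnNhd_weierstrassP z hz).differentiableAt.hasDerivAt

/-- `℘'' = 6 ℘² - g₂/2`: differentiate `derivWeierstrassP_sq` on the open preconnected set
`latticeᶜ` (`Set.Countable.isConnected_compl_of_one_lt_rank`, see the Mathlib file), cancel the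
analytic function `℘'` (`AnalyticOnNhd.eq_zero_or_eq_zero_of_mul_eq_zero`), which is not zero since
otherwise `℘` is constant off the lattice, contradicting `order_weierstrassP`. -/
theorem wpd_hasDerivAt (L : PeriodPair) {z : ℂ} (hz : z ∉ L.lattice) :
    HasDerivAt ℘'[L] (6 * ℘[L] z ^ 2 - L.g₂ / 2) z := by
  have hc : IsPreconnected ((L.lattice : Set ℂ)ᶜ) :=
    (Set.Countable.isConnected_compl_of_one_lt_rank (by simp)
      (countable_of_Lindelof_of_discrete (X := L.lattice))).2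
  have ho : IsOpen ((L.lattice : Set ℂ)ᶜ) := L.isClosed_lattice.isOpen_compl
  have hA := L.analyticOnNhd_derivWeierstrassP
  have hB : AnalyticOnNhd ℂ (fun w => deriv ℘'[L] w - (6 * ℘[L] w ^ 2 - L.g₂ / 2))
      (L.lattice : Set ℂ)ᶜ := fun w hw =>
    (hA w hw).deriv.sub ((analyticAt_const.mul ((L.analyticOnNhd_weierstrassP w hw).pow 2)).sub
      analyticAt_const)
  have hAB : ∀ w ∈ (L.lattice : Set ℂ)ᶜ,
      ℘'[L] w * (deriv ℘'[L] w - (6 * ℘[L] w ^ 2 - L.g₂ / 2)) = 0 := fun w hw => by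
    have d1 := ((hA w hw).differentiableAt.hasDerivAt).pow 2
    have p := wp_hasDerivAt L hw
    have d2 := (((p.pow 3).const_mul 4).sub (p.const_mul L.g₂)).sub_const L.g₃
    have e : (fun y => ℘'[L] y ^ 2) =ᶠ[𝓝 w] fun y => 4 * ℘[L] y ^ 3 - L.g₂ * ℘[L] y - L.g₃ := by
      filter_upwards [ho.mem_nhds hw] with y hy using L.derivWeierstrassP_sq y hy
    have := d1.unique (d2.congr_of_eventuallyEq e)
    simp only [Nat.cast_ofNat, Nat.add_one_sub_one, pow_one] at this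
    linear_combination this / 2
  rcases hA.eq_zero_or_eq_zero_of_mul_eq_zero hB hAB hc with h | h
  · exfalso
    have t1 : Tendsto (fun w : ℂ => w ^ 3 * ℘'[L - (0 : ℂ)] w) (𝓝[≠] 0) (𝓝 0) := by
      have : ContinuousAt (fun w : ℂ => w ^ 3 * ℘'[L - (0 : ℂ)] w) 0 :=
        (continuousAt_id.pow 3).mul (L.analyticAt_derivWeierstrassPExcept 0).continuousAt
      simpa using this.tendsto.mono_left nhdsWithin_le_nhds
    have t2 : (fun w : ℂ => w ^ 3 * ℘'[L - (0 : ℂ)] w) =ᶠ[𝓝[≠] 0] fun _ => 2 := by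
      filter_upwards [self_mem_nhdsWithin, mem_nhdsWithin_of_mem_nhds
        (L.compl_lattice_sdiff_singleton_mem_nhds 0)] with w hw hw'
      have hw0 : w ≠ 0 := hw
      have e := L.derivWeierstrassPExcept_def 0 w
      rw [h w fun hm => hw' ⟨hm, hw0⟩] at e
      simp only [ZeroMemClass.coe_zero, sub_zero, zero_add] at e
      rw [e]
      field_simp
    have := tendsto_nhds_unique t1 (tendsto_const_nhds.congr' t2.symm)
    norm_num at this
  · rw [← sub_eq_zero.1 (h z hz)]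
    exact (hA z hz).differentiableAt.hasDerivAt

/-- `℘'` is odd and periodic -/
theorem wpd_half (L : PeriodPair) {T : ℂ} (h2 : 2 * T ∈ L.lattice) : ℘'[L] T = 0 := by
  have h1 := L.derivWeierstrassP_sub_coe T ⟨_, h2⟩
  have e : T - 2 * T = -T := by ring
  rw [e, L.derivWeierstrassP_neg] at h1
  linear_combination -h1 / 2

/-- local form near a half period: `g(w) = ℘(w + T) - ℘(T)` is analytic at `0`, `g(0) = g'(0) = 0`,
`g''(0) = 6e² - g₂/2`, so `g(w) = w² k(w)` with `k` analytic, `k 0 = 3e² - g₂/4`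
(`AnalyticAt.exists_eventuallyEq_sum_add_pow_mul`-type lemma or `dslope` twice);
and `℘(w) = 1/w² + ℘[L - 0] w`. -/
theorem wp_half_local (L : PeriodPair) {T : ℂ} (hT : T ∉ L.lattice) (h2 : 2 * T ∈ L.lattice) :
    ∃ F : ℂ → ℂ, AnalyticAt ℂ F 0 ∧ F 0 = 3 * ℘[L] T ^ 2 - L.g₂ / 4 ∧
      ∀ᶠ w in 𝓝[≠] (0 : ℂ), F w = (℘[L] (w + T) - ℘[L] T) * (℘[L] w - ℘[L] T) := by
  have ha : AnalyticAt ℂ (fun w => ℘[L] (w + T)) 0 :=
    (L.analyticOnNhd_weierstrassP T hT).comp_of_eq (f := fun w : ℂ => w + T) (by fun_prop)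
      (zero_add T)
  obtain ⟨G, hG, hGe⟩ := ha.exists_eq_sum_add_pow_mul 3
  have hE := L.analyticAt_weierstrassPExcept 0
  refine ⟨fun w => (3 * ℘[L] T ^ 2 - L.g₂ / 4 + w * G w) *
    (1 + w ^ 2 * (L.weierstrassPExcept 0 w - ℘[L] T)), by fun_prop, by simp, ?_⟩
  filter_upwards [self_mem_nhdsWithin] with w hw
  have hw0 : w ≠ 0 := hw
  have e1 := hGe w
  simp only [Finset.sum_range_succ, Finset.range_zero, Finset.sum_empty,
    iteratedDeriv_comp_add_const, zero_add, iteratedDeriv_succ, iteratedDeriv_zero,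
    deriv_weierstrassP, wpd_half L h2, (wpd_hasDerivAt L hT).deriv, smul_eq_mul] at e1
  have e2 := L.weierstrassPExcept_add 0 w
  simp only [ZeroMemClass.coe_zero, sub_zero, ne_eq, OfNat.ofNat_ne_zero, not_false_eq_true,
    zero_pow, div_zero] at e2
  rw [e1, ← e2]
  simp only [Nat.factorial]
  push_cast
  field_simp
  ring

/-- HALF PERIOD LEMMA (Liouville, as `relation_eq_zero` in the Mathlib file): the function equal to
the product off `L ∪ (L - T)` and to the constant on it is entire (`wp_half_local`; it is invariant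
under `L` and under `z ↦ z + T`) and periodic, hence constant. -/
theorem wp_half (L : PeriodPair) {T : ℂ} (hT : T ∉ L.lattice) (h2 : 2 * T ∈ L.lattice) {z : ℂ}
    (hz : z ∉ L.lattice) (hz' : z + T ∉ L.lattice) :
    (℘[L] (z + T) - ℘[L] T) * (℘[L] z - ℘[L] T) = 3 * ℘[L] T ^ 2 - L.g₂ / 4 := by
  classical
  obtain ⟨H, hH⟩ : ∃ H : ℂ → ℂ, H = fun w => if w ∈ L.lattice ∨ w + T ∈ L.lattice then
    3 * ℘[L] T ^ 2 - L.g₂ / 4 else (℘[L] (w + T) - ℘[L] T) * (℘[L] w - ℘[L] T) := ⟨_, rfl⟩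
  have hp : ∀ w l, l ∈ L.lattice → ℘[L] (w + l) = ℘[L] w := fun w l hl =>
    L.weierstrassP_add_coe w ⟨l, hl⟩
  have hm : ∀ w l, l ∈ L.lattice → (w + l ∈ L.lattice ↔ w ∈ L.lattice) := fun w l hl =>
    L.lattice.add_mem_iff_left hl
  have h1 : ∀ w l, l ∈ L.lattice → H (w + l) = H w := fun w l hl => by
    simp only [hH, add_right_comm w l T, hp _ l hl, hm _ l hl]
  have h3 : ∀ w, H (w + T) = H w := fun w => by
    have e : w + T + T = w + 2 * T := by ring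
    simp only [hH, e, hp _ _ h2, hm _ _ h2]
    exact if_congr or_comm rfl (mul_comm _ _)
  have h4 : ∀ x, x ∈ L.lattice ∨ x + T ∈ L.lattice → ∀ w, H (w + x) = H w := by
    rintro x (hx | hx) w
    · exact h1 w x hx
    · rw [← h3, add_assoc, h1 w _ hx]
  have hop : ∀ x, x + T ∉ L.lattice → ∀ᶠ w in 𝓝 x, w + T ∉ L.lattice := fun x hx =>
    (continuous_id.add continuous_const).continuousAt.eventually_mem
      (L.isClosed_lattice.isOpen_compl.mem_nhds hx)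
  have h0 : H 0 = 3 * ℘[L] T ^ 2 - L.g₂ / 4 := by simp [hH]
  have d0 : DifferentiableAt ℂ H 0 := by
    obtain ⟨F, hF, hF0, hFe⟩ := wp_half_local L hT h2
    refine hF.differentiableAt.congr_of_eventuallyEq ?_
    filter_upwards [eventually_nhdsWithin_iff.1 hFe, L.compl_lattice_sdiff_singleton_mem_nhds 0,
      hop 0 (by rwa [zero_add])] with w hw ha hb
    by_cases h : w = 0
    · rw [h, h0, hF0]
    · rw [hw h, hH]
      exact if_neg fun h' => h'.elim (fun h'' => ha ⟨h'', h⟩) hb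
  have hd : Differentiable ℂ H := fun x => by
    by_cases hx : x ∈ L.lattice ∨ x + T ∈ L.lattice
    · have e : H = fun w => H (w - x) := funext fun w => by rw [← h4 x hx (w - x), sub_add_cancel]
      rw [e]
      exact DifferentiableAt.comp x (g := H) (by rwa [sub_self]) (by fun_prop)
    · rw [not_or] at hx
      have a1 := (L.analyticOnNhd_weierstrassP _ hx.1).differentiableAt
      have a2 : DifferentiableAt ℂ (fun w => ℘[L] (w + T)) x :=
        DifferentiableAt.comp x (g := ℘[L])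
          (L.analyticOnNhd_weierstrassP _ hx.2).differentiableAt (by fun_prop)
      refine ((a2.sub_const (℘[L] T)).mul (a1.sub_const (℘[L] T))).congr_of_eventuallyEq ?_
      filter_upwards [L.isClosed_lattice.isOpen_compl.mem_nhds hx.1, hop x hx.2] with w ha hb
      rw [hH]
      exact if_neg fun h' => h'.elim ha hb
  have h5 := hd.apply_eq_apply_of_bounded (IsZLattice.isCompact_range_of_periodic L.lattice _
    hd.continuous fun z w hw => h1 z w hw).isBounded z 0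
  rw [h0, hH] at h5
  exact (if_neg fun h' => h'.elim hz hz').symm.trans h5

/-- rescaling the two periods -/
def h4_resc (L : PeriodPair) (a b : ℝ) (ha : a ≠ 0) (hb : b ≠ 0) : PeriodPair where
  ω₁ := a * L.ω₁
  ω₂ := b * L.ω₂
  indep := LinearIndependent.pair_iff.2 fun s t hst => by
    have := LinearIndependent.pair_iff.1 L.indep (s * a) (t * b) (by
      simp only [Complex.real_smul, Complex.ofReal_mul] at hst ⊢
      linear_combination hst)
    exact ⟨(mul_eq_zero.1 this.1).resolve_right ha, (mul_eq_zero.1 this.2).resolve_right hb⟩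

theorem h4_mem_resc (L : PeriodPair) (a b : ℝ) (ha : a ≠ 0) (hb : b ≠ 0) (x : ℂ) :
    x ∈ (h4_resc L a b ha hb).lattice ↔ ∃ m n : ℤ, m * (a * L.ω₁) + n * (b * L.ω₂) = x :=
  mem_lattice

/-- `wp_index_two` twice (`L ⊂ ⟨ω₁/2, ω₂⟩ ⊂ ⟨ω₁/2, ω₂/2⟩`) and `wp_homog` with `c = 2`. -/
theorem wp_four (L : PeriodPair) (z : ℂ) :
    4 * ℘[L] (2 * z) = ℘[L] z + ℘[L] (z + L.ω₁ / 2) + ℘[L] (z + L.ω₂ / 2) +
      ℘[L] (z + (L.ω₁ + L.ω₂) / 2) -
        (℘[L] (L.ω₁ / 2) + ℘[L] (L.ω₂ / 2) + ℘[L] ((L.ω₁ + L.ω₂) / 2)) := by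
  have hh : (1 / 2 : ℝ) ≠ 0 := by norm_num
  have h1 := wp_index_two L (h4_resc L (1 / 2) 1 hh one_ne_zero) L.ω₁_div_two_notMem_lattice
    fun x => by
      simp only [h4_mem_resc, mem_lattice (L := L)]
      push_cast
      constructor
      · rintro ⟨m, n, rfl⟩
        obtain ⟨k, rfl | rfl⟩ := Int.even_or_odd' m
        · exact Or.inl ⟨k, n, by push_cast; ring⟩
        · exact Or.inr ⟨k + 1, n, by push_cast; ring⟩
      · rintro (⟨m, n, rfl⟩ | ⟨m, n, e⟩)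
        · exact ⟨2 * m, n, by push_cast; ring⟩
        · exact ⟨2 * m - 1, n, by push_cast; linear_combination e⟩
  have hT : L.ω₂ / 2 ∉ (h4_resc L (1 / 2) 1 hh one_ne_zero).lattice := by
    have := (h4_resc L (1 / 2) 1 hh one_ne_zero).ω₂_div_two_notMem_lattice
    simpa [h4_resc] using this
  have h2 := wp_index_two (h4_resc L (1 / 2) 1 hh one_ne_zero) (h4_resc L (1 / 2) (1 / 2) hh hh) hT
    (fun x => by
      simp only [h4_mem_resc]
      push_cast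
      constructor
      · rintro ⟨m, n, rfl⟩
        obtain ⟨k, rfl | rfl⟩ := Int.even_or_odd' n
        · exact Or.inl ⟨m, k, by push_cast; ring⟩
        · exact Or.inr ⟨m, k + 1, by push_cast; ring⟩
      · rintro (⟨m, n, rfl⟩ | ⟨m, n, e⟩)
        · exact ⟨m, 2 * n, by push_cast; ring⟩
        · exact ⟨m, 2 * n - 1, by push_cast; linear_combination e⟩) z
  have h3 := wp_homog L (h4_resc L (1 / 2) (1 / 2) hh hh) (c := 2) two_ne_zero (fun x => by
      simp only [h4_mem_resc, mem_lattice (L := L)]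
      push_cast
      constructor
      · rintro ⟨m, n, rfl⟩
        exact ⟨m, n, by ring⟩
      · rintro ⟨m, n, e⟩
        exact ⟨m, n, by linear_combination e / 2⟩) z
  rw [h1, h1, h1, h3, show z + L.ω₂ / 2 + L.ω₁ / 2 = z + (L.ω₁ + L.ω₂) / 2 by ring,
    show L.ω₂ / 2 + L.ω₁ / 2 = (L.ω₁ + L.ω₂) / 2 by ring] at h2
  linear_combination h2

/-- pure algebra: `b i = 3 e i² - g₂/4 ≠ 0` since the discriminant is not zero, so the `e i` are
distinct, their sum is zero, `g₂ = -4 ∑ e i e j`, `g₃ = 4 e₁ e₂ e₃`, and `x ≠ e i`. -/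
theorem dup_algebra {g₂ g₃ e₁ e₂ e₃ x x₁ x₂ x₃ y : ℂ} (hΔ : g₂ ^ 3 - 27 * g₃ ^ 2 ≠ 0)
    (r₁ : 4 * e₁ ^ 3 - g₂ * e₁ - g₃ = 0) (r₂ : 4 * e₂ ^ 3 - g₂ * e₂ - g₃ = 0)
    (r₃ : 4 * e₃ ^ 3 - g₂ * e₃ - g₃ = 0)
    (s₁ : (e₃ - e₁) * (e₂ - e₁) = 3 * e₁ ^ 2 - g₂ / 4)
    (s₂ : (e₃ - e₂) * (e₁ - e₂) = 3 * e₂ ^ 2 - g₂ / 4)
    (h₁ : (x₁ - e₁) * (x - e₁) = 3 * e₁ ^ 2 - g₂ / 4)
    (h₂ : (x₂ - e₂) * (x - e₂) = 3 * e₂ ^ 2 - g₂ / 4)
    (h₃ : (x₃ - e₃) * (x - e₃) = 3 * e₃ ^ 2 - g₂ / 4)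
    (hy : 4 * y = x + x₁ + x₂ + x₃ - (e₁ + e₂ + e₃)) :
    y * (4 * x ^ 3 - g₂ * x - g₃) = x ^ 4 + g₂ / 2 * x ^ 2 + 2 * g₃ * x + g₂ ^ 2 / 16 := by
  have hb : ∀ e : ℂ, 4 * e ^ 3 - g₂ * e - g₃ = 0 → 3 * e ^ 2 - g₂ / 4 ≠ 0 := by
    intro e r hb
    apply hΔ
    have e3 : g₃ = 4 * e ^ 3 - g₂ * e := by linear_combination -r
    have e2 : g₂ = 12 * e ^ 2 := by linear_combination (-4) * hb
    rw [e3, e2]
    ring
  have b₁ := hb e₁ r₁
  have b₂ := hb e₂ r₂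
  rw [← s₁] at b₁
  rw [← s₂] at b₂
  have n31 : e₃ - e₁ ≠ 0 := left_ne_zero_of_mul b₁
  have n21 : e₂ - e₁ ≠ 0 := right_ne_zero_of_mul b₁
  have n32 : e₃ - e₂ ≠ 0 := left_ne_zero_of_mul b₂
  have a2 : g₂ = 4 * (e₁ ^ 2 + e₁ * e₂ + e₂ ^ 2) :=
    mul_left_cancel₀ n21 (by linear_combination r₁ - r₂)
  have a3 : g₂ = 4 * (e₁ ^ 2 + e₁ * e₃ + e₃ ^ 2) :=
    mul_left_cancel₀ n31 (by linear_combination r₁ - r₃)
  have a4 : e₃ = -e₁ - e₂ :=
    mul_left_cancel₀ n32 (by linear_combination (1 / 4 : ℂ) * a2 - (1 / 4 : ℂ) * a3)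
  have a5 : g₃ = 4 * e₁ ^ 3 - g₂ * e₁ := by linear_combination -r₁
  subst a5
  subst a4
  subst a2
  linear_combination (x - e₁) * (x - e₂) * (x + e₁ + e₂) * hy + (x - e₂) * (x + e₁ + e₂) * h₁ +
    (x - e₁) * (x + e₁ + e₂) * h₂ + (x - e₁) * (x - e₂) * h₃

/-- DUPLICATION: `wp_four`, `wp_half` (for the three half periods, at `z` and at the half periods),
`wpd_half`, `derivWeierstrassP_sq`, `dup_algebra`; non-membership through
`mul_ω₁_add_mul_ω₂_mem_lattice`. -/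
theorem wp_dup (L : PeriodPair) (hΔ : L.g₂ ^ 3 - 27 * L.g₃ ^ 2 ≠ 0) {z : ℂ}
    (hz : 2 * z ∉ L.lattice) :
    ℘[L] (2 * z) * (4 * ℘[L] z ^ 3 - L.g₂ * ℘[L] z - L.g₃) =
      ℘[L] z ^ 4 + L.g₂ / 2 * ℘[L] z ^ 2 + 2 * L.g₃ * ℘[L] z + L.g₂ ^ 2 / 16 := by
  have m1 := L.ω₁_mem_lattice
  have m2 := L.ω₂_mem_lattice
  have t1 := L.ω₁_div_two_notMem_lattice
  have t2 := L.ω₂_div_two_notMem_lattice
  have t3 : (L.ω₁ + L.ω₂) / 2 ∉ L.lattice := by
    have := (L.mul_ω₁_add_mul_ω₂_mem_lattice (α := 1 / 2) (β := 1 / 2)).not.mpr (by norm_num)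
    have e : (L.ω₁ + L.ω₂) / 2 = ((1 / 2 : ℚ) : ℂ) * L.ω₁ + ((1 / 2 : ℚ) : ℂ) * L.ω₂ := by
      push_cast
      ring
    rwa [e]
  have d1 : 2 * (L.ω₁ / 2) ∈ L.lattice := by
    rwa [show 2 * (L.ω₁ / 2) = L.ω₁ by ring]
  have d2 : 2 * (L.ω₂ / 2) ∈ L.lattice := by
    rwa [show 2 * (L.ω₂ / 2) = L.ω₂ by ring]
  have d3 : 2 * ((L.ω₁ + L.ω₂) / 2) ∈ L.lattice := by
    rw [show 2 * ((L.ω₁ + L.ω₂) / 2) = L.ω₁ + L.ω₂ by ring]
    exact add_mem m1 m2
  have hz0 : z ∉ L.lattice := fun h => hz (by rw [two_mul]; exact add_mem h h)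
  have hzT : ∀ T : ℂ, 2 * T ∈ L.lattice → z + T ∉ L.lattice := fun T hT h => hz (by
    rw [show 2 * z = (z + T) + (z + T) - 2 * T by ring]
    exact sub_mem (add_mem h h) hT)
  have hr : ∀ T : ℂ, T ∉ L.lattice → 2 * T ∈ L.lattice →
      4 * ℘[L] T ^ 3 - L.g₂ * ℘[L] T - L.g₃ = 0 := fun T hT h2 => by
    rw [← L.derivWeierstrassP_sq T hT, wpd_half L h2]
    norm_num
  have e21 : L.ω₂ / 2 + L.ω₁ / 2 = (L.ω₁ + L.ω₂) / 2 := by ring
  have e12 : L.ω₁ / 2 + L.ω₂ / 2 = (L.ω₁ + L.ω₂) / 2 := by ring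
  have s1 := wp_half L t1 d1 t2 (by rwa [e21])
  have s2 := wp_half L t2 d2 t1 (by rwa [e12])
  rw [e21] at s1
  rw [e12] at s2
  exact dup_algebra hΔ (hr _ t1 d1) (hr _ t2 d2) (hr _ t3 d3) s1 s2
    (wp_half L t1 d1 hz0 (hzT _ d1)) (wp_half L t2 d2 hz0 (hzT _ d2))
    (wp_half L t3 d3 hz0 (hzT _ d3)) (wp_four L z)

end Crest.Agent.R007
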