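import Crest.Agent.R007.WInt
import Crest.Agent.R007.WP1

/-! # Row 7, block W: the `q`-expansion of `℘` and `℘'`. -/

set_option autoImplicit false

noncomputable section
namespace Crest.Agent.R007

open PowerSeries UpperHalfPlane PeriodPair
open scoped ModularForm MatrixGroups

/-- the lattice `ℤτ + ℤ` -/
def Lat (τ : ℍ) : PeriodPair :=
  ⟨τ, 1, LinearIndependent.pair_iff.2 fun s t h => by
    have h1 := congrArg Complex.im h
    have h2 := congrArg Complex.re h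
    simp only [Complex.real_smul, mul_one, Complex.add_im, Complex.im_ofReal_mul, Complex.ofReal_im,
      add_zero, Complex.zero_im, mul_eq_zero, coe_im, τ.im_pos.ne', or_false] at h1
    subst h1
    simpa using h2⟩

/-- `2πi` -/
def cc : ℂ := 2 * Real.pi * Complex.I
/-- `(2πi)⁻² ℘(z; τ)` -/
def wpn (τ : ℍ) (z : ℂ) : ℂ := ℘[Lat τ] z / cc ^ 2
/-- `(2πi)⁻³ ℘'(z; τ)` -/
def wpd (τ : ℍ) (z : ℂ) : ℂ := ℘'[Lat τ] z / cc ^ 3
/-- the torsion point `(aτ + b)/h` -/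
def zP (h : ℕ) (P : ZMod h × ZMod h) (τ : ℍ) : ℂ := ((P.1.val : ℂ) * τ + (P.2.val : ℂ)) / h
def X0 (w : ℂ) : ℂ := w / (1 - w) ^ 2
def X1 (w : ℂ) : ℂ := w * (1 + w) / (1 - w) ^ 3

theorem cc_ne_zero : cc ≠ 0 := by simp [cc]

theorem mem_Lat {τ : ℍ} {x : ℂ} : x ∈ (Lat τ).lattice ↔ ∃ m n : ℤ, m * (τ : ℂ) + n = x := by
  simp [PeriodPair.mem_lattice, Lat]

theorem X0_inv (w : ℂ) : X0 w⁻¹ = X0 w := by
  rcases eq_or_ne w 0 with rfl | h0
  · simp
  rcases eq_or_ne w 1 with rfl | h1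
  · simp
  have h2 : 1 - w ≠ 0 := sub_ne_zero.2 h1.symm
  have h3 : 1 - w⁻¹ = -(1 - w) / w := by field_simp; ring
  unfold X0
  rw [h3]
  field_simp
theorem X1_inv (w : ℂ) : X1 w⁻¹ = -X1 w := by
  rcases eq_or_ne w 0 with rfl | h0
  · simp [X1]
  rcases eq_or_ne w 1 with rfl | h1
  · simp [X1]
  have h2 : 1 - w ≠ 0 := sub_ne_zero.2 h1.symm
  have h3 : 1 - w⁻¹ = -(1 - w) / w := by field_simp; ring
  unfold X1
  rw [h3]
  field_simp
  ring
theorem hasSum_X0 {w : ℂ} (hw : ‖w‖ < 1) : HasSum (fun d : ℕ => (d : ℂ) * w ^ d) (X0 w) := by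
  exact hasSum_coe_mul_geometric_of_norm_lt_one hw
theorem hasSum_X1 {w : ℂ} (hw : ‖w‖ < 1) : HasSum (fun d : ℕ => (d : ℂ) ^ 2 * w ^ d) (X1 w) := by
  have h2 : 1 - w ≠ 0 := sub_ne_zero.2 fun h => by simp [← h] at hw
  have a2 := hasSum_choose_mul_geometric_of_norm_lt_one 2 hw
  have a1 := hasSum_coe_mul_geometric_of_norm_lt_one hw
  have a0 := hasSum_geometric_of_norm_lt_one hw
  have e1 : (fun d : ℕ => (d : ℂ) ^ 2 * w ^ d) = fun b : ℕ =>
      2 * (((b + 2).choose 2 : ℕ) * w ^ b) - 3 * (b * w ^ b) - 2 * w ^ b := by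
    funext n
    rw [Nat.cast_choose_two]
    push_cast
    ring
  have e2 : X1 w = 2 * (1 / (1 - w) ^ (2 + 1)) - 3 * (w / (1 - w) ^ 2) - 2 * (1 - w)⁻¹ := by
    unfold X1
    field_simp
    ring
  rw [e1, e2]
  exact ((a2.mul_left 2).sub (a1.mul_left 3)).sub (a0.mul_left 2)

theorem h62_row (k : ℕ) (hk : 1 ≤ k) (R : ℂ → ℂ) (hR : ∀ w, w ≠ 1 → ContinuousAt R w)
    (hup : ∀ z : ℂ, 0 < z.im → ∑' n : ℤ, 1 / (z + n) ^ (k + 1) = R (Complex.exp (cc * z)))
    (hinv : ∀ w, R w⁻¹ = (-1) ^ (k + 1) * R w) {z : ℂ} (hz : ∀ n : ℤ, z ≠ n) :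
    ∑' n : ℤ, 1 / (z + n) ^ (k + 1) = R (Complex.exp (cc * z)) := by
  rcases lt_trichotomy z.im 0 with h | h | h
  · have h1 := hup (-z) (by simpa using h)
    rw [mul_neg, Complex.exp_neg, hinv, ← tsum_comp_neg] at h1
    have h2 : ∀ n : ℤ, 1 / (-z + ((-n : ℤ) : ℂ)) ^ (k + 1) =
        (-1) ^ (k + 1) * (1 / (z + n) ^ (k + 1)) := fun n => by
      rw [Int.cast_neg, ← neg_add, neg_pow, one_div, mul_inv, ← inv_pow, inv_neg, inv_one, one_div]
    simp only [h2] at h1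
    rw [tsum_mul_left] at h1
    exact mul_left_cancel₀ (pow_ne_zero _ (by norm_num)) h1
  · have hre : ∀ n : ℤ, ‖z + n‖ = |z.re + n| := fun n => by
      rw [← Complex.re_add_im z, h]
      simp only [Complex.ofReal_zero, zero_mul, add_zero, Complex.ofReal_re]
      rw [← Complex.ofReal_intCast, ← Complex.ofReal_add, Complex.norm_real, Real.norm_eq_abs]
    have hne : ∀ n : ℤ, z + n ≠ 0 := fun n h0 => hz (-n) (by
      rw [Int.cast_neg]; exact eq_neg_of_add_eq_zero_left h0)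
    have hle : ∀ (n : ℤ) (t : ℝ), ‖z + n‖ ≤ ‖z + t * Complex.I + n‖ := fun n t => by
      rw [hre]
      simpa using Complex.abs_re_le_norm (z + t * Complex.I + n)
    have hne' : ∀ (n : ℤ) (t : ℝ), z + t * Complex.I + n ≠ 0 := fun n t =>
      norm_pos_iff.1 ((norm_pos_iff.2 (hne n)).trans_le (hle n t))
    have hs : Summable fun n : ℤ => ‖1 / (z + n) ^ (k + 1)‖ := by
      refine Summable.norm ?_
      have := EisensteinSeries.linear_right_summable z 1 (k := (k + 1 : ℕ)) (by omega)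
      simpa only [Int.cast_one, one_mul, zpow_natCast, one_div] using this
    have hc : Continuous fun t : ℝ => ∑' n : ℤ, 1 / (z + t * Complex.I + n) ^ (k + 1) := by
      refine continuous_tsum (fun n => ?_) hs fun n t => ?_
      · exact continuous_const.div (by fun_prop) fun t => pow_ne_zero _ (hne' n t)
      · rw [norm_div, norm_div, norm_pow, norm_pow]
        have := norm_pos_iff.2 (hne n)
        gcongr
        exact hle n t
    have h1 : Complex.exp (cc * z) ≠ 1 := fun h1 => by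
      obtain ⟨n, hn⟩ := Complex.exp_eq_one_iff.1 h1
      exact hz n (mul_left_cancel₀ cc_ne_zero (by rw [hn, cc, mul_comm]))
    have hc' : ContinuousAt (fun t : ℝ => R (Complex.exp (cc * (z + t * Complex.I)))) 0 := by
      refine ContinuousAt.comp (g := R) (by simpa using hR _ h1) (by fun_prop)
    have e : (fun t : ℝ => ∑' n : ℤ, 1 / (z + t * Complex.I + n) ^ (k + 1)) =ᶠ[nhdsWithin 0 (Set.Ioi 0)]
        fun t : ℝ => R (Complex.exp (cc * (z + t * Complex.I))) := by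
      filter_upwards [self_mem_nhdsWithin] with t ht
      exact hup _ (by simpa [h] using ht)
    have := tendsto_nhds_unique_of_eventuallyEq (hc.continuousAt.tendsto.mono_left nhdsWithin_le_nhds)
      (hc'.tendsto.mono_left nhdsWithin_le_nhds) e
    simpa using this
  · exact hup z h

/-- Lipschitz formula in closed form.  `0 < im z`: `EisensteinSeries.qExpansion_identity`,
`hasSum_X0`; `im z < 0`: `z ↦ -z`, `X0_inv`; real `z`: both sides are continuous at `z`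
(`continuousOn_tsum` / Tannery near `z`, limit from above), or differentiate `cot_series_rep'`. -/
theorem row_two {z : ℂ} (hz : ∀ n : ℤ, z ≠ n) :
    ∑' n : ℤ, 1 / (z + n) ^ 2 = cc ^ 2 * X0 (Complex.exp (cc * z)) := by
  refine h62_row 1 le_rfl (fun w => cc ^ 2 * X0 w) (fun w hw => ?_) (fun z hz => ?_)
    (fun w => by simp [X0_inv]) hz
  · have h2 : (1 - w) ^ 2 ≠ 0 := pow_ne_zero _ (sub_ne_zero.2 hw.symm)
    unfold X0
    fun_prop (disch := exact h2)
  · have h1 := EisensteinSeries.qExpansion_identity (k := 1) le_rfl ⟨z, hz⟩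
    have h2 := (hasSum_X0 (UpperHalfPlane.norm_exp_two_pi_I_lt_one ⟨z, hz⟩)).tsum_eq
    simp only [pow_one] at h1 h2
    rw [h1, h2]
    simp only [cc, Nat.factorial_one, Nat.cast_one]
    ring
theorem row_three {z : ℂ} (hz : ∀ n : ℤ, z ≠ n) :
    ∑' n : ℤ, 1 / (z + n) ^ 3 = -(cc ^ 3 / 2) * X1 (Complex.exp (cc * z)) := by
  refine h62_row 2 (by norm_num) (fun w => -(cc ^ 3 / 2) * X1 w) (fun w hw => ?_) (fun z hz => ?_)
    (fun w => by rw [X1_inv]; ring) hz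
  · have h2 : (1 - w) ^ 3 ≠ 0 := pow_ne_zero _ (sub_ne_zero.2 hw.symm)
    unfold X1
    fun_prop (disch := exact h2)
  · have h1 := EisensteinSeries.qExpansion_identity (k := 2) (by norm_num) ⟨z, hz⟩
    have h2 := (hasSum_X1 (UpperHalfPlane.norm_exp_two_pi_I_lt_one ⟨z, hz⟩)).tsum_eq
    simp only at h1 h2
    rw [h1, h2]
    simp only [cc, Nat.factorial_two, Nat.cast_ofNat]
    ring

theorem h57_row_summable (w : ℂ) : Summable fun n : ℤ => 1 / (w + n) ^ 2 := by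
  have := EisensteinSeries.linear_right_summable w 1 (k := 2) le_rfl
  simpa [zpow_ofNat] using this

/-- sum `hasSum_weierstrassP` over `ℤ × ℤ` (`latticeEquivProd`, `HasSum.prod_fiberwise`) row by row:
row `m` gives `cc² (X0 (u q^(-m)) - X0 (q^m))` for `m ≠ 0` (`row_two`; each of the two row series is
summable) and `cc² X0 u - 2 ζ(2) = cc² (X0 u + 1/12)` for `m = 0`
(`two_mul_riemannZeta_eq_tsum_int_inv_pow_of_even`, `riemannZeta_two`); then `HasSum.nat_add_neg`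
or `HasSum.nat_add_neg_add_one`, `hasSum_nat_add_iff'`, `X0_inv`. -/
theorem wpn_hasSum (τ : ℍ) {z : ℂ} (hz : z ∉ (Lat τ).lattice) :
    HasSum (fun m : ℕ => X0 (Complex.exp (cc * τ) ^ (m + 1) * Complex.exp (cc * z)) +
        X0 (Complex.exp (cc * τ) ^ (m + 1) / Complex.exp (cc * z)) -
        2 * X0 (Complex.exp (cc * τ) ^ (m + 1)))
      (wpn τ z - 1 / 12 - X0 (Complex.exp (cc * z))) := by
  have H : HasSum (fun x : ℤ × ℤ => 1 / (((x.1 : ℂ) * τ - z) + x.2) ^ 2 -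
      1 / ((x.1 : ℂ) * τ + x.2) ^ 2) (℘[Lat τ] z) := by
    have h1 := ((Lat τ).latticeEquivProd.symm.toEquiv.hasSum_iff).2
      ((Lat τ).hasSum_weierstrassP z)
    convert h1 using 2 with x
    have e : (((Lat τ).latticeEquivProd.symm.toEquiv x : (Lat τ).lattice) : ℂ) =
        (x.1 : ℂ) * τ + x.2 := by
      exact ((Lat τ).latticeEquiv_symm_apply x).trans (by simp [Lat])
    simp only [Function.comp_apply, e]
    congr 2
    ring
  obtain ⟨R, hR⟩ : ∃ R : ℤ → ℂ, ∀ m, R m = cc ^ 2 * X0 (Complex.exp (cc * (m * τ - z))) -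
    ∑' n : ℤ, 1 / ((m : ℂ) * τ + n) ^ 2 := ⟨_, fun _ => rfl⟩
  have H2 : HasSum R (℘[Lat τ] z) := by
    refine H.prod_fiberwise fun m => ?_
    have k1 := (h57_row_summable ((m : ℂ) * τ - z)).hasSum
    rw [row_two (z := m * τ - z) fun n hn => hz (mem_Lat.2 ⟨m, -n, by
      push_cast; linear_combination hn⟩)] at k1
    rw [hR]
    exact k1.sub (h57_row_summable ((m : ℂ) * τ)).hasSum
  have hne : ∀ m : ℤ, m ≠ 0 → ∀ n : ℤ, (m : ℂ) * τ ≠ n := by
    intro m hm n hn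
    have := congrArg Complex.im hn
    simp [hm, τ.im_pos.ne'] at this
  have R0 : R 0 = cc ^ 2 * (X0 (Complex.exp (cc * z)) + 1 / 12) := by
    have e1 : ∑' n : ℤ, 1 / (((0 : ℤ) : ℂ) * τ + n) ^ 2 = -(cc ^ 2 / 12) := by
      have := two_mul_riemannZeta_eq_tsum_int_inv_pow_of_even (k := 2) le_rfl (by decide)
      rw [Nat.cast_ofNat, riemannZeta_two] at this
      simp only [Int.cast_zero, zero_mul, zero_add, one_div]
      rw [← this, cc, mul_pow, Complex.I_sq]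
      ring
    rw [hR, e1, ← X0_inv (Complex.exp (cc * z)), ← Complex.exp_neg]
    have e2 : cc * (((0 : ℤ) : ℂ) * τ - z) = -(cc * z) := by
      push_cast
      ring
    rw [e2]
    ring
  have Rp : ∀ m : ℕ, R ((m + 1 : ℕ) : ℤ) + R (-((m + 1 : ℕ) : ℤ)) =
      cc ^ 2 * (X0 (Complex.exp (cc * τ) ^ (m + 1) * Complex.exp (cc * z)) +
        X0 (Complex.exp (cc * τ) ^ (m + 1) / Complex.exp (cc * z)) -
        2 * X0 (Complex.exp (cc * τ) ^ (m + 1))) := by
    intro m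
    have hm : ((m + 1 : ℕ) : ℤ) ≠ 0 := by omega
    rw [hR, hR, row_two (hne _ hm), row_two (hne _ (neg_ne_zero.2 hm)), ← Complex.exp_nat_mul,
      ← Complex.exp_add, ← Complex.exp_sub]
    have e1 : cc * ((((m + 1 : ℕ) : ℤ) : ℂ) * τ - z) = ((m + 1 : ℕ) : ℂ) * (cc * τ) - cc * z := by
      push_cast
      ring
    have e2 : cc * ((((m + 1 : ℕ) : ℤ) : ℂ) * τ) = ((m + 1 : ℕ) : ℂ) * (cc * τ) := by
      push_cast
      ring
    have e3 : cc * (((-((m + 1 : ℕ) : ℤ) : ℤ) : ℂ) * τ - z) =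
        -(((m + 1 : ℕ) : ℂ) * (cc * τ) + cc * z) := by
      push_cast
      ring
    have e4 : cc * (((-((m + 1 : ℕ) : ℤ) : ℤ) : ℂ) * τ) = -(((m + 1 : ℕ) : ℂ) * (cc * τ)) := by
      push_cast
      ring
    rw [e1, e2, e3, e4, Complex.exp_neg, Complex.exp_neg, X0_inv, X0_inv]
    ring
  have H3 := ((hasSum_nat_add_iff' 1).2 H2.nat_add_neg).div_const (cc ^ 2)
  have hc : cc ^ 2 ≠ 0 := pow_ne_zero 2 cc_ne_zero
  have e5 : (℘[Lat τ] z + R 0 - ∑ i ∈ Finset.range 1, (R (i : ℕ) + R (-(i : ℕ)))) / cc ^ 2 =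
      wpn τ z - 1 / 12 - X0 (Complex.exp (cc * z)) := by
    simp only [Finset.range_one, Finset.sum_singleton, Nat.cast_zero, neg_zero, R0, wpn]
    have := cc_ne_zero
    field_simp
    ring
  simp only [Rp, mul_div_cancel_left₀ _ hc, e5] at H3
  exact H3

/-- the same with `hasSum_derivWeierstrassP` and `row_three` -/
theorem wpd_hasSum (τ : ℍ) {z : ℂ} (hz : z ∉ (Lat τ).lattice) :
    HasSum (fun m : ℕ => X1 (Complex.exp (cc * τ) ^ (m + 1) * Complex.exp (cc * z)) -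
        X1 (Complex.exp (cc * τ) ^ (m + 1) / Complex.exp (cc * z)))
      (wpd τ z - X1 (Complex.exp (cc * z))) := by
  have h1 : HasSum (fun p : ℤ × ℤ => -2 * (1 / (z + p.1 * τ + p.2) ^ 3)) (℘'[Lat τ] z) := by
    refine (((Equiv.neg (ℤ × ℤ)).trans (Lat τ).latticeEquivProd.symm.toEquiv).hasSum_iff.2
      ((Lat τ).hasSum_derivWeierstrassP z)).congr_fun fun p => ?_
    simp only [Function.comp_apply, Equiv.trans_apply, Equiv.neg_apply, LinearEquiv.coe_toEquiv,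
      latticeEquiv_symm_apply]
    simp only [Lat, Prod.fst_neg, Prod.snd_neg, Int.cast_neg]
    ring
  have h2 : HasSum (fun m : ℤ => X1 (Complex.exp (cc * (z + m * τ))) * cc ^ 3) (℘'[Lat τ] z) := by
    refine h1.prod_fiberwise fun m => ?_
    have := (h1.summable.prod_factor m).hasSum
    simp only at this
    rw [tsum_mul_left, row_three fun n e => hz (mem_Lat.2 ⟨-m, n, by
      rw [← e]; push_cast; ring⟩)] at this
    rwa [show ∀ a b : ℂ, -2 * (-(a / 2) * b) = b * a from fun a b => by ring] at this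
  have h3 := (hasSum_nat_add_iff' 1).2 (h2.div_const (cc ^ 3)).nat_add_neg
  simp only [mul_div_cancel_right₀ _ (pow_ne_zero 3 cc_ne_zero)] at h3
  simp only [Finset.sum_range_one, Nat.cast_zero, neg_zero, Int.cast_zero, zero_mul, add_zero,
    add_sub_add_right_eq_sub] at h3
  refine h3.congr_fun fun m => ?_
  rw [sub_eq_add_neg, ← X1_inv, inv_div, ← Complex.exp_nat_mul, ← Complex.exp_add,
    ← Complex.exp_sub]
  congr 3 <;> push_cast <;> ring

/-- Lambert series: the family `c d m t^(d m)` on `ℕ+ × ℕ+` is summable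
(`summable_prod_mul_pow`, compare `tsum_prod_pow_eq_tsum_sigma`, `sigmaAntidiagonalEquivProd`). -/
theorem lambert {t : ℂ} (ht : ‖t‖ < 1) (r : ℕ) (c : ℕ → ℕ → ℂ) (hc : ∀ d m, ‖c d m‖ ≤ (d : ℝ) ^ r)
    (h0 : ∀ m, c 0 m = 0) : ∃ s : ℂ,
    HasSum (fun n : ℕ => (∑ p ∈ n.divisorsAntidiagonal, c p.1 p.2) * t ^ n) s ∧
      HasSum (fun m : ℕ => ∑' d : ℕ, c d (m + 1) * (t ^ (m + 1)) ^ d) s := by
  let F : ℕ × ℕ → ℂ := fun p => if p.1 = 0 then 0 else c p.2 p.1 * (t ^ p.1) ^ p.2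
  have hz : ∀ p : ℕ × ℕ, p.1 * p.2 = 0 → F p = 0 := fun p hp => by
    rcases mul_eq_zero.1 hp with h | h <;> simp [F, h, h0]
  have hF : Summable F := by
    refine (Function.Injective.summable_iff (g := fun p : ℕ+ × ℕ+ => ((p.1 : ℕ), (p.2 : ℕ)))
      (PNat.coe_injective.prodMap PNat.coe_injective) fun p hp => hz p ?_).1
      (Summable.of_norm_bounded (summable_prod_mul_pow r ht).norm fun p => ?_)
    · by_contra h
      obtain ⟨h1, h2⟩ := mul_ne_zero_iff.1 h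
      exact hp ⟨(⟨p.1, Nat.pos_of_ne_zero h1⟩, ⟨p.2, Nat.pos_of_ne_zero h2⟩), rfl⟩
    · simp only [Function.comp_apply, F, if_neg p.1.ne_zero, norm_mul, pow_mul, norm_pow,
        Complex.norm_natCast]
      exact mul_le_mul_of_nonneg_right (hc _ _) (by positivity)
  refine ⟨∑' p, F p, ?_, ?_⟩
  · refine (congrArg (HasSum · _) (funext fun n => ?_)).mpr
      (hF.hasSum.tsum_fiberwise fun p => p.1 * p.2)
    rw [tsum_subtype, tsum_eq_sum (s := n.divisorsAntidiagonal), Finset.sum_mul,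
      ← Nat.map_swap_divisorsAntidiagonal, Finset.sum_map, Nat.map_swap_divisorsAntidiagonal]
    · refine Finset.sum_congr rfl fun p hp => ?_
      obtain ⟨h1, h2⟩ := Nat.mem_divisorsAntidiagonal.1 hp
      rw [Set.indicator_of_mem (by exact h1)]
      subst h1
      simp [F, left_ne_zero_of_mul h2, pow_mul]
    · intro p hp
      refine Set.indicator_apply_eq_zero.2 fun h => hz p ?_
      by_contra h2
      have h : p.1 * p.2 = n := h
      exact hp (Nat.mem_divisorsAntidiagonal.2 ⟨h, h ▸ h2⟩)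
  · have := (hasSum_nat_add_iff' 1).2
      (hF.hasSum.prod_fiberwise fun m => (hF.prod_factor m).hasSum)
    simpa [F] using this

theorem h44_tsum0 {p : Prop} [Decidable p] (hp : ¬ p) (g u : ℕ → ℂ) :
    ∑' d, (if p then g d else 0) * u d = 0 := by simp [hp]

/-- the positive integers `≡ -a` are the `h (k+1) - a.val` (`Function.Injective.hasSum_iff`) -/
theorem lambert_neg {h : ℕ} [NeZero h] {t : ℂ} (ht : ‖t‖ < 1) (r : ℕ) (a : ZMod h) (g : ℕ → ℂ)
    (hg : ∀ d, ‖g d‖ ≤ (d : ℝ) ^ r) (h0 : g 0 = 0) : ∃ s : ℂ,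
    HasSum (fun n : ℕ => (∑ p ∈ n.divisorsAntidiagonal,
      if (p.2 : ZMod h) = -a then g p.1 else 0) * t ^ n) s ∧
      HasSum (fun k : ℕ => ∑' d : ℕ, g d * (t ^ (h * (k + 1) - a.val)) ^ d) s := by
  obtain ⟨s, h1, h2⟩ := lambert ht r (fun d m => if (m : ZMod h) = -a then g d else 0)
    (fun d m => by split_ifs; exacts [hg d, by simp]) (fun m => by simp [h0])
  have ha := ZMod.val_lt a
  have hk : ∀ k, h * (k + 1) - a.val - 1 + 1 = h * (k + 1) - a.val := fun k => by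
    rw [mul_add_one]; omega
  refine ⟨s, h1, ?_⟩
  convert (Function.Injective.hasSum_iff (g := fun k : ℕ => h * (k + 1) - a.val - 1)
    (fun k k' e => ?_) fun m hm => ?_).2 h2 using 2 with k
  · have : ((h * (k + 1) - a.val : ℕ) : ZMod h) = -a := by
      rw [Nat.cast_sub (by rw [mul_add_one]; omega)]; simp
    simp only [Function.comp_apply, hk, this, if_true]
  · simp only [mul_add_one] at e
    exact Nat.eq_of_mul_eq_mul_left (Nat.pos_of_ne_zero (NeZero.ne h)) (by omega)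
  · rw [h44_tsum0 (fun e => hm ?_)]
    have : ((m + 1 + a.val : ℕ) : ZMod h) = 0 := by
      rw [Nat.cast_add, e, ZMod.natCast_zmod_val, neg_add_cancel]
    obtain ⟨j, hj⟩ := (ZMod.natCast_eq_zero_iff _ _).1 this
    rcases j with _ | j
    · omega
    · exact ⟨j, by simp only; omega⟩

/-- the positive integers `≡ a` are the `h (k+1) + a.val` and, for `a ≠ 0`, `a.val` -/
theorem lambert_pos {h : ℕ} [NeZero h] {t : ℂ} (ht : ‖t‖ < 1) (r : ℕ) (a : ZMod h) (g : ℕ → ℂ)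
    (hg : ∀ d, ‖g d‖ ≤ (d : ℝ) ^ r) (h0 : g 0 = 0) : ∃ s : ℂ,
    HasSum (fun n : ℕ => (∑ p ∈ n.divisorsAntidiagonal,
      if (p.2 : ZMod h) = a then g p.1 else 0) * t ^ n) s ∧
      HasSum (fun k : ℕ => ∑' d : ℕ, g d * (t ^ (h * (k + 1) + a.val)) ^ d)
        (s - if a = 0 then 0 else ∑' d : ℕ, g d * (t ^ a.val) ^ d) := by
  by_cases ha0 : a = 0
  · subst ha0
    simpa using lambert_neg ht r (0 : ZMod h) g hg h0
  obtain ⟨s, h1, h2⟩ := lambert ht r (fun d m => if (m : ZMod h) = a then g d else 0)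
    (fun d m => by split_ifs; exacts [hg d, by simp]) (fun m => by simp [h0])
  have ha : 0 < a.val := (ZMod.val_pos).2 ha0
  have hk : ∀ k, h * k + a.val - 1 + 1 = h * k + a.val := fun k => by omega
  refine ⟨s, h1, ?_⟩
  have h3 : HasSum (fun k : ℕ => ∑' d : ℕ, g d * (t ^ (h * k + a.val)) ^ d) s := by
    convert (Function.Injective.hasSum_iff (g := fun k : ℕ => h * k + a.val - 1)
      (fun k k' e => ?_) fun m hm => ?_).2 h2 using 2 with k
    · have : ((h * k + a.val : ℕ) : ZMod h) = a := by simp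
      simp only [Function.comp_apply, hk, this, if_true]
    · simp only at e
      exact Nat.eq_of_mul_eq_mul_left (Nat.pos_of_ne_zero (NeZero.ne h)) (by omega)
    · rw [h44_tsum0 (fun e => hm ?_)]
      obtain ⟨j, hj⟩ := (ZMod.natCast_eq_iff _ _ _).1 e
      exact ⟨j, by simp only; omega⟩
  simpa [ha0] using (hasSum_nat_add_iff' 1).2 h3

theorem h75_eC_val (h : ℕ) [NeZero h] (x : ZMod h) : eC h x = zC h ^ x.val := by
  conv_lhs => rw [← ZMod.natCast_zmod_val x]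
  exact chr_nat (zC_prim h).pow_eq_one _
theorem norm_eC (h : ℕ) [NeZero h] (x : ZMod h) : ‖eC h x‖ = 1 := by
  rw [h75_eC_val, norm_pow, (zC_prim h).norm'_eq_one (NeZero.ne h), one_pow]
theorem eC_mul_nat (h : ℕ) [NeZero h] (b : ZMod h) (d : ℕ) : eC h (b * d) = eC h b ^ d := by
  rw [← AddChar.map_nsmul_eq_pow, nsmul_eq_mul, mul_comm]
theorem exp_cc_tau (h : ℕ) [NeZero h] (τ : ℍ) :
    Complex.exp (cc * τ) = Function.Periodic.qParam (h : ℝ) (τ : ℂ) ^ h := by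
  have hh : (h : ℂ) ≠ 0 := Nat.cast_ne_zero.2 (NeZero.ne h)
  rw [Function.Periodic.qParam, ← Complex.exp_nat_mul, cc]
  congr 1
  push_cast
  field_simp
theorem exp_cc_zP (h : ℕ) [NeZero h] (P : ZMod h × ZMod h) (τ : ℍ) :
    Complex.exp (cc * zP h P τ) = eC h P.2 * Function.Periodic.qParam (h : ℝ) (τ : ℂ) ^ P.1.val := by
  rw [h75_eC_val, zC, Function.Periodic.qParam, ← Complex.exp_nat_mul, ← Complex.exp_nat_mul,
    ← Complex.exp_add, cc, zP]
  congr 1
  push_cast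
  ring
/-- `(Aτ + B)/h` for any integers in the classes of `P` -/
theorem zP_congr (h : ℕ) [NeZero h] (P : ZMod h × ZMod h) (τ : ℍ) {A B : ℤ}
    (hA : (A : ZMod h) = P.1) (hB : (B : ZMod h) = P.2) :
    ((A : ℂ) * τ + B) / h - zP h P τ ∈ (Lat τ).lattice := by
  have hh : (h : ℂ) ≠ 0 := Nat.cast_ne_zero.2 (NeZero.ne h)
  have key : ∀ (C : ℤ) (x : ZMod h), (C : ZMod h) = x → ∃ m : ℤ, (C : ℂ) = x.val + h * m := by
    intro C x hx
    have h1 : ((x.val : ℤ) : ZMod h) = C := by rw [hx, Int.cast_natCast, ZMod.natCast_zmod_val]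
    obtain ⟨m, hm⟩ := (ZMod.intCast_eq_intCast_iff_dvd_sub _ _ _).1 h1
    refine ⟨m, ?_⟩
    have h2 : C = x.val + h * m := by rw [← hm]; ring
    exact_mod_cast congrArg (Int.cast : ℤ → ℂ) h2
  obtain ⟨m, hm⟩ := key A _ hA
  obtain ⟨n, hn⟩ := key B _ hB
  refine mem_Lat.2 ⟨m, n, ?_⟩
  rw [hm, hn, zP]
  field_simp
  ring
theorem zP_notMem (h : ℕ) [NeZero h] {P : ZMod h × ZMod h} (hP : P ≠ 0) (τ : ℍ) :
    zP h P τ ∉ (Lat τ).lattice := by
  have hh : (h : ℂ) ≠ 0 := Nat.cast_ne_zero.2 (NeZero.ne h)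
  intro hm
  obtain ⟨m, n, e⟩ := mem_Lat.1 hm
  rw [zP, eq_div_iff hh] at e
  have e1 : (((P.1.val : ℤ) - h * m : ℤ) : ℝ) • (Lat τ).ω₁ +
      (((P.2.val : ℤ) - h * n : ℤ) : ℝ) • (Lat τ).ω₂ = 0 := by
    simp only [Lat, Complex.real_smul]
    push_cast
    linear_combination -e
  obtain ⟨e2, e3⟩ := LinearIndependent.pair_iff.1 (Lat τ).indep _ _ e1
  have key : ∀ (x : ZMod h) (k : ℤ), (((x.val : ℤ) - h * k : ℤ) : ℝ) = 0 → x = 0 := by
    intro x k hk
    have h1 : (x.val : ℤ) = h * k := sub_eq_zero.1 (by exact_mod_cast hk)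
    have h2 := congrArg (Int.cast : ℤ → ZMod h) h1
    simpa using h2
  exact hP (Prod.ext (key _ _ e2) (key _ _ e3))
theorem zP_two (h : ℕ) [NeZero h] (P : ZMod h × ZMod h) (τ : ℍ) :
    2 * zP h P τ - zP h (2 • P) τ ∈ (Lat τ).lattice := by
  have := zP_congr h (2 • P) τ (A := 2 * P.1.val) (B := 2 * P.2.val) (by simp [two_mul])
    (by simp [two_mul])
  convert this using 2
  rw [zP]
  push_cast
  ring
theorem wpn_congr (τ : ℍ) {z w : ℂ} (h : z - w ∈ (Lat τ).lattice) : wpn τ z = wpn τ w := by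
  have := (Lat τ).weierstrassP_add_coe w ⟨_, h⟩
  rw [wpn, wpn, ← this, add_sub_cancel]
theorem wpd_congr (τ : ℍ) {z w : ℂ} (h : z - w ∈ (Lat τ).lattice) : wpd τ z = wpd τ w := by
  have := (Lat τ).derivWeierstrassP_add_coe w ⟨_, h⟩
  rw [wpd, wpd, ← this, add_sub_cancel]

theorem h92_tsum_X0 {ζ w : ℂ} (hζ : ‖ζ‖ = 1) (hw : ‖w‖ < 1) :
    ∑' d : ℕ, (d : ℂ) * ζ ^ d * w ^ d = X0 (ζ * w) := by
  rw [← (hasSum_X0 (w := ζ * w) (by rwa [norm_mul, hζ, one_mul])).tsum_eq]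
  simp only [mul_pow, mul_assoc]

/-- `wpn_hasSum` at `z = zP h P τ`, `t = qParam h τ`; `lambert_pos` with `g d = d e(b d)`,
`lambert_neg` with `g d = d e(-(b d))` and with `a = 0`, `g d = d`; `hasSum_X0`; the constant term
by `hasSum_ite_eq`/`hasSum_single`. -/
theorem hasQ_wpn (h : ℕ) [NeZero h] {P : ZMod h × ZMod h} (hP : P ≠ 0) :
    HasQ h (fun τ => wpn τ (zP h P τ)) (PowerSeries.C (1 / 12) + Xser (eC h) P) := by
  intro τ
  have W := wpn_hasSum τ (zP_notMem h hP τ)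
  rw [exp_cc_tau h, exp_cc_zP] at W
  have ht : ‖Function.Periodic.qParam (h : ℝ) (τ : ℂ)‖ < 1 := UpperHalfPlane.norm_qParam_lt_one h τ
  have ht0 : Function.Periodic.qParam (h : ℝ) (τ : ℂ) ≠ 0 := Function.Periodic.qParam_ne_zero _
  generalize Function.Periodic.qParam (h : ℝ) (τ : ℂ) = t at W ht ht0 ⊢
  obtain ⟨a, b⟩ := P
  have hh := Nat.pos_of_ne_zero (NeZero.ne h)
  have hav := ZMod.val_lt a
  have hp : ∀ n, n ≠ 0 → ‖t ^ n‖ < 1 := fun n hn => by
    rw [norm_pow]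
    exact pow_lt_one₀ (norm_nonneg _) ht hn
  have hg : ∀ x : ZMod h, ∀ d : ℕ, ‖(d : ℂ) * eC h x ^ d‖ ≤ (d : ℝ) ^ 1 := fun x d => by
    rw [norm_mul, norm_pow, norm_eC, one_pow, mul_one, pow_one, Complex.norm_natCast]
  obtain ⟨s₁, a₁, b₁⟩ := lambert_pos ht 1 a (fun d => d * eC h b ^ d) (hg b) (by simp)
  obtain ⟨s₂, a₂, b₂⟩ := lambert_neg ht 1 a (fun d => d * eC h (-b) ^ d) (hg (-b)) (by simp)
  obtain ⟨s₃, a₃, b₃⟩ := lambert_neg ht 1 (0 : ZMod h) (fun d => d * 1 ^ d) (by simp) (by simp)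
  have hinv : eC h (-b) = (eC h b)⁻¹ := AddChar.map_neg_eq_inv _ _
  have e := W.unique (((b₁.add b₂).sub (b₃.mul_left 2)).congr fun S => Finset.sum_congr rfl fun m _ => by
    have h1 : h ≤ h * (m + 1) := Nat.le_mul_of_pos_right _ (Nat.succ_pos m)
    dsimp only
    rw [h92_tsum_X0 (norm_eC h b) (hp _ (by omega)), h92_tsum_X0 (norm_eC h (-b)) (hp _ (by omega)),
      h92_tsum_X0 norm_one (hp _ (by rw [ZMod.val_zero]; omega)), ZMod.val_zero, Nat.sub_zero,
      one_mul, pow_sub₀ _ ht0 (by omega), hinv, pow_add, pow_mul]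
    congr 2
    · rw [mul_left_comm]
    · congr 1
      ring)
  have H := (((hasSum_ite_eq 0 (1 / 12 + if a = 0 then X0 (eC h b) else 0)).add a₁).add a₂).sub
    (a₃.mul_left 2)
  have hv : wpn τ (zP h (a, b) τ) =
      (1 / 12 + if a = 0 then X0 (eC h b) else 0) + s₁ + s₂ - 2 * s₃ := by
    dsimp only at e
    by_cases ha : a = 0
    · subst ha
      simp only [if_true, ZMod.val_zero, pow_zero, mul_one] at e ⊢
      linear_combination e
    · rw [if_neg ha, h92_tsum_X0 (norm_eC h b) (hp _ (ZMod.val_ne_zero a |>.2 ha))] at e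
      rw [if_neg ha]
      linear_combination e
  rw [← hv] at H
  refine H.congr fun S => Finset.sum_congr rfl fun n _ => ?_
  dsimp only
  rw [map_add, coeff_C]
  simp only [Xser, coeff_mk]
  by_cases hn : n = 0
  · subst hn
    simp [X0, div_eq_mul_inv]
  · simp only [if_neg hn, zero_add, neg_zero, ← mul_assoc, ← add_mul, ← sub_mul, Finset.mul_sum,
      ← Finset.sum_add_distrib, ← Finset.sum_sub_distrib]
    congr 1
    refine Finset.sum_congr rfl fun p _ => ?_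
    rw [← neg_mul, eC_mul_nat, eC_mul_nat]
    split_ifs <;> ring

/-- coefficients of `DXser = 2 Y + X`: `2 C(d,2) + d = d²`, `-2 C(d+1,2) + d = -d²` -/
theorem coeff_DXser (h : ℕ) [NeZero h] {P : ZMod h × ZMod h} (hP : P ≠ 0) (n : ℕ) :
    coeff n (DXser (eC h) P) =
      if n = 0 then (if P.1 = 0 then X1 (eC h P.2) else 0) else
        ∑ p ∈ n.divisorsAntidiagonal,
          ((if (p.2 : ZMod h) = P.1 then (p.1 : ℂ) ^ 2 * eC h (P.2 * p.1) else 0) -
            (if (p.2 : ZMod h) = -P.1 then (p.1 : ℂ) ^ 2 * eC h (-(P.2 * p.1)) else 0)) := by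
  have _ := hP
  rw [DXser, map_add, show (2 : ℂ⟦X⟧) = PowerSeries.C (2 : ℂ) from (map_ofNat _ 2).symm,
    coeff_C_mul, Xser, Yser, coeff_mk, coeff_mk]
  split_ifs with h0 h1
  · rw [X1, Ring.inverse_eq_inv]
    by_cases hu : 1 - eC h P.2 = 0
    · simp [hu]
    · field_simp
      ring
  · simp
  · rw [Finset.mul_sum, ← Finset.sum_add_distrib]
    refine Finset.sum_congr rfl fun p _ => ?_
    rw [Nat.cast_choose_two, Nat.cast_choose_two]
    push_cast
    split_ifs <;> ring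

theorem h26_X1 {u w : ℂ} (hu : ‖u‖ = 1) (hw : ‖w‖ < 1) :
    ∑' d : ℕ, (d : ℂ) ^ 2 * u ^ d * w ^ d = X1 (u * w) := by
  rw [← (hasSum_X1 (w := u * w) (by rwa [norm_mul, hu, one_mul])).tsum_eq]
  exact tsum_congr fun d => by rw [mul_pow, mul_assoc]

theorem hasQ_wpd (h : ℕ) [NeZero h] {P : ZMod h × ZMod h} (hP : P ≠ 0) :
    HasQ h (fun τ => wpd τ (zP h P τ)) (DXser (eC h) P) := by
  intro τ
  have hw := wpd_hasSum τ (zP_notMem h hP τ)
  rw [exp_cc_tau h, exp_cc_zP h] at hw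
  have ht := UpperHalfPlane.norm_qParam_lt_one h τ
  have ht0 : Function.Periodic.qParam (h : ℝ) (τ : ℂ) ≠ 0 := Function.Periodic.qParam_ne_zero _
  generalize Function.Periodic.qParam (h : ℝ) (τ : ℂ) = t at hw ht ht0 ⊢
  have hu := norm_eC h P.2
  have hu0 : eC h P.2 ≠ 0 := fun e => by simp [e] at hu
  have hu' : ‖(eC h P.2)⁻¹‖ = 1 := by rw [norm_inv, hu, inv_one]
  have hneg : ∀ d : ℕ, eC h (-(P.2 * d)) = (eC h P.2)⁻¹ ^ d := fun d => by
    rw [AddChar.map_neg_eq_inv, eC_mul_nat, inv_pow]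
  have ha : P.1.val < h := ZMod.val_lt _
  have hpow : ∀ m : ℕ, m ≠ 0 → ‖t ^ m‖ < 1 := fun m hm => by
    rw [norm_pow]; exact pow_lt_one₀ (norm_nonneg _) ht hm
  obtain ⟨s₁, a₁, b₁⟩ := lambert_pos ht 2 P.1 (fun d => (d : ℂ) ^ 2 * eC h (P.2 * d))
    (fun d => by simp [norm_eC]) (by simp)
  obtain ⟨s₂, a₂, b₂⟩ := lambert_neg ht 2 P.1 (fun d => (d : ℂ) ^ 2 * eC h (-(P.2 * d)))
    (fun d => by simp [norm_eC]) (by simp)
  simp only [eC_mul_nat] at b₁
  simp only [hneg] at b₂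
  have hk : ∀ k : ℕ, P.1.val < h * (k + 1) := fun k => ha.trans_le (Nat.le_mul_of_pos_right _ k.succ_pos)
  have e : s₁ - (if P.1 = 0 then 0 else
      ∑' d : ℕ, (d : ℂ) ^ 2 * eC h P.2 ^ d * (t ^ P.1.val) ^ d) - s₂ =
      wpd τ (zP h P τ) - X1 (eC h P.2 * t ^ P.1.val) := by
    refine (b₁.sub b₂).unique (hw.congr_fun fun k => ?_)
    rw [h26_X1 hu (hpow _ (by have := hk k; omega)), h26_X1 hu' (hpow _ (by have := hk k; omega)),
      pow_sub₀ t ht0 (hk k).le, pow_add t, pow_mul]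
    congr 2
    · ring
    · field_simp
  have e' : wpd τ (zP h P τ) = (if P.1 = 0 then X1 (eC h P.2) else 0) + (s₁ - s₂) := by
    split_ifs at e ⊢ with h0
    · rw [h0, ZMod.val_zero, pow_zero, mul_one] at e
      linear_combination -e
    · rw [h26_X1 hu (hpow _ (by rwa [Ne, ZMod.val_eq_zero]))] at e
      linear_combination -e
  show HasSum _ (wpd τ (zP h P τ))
  rw [e']
  refine ((hasSum_ite_eq 0 _).add (a₁.sub a₂)).congr_fun fun n => ?_
  rw [coeff_DXser h hP]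
  by_cases hn : n = 0
  · subst hn
    simp
  · rw [if_neg hn, if_neg hn, zero_add, Finset.sum_sub_distrib, sub_mul]

theorem h29_bound {h : ℕ} [NeZero h] {F : ℂ⟦X⟧} {K : ℝ} (r : ℕ) (hK : 0 ≤ K) (g : ℕ × ℕ → ℂ)
    (hF : ∀ n ≠ 0, coeff n F = ∑ p ∈ n.divisorsAntidiagonal, g p)
    (hg : ∀ p, ‖g p‖ ≤ K * ((p.1 : ℝ) + 1) ^ r) : HasQ h (qfun h F) F := by
  refine hasQ_qfun (K + ‖coeff 0 F‖) (r + 1) fun n => ?_
  have h1 : (1 : ℝ) ≤ ((n : ℝ) + 1) ^ (r + 1) := one_le_pow₀ (by simp)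
  have h0 := norm_nonneg (coeff 0 F)
  rcases eq_or_ne n 0 with rfl | hn
  · nlinarith
  rw [hF n hn]
  have hc : (n.divisorsAntidiagonal.card : ℝ) ≤ (n : ℝ) + 1 := by
    rw [← Nat.map_div_right_divisors, Finset.card_map]
    exact_mod_cast (Nat.card_divisors_le_self n).trans (Nat.le_succ n)
  have h2 : ∀ p ∈ n.divisorsAntidiagonal, ‖g p‖ ≤ K * ((n : ℝ) + 1) ^ r := fun p hp => by
    have : p.1 ≤ n := Nat.divisor_le (Nat.fst_mem_divisors_of_mem_antidiagonal hp)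
    have : (p.1 : ℝ) ≤ n := by exact_mod_cast this
    exact (hg p).trans (by gcongr)
  calc _ ≤ ∑ p ∈ n.divisorsAntidiagonal, ‖g p‖ := norm_sum_le _ _
    _ ≤ n.divisorsAntidiagonal.card • (K * ((n : ℝ) + 1) ^ r) := Finset.sum_le_card_nsmul _ _ _ h2
    _ ≤ ((n : ℝ) + 1) * (K * ((n : ℝ) + 1) ^ r) := by
      rw [nsmul_eq_mul]; gcongr
    _ = K * ((n : ℝ) + 1) ^ (r + 1) := by ring
    _ ≤ _ := by gcongr; linarith

theorem h29_ite (h : ℕ) [NeZero h] (c : Prop) [Decidable c] (x : ZMod h) :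
    ‖(if c then eC h x else 0 : ℂ)‖ ≤ 1 := by
  split_ifs
  · exact (norm_eC h x).le
  · simp

theorem h29_X (h : ℕ) [NeZero h] (P : ZMod h × ZMod h) :
    HasQ h (qfun h (Xser (eC h) P)) (Xser (eC h) P) := by
  refine h29_bound (K := 4) 1 (by norm_num) _ (fun n hn => by
    simp only [Xser, coeff_mk, if_neg hn]; rfl) fun p => ?_
  have h1 := h29_ite h ((p.2 : ZMod h) = P.1) (P.2 * p.1)
  have h2 := h29_ite h ((p.2 : ZMod h) = -P.1) (-(P.2 * p.1))
  have h3 : ‖(if (p.2 : ZMod h) = 0 then 2 else 0 : ℂ)‖ ≤ 2 := by split_ifs <;> simp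
  rw [norm_mul, Complex.norm_natCast, pow_one, mul_comm]
  refine mul_le_mul ((norm_sub_le _ _).trans ?_) (by linarith) (Nat.cast_nonneg _) (by norm_num)
  linarith [norm_add_le (if (p.2 : ZMod h) = P.1 then eC h (P.2 * p.1) else 0 : ℂ)
    (if (p.2 : ZMod h) = -P.1 then eC h (-(P.2 * p.1)) else 0)]

theorem h29_Y (h : ℕ) [NeZero h] (P : ZMod h × ZMod h) :
    HasQ h (qfun h (Yser (eC h) P)) (Yser (eC h) P) := by
  refine h29_bound (K := 3) 2 (by norm_num) _ (fun n hn => by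
    simp only [Yser, coeff_mk, if_neg hn]; rfl) fun p => ?_
  have hp : (0 : ℝ) ≤ p.1 := Nat.cast_nonneg _
  have c1 : ((p.1.choose 2 : ℕ) : ℝ) ≤ ((p.1 : ℝ) + 1) ^ 2 := by
    have : p.1.choose 2 ≤ (p.1 + 1) ^ 2 :=
      (Nat.choose_le_pow _ _).trans (Nat.pow_le_pow_left (Nat.le_succ _) 2)
    exact_mod_cast this
  have c2 : (((p.1 + 1).choose 2 : ℕ) : ℝ) ≤ ((p.1 : ℝ) + 1) ^ 2 := by
    exact_mod_cast Nat.choose_le_pow (p.1 + 1) 2
  have h1 : ‖(if (p.2 : ZMod h) = P.1 then (p.1.choose 2 : ℂ) * eC h (P.2 * p.1) else 0 : ℂ)‖ ≤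
      ((p.1 : ℝ) + 1) ^ 2 := by
    split_ifs
    · rw [norm_mul, norm_eC, mul_one, Complex.norm_natCast]; exact c1
    · rw [norm_zero]; positivity
  have h2 : ‖(if (p.2 : ZMod h) = -P.1 then ((p.1 + 1).choose 2 : ℂ) * eC h (-(P.2 * p.1))
      else 0 : ℂ)‖ ≤ ((p.1 : ℝ) + 1) ^ 2 := by
    split_ifs
    · rw [norm_mul, norm_eC, mul_one, Complex.norm_natCast]; exact c2
    · rw [norm_zero]; positivity
  have h3 : ‖(if (p.2 : ZMod h) = 0 then (p.1 : ℂ) else 0 : ℂ)‖ ≤ ((p.1 : ℝ) + 1) ^ 2 := by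
    split_ifs
    · rw [Complex.norm_natCast]; nlinarith
    · rw [norm_zero]; positivity
  refine (norm_add_le _ _).trans ((add_le_add (norm_sub_le _ _) le_rfl).trans ?_)
  linarith

/-- `hasQ_qfun` (polynomial bound of the coefficients, `norm_eC`); also for `P = 0` -/
theorem wp_hasQ_xf (h : ℕ) [NeZero h] (P : ZMod h × ZMod h) :
    HasQ h (xf h P) (PowerSeries.C (1 / 12) + Xser (eC h) P) := by
  have a := (HasQ.const h (1 / 12)).add (h29_X h P)
  rw [xf, a.qfun_eq]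
  exact a
theorem wp_hasQ_dxf (h : ℕ) [NeZero h] (P : ZMod h × ZMod h) :
    HasQ h (dxf h P) (DXser (eC h) P) := by
  have a := ((h29_Y h P).add (h29_Y h P)).add (h29_X h P)
  rw [← two_mul (Yser (eC h) P)] at a
  rw [dxf, DXser, a.qfun_eq]
  exact a

theorem xf_eq (h : ℕ) [NeZero h] {P : ZMod h × ZMod h} (hP : P ≠ 0) (τ : ℍ) :
    xf h P τ = wpn τ (zP h P τ) := congrFun (hasQ_wpn h hP).qfun_eq τ
theorem dxf_eq (h : ℕ) [NeZero h] {P : ZMod h × ZMod h} (hP : P ≠ 0) (τ : ℍ) :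
    dxf h P τ = wpd τ (zP h P τ) := congrFun (hasQ_wpd h hP).qfun_eq τ

end Crest.Agent.R007
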