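import Crest.Agent.R007.WP2

/-! # Row 7, block W: modularity of `xf`, `dxf`; differential equation, duplication, 2-isogeny. -/

set_option autoImplicit false

noncomputable section
namespace Crest.Agent.R007

open PowerSeries UpperHalfPlane PeriodPair
open scoped ModularForm MatrixGroups

theorem h79_denom (γ : SL(2, ℤ)) (τ : ℍ) : denom γ τ = (γ 1 0 : ℤ) * (τ : ℂ) + (γ 1 1 : ℤ) := by
  rw [ModularGroup.denom_apply]

theorem h79_denom_mul (γ : SL(2, ℤ)) (τ : ℍ) :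
    denom γ τ * ((γ • τ : ℍ) : ℂ) = (γ 0 0 : ℤ) * (τ : ℂ) + (γ 0 1 : ℤ) := by
  have h0 := denom_ne_zero γ τ
  rw [h79_denom] at h0 ⊢
  rw [coe_specialLinearGroup_apply]
  simp only [eq_intCast, Complex.ofReal_intCast]
  field_simp

/-- `(cτ + d) (ℤ γτ + ℤ) = ℤ τ + ℤ` (`UpperHalfPlane.specialLinearGroup_apply`,
`ModularGroup.denom_apply`, determinant one) -/
theorem Lat_smul (γ : SL(2, ℤ)) (τ : ℍ) (x : ℂ) :
    x ∈ (Lat (γ • τ)).lattice ↔ denom γ τ * x ∈ (Lat τ).lattice := by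
  have h0 := denom_ne_zero γ τ
  have h1 := h79_denom γ τ
  have h2 := h79_denom_mul γ τ
  have hdet : ((γ 0 0 : ℤ) : ℂ) * (γ 1 1 : ℤ) - (γ 0 1 : ℤ) * (γ 1 0 : ℤ) = 1 := by
    have := γ.det_coe
    rw [Matrix.det_fin_two] at this
    exact_mod_cast this
  rw [mem_Lat, mem_Lat]
  constructor
  · rintro ⟨m, n, rfl⟩
    refine ⟨m * γ 0 0 + n * γ 1 0, m * γ 0 1 + n * γ 1 1, ?_⟩
    push_cast
    linear_combination -(m : ℂ) * h2 - (n : ℂ) * h1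
  · rintro ⟨m, n, e⟩
    refine ⟨m * γ 1 1 - n * γ 1 0, n * γ 0 0 - m * γ 0 1, mul_left_cancel₀ h0 ?_⟩
    push_cast
    linear_combination e + ((m : ℂ) * (γ 1 1 : ℤ) - n * (γ 1 0 : ℤ)) * h2 +
      ((n : ℂ) * (γ 0 0 : ℤ) - m * (γ 0 1 : ℤ)) * h1 + ((m : ℂ) * τ + n) * hdet

theorem wpn_smul (γ : SL(2, ℤ)) (τ : ℍ) (z : ℂ) :
    wpn (γ • τ) z = denom γ τ ^ 2 * wpn τ (denom γ τ * z) := by
  rw [wpn, wpn, wp_homog (Lat τ) (Lat (γ • τ)) (denom_ne_zero γ τ) (Lat_smul γ τ), mul_div_assoc]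
theorem wpd_smul (γ : SL(2, ℤ)) (τ : ℍ) (z : ℂ) :
    wpd (γ • τ) z = denom γ τ ^ 3 * wpd τ (denom γ τ * z) := by
  rw [wpd, wpd, wpd_homog (Lat τ) (Lat (γ • τ)) (denom_ne_zero γ τ) (Lat_smul γ τ), mul_div_assoc]
/-- `zP_congr` with `A = a γ₀₀ + b γ₁₀`, `B = a γ₀₁ + b γ₁₁` -/
theorem zP_smul (h : ℕ) [NeZero h] (P : ZMod h × ZMod h) (γ : SL(2, ℤ)) (τ : ℍ) :
    denom γ τ * zP h P (γ • τ) - zP h (actP P γ) τ ∈ (Lat τ).lattice := by
  have h1 := h79_denom γ τ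
  have h2 := h79_denom_mul γ τ
  have := zP_congr h (actP P γ) τ (A := P.1.val * γ 0 0 + P.2.val * γ 1 0)
    (B := P.1.val * γ 0 1 + P.2.val * γ 1 1) (by simp [actP]) (by simp [actP])
  convert this using 2
  rw [zP]
  push_cast
  linear_combination (P.1.val : ℂ) / h * h2 + (P.2.val : ℂ) / h * h1

/-- `ModularForm.SL_slash_apply`, `xf_eq`, `wi_actP_ne_zero` -/
theorem wp_xf_slash (h : ℕ) [NeZero h] {P : ZMod h × ZMod h} (hP : P ≠ 0) (γ : SL(2, ℤ)) :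
    (xf h P) ∣[(2 : ℤ)] γ = xf h (actP P γ) := by
  funext τ
  have hd : denom γ τ ≠ 0 := denom_ne_zero _ _
  rw [ModularForm.SL_slash_apply, xf_eq h hP, xf_eq h (wi_actP_ne_zero hP γ), wpn_smul,
    wpn_congr τ (zP_smul h P γ τ), zpow_neg, zpow_ofNat]
  field_simp
theorem wp_dxf_slash (h : ℕ) [NeZero h] {P : ZMod h × ZMod h} (hP : P ≠ 0) (γ : SL(2, ℤ)) :
    (dxf h P) ∣[(3 : ℤ)] γ = dxf h (actP P γ) := by
  funext τ
  have hd : denom γ τ ≠ 0 := denom_ne_zero _ _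
  rw [ModularForm.SL_slash_apply, dxf_eq h hP, dxf_eq h (wi_actP_ne_zero hP γ), wpd_smul,
    wpd_congr τ (zP_smul h P γ τ), zpow_neg, zpow_ofNat]
  field_simp
theorem actP_of_mem {h : ℕ} (P : ZMod h × ZMod h) {γ : SL(2, ℤ)}
    (hγ : γ ∈ CongruenceSubgroup.Gamma h) : actP P γ = P := by
  obtain ⟨h1, h2, h3, h4⟩ := CongruenceSubgroup.Gamma_mem.1 hγ
  simp [actP, h1, h2, h3, h4]
/-- `HasQ.holo`, `HasQ.bdd` -/
theorem wp_isMF_xf (h : ℕ) [NeZero h] {P : ZMod h × ZMod h} (hP : P ≠ 0) :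
    IsMF 2 (CongruenceSubgroup.Gamma h) (xf h P) := by
  refine ⟨(wp_hasQ_xf h P).holo, fun γ hγ => ?_, fun γ => ?_⟩
  · rw [wp_xf_slash h hP, actP_of_mem P hγ]
  · rw [wp_xf_slash h hP]
    exact (wp_hasQ_xf h _).bdd
theorem wp_isMF_dxf (h : ℕ) [NeZero h] {P : ZMod h × ZMod h} (hP : P ≠ 0) :
    IsMF 3 (CongruenceSubgroup.Gamma h) (dxf h P) := by
  refine ⟨(wp_hasQ_dxf h P).holo, fun γ hγ => ?_, fun γ => ?_⟩
  · rw [wp_dxf_slash h hP, actP_of_mem P hγ]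
  · rw [wp_dxf_slash h hP]
    exact (wp_hasQ_dxf h _).bdd

theorem h17_G {k : ℕ} (hk : 3 ≤ k) (τ : ℍ) :
    (Lat τ).G k = riemannZeta k * (2 * ModularForm.E hk τ) := by
  have h1 : (2 : ℂ) * ModularForm.E hk τ = eisensteinSeries (N := 1) 0 k τ := by
    show (2 : ℂ) * ((1 / 2 : ℂ) • eisensteinSeries (N := 1) 0 k τ) = _
    rw [smul_eq_mul]; ring
  rw [h1, ← tsum_eisSummand_eq_riemannZeta_mul_eisensteinSeries hk, G,
    ← (Lat τ).latticeEquivProd.symm.toEquiv.tsum_eq, ← (finTwoArrowEquiv ℤ).symm.tsum_eq]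
  refine tsum_congr fun p => ?_
  have h2 := (Lat τ).latticeEquiv_symm_apply p
  simp only [LinearEquiv.coe_toEquiv, h2, EisensteinSeries.eisSummand, zpow_neg, zpow_natCast]
  simp [Lat]

/-- `G k = ∑' v, eisSummand k v τ = 2 ζ(k) E_k`
(`tsum_eisSummand_eq_riemannZeta_mul_eisensteinSeries`, `latticeEquivProd`, `finTwoArrowEquiv`,
`riemannZeta_four`, `riemannZeta_two_mul_nat`; `wi_E4f`, `wi_E6f`). -/
theorem g2_Lat (τ : ℍ) : (Lat τ).g₂ = cc ^ 4 * E4f τ / 12 := by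
  have h := h17_G (k := 4) (by norm_num) τ
  rw [Nat.cast_ofNat, riemannZeta_four] at h
  rw [g₂, h, wi_E4f, cc, mul_pow, mul_pow, Complex.I_pow_four]
  ring
theorem g3_Lat (τ : ℍ) : (Lat τ).g₃ = -(cc ^ 6 * E6f τ / 216) := by
  have h := h17_G (k := 6) (by norm_num) τ
  have h6 := riemannZeta_two_mul_nat (k := 3) (by norm_num)
  have hb : bernoulli (2 * 3) = 1 / 42 := by decide +kernel
  rw [hb, show (2 : ℂ) * (3 : ℕ) = (6 : ℕ) by norm_num] at h6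
  have hI : Complex.I ^ 6 = -1 := by
    rw [show 6 = 4 + 2 from rfl, pow_add, Complex.I_pow_four, Complex.I_sq, one_mul]
  rw [g₃, h, h6, wi_E6f, cc, mul_pow, mul_pow, hI]
  norm_num [Nat.factorial]
  ring
/-- `ModularForm.discriminant_eq_E₄_cube_sub_E₆_sq`, `discriminant_ne_zero` -/
theorem E4_E6_ne (τ : ℍ) : E4f τ ^ 3 - E6f τ ^ 2 ≠ 0 := by
  intro h
  apply ModularForm.discriminant_ne_zero τ
  rw [ModularForm.discriminant_eq_E₄_cube_sub_E₆_sq, ← wi_E4f, ← wi_E6f, h, zero_div]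

theorem h5_wpn (τ : ℍ) (z : ℂ) : ℘[Lat τ] z = cc ^ 2 * wpn τ z := by
  rw [wpn, mul_div_cancel₀ _ (pow_ne_zero _ cc_ne_zero)]
theorem h5_wpd (τ : ℍ) (z : ℂ) : ℘'[Lat τ] z = cc ^ 3 * wpd τ z := by
  rw [wpd, mul_div_cancel₀ _ (pow_ne_zero _ cc_ne_zero)]

theorem wpn_ode (τ : ℍ) {z : ℂ} (hz : z ∉ (Lat τ).lattice) :
    wpd τ z ^ 2 = 4 * wpn τ z ^ 3 - E4f τ / 12 * wpn τ z + E6f τ / 216 := by
  have h := (Lat τ).derivWeierstrassP_sq z hz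
  rw [h5_wpn, h5_wpd, g2_Lat, g3_Lat] at h
  apply mul_left_cancel₀ (pow_ne_zero 6 cc_ne_zero)
  linear_combination h
theorem wpn_hasDerivAt (τ : ℍ) {z : ℂ} (hz : z ∉ (Lat τ).lattice) :
    HasDerivAt (wpn τ) (cc * wpd τ z) z := by
  have h := (wp_hasDerivAt (Lat τ) hz).div_const (cc ^ 2)
  have e : ℘'[Lat τ] z / cc ^ 2 = cc * wpd τ z := by
    rw [h5_wpd, div_eq_iff (pow_ne_zero _ cc_ne_zero)]; ring
  exact e ▸ h
theorem wpd_hasDerivAt' (τ : ℍ) {z : ℂ} (hz : z ∉ (Lat τ).lattice) :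
    HasDerivAt (wpd τ) (cc * (6 * wpn τ z ^ 2 - E4f τ / 24)) z := by
  have h := (wpd_hasDerivAt (Lat τ) hz).div_const (cc ^ 3)
  have e : (6 * ℘[Lat τ] z ^ 2 - (Lat τ).g₂ / 2) / cc ^ 3 =
      cc * (6 * wpn τ z ^ 2 - E4f τ / 24) := by
    rw [h5_wpn, g2_Lat, div_eq_iff (pow_ne_zero _ cc_ne_zero)]; ring
  exact e ▸ h
theorem wpn_dup (τ : ℍ) {z : ℂ} (hz : 2 * z ∉ (Lat τ).lattice) :
    wpn τ (2 * z) * (4 * wpn τ z ^ 3 - E4f τ / 12 * wpn τ z + E6f τ / 216) =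
      wpn τ z ^ 4 + E4f τ / 24 * wpn τ z ^ 2 - E6f τ / 108 * wpn τ z + E4f τ ^ 2 / 2304 := by
  have hΔ : (Lat τ).g₂ ^ 3 - 27 * (Lat τ).g₃ ^ 2 ≠ 0 := by
    have e : (Lat τ).g₂ ^ 3 - 27 * (Lat τ).g₃ ^ 2 = cc ^ 12 * (E4f τ ^ 3 - E6f τ ^ 2) / 1728 := by
      rw [g2_Lat, g3_Lat]; ring
    rw [e]
    exact div_ne_zero (mul_ne_zero (pow_ne_zero _ cc_ne_zero) (E4_E6_ne τ)) (by norm_num)
  have h := wp_dup (Lat τ) hΔ hz
  rw [h5_wpn, h5_wpn, g2_Lat, g3_Lat] at h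
  apply mul_left_cancel₀ (pow_ne_zero 8 cc_ne_zero)
  linear_combination h

theorem h39_eC_two (d : ℕ) : eC 2 (d : ZMod 2) = (-1) ^ d := by
  have h : 2 * (Real.pi : ℂ) * Complex.I / ((2 : ℕ) : ℂ) = Real.pi * Complex.I := by
    push_cast; ring
  rw [eC, chr_nat (zC_prim 2).pow_eq_one, zC, h, Complex.exp_pi_mul_I]

theorem h39_xhalf : PowerSeries.C (1 / 12) + Xser (eC 2) (0, 1) =
    (-1 / 6 : ℂ) • lev ℂ 2 eps := by
  ext n
  rw [map_add, coeff_smul, smul_eq_mul, wi_coeff_lev, coeff_C]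
  by_cases h2 : 2 ∣ n
  · obtain ⟨n, rfl⟩ := h2
    rw [if_pos (dvd_mul_right 2 n), Nat.mul_div_cancel_left _ two_pos]
    by_cases hn : n = 0
    · subst hn
      have e1 : eC 2 1 = -1 := by simpa using h39_eC_two 1
      rw [wi_c_eps.1]
      simp only [Xser, coeff_mk, mul_zero, if_true, e1, Ring.inverse_eq_inv']
      norm_num
    · rw [if_neg (by omega), wi_coeff_Xser _ _ hn, eps, map_add, wi_coeff_ofNat, coeff_one,
        if_neg hn, zero_add, zero_add]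
      simp only [sigO, coeff_mk, Int.cast_mul, Int.cast_sum, Finset.mul_sum, Finset.sum_filter]
      refine Finset.sum_congr rfl fun d _ => ?_
      rw [ZMod.neg_eq_self_mod_two, one_mul, h39_eC_two]
      rcases Nat.even_or_odd d with hd | hd
      · rw [hd.neg_one_pow, if_neg (Nat.not_odd_iff_even.2 hd)]; push_cast; ring
      · rw [hd.neg_one_pow, if_pos hd]; push_cast; ring
  · rw [if_neg h2, if_neg (fun h0 : n = 0 => h2 (h0 ▸ dvd_zero 2)), wi_coeff_Xser_not _ _ h2]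
    ring

/-- `℘(1/2) = -ε/6`: `xf_eq 2 (0, 1)` and the coefficient identity
`C (1/12) + Xser (eC 2) (0, 1) = -(1/6) • lev ℂ 2 eps` (`wi_coeff_Xser`, `wi_coeff_Xser_not`,
`wi_coeff_lev`, `eC 2 d = (-1)^d` as in `wi_xQ_eq`), `wi_hasQ_epsf.lev 2`, `HasQ.fun_eq`. -/
theorem wpn_half_eq (τ : ℍ) : wpn τ (1 / 2) = -epsf τ / 6 := by
  have h1 := xf_eq 2 (P := (0, 1)) (by decide) τ
  have h2 : zP 2 (0, 1) τ = 1 / 2 := by
    have : (1 : ZMod 2).val = 1 := rfl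
    simp [zP, this]
  have h3 := wp_hasQ_xf 2 (0, 1)
  rw [h39_xhalf] at h3
  rw [← h2, ← h1, h3.fun_eq ((wi_hasQ_epsf.lev 2).smul (-1 / 6)), Pi.smul_apply, smul_eq_mul]
  ring

theorem h2_half_notMem (τ : ℍ) : (1 / 2 : ℂ) ∉ (Lat τ).lattice :=
  (Lat τ).ω₂_div_two_notMem_lattice

/-- the 2-isogeny `τ ↦ 2τ`: `wp_index_two` with `T = 1/2`, `L' = ⟨τ, 1/2⟩`, `wp_homog` with `c = 2`
(or termwise from `wpn_hasSum`, `X0 w + X0 (-w) = 4 X0 (w²)`). -/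
theorem wpn_isog (τ : ℍ) (z : ℂ) :
    4 * wpn (betaPt 2 0 1 τ) (2 * z) = wpn τ z + wpn τ (z + 1 / 2) - wpn τ (1 / 2) := by
  have hh : (1 / 2 : ℝ) ≠ 0 := by norm_num
  have e1 : (Lat τ).ω₁ = τ := rfl
  have e2 : (Lat τ).ω₂ = 1 := rfl
  have h1 := wp_index_two (Lat τ) (h4_resc (Lat τ) 1 (1 / 2) one_ne_zero hh) (h2_half_notMem τ)
    (fun x => by
      simp only [h4_mem_resc, mem_Lat, e1, e2]
      push_cast
      constructor
      · rintro ⟨m, n, rfl⟩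
        obtain ⟨k, rfl | rfl⟩ := Int.even_or_odd' n
        · exact Or.inl ⟨m, k, by push_cast; ring⟩
        · exact Or.inr ⟨m, k + 1, by push_cast; ring⟩
      · rintro (⟨m, n, rfl⟩ | ⟨m, n, e⟩)
        · exact ⟨m, 2 * n, by push_cast; ring⟩
        · exact ⟨m, 2 * n - 1, by push_cast; linear_combination e⟩) z
  have h3 := wp_homog (Lat (betaPt 2 0 1 τ)) (h4_resc (Lat τ) 1 (1 / 2) one_ne_zero hh) (c := 2)
    two_ne_zero (fun x => by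
      simp only [h4_mem_resc, mem_Lat, e1, e2, h5_coe_betaPt]
      push_cast
      constructor
      · rintro ⟨m, n, rfl⟩
        exact ⟨m, n, by ring⟩
      · rintro ⟨m, n, e⟩
        exact ⟨m, n, by linear_combination e / 2⟩) z
  rw [h1] at h3
  simp only [wpn]
  linear_combination -h3 / cc ^ 2

/-- `wp_half` with `T = 1/2`, `wpn_isog`, `wpn_half_eq` -/
theorem wpn_isog' (τ : ℍ) {z : ℂ} (hz : 2 * z ∉ (Lat τ).lattice) :
    (4 * wpn (betaPt 2 0 1 τ) (2 * z) - wpn τ z) * (wpn τ z + epsf τ / 6) =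
      epsf τ ^ 2 / 12 - E4f τ / 48 := by
  have h2 : 2 * (1 / 2 : ℂ) ∈ (Lat τ).lattice := mem_Lat.2 ⟨0, 1, by simp⟩
  have h1 : z ∉ (Lat τ).lattice := fun h => hz (by
    rw [two_mul]; exact add_mem h h)
  have h1' : z + 1 / 2 ∉ (Lat τ).lattice := fun h => hz (by
    rw [show 2 * z = z + 1 / 2 + (z + 1 / 2) - 2 * (1 / 2) by ring]
    exact sub_mem (add_mem h h) h2)
  have h := wp_half (Lat τ) (h2_half_notMem τ) h2 h1 h1'
  have hc := cc_ne_zero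
  have e : ∀ w, ℘[Lat τ] w = cc ^ 2 * wpn τ w := fun w => by
    rw [wpn, mul_div_cancel₀ _ (pow_ne_zero 2 hc)]
  rw [e, e, e, g2_Lat, wpn_half_eq] at h
  rw [wpn_isog, wpn_half_eq]
  refine mul_left_cancel₀ (pow_ne_zero 4 hc) ?_
  linear_combination h

end Crest.Agent.R007
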